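import Vale.Agent.Lib.P062.Core

namespace Vale.Agent.Lib.P062.CR
open Vale.Agent.Lib.P062.Core
set_option maxRecDepth 100000
set_option linter.all false

noncomputable def D9 : OP := win (nat_lit 7) (nat_lit 9) (nat_lit 8) (nat_lit 4)
noncomputable def D223 : OP := win (nat_lit 7) (nat_lit 9) (nat_lit 7) (nat_lit 5)
noncomputable def D260 : OP := orK (nat_lit 169) (fin (add (start D223) D9))
noncomputable def D7 : OP := win (nat_lit 1) (nat_lit 9) (nat_lit 8) (nat_lit 4)
noncomputable def D8 : OP := win (nat_lit 1) (nat_lit 9) (nat_lit 9) (nat_lit 5)
noncomputable def D9279 : OP := orK (nat_lit 249) (fin (add (start D8) (orK (nat_lit 170) (fin (add (start D7) D260)))))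
noncomputable def D14311 : OP := win (nat_lit 5) (nat_lit 8) (nat_lit 9) (nat_lit 4)
noncomputable def D371 : OP := win (nat_lit 5) (nat_lit 7) (nat_lit 9) (nat_lit 5)
noncomputable def D14313 : OP := orK (nat_lit 208) (fin (add (start D371) D14311))
noncomputable def D2689 : OP := win (nat_lit 0) (nat_lit 8) (nat_lit 9) (nat_lit 4)
noncomputable def D2688 : OP := win (nat_lit 0) (nat_lit 9) (nat_lit 9) (nat_lit 5)
noncomputable def D14317 : OP := orK (nat_lit 212) (fin (add (start D2688) (orK (nat_lit 188) (fin (add (start D2689) D14313)))))
noncomputable def D14304 : OP := win (nat_lit 4) (nat_lit 10) (nat_lit 8) (nat_lit 5)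
noncomputable def D14303 : OP := win (nat_lit 4) (nat_lit 9) (nat_lit 8) (nat_lit 4)
noncomputable def D14306 : OP := orK (nat_lit 173) (fin (add (start D14303) D14304))
noncomputable def D14302 : OP := win (nat_lit 0) (nat_lit 10) (nat_lit 9) (nat_lit 5)
noncomputable def D14301 : OP := win (nat_lit 0) (nat_lit 9) (nat_lit 9) (nat_lit 4)
noncomputable def D14310 : OP := orK (nat_lit 213) (fin (add (start D14301) (orK (nat_lit 193) (fin (add (start D14302) D14306)))))
noncomputable def D678 : OP := win (nat_lit 5) (nat_lit 9) (nat_lit 9) (nat_lit 0)
noncomputable def D3405 : OP := win (nat_lit 5) (nat_lit 8) (nat_lit 9) (nat_lit 5)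
noncomputable def D14299 : AP := fin (add (start D3405) D678)
noncomputable def D14300 : OP := orK (nat_lit 209) D14299
noncomputable def D14319 : OP := orK (nat_lit 192) (fin (add (add (start D14300) D14310) D14317))
noncomputable def D615 : OP := win (nat_lit 3) (nat_lit 10) (nat_lit 8) (nat_lit 5)
noncomputable def D14452 : OP := orK (nat_lit 191) (fin (add (start D615) D14319))
noncomputable def D3476 : OP := win (nat_lit 7) (nat_lit 9) (nat_lit 8) (nat_lit 5)
noncomputable def D14453 : AP := fin (add (start D3476) D14452)
noncomputable def D14457 : OP := orK (nat_lit 189) D14453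
noncomputable def D15 : OP := win (nat_lit 3) (nat_lit 10) (nat_lit 8) (nat_lit 4)
noncomputable def D14 : OP := win (nat_lit 3) (nat_lit 10) (nat_lit 7) (nat_lit 5)
noncomputable def D602 : OP := orK (nat_lit 171) (fin (add (start D14) D15))
noncomputable def D9316 : OP := orK (nat_lit 170) (fin (add (start D7) D602))
noncomputable def D9318 : OP := orK (nat_lit 249) (fin (add (start D8) D9316))
noncomputable def D14459 : OP := orK (nat_lit 190) (fin (add (add (start D9318) D14457) D9279))
noncomputable def D3105 : OP := win (nat_lit 7) (nat_lit 9) (nat_lit 9) (nat_lit 4)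
noncomputable def D10256 : OP := orK (nat_lit 189) (fin (add (start D3476) D3105))
noncomputable def D614 : OP := win (nat_lit 1) (nat_lit 9) (nat_lit 10) (nat_lit 5)
noncomputable def D14506 : OP := orK (nat_lit 270) (fin (add (start D614) D10256))
noncomputable def D613 : OP := win (nat_lit 1) (nat_lit 9) (nat_lit 9) (nat_lit 4)
noncomputable def D14508 : OP := orK (nat_lit 269) (fin (add (start D613) D14506))
noncomputable def D20443 : AP := fin (add (start D615) D14508)
noncomputable def D4452 : OP := win (nat_lit 1) (nat_lit 10) (nat_lit 8) (nat_lit 3)
noncomputable def D3782 : OP := win (nat_lit 1) (nat_lit 10) (nat_lit 7) (nat_lit 0)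
noncomputable def D4453 : AP := fin (add (start D3782) D4452)
noncomputable def D4454 : OP := orK (nat_lit 171) D4453
noncomputable def D3027 : OP := win (nat_lit 3) (nat_lit 10) (nat_lit 9) (nat_lit 0)
noncomputable def D26568 : AP := fin (add (start D3027) D4454)
noncomputable def D26481 : OP := orK (nat_lit 269) (fin (add (start D614) (orK (nat_lit 190) (fin (add (start D613) D10256)))))
noncomputable def D616 : OP := win (nat_lit 3) (nat_lit 10) (nat_lit 9) (nat_lit 4)
noncomputable def D8831 : OP := win (nat_lit 3) (nat_lit 10) (nat_lit 8) (nat_lit 3)
noncomputable def D29859 : OP := orK (nat_lit 171) (fin (add (start D8831) (orK (nat_lit 211) D4453)))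
noncomputable def D29827 : OP := orK (nat_lit 171) (fin (add (start D15) (orK (nat_lit 170) (fin (add (start D14) D260)))))
noncomputable def D157 : OP := win (nat_lit 6) (nat_lit 10) (nat_lit 8) (nat_lit 5)
noncomputable def D400 : OP := win (nat_lit 6) (nat_lit 10) (nat_lit 7) (nat_lit 0)
noncomputable def D8756 : AP := fin (add (start D400) D157)
noncomputable def D8757 : OP := orK (nat_lit 170) D8756
noncomputable def D9286 : OP := win (nat_lit 3) (nat_lit 10) (nat_lit 10) (nat_lit 0)
noncomputable def D3104 : OP := win (nat_lit 3) (nat_lit 10) (nat_lit 9) (nat_lit 5)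
noncomputable def D156 : OP := win (nat_lit 6) (nat_lit 10) (nat_lit 7) (nat_lit 4)
noncomputable def D159 : OP := orK (nat_lit 231) (fin (add (start D156) D157))
noncomputable def D22 : OP := win (nat_lit 3) (nat_lit 10) (nat_lit 6) (nat_lit 5)
noncomputable def D23 : OP := win (nat_lit 3) (nat_lit 10) (nat_lit 7) (nat_lit 4)
noncomputable def D533 : OP := orK (nat_lit 151) (fin (add (start D23) (orK (nat_lit 150) (fin (add (start D22) D159)))))
noncomputable def D27001 : OP := orK (nat_lit 170) (fin (add (start D223) D533))
noncomputable def D618 : OP := orK (nat_lit 191) (fin (add (start D615) D616))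
noncomputable def D619 : AP := fin (add (start D614) D618)
noncomputable def D620 : OP := orK (nat_lit 270) D619
noncomputable def D8895 : OP := win (nat_lit 3) (nat_lit 9) (nat_lit 11) (nat_lit 0)
noncomputable def D8896 : AP := fin (add (start (win (nat_lit 3) (nat_lit 9) (nat_lit 10) (nat_lit 3))) D8895)
noncomputable def D9294 : OP := win (nat_lit 1) (nat_lit 9) (nat_lit 10) (nat_lit 3)
noncomputable def D9307 : OP := orK (nat_lit 289) (fin (add (start D9294) (orK (nat_lit 249) D8896)))
noncomputable def D262 : OP := orK (nat_lit 231) (fin (add (start D157) D260))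
noncomputable def D14124 : OP := win (nat_lit 6) (nat_lit 10) (nat_lit 12) (nat_lit 5)
noncomputable def D14123 : OP := win (nat_lit 6) (nat_lit 10) (nat_lit 11) (nat_lit 4)
noncomputable def D12303 : OP := win (nat_lit 3) (nat_lit 10) (nat_lit 11) (nat_lit 4)
noncomputable def D14127 : AP := fin (add (start D12303) (orK (nat_lit 311) (fin (add (start D14123) D14124))))
noncomputable def D14152 : OP := orK (nat_lit 310) D14127
noncomputable def D15909 : OP := win (nat_lit 3) (nat_lit 10) (nat_lit 10) (nat_lit 5)
noncomputable def D7022 : OP := win (nat_lit 1) (nat_lit 9) (nat_lit 11) (nat_lit 5)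
noncomputable def D7021 : OP := win (nat_lit 1) (nat_lit 9) (nat_lit 10) (nat_lit 4)
noncomputable def D29531 : OP := orK (nat_lit 289) (fin (add (start D7021) (orK (nat_lit 290) (fin (add (start D7022) (orK (nat_lit 231) (fin (add (start D15909) D14152))))))))
noncomputable def D3723 : OP := win (nat_lit 6) (nat_lit 9) (nat_lit 8) (nat_lit 3)
noncomputable def D3722 : OP := win (nat_lit 6) (nat_lit 9) (nat_lit 7) (nat_lit 0)
noncomputable def D7074 : AP := fin (add (start D3722) D3723)
noncomputable def D8601 : OP := win (nat_lit 7) (nat_lit 9) (nat_lit 8) (nat_lit 3)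
noncomputable def D14430 : OP := orK (nat_lit 169) (fin (add (start D8601) (orK (nat_lit 209) D7074)))
noncomputable def D29607 : OP := orK (nat_lit 189) (fin (add (add (start D14430) (orK (nat_lit 270) (fin (add (start D3105) D29531)))) (orK (nat_lit 190) (fin (add (start D3476) (orK (nat_lit 249) (fin (add (start D8) (orK (nat_lit 170) (fin (add (start D7) D533)))))))))))
noncomputable def D669 : OP := win (nat_lit 5) (nat_lit 7) (nat_lit 10) (nat_lit 4)
noncomputable def D668 : OP := win (nat_lit 5) (nat_lit 6) (nat_lit 10) (nat_lit 5)
noncomputable def D670 : AP := fin (add (start D668) D669)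
noncomputable def D671 : OP := orK (nat_lit 227) D670
noncomputable def D342 : OP := win (nat_lit 4) (nat_lit 8) (nat_lit 9) (nat_lit 5)
noncomputable def D13650 : AP := fin (add (start D342) D671)
noncomputable def D667 : OP := win (nat_lit 2) (nat_lit 7) (nat_lit 9) (nat_lit 4)
noncomputable def D666 : OP := win (nat_lit 2) (nat_lit 6) (nat_lit 9) (nat_lit 5)
noncomputable def D2449 : OP := win (nat_lit 0) (nat_lit 7) (nat_lit 10) (nat_lit 5)
noncomputable def D15728 : OP := orK (nat_lit 207) (fin (add (start D2449) (orK (nat_lit 187) (fin (add (start D666) (orK (nat_lit 211) (fin (add (start D667) (orK (nat_lit 191) D13650)))))))))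
noncomputable def D661 : OP := win (nat_lit 5) (nat_lit 6) (nat_lit 10) (nat_lit 4)
noncomputable def D660 : OP := win (nat_lit 5) (nat_lit 5) (nat_lit 10) (nat_lit 5)
noncomputable def D663 : OP := orK (nat_lit 226) (fin (add (start D660) D661))
noncomputable def D2454 : OP := win (nat_lit 0) (nat_lit 6) (nat_lit 10) (nat_lit 4)
noncomputable def D3929 : OP := orK (nat_lit 206) (fin (add (start D2454) D663))
noncomputable def D9259 : AP := fin (add (start D2449) D3929)
noncomputable def D15721 : OP := orK (nat_lit 207) D9259
noncomputable def D105 : OP := win (nat_lit 5) (nat_lit 8) (nat_lit 10) (nat_lit 4)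
noncomputable def D104 : OP := win (nat_lit 5) (nat_lit 7) (nat_lit 10) (nat_lit 5)
noncomputable def D107 : OP := orK (nat_lit 228) (fin (add (start D104) D105))
noncomputable def D845 : OP := win (nat_lit 4) (nat_lit 9) (nat_lit 9) (nat_lit 5)
noncomputable def D2558 : OP := orK (nat_lit 212) (fin (add (start D845) D107))
noncomputable def D846 : OP := win (nat_lit 4) (nat_lit 8) (nat_lit 9) (nat_lit 4)
noncomputable def D2560 : OP := orK (nat_lit 192) (fin (add (start D846) D2558))
noncomputable def D327 : OP := win (nat_lit 3) (nat_lit 7) (nat_lit 10) (nat_lit 0)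
noncomputable def D2546 : OP := win (nat_lit 1) (nat_lit 7) (nat_lit 9) (nat_lit 3)
noncomputable def D325 : OP := win (nat_lit 1) (nat_lit 7) (nat_lit 8) (nat_lit 0)
noncomputable def D2550 : OP := orK (nat_lit 247) (fin (add (start D325) (orK (nat_lit 267) (fin (add (start D2546) D327)))))
noncomputable def D2518 : OP := win (nat_lit 5) (nat_lit 7) (nat_lit 10) (nat_lit 0)
noncomputable def D2552 : OP := orK (nat_lit 227) (fin (add (start D2518) D2550))
noncomputable def D1913 : OP := win (nat_lit 6) (nat_lit 8) (nat_lit 8) (nat_lit 5)
noncomputable def D1912 : OP := win (nat_lit 6) (nat_lit 8) (nat_lit 7) (nat_lit 0)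
noncomputable def D1914 : AP := fin (add (start D1912) D1913)
noncomputable def D2539 : OP := orK (nat_lit 229) D1914
noncomputable def D2538 : OP := win (nat_lit 3) (nat_lit 8) (nat_lit 7) (nat_lit 5)
noncomputable def D2540 : AP := fin (add (start D2538) D2539)
noncomputable def D2541 : OP := orK (nat_lit 168) D2540
noncomputable def D2537 : OP := win (nat_lit 3) (nat_lit 8) (nat_lit 8) (nat_lit 4)
noncomputable def D2530 : OP := win (nat_lit 6) (nat_lit 8) (nat_lit 10) (nat_lit 5)
noncomputable def D2529 : OP := win (nat_lit 6) (nat_lit 8) (nat_lit 9) (nat_lit 4)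
noncomputable def D2532 : OP := orK (nat_lit 269) (fin (add (start D2529) D2530))
noncomputable def D2528 : OP := win (nat_lit 1) (nat_lit 7) (nat_lit 10) (nat_lit 5)
noncomputable def D2527 : OP := win (nat_lit 1) (nat_lit 7) (nat_lit 9) (nat_lit 4)
noncomputable def D2536 : OP := orK (nat_lit 267) (fin (add (start D2527) (orK (nat_lit 268) (fin (add (start D2528) D2532)))))
noncomputable def D312 : OP := win (nat_lit 3) (nat_lit 8) (nat_lit 9) (nat_lit 0)
noncomputable def D311 : OP := win (nat_lit 3) (nat_lit 8) (nat_lit 8) (nat_lit 5)
noncomputable def D2525 : AP := fin (add (start D311) D312)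
noncomputable def D2526 : OP := orK (nat_lit 189) D2525
noncomputable def D2545 : OP := orK (nat_lit 248) (fin (add (add (start D2526) D2536) (orK (nat_lit 169) (fin (add (start D2537) D2541)))))
noncomputable def D2520 : OP := win (nat_lit 4) (nat_lit 6) (nat_lit 10) (nat_lit 3)
noncomputable def D2519 : OP := win (nat_lit 4) (nat_lit 5) (nat_lit 10) (nat_lit 0)
noncomputable def D2521 : AP := fin (add (start D2519) D2520)
noncomputable def D2522 : OP := orK (nat_lit 226) D2521
noncomputable def D2523 : AP := fin (add (start D2518) D2522)
noncomputable def D2524 : OP := orK (nat_lit 227) D2523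
noncomputable def D2554 : OP := orK (nat_lit 228) (fin (add (add (start D2524) D2545) D2552))
noncomputable def D451 : OP := win (nat_lit 2) (nat_lit 7) (nat_lit 9) (nat_lit 5)
noncomputable def D2556 : OP := orK (nat_lit 188) (fin (add (start D451) D2554))
noncomputable def D2513 : OP := orK (nat_lit 192) (fin (add (start D846) D845))
noncomputable def D450 : OP := win (nat_lit 2) (nat_lit 8) (nat_lit 9) (nat_lit 4)
noncomputable def D2515 : OP := orK (nat_lit 212) (fin (add (start D450) D2513))
noncomputable def D2517 : OP := orK (nat_lit 188) (fin (add (start D451) D2515))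
noncomputable def D2561 : AP := fin (add (add (start D2517) D2556) D2560)
noncomputable def D2562 : OP := orK (nat_lit 211) D2561
noncomputable def D653 : OP := win (nat_lit 2) (nat_lit 6) (nat_lit 9) (nat_lit 4)
noncomputable def D654 : OP := win (nat_lit 2) (nat_lit 5) (nat_lit 9) (nat_lit 5)
noncomputable def D3925 : OP := orK (nat_lit 186) (fin (add (start D654) D653))
noncomputable def D3927 : OP := orK (nat_lit 206) (fin (add (start D2454) D3925))
noncomputable def D4926 : AP := fin (add (start D2449) D3927)
noncomputable def D4927 : OP := orK (nat_lit 207) D4926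
noncomputable def D15730 : OP := orK (nat_lit 208) (fin (add (add (add (start D4927) D2562) D15721) D15728))
noncomputable def D9842 : OP := win (nat_lit 3) (nat_lit 10) (nat_lit 10) (nat_lit 4)
noncomputable def D26406 : OP := orK (nat_lit 289) (fin (add (start D7021) (orK (nat_lit 290) (fin (add (start D7022) (orK (nat_lit 211) (fin (add (start D3104) D9842))))))))
noncomputable def D4218 : OP := win (nat_lit 7) (nat_lit 9) (nat_lit 9) (nat_lit 5)
noncomputable def D26569 : OP := orK (nat_lit 191) D26568
noncomputable def D9950 : OP := win (nat_lit 7) (nat_lit 6) (nat_lit 7) (nat_lit 5)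
noncomputable def D12785 : OP := orK (nat_lit 166) (fin (add (start D9950) (win (nat_lit 7) (nat_lit 6) (nat_lit 8) (nat_lit 4))))
noncomputable def D4418 : OP := win (nat_lit 3) (nat_lit 7) (nat_lit 8) (nat_lit 4)
noncomputable def D4417 : OP := win (nat_lit 3) (nat_lit 7) (nat_lit 7) (nat_lit 5)
noncomputable def D12774 : OP := orK (nat_lit 168) (fin (add (start D4417) D4418))
noncomputable def D12734 : OP := win (nat_lit 7) (nat_lit 6) (nat_lit 9) (nat_lit 4)
noncomputable def D12718 : OP := win (nat_lit 7) (nat_lit 6) (nat_lit 8) (nat_lit 5)
noncomputable def D17134 : OP := orK (nat_lit 186) (fin (add (start D12718) D12734))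
noncomputable def D12729 : OP := win (nat_lit 1) (nat_lit 6) (nat_lit 10) (nat_lit 5)
noncomputable def D12728 : OP := win (nat_lit 1) (nat_lit 6) (nat_lit 9) (nat_lit 4)
noncomputable def D12731 : OP := orK (nat_lit 266) (fin (add (start D12728) D12729))
noncomputable def D17136 : OP := orK (nat_lit 267) (fin (add (start D12731) D17134))
noncomputable def D10077 : OP := win (nat_lit 1) (nat_lit 6) (nat_lit 9) (nat_lit 5)
noncomputable def D12770 : OP := win (nat_lit 1) (nat_lit 6) (nat_lit 8) (nat_lit 4)
noncomputable def D12772 : OP := orK (nat_lit 246) (fin (add (start D12770) D10077))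
noncomputable def D12775 : AP := fin (add (start D12772) D12774)
noncomputable def D12725 : OP := win (nat_lit 3) (nat_lit 7) (nat_lit 8) (nat_lit 5)
noncomputable def D3315 : OP := win (nat_lit 2) (nat_lit 7) (nat_lit 9) (nat_lit 0)
noncomputable def D2448 : OP := win (nat_lit 0) (nat_lit 6) (nat_lit 10) (nat_lit 0)
noncomputable def D26586 : AP := fin (add (start D2448) D668)
noncomputable def D21238 : OP := win (nat_lit 6) (nat_lit 7) (nat_lit 10) (nat_lit 0)
noncomputable def D12180 : OP := win (nat_lit 3) (nat_lit 8) (nat_lit 11) (nat_lit 0)
noncomputable def D4631 : OP := win (nat_lit 5) (nat_lit 7) (nat_lit 12) (nat_lit 0)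
noncomputable def D11247 : OP := win (nat_lit 5) (nat_lit 6) (nat_lit 12) (nat_lit 5)
noncomputable def D29931 : OP := orK (nat_lit 267) (fin (add (start D11247) (orK (nat_lit 268) (fin (add (start D4631) (orK (nat_lit 288) (fin (add (start D12180) D21238))))))))
noncomputable def D4193 : OP := win (nat_lit 2) (nat_lit 6) (nat_lit 11) (nat_lit 5)
noncomputable def D4017 : OP := win (nat_lit 4) (nat_lit 6) (nat_lit 11) (nat_lit 0)
noncomputable def D4194 : AP := fin (add (start D4193) D4017)
noncomputable def D9457 : OP := win (nat_lit 5) (nat_lit 8) (nat_lit 12) (nat_lit 0)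
noncomputable def D16491 : OP := win (nat_lit 5) (nat_lit 7) (nat_lit 12) (nat_lit 3)
noncomputable def D4124 : OP := win (nat_lit 4) (nat_lit 6) (nat_lit 12) (nat_lit 0)
noncomputable def D1899 : OP := win (nat_lit 1) (nat_lit 8) (nat_lit 10) (nat_lit 5)
noncomputable def D4089 : OP := win (nat_lit 3) (nat_lit 9) (nat_lit 10) (nat_lit 0)
noncomputable def D26587 : OP := orK (nat_lit 207) D26586
noncomputable def D4123 : OP := win (nat_lit 7) (nat_lit 8) (nat_lit 9) (nat_lit 5)
noncomputable def D4859 : OP := win (nat_lit 4) (nat_lit 7) (nat_lit 10) (nat_lit 1)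
noncomputable def D4217 : OP := win (nat_lit 7) (nat_lit 8) (nat_lit 9) (nat_lit 1)
noncomputable def D2450 : AP := fin (add (start D2448) D2449)
noncomputable def D9679 : OP := orK (nat_lit 207) D2450
noncomputable def D3729 : OP := win (nat_lit 5) (nat_lit 9) (nat_lit 10) (nat_lit 0)
noncomputable def D4122 : OP := win (nat_lit 7) (nat_lit 9) (nat_lit 10) (nat_lit 0)
noncomputable def D1911 : OP := win (nat_lit 5) (nat_lit 8) (nat_lit 10) (nat_lit 0)
noncomputable def D516 : OP := win (nat_lit 4) (nat_lit 7) (nat_lit 10) (nat_lit 0)
noncomputable def D15796 : OP := orK (nat_lit 228) (fin (add (start D516) D1911))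
noncomputable def D1915 : OP := orK (nat_lit 168) D1914
noncomputable def D15804 : OP := orK (nat_lit 227) (fin (add (start D4859) D668))
noncomputable def D15806 : OP := orK (nat_lit 207) (fin (add (start D2448) D15804))
noncomputable def D2461 : OP := orK (nat_lit 187) (fin (add (start D666) D667))
noncomputable def D8216 : OP := orK (nat_lit 207) (fin (add (start D2448) D2461))
noncomputable def D15802 : OP := orK (nat_lit 212) (fin (add (start D3729) (orK (nat_lit 192) (fin (add (start D845) (orK (nat_lit 208) (fin (add (start D846) D8216))))))))
noncomputable def D15813 : AP := fin (add (add (start D15796) D15802) (orK (nat_lit 208) (fin (add (add (start D8216) D15806) (orK (nat_lit 188) (fin (add (start D451) (orK (nat_lit 228) (fin (add (start D516) D1915))))))))))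
noncomputable def D29894 : OP := orK (nat_lit 229) D15813
noncomputable def D9291 : OP := orK (nat_lit 169) D7074
noncomputable def D3724 : OP := win (nat_lit 7) (nat_lit 9) (nat_lit 9) (nat_lit 0)
noncomputable def D9292 : AP := fin (add (start D3724) D9291)
noncomputable def D9293 : OP := orK (nat_lit 189) D9292
noncomputable def D9802 : AP := fin (add (start D3722) D8601)
noncomputable def D9803 : OP := orK (nat_lit 169) D9802
noncomputable def D9805 : OP := orK (nat_lit 189) (fin (add (start D3724) D9803))
noncomputable def D26599 : OP := orK (nat_lit 289) (fin (add (start D7021) (orK (nat_lit 290) (fin (add (start D7022) D9842)))))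
noncomputable def D4125 : OP := win (nat_lit 4) (nat_lit 7) (nat_lit 12) (nat_lit 5)
noncomputable def D4126 : AP := fin (add (start D4124) D4125)
noncomputable def D4127 : OP := orK (nat_lit 267) D4126
noncomputable def D4129 : OP := orK (nat_lit 268) (fin (add (start D1899) D4127))
noncomputable def D8893 : OP := win (nat_lit 1) (nat_lit 9) (nat_lit 9) (nat_lit 0)
noncomputable def D26579 : OP := orK (nat_lit 229) (fin (add (start D15796) (orK (nat_lit 270) (fin (add (start D4122) (orK (nat_lit 269) (fin (add (start D614) (orK (nat_lit 249) (fin (add (start D8893) D4129)))))))))))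
noncomputable def D774 : OP := win (nat_lit 4) (nat_lit 7) (nat_lit 9) (nat_lit 2)
noncomputable def D5012 : OP := win (nat_lit 2) (nat_lit 7) (nat_lit 10) (nat_lit 0)
noncomputable def D26843 : OP := orK (nat_lit 208) (fin (add (start D5012) D774))
noncomputable def D5156 : OP := win (nat_lit 2) (nat_lit 6) (nat_lit 10) (nat_lit 5)
noncomputable def D4139 : OP := win (nat_lit 0) (nat_lit 6) (nat_lit 11) (nat_lit 0)
noncomputable def D26932 : OP := win (nat_lit 3) (nat_lit 8) (nat_lit 10) (nat_lit 5)
noncomputable def D26934 : OP := orK (nat_lit 288) (fin (add (start D26932) D12180))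
noncomputable def D9319 : OP := win (nat_lit 5) (nat_lit 7) (nat_lit 12) (nat_lit 5)
noncomputable def D4094 : OP := win (nat_lit 4) (nat_lit 7) (nat_lit 11) (nat_lit 5)
noncomputable def D6935 : AP := fin (add (start D4017) D4094)
noncomputable def D6936 : OP := orK (nat_lit 247) D6935
noncomputable def D9682 : OP := win (nat_lit 2) (nat_lit 8) (nat_lit 11) (nat_lit 0)
noncomputable def D4140 : OP := win (nat_lit 0) (nat_lit 7) (nat_lit 11) (nat_lit 5)
noncomputable def D4141 : AP := fin (add (start D4139) D4140)
noncomputable def D4142 : OP := orK (nat_lit 227) D4141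
noncomputable def D8934 : OP := win (nat_lit 1) (nat_lit 9) (nat_lit 8) (nat_lit 0)
noncomputable def D14810 : OP := win (nat_lit 7) (nat_lit 9) (nat_lit 10) (nat_lit 5)
noncomputable def D5007 : OP := win (nat_lit 5) (nat_lit 8) (nat_lit 10) (nat_lit 3)
noncomputable def D7011 : AP := fin (add (start D516) D5007)
noncomputable def D7015 : OP := orK (nat_lit 228) D7011
noncomputable def D7017 : OP := orK (nat_lit 229) (fin (add (start D3729) D7015))
noncomputable def D814 : OP := win (nat_lit 4) (nat_lit 11) (nat_lit 9) (nat_lit 5)
noncomputable def D813 : OP := win (nat_lit 4) (nat_lit 10) (nat_lit 9) (nat_lit 4)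
noncomputable def D816 : OP := orK (nat_lit 194) (fin (add (start D813) D814))
noncomputable def D807 : OP := win (nat_lit 0) (nat_lit 11) (nat_lit 10) (nat_lit 5)
noncomputable def D806 : OP := win (nat_lit 0) (nat_lit 10) (nat_lit 10) (nat_lit 4)
noncomputable def D822 : OP := orK (nat_lit 234) (fin (add (start D806) (orK (nat_lit 214) (fin (add (start D807) D816)))))
noncomputable def D9665 : AP := fin (add (start D2449) D671)
noncomputable def D442 : OP := win (nat_lit 4) (nat_lit 9) (nat_lit 9) (nat_lit 4)
noncomputable def D443 : OP := win (nat_lit 4) (nat_lit 10) (nat_lit 9) (nat_lit 5)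
noncomputable def D6059 : OP := win (nat_lit 5) (nat_lit 10) (nat_lit 10) (nat_lit 4)
noncomputable def D6984 : OP := orK (nat_lit 234) (fin (add (start D806) (orK (nat_lit 214) (fin (add (start D807) D6059)))))
noncomputable def D28383 : OP := orK (nat_lit 192) (fin (add (start D845) (orK (nat_lit 208) (fin (add (start D846) D9679)))))
noncomputable def D4009 : OP := win (nat_lit 6) (nat_lit 9) (nat_lit 8) (nat_lit 5)
noncomputable def D4010 : AP := fin (add (start D3722) D4009)
noncomputable def D4011 : OP := orK (nat_lit 169) D4010
noncomputable def D439 : OP := win (nat_lit 2) (nat_lit 8) (nat_lit 9) (nat_lit 5)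
noncomputable def D8197 : OP := orK (nat_lit 189) (fin (add (start D439) D4011))
noncomputable def D5006 : OP := win (nat_lit 4) (nat_lit 8) (nat_lit 10) (nat_lit 3)
noncomputable def D6977 : AP := fin (add (start D516) D5006)
noncomputable def D6978 : OP := orK (nat_lit 228) D6977
noncomputable def D4445 : OP := win (nat_lit 5) (nat_lit 9) (nat_lit 10) (nat_lit 5)
noncomputable def D27689 : OP := orK (nat_lit 213) (fin (add (start D4445) D6984))
noncomputable def D15391 : OP := orK (nat_lit 171) (fin (add (start D3782) D8831))
noncomputable def D19539 : AP := fin (add (start D3027) D15391)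
noncomputable def D26604 : OP := orK (nat_lit 191) D19539
noncomputable def D29076 : OP := orK (nat_lit 207) (fin (add (start D2449) D2461))
noncomputable def D29072 : OP := orK (nat_lit 193) (fin (add (start D442) (orK (nat_lit 213) (fin (add (start D443) D6984)))))
noncomputable def D59 : OP := win (nat_lit 5) (nat_lit 8) (nat_lit 10) (nat_lit 5)
noncomputable def D3730 : AP := fin (add (start D59) D3729)
noncomputable def D3731 : OP := orK (nat_lit 229) D3730
noncomputable def D29998 : AP := fin (add (add (add (add (add (add (add (add (start (orK (nat_lit 190) (fin (add (add (start D9318) D14508) D29827)))) (orK (nat_lit 211) (fin (add (add (start (orK (nat_lit 209) (fin (add (start (orK (nat_lit 212) (fin (add (add (start D3731) D29072) (orK (nat_lit 228) (fin (add (start D105) (orK (nat_lit 208) (fin (add (start D104) D29076)))))))))) D9805)))) D26604) (orK (nat_lit 212) (fin (add (add (add (start D27689) (orK (nat_lit 229) (fin (add (add (start D6978) (orK (nat_lit 209) (fin (add (start D8197) D28383)))) D7015)))) (orK (nat_lit 213) (fin (add (add (start D6984) (orK (nat_lit 193) (fin (add (start D443) (orK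 (nat_lit 209) (fin (add (start D442) (orK (nat_lit 188) (fin (add (start D450) (orK (nat_lit 208) (fin (add (start D451) (orK (nat_lit 207) D9665)))))))))))))) D822)))) D7017))))))) (orK (nat_lit 191) (fin (add (add (start D29859) (orK (nat_lit 270) (fin (add (start D616) (orK (nat_lit 289) (fin (add (start D7021) (orK (nat_lit 290) (fin (add (start D7022) (orK (nat_lit 311) (fin (add (start D14123) (orK (nat_lit 310) (fin (add (start D14124) (orK (nat_lit 229) (fin (add (start D14810) (win (nat_lit 7) (nat_lit 9) (nat_lit 11) (nat_lit 4))))))))))))))))))))) (orK (nat_lit 190) (fin (add (start D615) (orK (nat_lit 249) (fin (add (start D8) (orK (nat_lit 229) (fin (add (start D8934) (orK (nat_lit 228) (fin (add (add (start D4142) (orK (nat_lit 251) (fin (add (start D9682) (orK (nat_lit 248) (fin (add (start D6936) (orK (nat_lit 268) (fin (add (start D9319) D26934)))))))))) (orK (nat_lit 227) (fin (add (start D4139) (orK (nat_lit 207) (fin (add (start D5156) D26843)))))))))))))))))))))) (orK (nat_lit 209) (fin (add (add (start (orK (nat_lit 211) (fin (add (add (start D29894) D26579) (orK (nat_lit 270) (fin (add (start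 D3104) D26599))))))) D9805) D15730)))) (orK (nat_lit 209) (fin (add (add (add (start D9293) (orK (nat_lit 211) (fin (add (add (start D29894) (orK (nat_lit 229) (fin (add (add (start D15796) (orK (nat_lit 270) (fin (add (start D4122) (orK (nat_lit 269) (fin (add (start D614) (orK (nat_lit 212) (fin (add (start D3729) (orK (nat_lit 192) (fin (add (start D845) (orK (nat_lit 208) (fin (add (start D9679) (orK (nat_lit 188) (fin (add (start D451) D4217))))))))))))))))))) (orK (nat_lit 227) (fin (add (start D4859) (orK (nat_lit 249) (fin (add (add (start (orK (nat_lit 269) (fin (add (start D4089) (orK (nat_lit 208) (fin (add (start D4123) D26587))))))) (orK (nat_lit 269) (fin (add (start D4089) (orK (nat_lit 268) (fin (add (start D1899) (orK (nat_lit 267) (fin (add (start D4124) (orK (nat_lit 251) (fin (add (start D16491) D9457))))))))))))) (orK (nat_lit 247) (fin (add (add (add (start (orK (nat_lit 248) D4194)) (orK (nat_lit 248) (fin (add (start D4017) D29931)))) (orK (nat_lit 248) (fin (add (start D4193) D29931)))) (orK (nat_lit 207) (fin (add (add (add (start (orK (nat_lit 208) D26586)) (orK (nat_lit 208) (fin (add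 (start D668) (orK (nat_lit 187) (fin (add (start D666) (orK (nat_lit 188) (fin (add (start D3315) D12725)))))))))) (orK (nat_lit 187) (fin (add (add (start (orK (nat_lit 167) D12775)) D17136) (orK (nat_lit 167) (fin (add (start D12774) D12785))))))) (orK (nat_lit 206) (fin (add (start (win (nat_lit 0) (nat_lit 6) (nat_lit 10) (nat_lit 2))) (orK (nat_lit 186) (fin (add (start (win (nat_lit 7) (nat_lit 6) (nat_lit 9) (nat_lit 0))) (orK (nat_lit 166) (fin (add (start (win (nat_lit 6) (nat_lit 6) (nat_lit 7) (nat_lit 0))) (win (nat_lit 7) (nat_lit 6) (nat_lit 8) (nat_lit 3))))))))))))))))))))))))))) D26569)))) (orK (nat_lit 270) (fin (add (start D4218) D26406)))) D15730)))) D29607) (orK (nat_lit 269) (fin (add (add (start (orK (nat_lit 190) (fin (add (start D613) (orK (nat_lit 171) (fin (add (start D15) (orK (nat_lit 170) (fin (add (start D14) D262)))))))))) D9307) (orK (nat_lit 190) (fin (add (add (add (start D620) (orK (nat_lit 169) (fin (add (start D9) D27001)))) (orK (nat_lit 270) (fin (add (start D614) (orK (nat_lit 211) (fin (add (start D3104) (orK (nat_lit 231) (fin (add (start D9286) D8757)))))))))) D29827)))))))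 (orK (nat_lit 191) (fin (add (add (add (start D29859) (orK (nat_lit 270) (fin (add (start D616) D26481)))) (orK (nat_lit 211) D26568)) (orK (nat_lit 190) D20443))))) D14459)
noncomputable def D176 : OP := win (nat_lit 7) (nat_lit 9) (nat_lit 7) (nat_lit 4)
noncomputable def D175 : OP := win (nat_lit 7) (nat_lit 9) (nat_lit 6) (nat_lit 5)
noncomputable def D178 : OP := orK (nat_lit 149) (fin (add (start D175) D176))
noncomputable def D21 : OP := win (nat_lit 1) (nat_lit 9) (nat_lit 7) (nat_lit 4)
noncomputable def D749 : OP := orK (nat_lit 150) (fin (add (start D21) D178))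
noncomputable def D20 : OP := win (nat_lit 1) (nat_lit 9) (nat_lit 8) (nat_lit 5)
noncomputable def D750 : AP := fin (add (start D20) D749)
noncomputable def D751 : OP := orK (nat_lit 229) D750
noncomputable def D242 : OP := win (nat_lit 5) (nat_lit 8) (nat_lit 8) (nat_lit 4)
noncomputable def D117 : OP := win (nat_lit 5) (nat_lit 7) (nat_lit 8) (nat_lit 5)
noncomputable def D244 : OP := orK (nat_lit 188) (fin (add (start D117) D242))
noncomputable def D241 : OP := win (nat_lit 0) (nat_lit 8) (nat_lit 8) (nat_lit 4)
noncomputable def D240 : OP := win (nat_lit 0) (nat_lit 9) (nat_lit 8) (nat_lit 5)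
noncomputable def D248 : OP := orK (nat_lit 192) (fin (add (start D240) (orK (nat_lit 168) (fin (add (start D241) D244)))))
noncomputable def D233 : OP := win (nat_lit 4) (nat_lit 10) (nat_lit 7) (nat_lit 5)
noncomputable def D232 : OP := win (nat_lit 4) (nat_lit 9) (nat_lit 7) (nat_lit 4)
noncomputable def D235 : OP := orK (nat_lit 153) (fin (add (start D232) D233))
noncomputable def D231 : OP := win (nat_lit 0) (nat_lit 10) (nat_lit 8) (nat_lit 5)
noncomputable def D230 : OP := win (nat_lit 0) (nat_lit 9) (nat_lit 8) (nat_lit 4)
noncomputable def D239 : OP := orK (nat_lit 193) (fin (add (start D230) (orK (nat_lit 173) (fin (add (start D231) D235)))))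
noncomputable def D227 : OP := win (nat_lit 5) (nat_lit 9) (nat_lit 8) (nat_lit 0)
noncomputable def D226 : OP := win (nat_lit 5) (nat_lit 8) (nat_lit 8) (nat_lit 5)
noncomputable def D229 : OP := orK (nat_lit 189) (fin (add (start D226) D227))
noncomputable def D250 : OP := orK (nat_lit 172) (fin (add (add (start D229) D239) D248))
noncomputable def D743 : OP := orK (nat_lit 169) (fin (add (start D223) D250))
noncomputable def D745 : OP := orK (nat_lit 171) (fin (add (start D14) D743))
noncomputable def D25 : OP := orK (nat_lit 151) (fin (add (start D22) D23))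
noncomputable def D27 : OP := orK (nat_lit 150) (fin (add (start D21) D25))
noncomputable def D28 : AP := fin (add (start D20) D27)
noncomputable def D29 : OP := orK (nat_lit 229) D28
noncomputable def D14654 : AP := fin (add (add (start D29) D745) D751)
noncomputable def D14655 : OP := orK (nat_lit 170) D14654
noncomputable def D545 : OP := orK (nat_lit 250) (fin (add (start D8) D260))
noncomputable def D547 : OP := orK (nat_lit 249) (fin (add (start D7) D545))
noncomputable def D2956 : OP := orK (nat_lit 150) (fin (add (start D156) D178))
noncomputable def D2958 : OP := orK (nat_lit 231) (fin (add (start D157) D2956))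
noncomputable def D149 : OP := win (nat_lit 6) (nat_lit 10) (nat_lit 9) (nat_lit 5)
noncomputable def D148 : OP := win (nat_lit 6) (nat_lit 10) (nat_lit 8) (nat_lit 4)
noncomputable def D151 : OP := orK (nat_lit 251) (fin (add (start D148) D149))
noncomputable def D537 : OP := orK (nat_lit 250) (fin (add (start D8) D151))
noncomputable def D539 : OP := orK (nat_lit 249) (fin (add (start D7) D537))
noncomputable def D28159 : OP := orK (nat_lit 170) (fin (add (add (start D539) D2958) D547))
noncomputable def D7241 : OP := win (nat_lit 0) (nat_lit 5) (nat_lit 8) (nat_lit 0)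
noncomputable def D21898 : AP := fin (add (start D7241) (win (nat_lit 0) (nat_lit 6) (nat_lit 8) (nat_lit 3)))
noncomputable def D21899 : OP := orK (nat_lit 166) D21898
noncomputable def D14769 : OP := win (nat_lit 2) (nat_lit 7) (nat_lit 8) (nat_lit 0)
noncomputable def D21900 : AP := fin (add (start D14769) D21899)
noncomputable def D317 : OP := win (nat_lit 3) (nat_lit 8) (nat_lit 8) (nat_lit 0)
noncomputable def D15244 : OP := orK (nat_lit 169) (fin (add (start D2538) D317))
noncomputable def D2435 : OP := win (nat_lit 7) (nat_lit 7) (nat_lit 7) (nat_lit 5)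
noncomputable def D319 : OP := win (nat_lit 3) (nat_lit 8) (nat_lit 7) (nat_lit 3)
noncomputable def D318 : OP := win (nat_lit 1) (nat_lit 8) (nat_lit 6) (nat_lit 0)
noncomputable def D323 : OP := orK (nat_lit 169) (fin (add (start D317) (orK (nat_lit 149) (fin (add (start D318) D319)))))
noncomputable def D5135 : OP := win (nat_lit 6) (nat_lit 7) (nat_lit 7) (nat_lit 3)
noncomputable def D5134 : OP := win (nat_lit 6) (nat_lit 7) (nat_lit 6) (nat_lit 0)
noncomputable def D5136 : AP := fin (add (start D5134) D5135)
noncomputable def D16953 : OP := win (nat_lit 7) (nat_lit 7) (nat_lit 7) (nat_lit 3)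
noncomputable def D5047 : OP := win (nat_lit 7) (nat_lit 7) (nat_lit 8) (nat_lit 4)
noncomputable def D21781 : OP := win (nat_lit 5) (nat_lit 6) (nat_lit 9) (nat_lit 3)
noncomputable def D305 : OP := win (nat_lit 4) (nat_lit 5) (nat_lit 9) (nat_lit 0)
noncomputable def D304 : OP := win (nat_lit 5) (nat_lit 7) (nat_lit 9) (nat_lit 0)
noncomputable def D9067 : OP := win (nat_lit 6) (nat_lit 7) (nat_lit 7) (nat_lit 5)
noncomputable def D9069 : OP := orK (nat_lit 147) (fin (add (start D5134) D9067))
noncomputable def D8665 : OP := win (nat_lit 5) (nat_lit 6) (nat_lit 9) (nat_lit 5)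
noncomputable def D9066 : OP := win (nat_lit 2) (nat_lit 6) (nat_lit 8) (nat_lit 5)
noncomputable def D22366 : OP := orK (nat_lit 167) (fin (add (add (add (start (orK (nat_lit 166) (fin (add (start (win (nat_lit 2) (nat_lit 6) (nat_lit 8) (nat_lit 3))) (orK (nat_lit 168) D21898))))) (orK (nat_lit 187) (fin (add (start D9066) (orK (nat_lit 207) (fin (add (start D8665) (orK (nat_lit 208) (fin (add (start D304) D9069)))))))))) (orK (nat_lit 208) (fin (add (add (start (orK (nat_lit 207) (fin (add (start D304) (orK (nat_lit 206) (fin (add (start D305) D21781))))))) (orK (nat_lit 228) (fin (add (add (start (orK (nat_lit 248) (fin (add (start D311) D5047)))) (orK (nat_lit 147) (fin (add (start D16953) (orK (nat_lit 187) D5136))))) D323)))) (orK (nat_lit 168) (fin (add (start D14769) (orK (nat_lit 228) (fin (add (start D2435) D15244)))))))))) (orK (nat_lit 168) D21900)))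
noncomputable def D66 : OP := win (nat_lit 4) (nat_lit 9) (nat_lit 8) (nat_lit 5)
noncomputable def D65 : OP := win (nat_lit 4) (nat_lit 8) (nat_lit 8) (nat_lit 4)
noncomputable def D68 : OP := orK (nat_lit 172) (fin (add (start D65) D66))
noncomputable def D11925 : OP := win (nat_lit 2) (nat_lit 8) (nat_lit 8) (nat_lit 4)
noncomputable def D21903 : OP := orK (nat_lit 192) (fin (add (start D11925) D68))
noncomputable def D373 : OP := win (nat_lit 2) (nat_lit 7) (nat_lit 8) (nat_lit 5)
noncomputable def D22428 : OP := orK (nat_lit 168) (fin (add (start D373) D11925))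
noncomputable def D22432 : OP := orK (nat_lit 212) (fin (add (start D2689) (orK (nat_lit 192) (fin (add (start D2688) D22428)))))
noncomputable def D5556 : OP := win (nat_lit 1) (nat_lit 10) (nat_lit 7) (nat_lit 5)
noncomputable def D118 : OP := win (nat_lit 1) (nat_lit 10) (nat_lit 6) (nat_lit 0)
noncomputable def D11337 : AP := fin (add (start D118) D5556)
noncomputable def D11338 : OP := orK (nat_lit 151) D11337
noncomputable def D3428 : OP := win (nat_lit 4) (nat_lit 8) (nat_lit 8) (nat_lit 5)
noncomputable def D11532 : OP := orK (nat_lit 171) (fin (add (start D3428) D11338))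
noncomputable def D54 : OP := win (nat_lit 0) (nat_lit 8) (nat_lit 9) (nat_lit 5)
noncomputable def D11534 : OP := orK (nat_lit 211) (fin (add (start D54) D11532))
noncomputable def D11522 : OP := orK (nat_lit 206) (fin (add (start (win (nat_lit 5) (nat_lit 5) (nat_lit 9) (nat_lit 5))) (win (nat_lit 5) (nat_lit 6) (nat_lit 9) (nat_lit 4))))
noncomputable def D14327 : OP := win (nat_lit 2) (nat_lit 5) (nat_lit 8) (nat_lit 5)
noncomputable def D14328 : OP := win (nat_lit 2) (nat_lit 6) (nat_lit 8) (nat_lit 4)
noncomputable def D16389 : OP := orK (nat_lit 166) (fin (add (start D14328) (orK (nat_lit 186) (fin (add (start D14327) D11522)))))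
noncomputable def D9201 : OP := win (nat_lit 0) (nat_lit 7) (nat_lit 9) (nat_lit 5)
noncomputable def D22140 : OP := orK (nat_lit 187) (fin (add (start D9201) D16389))
noncomputable def D57 : OP := win (nat_lit 2) (nat_lit 9) (nat_lit 9) (nat_lit 0)
noncomputable def D296 : OP := win (nat_lit 0) (nat_lit 8) (nat_lit 9) (nat_lit 3)
noncomputable def D302 : AP := fin (add (start D296) D57)
noncomputable def D303 : OP := orK (nat_lit 212) D302
noncomputable def D53 : OP := win (nat_lit 0) (nat_lit 7) (nat_lit 9) (nat_lit 0)
noncomputable def D427 : AP := fin (add (start D53) D303)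
noncomputable def D14353 : OP := orK (nat_lit 211) D427
noncomputable def D10469 : OP := win (nat_lit 5) (nat_lit 10) (nat_lit 8) (nat_lit 0)
noncomputable def D14931 : OP := win (nat_lit 4) (nat_lit 9) (nat_lit 8) (nat_lit 3)
noncomputable def D2685 : OP := win (nat_lit 4) (nat_lit 8) (nat_lit 8) (nat_lit 0)
noncomputable def D14935 : OP := orK (nat_lit 172) (fin (add (start D2685) (orK (nat_lit 173) (fin (add (start D14931) D10469)))))
noncomputable def D2673 : OP := win (nat_lit 3) (nat_lit 10) (nat_lit 8) (nat_lit 0)
noncomputable def D55 : AP := fin (add (start D53) D54)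
noncomputable def D11517 : OP := orK (nat_lit 211) D55
noncomputable def D56 : OP := orK (nat_lit 188) D55
noncomputable def D3173 : OP := win (nat_lit 5) (nat_lit 10) (nat_lit 9) (nat_lit 0)
noncomputable def D9912 : OP := win (nat_lit 5) (nat_lit 8) (nat_lit 9) (nat_lit 0)
noncomputable def D50 : OP := win (nat_lit 4) (nat_lit 7) (nat_lit 9) (nat_lit 0)
noncomputable def D9913 : AP := fin (add (start D50) D9912)
noncomputable def D26503 : OP := orK (nat_lit 208) (fin (add (add (start (orK (nat_lit 209) D9913)) (orK (nat_lit 192) (fin (add (start D14311) (orK (nat_lit 173) (fin (add (start D14303) (orK (nat_lit 193) (fin (add (start D14304) (orK (nat_lit 211) (fin (add (start D3173) D56))))))))))))) (orK (nat_lit 188) (fin (add (start D371) D11517)))))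
noncomputable def D4886 : OP := win (nat_lit 1) (nat_lit 10) (nat_lit 7) (nat_lit 3)
noncomputable def D10247 : AP := fin (add (start D118) D4886)
noncomputable def D10248 : OP := orK (nat_lit 151) D10247
noncomputable def D10249 : AP := fin (add (start D2673) D10248)
noncomputable def D10250 : OP := orK (nat_lit 171) D10249
noncomputable def D26507 : OP := orK (nat_lit 191) (fin (add (add (start D10250) D26503) (orK (nat_lit 171) (fin (add (start D2673) D14935)))))
noncomputable def D14226 : OP := win (nat_lit 6) (nat_lit 9) (nat_lit 7) (nat_lit 3)
noncomputable def D277 : OP := win (nat_lit 6) (nat_lit 9) (nat_lit 6) (nat_lit 0)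
noncomputable def D14227 : AP := fin (add (start D277) D14226)
noncomputable def D14228 : OP := orK (nat_lit 149) D14227
noncomputable def D3024 : OP := win (nat_lit 7) (nat_lit 9) (nat_lit 8) (nat_lit 0)
noncomputable def D14229 : AP := fin (add (start D3024) D14228)
noncomputable def D14230 : OP := orK (nat_lit 169) D14229
noncomputable def D26521 : OP := orK (nat_lit 189) (fin (add (add (start D14230) D26507) (orK (nat_lit 188) (fin (add (add (add (start D14353) D22140) (orK (nat_lit 191) (fin (add (add (start D11534) D22432) (orK (nat_lit 168) (fin (add (start D373) D21903))))))) D22366)))))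
noncomputable def D161 : OP := orK (nat_lit 150) (fin (add (start D21) D159))
noncomputable def D162 : AP := fin (add (start D20) D161)
noncomputable def D163 : OP := orK (nat_lit 229) D162
noncomputable def D153 : OP := orK (nat_lit 250) (fin (add (start D15) D151))
noncomputable def D155 : OP := orK (nat_lit 171) (fin (add (start D14) D153))
noncomputable def D164 : AP := fin (add (add (start D29) D155) D163)
noncomputable def D14297 : OP := orK (nat_lit 170) D164
noncomputable def D14679 : OP := win (nat_lit 3) (nat_lit 9) (nat_lit 9) (nat_lit 3)
noncomputable def D14732 : AP := fin (add (start D14679) D4089)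
noncomputable def D14733 : OP := orK (nat_lit 269) D14732
noncomputable def D14867 : AP := fin (add (start D8934) D14733)
noncomputable def D14868 : OP := orK (nat_lit 249) D14867
noncomputable def D14678 : OP := win (nat_lit 1) (nat_lit 9) (nat_lit 9) (nat_lit 3)
noncomputable def D14730 : AP := fin (add (start D14678) D4089)
noncomputable def D14731 : OP := orK (nat_lit 269) D14730
noncomputable def D14760 : AP := fin (add (start D8934) D14731)
noncomputable def D14761 : OP := orK (nat_lit 249) D14760
noncomputable def D26905 : OP := orK (nat_lit 249) D14732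
noncomputable def D5146 : AP := fin (add (start D5007) D3729)
noncomputable def D5147 : OP := orK (nat_lit 212) D5146
noncomputable def D8228 : AP := fin (add (start D516) D5147)
noncomputable def D8229 : OP := orK (nat_lit 228) D8228
noncomputable def D7024 : OP := win (nat_lit 6) (nat_lit 10) (nat_lit 11) (nat_lit 5)
noncomputable def D7023 : OP := win (nat_lit 6) (nat_lit 10) (nat_lit 10) (nat_lit 4)
noncomputable def D7026 : OP := orK (nat_lit 291) (fin (add (start D7023) D7024))
noncomputable def D26408 : OP := orK (nat_lit 290) (fin (add (start D9842) D7026))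
noncomputable def D3298 : OP := win (nat_lit 7) (nat_lit 7) (nat_lit 9) (nat_lit 4)
noncomputable def D3316 : OP := win (nat_lit 7) (nat_lit 7) (nat_lit 8) (nat_lit 5)
noncomputable def D5115 : OP := win (nat_lit 2) (nat_lit 7) (nat_lit 9) (nat_lit 2)
noncomputable def D4622 : OP := win (nat_lit 7) (nat_lit 7) (nat_lit 7) (nat_lit 4)
noncomputable def D4621 : OP := win (nat_lit 7) (nat_lit 7) (nat_lit 6) (nat_lit 5)
noncomputable def D4624 : OP := orK (nat_lit 147) (fin (add (start D4621) D4622))
noncomputable def D21985 : OP := win (nat_lit 6) (nat_lit 8) (nat_lit 7) (nat_lit 4)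
noncomputable def D28836 : OP := orK (nat_lit 148) (fin (add (start D21985) D4624))
noncomputable def D10065 : OP := win (nat_lit 7) (nat_lit 7) (nat_lit 9) (nat_lit 5)
noncomputable def D26876 : OP := orK (nat_lit 187) (fin (add (start D3316) D3298))
noncomputable def D26862 : OP := orK (nat_lit 268) (fin (add (start D2528) D2530))
noncomputable def D9405 : OP := win (nat_lit 1) (nat_lit 7) (nat_lit 9) (nat_lit 0)
noncomputable def D5116 : OP := win (nat_lit 5) (nat_lit 7) (nat_lit 11) (nat_lit 0)
noncomputable def D3847 : OP := win (nat_lit 5) (nat_lit 7) (nat_lit 11) (nat_lit 5)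
noncomputable def D515 : OP := win (nat_lit 2) (nat_lit 7) (nat_lit 10) (nat_lit 5)
noncomputable def D26870 : OP := orK (nat_lit 231) (fin (add (start D515) D3847))
noncomputable def D26888 : OP := orK (nat_lit 248) (fin (add (add (add (start D26870) (orK (nat_lit 247) (fin (add (start D5116) (orK (nat_lit 267) (fin (add (start D9405) D26862))))))) (orK (nat_lit 268) (fin (add (start D2530) (orK (nat_lit 267) (fin (add (start D2528) (orK (nat_lit 188) (fin (add (start D2527) D26876)))))))))) (orK (nat_lit 207) (fin (add (start D5012) (orK (nat_lit 268) (fin (add (start D2530) D10065))))))))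
noncomputable def D5037 : OP := win (nat_lit 3) (nat_lit 8) (nat_lit 9) (nat_lit 4)
noncomputable def D3746 : OP := win (nat_lit 1) (nat_lit 7) (nat_lit 9) (nat_lit 5)
noncomputable def D5118 : OP := orK (nat_lit 247) (fin (add (start D3746) D5116))
noncomputable def D5013 : OP := win (nat_lit 0) (nat_lit 5) (nat_lit 10) (nat_lit 0)
noncomputable def D5016 : OP := orK (nat_lit 206) (fin (add (start D5013) (win (nat_lit 0) (nat_lit 6) (nat_lit 10) (nat_lit 3))))
noncomputable def D5018 : OP := orK (nat_lit 207) (fin (add (start D5012) D5016))
noncomputable def D29773 : OP := orK (nat_lit 270) (fin (add (start D614) D26408))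
noncomputable def D5095 : AP := fin (add (start D5006) D3729)
noncomputable def D5096 : OP := orK (nat_lit 212) D5095
noncomputable def D5097 : AP := fin (add (start D516) D5096)
noncomputable def D8225 : OP := orK (nat_lit 228) D5097
noncomputable def D297 : OP := win (nat_lit 2) (nat_lit 8) (nat_lit 9) (nat_lit 3)
noncomputable def D840 : OP := orK (nat_lit 188) (fin (add (start D53) D297))
noncomputable def D26835 : OP := orK (nat_lit 249) D14730
noncomputable def D14680 : AP := fin (add (start D14678) D14679)
noncomputable def D26834 : OP := orK (nat_lit 249) D14680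
noncomputable def D2130 : OP := win (nat_lit 5) (nat_lit 8) (nat_lit 8) (nat_lit 0)
noncomputable def D14873 : AP := fin (add (start D14) D2130)
noncomputable def D14876 : OP := orK (nat_lit 188) (fin (add (start D53) (orK (nat_lit 171) D14873)))
noncomputable def D45 : OP := win (nat_lit 6) (nat_lit 10) (nat_lit 7) (nat_lit 5)
noncomputable def D14872 : OP := orK (nat_lit 150) (fin (add (start D21) D45))
noncomputable def D14882 : OP := orK (nat_lit 170) (fin (add (start D14872) (orK (nat_lit 169) (fin (add (start D223) (orK (nat_lit 189) (fin (add (start D3024) D14876))))))))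
noncomputable def D14684 : OP := win (nat_lit 5) (nat_lit 9) (nat_lit 10) (nat_lit 1)
noncomputable def D14888 : OP := orK (nat_lit 211) (fin (add (add (add (start (orK (nat_lit 213) (fin (add (start D14684) D14882)))) D8225) (orK (nat_lit 227) (fin (add (start D4859) D14882)))) D8229))
noncomputable def D10543 : OP := win (nat_lit 7) (nat_lit 9) (nat_lit 7) (nat_lit 3)
noncomputable def D14242 : OP := orK (nat_lit 149) (fin (add (start D277) D10543))
noncomputable def D4471 : OP := win (nat_lit 4) (nat_lit 7) (nat_lit 10) (nat_lit 5)
noncomputable def D3456 : OP := win (nat_lit 4) (nat_lit 6) (nat_lit 10) (nat_lit 0)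
noncomputable def D4473 : OP := orK (nat_lit 227) (fin (add (start D3456) D4471))
noncomputable def D3065 : OP := win (nat_lit 1) (nat_lit 8) (nat_lit 8) (nat_lit 5)
noncomputable def D4475 : OP := orK (nat_lit 228) (fin (add (start D3065) D4473))
noncomputable def D3044 : OP := win (nat_lit 7) (nat_lit 8) (nat_lit 7) (nat_lit 5)
noncomputable def D11576 : OP := win (nat_lit 2) (nat_lit 7) (nat_lit 8) (nat_lit 3)
noncomputable def D15441 : OP := win (nat_lit 0) (nat_lit 7) (nat_lit 8) (nat_lit 3)
noncomputable def D3540 : OP := win (nat_lit 0) (nat_lit 6) (nat_lit 8) (nat_lit 0)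
noncomputable def D1891 : OP := win (nat_lit 2) (nat_lit 8) (nat_lit 9) (nat_lit 0)
noncomputable def D1889 : OP := win (nat_lit 2) (nat_lit 7) (nat_lit 9) (nat_lit 3)
noncomputable def D4477 : OP := orK (nat_lit 211) (fin (add (start D1889) D1891))
noncomputable def D1890 : OP := win (nat_lit 0) (nat_lit 6) (nat_lit 9) (nat_lit 0)
noncomputable def D4479 : OP := orK (nat_lit 187) (fin (add (start D1890) D4477))
noncomputable def D4012 : OP := win (nat_lit 7) (nat_lit 8) (nat_lit 8) (nat_lit 0)
noncomputable def D4483 : OP := orK (nat_lit 168) (fin (add (start D3044) (orK (nat_lit 188) (fin (add (start D4012) D4479)))))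
noncomputable def D1898 : OP := win (nat_lit 1) (nat_lit 8) (nat_lit 9) (nat_lit 4)
noncomputable def D4093 : OP := orK (nat_lit 268) (fin (add (start D1898) (orK (nat_lit 269) (fin (add (start D1899) D4089)))))
noncomputable def D4110 : OP := win (nat_lit 7) (nat_lit 8) (nat_lit 8) (nat_lit 4)
noncomputable def D4114 : OP := orK (nat_lit 168) (fin (add (start D3044) (orK (nat_lit 249) (fin (add (start D4110) D4093)))))
noncomputable def D4484 : AP := fin (add (add (start D4475) D4114) D4483)
noncomputable def D3061 : OP := win (nat_lit 0) (nat_lit 7) (nat_lit 9) (nat_lit 1)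
noncomputable def D2107 : OP := win (nat_lit 5) (nat_lit 6) (nat_lit 8) (nat_lit 5)
noncomputable def D875 : OP := win (nat_lit 1) (nat_lit 9) (nat_lit 5) (nat_lit 0)
noncomputable def D882 : OP := win (nat_lit 4) (nat_lit 7) (nat_lit 7) (nat_lit 5)
noncomputable def D14335 : OP := win (nat_lit 5) (nat_lit 7) (nat_lit 9) (nat_lit 4)
noncomputable def D14337 : OP := orK (nat_lit 207) (fin (add (start D8665) D14335))
noncomputable def D5703 : OP := win (nat_lit 4) (nat_lit 6) (nat_lit 8) (nat_lit 0)
noncomputable def D3062 : OP := win (nat_lit 2) (nat_lit 8) (nat_lit 8) (nat_lit 0)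
noncomputable def D44 : OP := win (nat_lit 6) (nat_lit 10) (nat_lit 6) (nat_lit 0)
noncomputable def D46 : AP := fin (add (start D44) D45)
noncomputable def D47 : OP := orK (nat_lit 150) D46
noncomputable def D23934 : OP := orK (nat_lit 187) (fin (add (start D9201) D5703))
noncomputable def D2603 : OP := win (nat_lit 0) (nat_lit 7) (nat_lit 8) (nat_lit 5)
noncomputable def D8664 : OP := orK (nat_lit 167) (fin (add (start D3540) D2603))
noncomputable def D14244 : OP := orK (nat_lit 169) (fin (add (start D3024) D14242))
noncomputable def D15543 : OP := orK (nat_lit 229) D14760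
noncomputable def D193 : OP := win (nat_lit 6) (nat_lit 10) (nat_lit 6) (nat_lit 4)
noncomputable def D195 : OP := orK (nat_lit 211) (fin (add (start D193) D45))
noncomputable def D167 : OP := win (nat_lit 3) (nat_lit 10) (nat_lit 5) (nat_lit 5)
noncomputable def D168 : OP := win (nat_lit 3) (nat_lit 10) (nat_lit 6) (nat_lit 4)
noncomputable def D705 : OP := orK (nat_lit 131) (fin (add (start D168) (orK (nat_lit 130) (fin (add (start D167) D195)))))
noncomputable def D298 : AP := fin (add (start D296) D297)
noncomputable def D409 : AP := fin (add (start D53) (orK (nat_lit 212) D298))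
noncomputable def D410 : OP := orK (nat_lit 188) D409
noncomputable def D170 : OP := orK (nat_lit 131) (fin (add (start D167) D168))
noncomputable def D3228 : OP := win (nat_lit 1) (nat_lit 9) (nat_lit 6) (nat_lit 5)
noncomputable def D3501 : OP := orK (nat_lit 150) (fin (add (add (start (orK (nat_lit 130) (fin (add (start D3228) D170)))) (orK (nat_lit 211) (fin (add (start D45) D410)))) D705))
noncomputable def D26410 : OP := orK (nat_lit 211) (fin (add (start D3104) D26408))
noncomputable def D28247 : OP := orK (nat_lit 189) (fin (add (add (add (start D14230) (orK (nat_lit 249) (fin (add (add (start (orK (nat_lit 250) (fin (add (start D8) (orK (nat_lit 270) (fin (add (start D3105) D26410))))))) (orK (nat_lit 170) (fin (add (start D7) D3501)))) D15543)))) D14244) (orK (nat_lit 169) (fin (add (add (start D14228) (orK (nat_lit 229) (fin (add (add (add (start D14868) (orK (nat_lit 170) (fin (add (start D20) (orK (nat_lit 168) (fin (add (add (start D8664) (orK (nat_lit 188) (fin (add (add (start D23934) (orK (nat_lit 191) (fin (add (start D3062) (orK (nat_lit 211) (fin (add (start D54) D47))))))) (orK (nat_lit 191)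 (fin (add (start D3062) (orK (nat_lit 187) (fin (add (start D5703) D14337)))))))))) (orK (nat_lit 167) (fin (add (start D3540) (orK (nat_lit 150) (fin (add (start D882) (orK (nat_lit 130) (fin (add (start D875) (orK (nat_lit 187) (fin (add (start D2107) (orK (nat_lit 211) (fin (add (start D3061) D45)))))))))))))))))))))) (orK (nat_lit 209) D4484)) (orK (nat_lit 168) (fin (add (start (orK (nat_lit 167) (fin (add (start D3540) (orK (nat_lit 191) (fin (add (start D15441) D11576))))))) (orK (nat_lit 209) (fin (add (start D3044) D4475)))))))))) D14242)))))
noncomputable def D184 : OP := win (nat_lit 7) (nat_lit 9) (nat_lit 6) (nat_lit 4)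
noncomputable def D183 : OP := win (nat_lit 7) (nat_lit 9) (nat_lit 5) (nat_lit 5)
noncomputable def D186 : OP := orK (nat_lit 129) (fin (add (start D183) D184))
noncomputable def D205 : OP := orK (nat_lit 130) (fin (add (start D193) D186))
noncomputable def D206 : AP := fin (add (start D45) D205)
noncomputable def D207 : OP := orK (nat_lit 211) D206
noncomputable def D642 : OP := orK (nat_lit 151) (fin (add (start D23) (orK (nat_lit 150) (fin (add (start D22) D207)))))
noncomputable def D604 : OP := orK (nat_lit 250) (fin (add (start D8) D602))
noncomputable def D606 : OP := orK (nat_lit 249) (fin (add (start D7) D604))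
noncomputable def D738 : AP := fin (add (add (add (start D29) D606) (orK (nat_lit 229) (fin (add (start D20) (orK (nat_lit 150) (fin (add (start D21) D207))))))) D642)
noncomputable def D26061 : OP := orK (nat_lit 170) D738
noncomputable def D10439 : OP := win (nat_lit 3) (nat_lit 10) (nat_lit 7) (nat_lit 3)
noncomputable def D10440 : AP := fin (add (start D118) D10439)
noncomputable def D10441 : OP := orK (nat_lit 151) D10440
noncomputable def D14615 : OP := win (nat_lit 2) (nat_lit 9) (nat_lit 8) (nat_lit 4)
noncomputable def D10232 : OP := win (nat_lit 2) (nat_lit 8) (nat_lit 8) (nat_lit 5)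
noncomputable def D2686 : AP := fin (add (start D2685) D66)
noncomputable def D2687 : OP := orK (nat_lit 172) D2686
noncomputable def D15140 : OP := orK (nat_lit 189) (fin (add (start D2687) (orK (nat_lit 213) (fin (add (start D14301) (orK (nat_lit 193) (fin (add (start D14302) (orK (nat_lit 169) (fin (add (start D10232) D14615)))))))))))
noncomputable def D1160 : OP := win (nat_lit 1) (nat_lit 11) (nat_lit 7) (nat_lit 5)
noncomputable def D2726 : OP := win (nat_lit 1) (nat_lit 11) (nat_lit 6) (nat_lit 0)
noncomputable def D2905 : AP := fin (add (start D2726) D1160)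
noncomputable def D2906 : OP := orK (nat_lit 152) D2905
noncomputable def D460 : OP := win (nat_lit 1) (nat_lit 9) (nat_lit 7) (nat_lit 0)
noncomputable def D9695 : AP := fin (add (start D460) D20)
noncomputable def D9696 : OP := orK (nat_lit 170) D9695
noncomputable def D25903 : OP := orK (nat_lit 212) (fin (add (start D2688) (orK (nat_lit 188) (fin (add (start D2689) D22428)))))
noncomputable def D647 : OP := win (nat_lit 4) (nat_lit 8) (nat_lit 9) (nat_lit 3)
noncomputable def D15094 : AP := fin (add (start D50) D647)
noncomputable def D15095 : OP := orK (nat_lit 208) D15094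
noncomputable def D20404 : OP := orK (nat_lit 209) (fin (add (start D678) D15095))
noncomputable def D10443 : OP := orK (nat_lit 171) (fin (add (start D2673) D10441))
noncomputable def D14657 : OP := orK (nat_lit 189) (fin (add (start D3476) D14319))
noncomputable def D10302 : OP := orK (nat_lit 269) (fin (add (start D613) (orK (nat_lit 270) (fin (add (start D614) D616)))))
noncomputable def D14658 : AP := fin (add (add (start D10302) D14657) D14508)
noncomputable def D14659 : OP := orK (nat_lit 250) D14658
noncomputable def D2690 : OP := win (nat_lit 4) (nat_lit 7) (nat_lit 8) (nat_lit 4)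
noncomputable def D14641 : OP := orK (nat_lit 171) (fin (add (start D2690) D3428))
noncomputable def D11518 : OP := win (nat_lit 2) (nat_lit 7) (nat_lit 8) (nat_lit 4)
noncomputable def D14645 : OP := orK (nat_lit 167) (fin (add (start D9066) (orK (nat_lit 191) (fin (add (start D11518) D14641)))))
noncomputable def D11047 : OP := win (nat_lit 4) (nat_lit 7) (nat_lit 8) (nat_lit 5)
noncomputable def D14635 : OP := win (nat_lit 4) (nat_lit 6) (nat_lit 8) (nat_lit 4)
noncomputable def D9369 : OP := win (nat_lit 0) (nat_lit 6) (nat_lit 9) (nat_lit 4)
noncomputable def D14332 : OP := orK (nat_lit 186) (fin (add (start D9369) (orK (nat_lit 166) (fin (add (start D14327) D14328)))))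
noncomputable def D14634 : OP := orK (nat_lit 187) (fin (add (start D9201) (orK (nat_lit 170) (fin (add (start D5703) D11047)))))
noncomputable def D324 : OP := win (nat_lit 5) (nat_lit 7) (nat_lit 10) (nat_lit 2)
noncomputable def D4032 : OP := win (nat_lit 1) (nat_lit 7) (nat_lit 8) (nat_lit 5)
noncomputable def D5416 : OP := orK (nat_lit 227) (fin (add (start D4032) D324))
noncomputable def D5418 : OP := orK (nat_lit 228) (fin (add (start D317) D5416))
noncomputable def D14628 : OP := orK (nat_lit 211) (fin (add (start D54) (orK (nat_lit 208) (fin (add (start D371) (orK (nat_lit 168) (fin (add (start D373) D5418))))))))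
noncomputable def D14616 : OP := win (nat_lit 5) (nat_lit 9) (nat_lit 9) (nat_lit 5)
noncomputable def D3115 : OP := orK (nat_lit 168) (fin (add (start D373) D3062))
noncomputable def D14651 : OP := orK (nat_lit 169) (fin (add (add (start D14228) (orK (nat_lit 188) (fin (add (add (add (start (orK (nat_lit 211) D409)) (orK (nat_lit 191) (fin (add (add (start D3115) (orK (nat_lit 212) (fin (add (start D2689) (orK (nat_lit 192) (fin (add (start D2688) (orK (nat_lit 193) (fin (add (start D14615) D14616)))))))))) D14628)))) D14634) (orK (nat_lit 187) (fin (add (add (start D14332) (orK (nat_lit 186) (fin (add (start D9369) (orK (nat_lit 170) (fin (add (start D14635) D11047))))))) D14645))))))) D14242))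
noncomputable def D622 : OP := orK (nat_lit 269) (fin (add (start D613) D620))
noncomputable def D14234 : OP := orK (nat_lit 269) (fin (add (start D613) (orK (nat_lit 270) (fin (add (start D614) D3105)))))
noncomputable def D14653 : OP := orK (nat_lit 189) (fin (add (add (start (orK (nat_lit 250) (fin (add (add (start D14234) D14452) D622)))) D14244) D14651))
noncomputable def D14491 : OP := orK (nat_lit 151) (fin (add (start D10439) (orK (nat_lit 191) D10247)))
noncomputable def D14498 : OP := orK (nat_lit 171) (fin (add (add (add (start D14491) (orK (nat_lit 250) (fin (add (start D15) D9279)))) (orK (nat_lit 191) D10249)) (orK (nat_lit 170) (fin (add (start D14) D547)))))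
noncomputable def D2570 : OP := orK (nat_lit 171) (fin (add (start D14) D250))
noncomputable def D2573 : AP := fin (add (start D223) D606)
noncomputable def D628 : OP := win (nat_lit 6) (nat_lit 10) (nat_lit 10) (nat_lit 5)
noncomputable def D627 : OP := win (nat_lit 6) (nat_lit 10) (nat_lit 9) (nat_lit 4)
noncomputable def D630 : OP := orK (nat_lit 271) (fin (add (start D627) D628))
noncomputable def D634 : OP := orK (nat_lit 269) (fin (add (start D613) (orK (nat_lit 270) (fin (add (start D614) D630)))))
noncomputable def D14481 : OP := orK (nat_lit 250) (fin (add (start D9) D634))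
noncomputable def D14486 : OP := orK (nat_lit 169) (fin (add (add (start D14481) (orK (nat_lit 170) D2573)) (orK (nat_lit 170) (fin (add (start D223) D2570)))))
noncomputable def D11248 : OP := win (nat_lit 5) (nat_lit 7) (nat_lit 12) (nat_lit 4)
noncomputable def D11250 : OP := orK (nat_lit 267) (fin (add (start D11247) D11248))
noncomputable def D9443 : OP := win (nat_lit 2) (nat_lit 7) (nat_lit 11) (nat_lit 5)
noncomputable def D9444 : OP := win (nat_lit 2) (nat_lit 8) (nat_lit 11) (nat_lit 4)
noncomputable def D11313 : OP := orK (nat_lit 234) (fin (add (start (win (nat_lit 4) (nat_lit 10) (nat_lit 11) (nat_lit 4))) (win (nat_lit 4) (nat_lit 11) (nat_lit 11) (nat_lit 5))))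
noncomputable def D26418 : OP := win (nat_lit 2) (nat_lit 10) (nat_lit 11) (nat_lit 4)
noncomputable def D26435 : OP := orK (nat_lit 254) (fin (add (start D26418) D11313))
noncomputable def D10315 : OP := win (nat_lit 0) (nat_lit 10) (nat_lit 12) (nat_lit 5)
noncomputable def D10314 : OP := win (nat_lit 0) (nat_lit 9) (nat_lit 12) (nat_lit 4)
noncomputable def D4352 : OP := win (nat_lit 2) (nat_lit 9) (nat_lit 11) (nat_lit 0)
noncomputable def D10311 : OP := win (nat_lit 2) (nat_lit 8) (nat_lit 11) (nat_lit 5)
noncomputable def D10313 : OP := orK (nat_lit 229) (fin (add (start D10311) D4352))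
noncomputable def D26467 : OP := orK (nat_lit 252) (fin (add (add (start D10313) (orK (nat_lit 273) (fin (add (start D10314) (orK (nat_lit 253) (fin (add (start D10315) D26435))))))) (orK (nat_lit 228) (fin (add (start D9444) (orK (nat_lit 248) (fin (add (start D9443) (orK (nat_lit 247) (fin (add (start D4094) D11250)))))))))))
noncomputable def D14504 : OP := orK (nat_lit 271) (fin (add (start D627) (orK (nat_lit 270) (fin (add (start D628) D10256)))))
noncomputable def D3011 : AP := fin (add (start D223) D155)
noncomputable def D14421 : OP := orK (nat_lit 189) D14229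
noncomputable def D12599 : OP := orK (nat_lit 171) (fin (add (start D15) (orK (nat_lit 170) (fin (add (start D14) D151)))))
noncomputable def D15872 : OP := orK (nat_lit 169) (fin (add (add (add (start (orK (nat_lit 149) (fin (add (start D10543) (orK (nat_lit 189) D14227))))) (orK (nat_lit 250) (fin (add (start D9) D12599)))) D14421) (orK (nat_lit 170) D3011)))
noncomputable def D541 : OP := orK (nat_lit 250) (fin (add (start D149) D260))
noncomputable def D543 : OP := orK (nat_lit 251) (fin (add (start D148) D541))
noncomputable def D752 : AP := fin (add (add (start D751) D539) D543)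
noncomputable def D14520 : OP := orK (nat_lit 170) D752
noncomputable def D15157 : OP := orK (nat_lit 249) (fin (add (add (add (start (orK (nat_lit 250) (fin (add (start D8) D12599)))) (orK (nat_lit 269) (fin (add (start D14678) (orK (nat_lit 229) D14732))))) (orK (nat_lit 229) D14867)) (orK (nat_lit 170) (fin (add (start D7) D155)))))
noncomputable def D717 : OP := orK (nat_lit 270) (fin (add (start D616) D630))
noncomputable def D719 : OP := orK (nat_lit 191) (fin (add (start D615) D717))
noncomputable def D14474 : AP := fin (add (add (start D533) D745) D2958)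
noncomputable def D14475 : OP := orK (nat_lit 170) D14474
noncomputable def D3563 : AP := fin (add (add (start D606) D533) D539)
noncomputable def D8897 : OP := orK (nat_lit 289) D8896
noncomputable def D8898 : AP := fin (add (start D8893) D8897)
noncomputable def D8899 : OP := orK (nat_lit 269) D8898
noncomputable def D12292 : OP := orK (nat_lit 289) (fin (add (start D9294) D8895))
noncomputable def D12585 : OP := orK (nat_lit 269) (fin (add (start D8893) D12292))
noncomputable def D11237 : OP := win (nat_lit 2) (nat_lit 7) (nat_lit 11) (nat_lit 4)
noncomputable def D20600 : OP := orK (nat_lit 227) (fin (add (start D4193) (orK (nat_lit 251) (fin (add (start D11237) D11250)))))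
noncomputable def D14007 : OP := win (nat_lit 5) (nat_lit 6) (nat_lit 12) (nat_lit 4)
noncomputable def D14006 : OP := win (nat_lit 5) (nat_lit 5) (nat_lit 12) (nat_lit 5)
noncomputable def D15351 : OP := orK (nat_lit 266) (fin (add (start D14006) D14007))
noncomputable def D9428 : OP := win (nat_lit 4) (nat_lit 6) (nat_lit 11) (nat_lit 4)
noncomputable def D15353 : OP := orK (nat_lit 246) (fin (add (start D9428) D15351))
noncomputable def D9426 : OP := win (nat_lit 2) (nat_lit 5) (nat_lit 11) (nat_lit 5)
noncomputable def D9427 : OP := win (nat_lit 2) (nat_lit 6) (nat_lit 11) (nat_lit 4)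
noncomputable def D12190 : OP := orK (nat_lit 226) (fin (add (start D9427) (orK (nat_lit 246) (fin (add (start D9426) D9428)))))
noncomputable def D26285 : OP := orK (nat_lit 247) (fin (add (add (start D12190) D15353) D20600))
noncomputable def D10085 : OP := win (nat_lit 0) (nat_lit 7) (nat_lit 12) (nat_lit 5)
noncomputable def D29144 : OP := win (nat_lit 0) (nat_lit 6) (nat_lit 12) (nat_lit 0)
noncomputable def D3297 : OP := win (nat_lit 3) (nat_lit 8) (nat_lit 9) (nat_lit 5)
noncomputable def D4371 : OP := win (nat_lit 6) (nat_lit 8) (nat_lit 9) (nat_lit 0)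
noncomputable def D4370 : OP := win (nat_lit 0) (nat_lit 8) (nat_lit 12) (nat_lit 5)
noncomputable def D11260 : OP := orK (nat_lit 228) (fin (add (start D9443) D9444))
noncomputable def D4361 : OP := win (nat_lit 0) (nat_lit 9) (nat_lit 12) (nat_lit 5)
noncomputable def D4360 : OP := win (nat_lit 0) (nat_lit 8) (nat_lit 12) (nat_lit 4)
noncomputable def D15363 : OP := orK (nat_lit 272) (fin (add (start D4360) (orK (nat_lit 252) (fin (add (start D4361) D11260)))))
noncomputable def D9458 : AP := fin (add (start D9319) D9457)
noncomputable def D9459 : OP := orK (nat_lit 268) D9458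
noncomputable def D4016 : OP := win (nat_lit 1) (nat_lit 8) (nat_lit 9) (nat_lit 5)
noncomputable def D8900 : AP := fin (add (start D4016) D6936)
noncomputable def D12997 : OP := orK (nat_lit 248) D8900
noncomputable def D4095 : OP := win (nat_lit 6) (nat_lit 9) (nat_lit 9) (nat_lit 5)
noncomputable def D4311 : OP := win (nat_lit 0) (nat_lit 7) (nat_lit 11) (nat_lit 0)
noncomputable def D9684 : OP := orK (nat_lit 228) (fin (add (start D4311) D9682))
noncomputable def D29640 : OP := orK (nat_lit 229) (fin (add (start D9684) (orK (nat_lit 190) (fin (add (start D8934) (orK (nat_lit 189) (fin (add (start D3476) (orK (nat_lit 209) (fin (add (start D4095) D12997)))))))))))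
noncomputable def D11234 : OP := win (nat_lit 0) (nat_lit 7) (nat_lit 12) (nat_lit 4)
noncomputable def D12575 : OP := orK (nat_lit 247) (fin (add (start D11234) D4094))
noncomputable def D12245 : OP := win (nat_lit 6) (nat_lit 10) (nat_lit 9) (nat_lit 0)
noncomputable def D12588 : AP := fin (add (start D12245) (orK (nat_lit 248) (fin (add (start D4370) D12575))))
noncomputable def D11239 : OP := orK (nat_lit 227) (fin (add (start D4193) D11237))
noncomputable def D11252 : OP := orK (nat_lit 247) (fin (add (start D11239) D11250))
noncomputable def D11236 : OP := orK (nat_lit 271) (fin (add (start D11234) D4370))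
noncomputable def D11263 : AP := fin (add (start D11236) D11250)
noncomputable def D11264 : OP := orK (nat_lit 247) D11263
noncomputable def D4363 : OP := orK (nat_lit 272) (fin (add (start D4360) D4361))
noncomputable def D11266 : OP := orK (nat_lit 248) (fin (add (add (start (orK (nat_lit 252) (fin (add (start D4363) D11260)))) D11264) D11252))
noncomputable def D12564 : OP := win (nat_lit 7) (nat_lit 10) (nat_lit 11) (nat_lit 0)
noncomputable def D12559 : OP := win (nat_lit 7) (nat_lit 10) (nat_lit 10) (nat_lit 3)
noncomputable def D12565 : AP := fin (add (start D12559) D12564)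
noncomputable def D12569 : OP := orK (nat_lit 291) D12565
noncomputable def D12570 : AP := fin (add (start D12245) D12569)
noncomputable def D26413 : OP := orK (nat_lit 271) D12570
noncomputable def D12278 : OP := win (nat_lit 6) (nat_lit 10) (nat_lit 10) (nat_lit 3)
noncomputable def D29505 : OP := orK (nat_lit 291) (fin (add (start D12278) D12564))
noncomputable def D29507 : OP := orK (nat_lit 271) (fin (add (start D12245) D29505))
noncomputable def D4070 : OP := win (nat_lit 3) (nat_lit 8) (nat_lit 10) (nat_lit 0)
noncomputable def D13788 : OP := win (nat_lit 3) (nat_lit 8) (nat_lit 9) (nat_lit 3)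
noncomputable def D13789 : AP := fin (add (start D13788) D4070)
noncomputable def D13790 : OP := orK (nat_lit 268) D13789
noncomputable def D25321 : OP := win (nat_lit 4) (nat_lit 6) (nat_lit 11) (nat_lit 3)
noncomputable def D9412 : OP := win (nat_lit 4) (nat_lit 5) (nat_lit 11) (nat_lit 0)
noncomputable def D27028 : OP := orK (nat_lit 246) (fin (add (start D9412) D25321))
noncomputable def D27677 : OP := orK (nat_lit 247) (fin (add (start D5116) D27028))
noncomputable def D7838 : OP := win (nat_lit 5) (nat_lit 8) (nat_lit 10) (nat_lit 1)
noncomputable def D4119 : OP := win (nat_lit 6) (nat_lit 9) (nat_lit 8) (nat_lit 0)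
noncomputable def D28728 : OP := win (nat_lit 2) (nat_lit 7) (nat_lit 12) (nat_lit 2)
noncomputable def D14112 : OP := orK (nat_lit 268) (fin (add (start D4070) D9319))
noncomputable def D4337 : OP := win (nat_lit 0) (nat_lit 7) (nat_lit 12) (nat_lit 0)
noncomputable def D4121 : OP := orK (nat_lit 189) (fin (add (start D4119) D3724))
noncomputable def D10519 : OP := win (nat_lit 0) (nat_lit 8) (nat_lit 11) (nat_lit 3)
noncomputable def D10521 : OP := orK (nat_lit 252) (fin (add (start D10519) D4352))
noncomputable def D10523 : OP := orK (nat_lit 228) (fin (add (start D4311) D10521))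
noncomputable def D26438 : OP := win (nat_lit 2) (nat_lit 8) (nat_lit 11) (nat_lit 3)
noncomputable def D26711 : AP := fin (add (start D26438) D4352)
noncomputable def D26712 : OP := orK (nat_lit 252) D26711
noncomputable def D28430 : AP := fin (add (start D4311) D26712)
noncomputable def D1897 : OP := win (nat_lit 7) (nat_lit 8) (nat_lit 8) (nat_lit 5)
noncomputable def D28304 : OP := orK (nat_lit 188) (fin (add (start D1897) D4479))
noncomputable def D12444 : OP := win (nat_lit 7) (nat_lit 11) (nat_lit 11) (nat_lit 0)
noncomputable def D29111 : OP := win (nat_lit 6) (nat_lit 11) (nat_lit 10) (nat_lit 0)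
noncomputable def D29127 : OP := orK (nat_lit 231) (fin (add (start D29111) D12444))
noncomputable def D4255 : OP := win (nat_lit 0) (nat_lit 9) (nat_lit 13) (nat_lit 5)
noncomputable def D10690 : OP := win (nat_lit 0) (nat_lit 8) (nat_lit 12) (nat_lit 0)
noncomputable def D4223 : OP := win (nat_lit 4) (nat_lit 8) (nat_lit 12) (nat_lit 0)
noncomputable def D10252 : OP := orK (nat_lit 170) (fin (add (start D148) D260))
noncomputable def D26469 : OP := orK (nat_lit 190) (fin (add (start D8) D10252))
noncomputable def D4169 : OP := win (nat_lit 1) (nat_lit 8) (nat_lit 9) (nat_lit 0)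
noncomputable def D4195 : OP := orK (nat_lit 247) D4194
noncomputable def D20273 : OP := win (nat_lit 0) (nat_lit 7) (nat_lit 11) (nat_lit 1)
noncomputable def D20258 : OP := win (nat_lit 1) (nat_lit 8) (nat_lit 9) (nat_lit 1)
noncomputable def D11242 : OP := win (nat_lit 5) (nat_lit 8) (nat_lit 12) (nat_lit 4)
noncomputable def D9445 : OP := win (nat_lit 5) (nat_lit 8) (nat_lit 12) (nat_lit 5)
noncomputable def D20278 : AP := fin (add (start D4169) D4070)
noncomputable def D20281 : OP := orK (nat_lit 268) (fin (add (start D9319) (orK (nat_lit 209) D20278)))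
noncomputable def D20285 : OP := orK (nat_lit 248) (fin (add (add (start (orK (nat_lit 227) (fin (add (start D20273) D4195)))) (orK (nat_lit 247) (fin (add (start D4017) D11250)))) (orK (nat_lit 228) (fin (add (start D4311) D20281)))))
noncomputable def D20260 : OP := orK (nat_lit 268) (fin (add (start D20258) D9319))
noncomputable def D28096 : OP := orK (nat_lit 248) (fin (add (start D6936) D20260))
noncomputable def D9887 : OP := orK (nat_lit 269) (fin (add (start D4089) D9445))
noncomputable def D9888 : AP := fin (add (start D4352) D9887)
noncomputable def D17272 : OP := orK (nat_lit 151) (fin (add (start D23) D260))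
noncomputable def D17277 : AP := fin (add (start D149) (orK (nat_lit 249) (fin (add (start D8) (orK (nat_lit 170) (fin (add (start D7) D17272)))))))
noncomputable def D26440 : OP := orK (nat_lit 228) (fin (add (start D4311) D26438))
noncomputable def D26415 : OP := orK (nat_lit 228) (fin (add (start D4311) D10519))
noncomputable def D10317 : OP := win (nat_lit 4) (nat_lit 10) (nat_lit 11) (nat_lit 5)
noncomputable def D11307 : OP := win (nat_lit 0) (nat_lit 11) (nat_lit 12) (nat_lit 5)
noncomputable def D11306 : OP := win (nat_lit 0) (nat_lit 10) (nat_lit 12) (nat_lit 4)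
noncomputable def D26452 : OP := orK (nat_lit 252) (fin (add (add (add (start (orK (nat_lit 229) (fin (add (start D4352) D26415)))) (orK (nat_lit 253) (fin (add (add (start (orK (nat_lit 274) (fin (add (start D11306) (orK (nat_lit 254) (fin (add (start D11307) D26418))))))) (orK (nat_lit 273) (fin (add (start D10315) (orK (nat_lit 233) (fin (add (start D10317) (orK (nat_lit 272) (fin (add (start (win (nat_lit 0) (nat_lit 9) (nat_lit 12) (nat_lit 0))) (orK (nat_lit 213) (fin (add (start (win (nat_lit 1) (nat_lit 12) (nat_lit 9) (nat_lit 0))) (win (nat_lit 1) (nat_lit 12) (nat_lit 10) (nat_lit 5))))))))))))))) D26435)))) (orK (nat_lit 229) (fin (add (start D4352) D26440)))) (orK (nat_lit 229) (fin (add (add (start D26415) (orK (nat_lit 249) (fin (add (start D9887) (orK (nat_lit 272) (fin (add (start D4361) (orK (nat_lit 248) (fin (add (start D4360) D6936)))))))))) D26440)))))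
noncomputable def D8918 : OP := win (nat_lit 6) (nat_lit 10) (nat_lit 8) (nat_lit 0)
noncomputable def D4059 : OP := win (nat_lit 0) (nat_lit 8) (nat_lit 11) (nat_lit 5)
noncomputable def D19597 : AP := fin (add (start D4059) D8918)
noncomputable def D26751 : OP := orK (nat_lit 170) (fin (add (start D20) D148))
noncomputable def D12407 : OP := win (nat_lit 1) (nat_lit 9) (nat_lit 12) (nat_lit 5)
noncomputable def D12406 : OP := win (nat_lit 1) (nat_lit 9) (nat_lit 11) (nat_lit 4)
noncomputable def D675 : OP := orK (nat_lit 187) (fin (add (start D666) (orK (nat_lit 211) (fin (add (start D667) D671)))))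
noncomputable def D11178 : OP := win (nat_lit 0) (nat_lit 5) (nat_lit 7) (nat_lit 0)
noncomputable def D16341 : AP := fin (add (start D11178) (win (nat_lit 0) (nat_lit 6) (nat_lit 7) (nat_lit 5)))
noncomputable def D16342 : OP := orK (nat_lit 146) D16341
noncomputable def D375 : OP := win (nat_lit 3) (nat_lit 8) (nat_lit 7) (nat_lit 0)
noncomputable def D931 : OP := win (nat_lit 3) (nat_lit 8) (nat_lit 6) (nat_lit 5)
noncomputable def D7658 : OP := win (nat_lit 6) (nat_lit 7) (nat_lit 5) (nat_lit 0)
noncomputable def D17431 : AP := fin (add (start D7658) (win (nat_lit 6) (nat_lit 7) (nat_lit 6) (nat_lit 3)))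
noncomputable def D7392 : OP := win (nat_lit 7) (nat_lit 7) (nat_lit 7) (nat_lit 0)
noncomputable def D17433 : AP := fin (add (start D7392) (orK (nat_lit 127) D17431))
noncomputable def D16996 : OP := win (nat_lit 5) (nat_lit 5) (nat_lit 7) (nat_lit 5)
noncomputable def D16999 : OP := orK (nat_lit 166) (fin (add (start D16996) (win (nat_lit 5) (nat_lit 6) (nat_lit 7) (nat_lit 4))))
noncomputable def D8309 : OP := win (nat_lit 0) (nat_lit 7) (nat_lit 7) (nat_lit 5)
noncomputable def D22704 : OP := win (nat_lit 0) (nat_lit 6) (nat_lit 7) (nat_lit 4)
noncomputable def D23454 : OP := win (nat_lit 2) (nat_lit 4) (nat_lit 6) (nat_lit 5)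
noncomputable def D23453 : OP := win (nat_lit 2) (nat_lit 5) (nat_lit 6) (nat_lit 4)
noncomputable def D925 : OP := win (nat_lit 4) (nat_lit 5) (nat_lit 7) (nat_lit 0)
noncomputable def D6461 : OP := win (nat_lit 1) (nat_lit 8) (nat_lit 5) (nat_lit 0)
noncomputable def D7202 : OP := win (nat_lit 3) (nat_lit 8) (nat_lit 6) (nat_lit 3)
noncomputable def D4620 : OP := win (nat_lit 3) (nat_lit 8) (nat_lit 7) (nat_lit 4)
noncomputable def D24069 : OP := win (nat_lit 7) (nat_lit 7) (nat_lit 6) (nat_lit 3)
noncomputable def D24072 : OP := orK (nat_lit 127) (fin (add (start D24069) (orK (nat_lit 167) D17431)))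
noncomputable def D5049 : OP := orK (nat_lit 167) (fin (add (start D2435) D5047))
noncomputable def D7183 : OP := win (nat_lit 1) (nat_lit 7) (nat_lit 8) (nat_lit 4)
noncomputable def D4630 : OP := win (nat_lit 6) (nat_lit 8) (nat_lit 9) (nat_lit 5)
noncomputable def D4629 : OP := win (nat_lit 6) (nat_lit 8) (nat_lit 8) (nat_lit 4)
noncomputable def D7404 : OP := orK (nat_lit 249) (fin (add (start D4629) D4630))
noncomputable def D4034 : OP := orK (nat_lit 227) (fin (add (start D4032) D3456))
noncomputable def D16335 : OP := win (nat_lit 7) (nat_lit 7) (nat_lit 6) (nat_lit 4)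
noncomputable def D2229 : OP := win (nat_lit 7) (nat_lit 7) (nat_lit 5) (nat_lit 5)
noncomputable def D16337 : OP := orK (nat_lit 127) (fin (add (start D2229) D16335))
noncomputable def D5641 : OP := win (nat_lit 3) (nat_lit 8) (nat_lit 5) (nat_lit 5)
noncomputable def D5642 : OP := win (nat_lit 3) (nat_lit 8) (nat_lit 6) (nat_lit 4)
noncomputable def D16358 : OP := orK (nat_lit 129) (fin (add (start D5642) (orK (nat_lit 128) (fin (add (start D5641) D16337)))))
noncomputable def D5644 : OP := win (nat_lit 6) (nat_lit 8) (nat_lit 7) (nat_lit 5)
noncomputable def D4015 : OP := win (nat_lit 7) (nat_lit 8) (nat_lit 9) (nat_lit 0)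
noncomputable def D3342 : OP := win (nat_lit 6) (nat_lit 8) (nat_lit 8) (nat_lit 3)
noncomputable def D7191 : OP := orK (nat_lit 249) (fin (add (start D3342) D4015))
noncomputable def D7192 : AP := fin (add (start D1912) D7191)
noncomputable def D10754 : OP := orK (nat_lit 229) D7192
noncomputable def D27394 : OP := orK (nat_lit 168) (fin (add (add (add (start D10754) (orK (nat_lit 148) (fin (add (start D5644) D16358)))) (orK (nat_lit 228) (fin (add (add (start (orK (nat_lit 229) (fin (add (start D1913) D4034)))) (orK (nat_lit 248) (fin (add (start D7404) D5049)))) (orK (nat_lit 248) (fin (add (start (orK (nat_lit 247) (fin (add (start D7183) D3746)))) D5049))))))) (orK (nat_lit 147) (fin (add (add (add (start D24072) (orK (nat_lit 149) (fin (add (add (add (start (orK (nat_lit 228) (fin (add (start D4620) D4622)))) (orK (nat_lit 129) (fin (add (start D7202) (orK (nat_lit 169) (fin (add (start D6461) D375))))))) (orK (nat_lit 148) (fin (add (start D931) (orK (nat_lit 167) (fin (add (start D7392) (orK (nat_lit 166) (fin (add (start D925) (win (nat_lit 5) (nat_lit 6) (nat_lit 7) (nat_lit 0)))))))))))) (orK (nat_lit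 148) (fin (add (start D931) (orK (nat_lit 146) (fin (add (add (start (orK (nat_lit 169) D16341)) (orK (nat_lit 125) (fin (add (start D23453) (orK (nat_lit 145) (fin (add (start D23454) (orK (nat_lit 165) (fin (add (start (win (nat_lit 5) (nat_lit 4) (nat_lit 7) (nat_lit 5))) (win (nat_lit 5) (nat_lit 5) (nat_lit 7) (nat_lit 4)))))))))))) (orK (nat_lit 170) (fin (add (start D22704) (orK (nat_lit 150) (fin (add (start D8309) D16999)))))))))))))))) (orK (nat_lit 167) D17433)) (orK (nat_lit 148) (fin (add (start D4621) (orK (nat_lit 149) (fin (add (start D931) (orK (nat_lit 169) (fin (add (start D375) D16342))))))))))))))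
noncomputable def D3274 : OP := win (nat_lit 0) (nat_lit 5) (nat_lit 9) (nat_lit 0)
noncomputable def D3276 : AP := fin (add (start D3274) (win (nat_lit 0) (nat_lit 6) (nat_lit 9) (nat_lit 3)))
noncomputable def D3323 : OP := orK (nat_lit 186) D3276
noncomputable def D3324 : AP := fin (add (start D3315) D3323)
noncomputable def D9049 : OP := orK (nat_lit 187) D3324
noncomputable def D27400 : OP := orK (nat_lit 208) (fin (add (add (add (start D4927) D15721) (orK (nat_lit 188) (fin (add (add (start D9049) D27394) D2554)))) (orK (nat_lit 207) (fin (add (start D2449) D675)))))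
noncomputable def D4338 : OP := win (nat_lit 2) (nat_lit 8) (nat_lit 12) (nat_lit 0)
noncomputable def D4340 : OP := orK (nat_lit 248) (fin (add (start D4337) D4338))
noncomputable def D7061 : OP := win (nat_lit 7) (nat_lit 9) (nat_lit 10) (nat_lit 4)
noncomputable def D12079 : OP := orK (nat_lit 291) (fin (add (start D7023) (orK (nat_lit 290) (fin (add (start D7024) D7061)))))
noncomputable def D9837 : OP := orK (nat_lit 289) (fin (add (start D7021) (orK (nat_lit 290) (fin (add (start D7022) D7061)))))
noncomputable def D12996 : OP := orK (nat_lit 270) (fin (add (add (start D9837) D12079) (orK (nat_lit 269) (fin (add (start D614) (orK (nat_lit 249) (fin (add (start D8893) (orK (nat_lit 271) (fin (add (start D628) D4340)))))))))))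
noncomputable def D15912 : OP := orK (nat_lit 290) (fin (add (start D15909) (win (nat_lit 3) (nat_lit 10) (nat_lit 11) (nat_lit 0))))
noncomputable def D7030 : OP := orK (nat_lit 289) (fin (add (start D7021) (orK (nat_lit 290) (fin (add (start D7022) D7026)))))
noncomputable def D12571 : OP := orK (nat_lit 251) D12570
noncomputable def D12568 : OP := orK (nat_lit 291) (fin (add (start D12278) (orK (nat_lit 251) D12565)))
noncomputable def D7063 : OP := orK (nat_lit 209) (fin (add (start D4218) D7061))
noncomputable def D4276 : OP := win (nat_lit 4) (nat_lit 9) (nat_lit 12) (nat_lit 5)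
noncomputable def D7046 : OP := win (nat_lit 4) (nat_lit 8) (nat_lit 12) (nat_lit 4)
noncomputable def D7048 : OP := orK (nat_lit 252) (fin (add (start D7046) D4276))
noncomputable def D7045 : OP := win (nat_lit 2) (nat_lit 8) (nat_lit 12) (nat_lit 4)
noncomputable def D7044 : OP := win (nat_lit 2) (nat_lit 7) (nat_lit 12) (nat_lit 5)
noncomputable def D7037 : OP := win (nat_lit 5) (nat_lit 7) (nat_lit 13) (nat_lit 4)
noncomputable def D7036 : OP := win (nat_lit 5) (nat_lit 6) (nat_lit 13) (nat_lit 5)
noncomputable def D7039 : OP := orK (nat_lit 287) (fin (add (start D7036) D7037))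
noncomputable def D7035 : OP := win (nat_lit 2) (nat_lit 6) (nat_lit 12) (nat_lit 5)
noncomputable def D7040 : AP := fin (add (start D7035) D7039)
noncomputable def D7034 : OP := win (nat_lit 2) (nat_lit 7) (nat_lit 12) (nat_lit 4)
noncomputable def D7031 : OP := win (nat_lit 4) (nat_lit 8) (nat_lit 12) (nat_lit 5)
noncomputable def D4314 : OP := win (nat_lit 4) (nat_lit 7) (nat_lit 12) (nat_lit 0)
noncomputable def D7058 : OP := orK (nat_lit 269) (fin (add (start D614) (orK (nat_lit 271) (fin (add (start D628) (orK (nat_lit 268) (fin (add (add (start (orK (nat_lit 251) (fin (add (start D4314) D7031)))) (orK (nat_lit 247) (fin (add (start D7034) (orK (nat_lit 267) D7040))))) (orK (nat_lit 248) (fin (add (start D7044) (orK (nat_lit 272) (fin (add (start D7045) D7048))))))))))))))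
noncomputable def D7073 : OP := orK (nat_lit 270) (fin (add (add (add (start D7030) (orK (nat_lit 189) (fin (add (start D3105) D7058)))) (orK (nat_lit 291) (fin (add (start D7023) (orK (nat_lit 290) (fin (add (start D7024) D7063))))))) (orK (nat_lit 289) (fin (add (start D7021) (orK (nat_lit 290) (fin (add (start D7022) D7063))))))))
noncomputable def D29726 : AP := fin (add (add (add (add (add (add (add (add (add (start (orK (nat_lit 251) (fin (add (add (start D26452) D29507) (orK (nat_lit 249) (fin (add (start D12585) D26467))))))) D7073) (orK (nat_lit 271) (fin (add (add (add (start (orK (nat_lit 270) (fin (add (start D628) D26481)))) D12568) D12571) (orK (nat_lit 190) (fin (add (start D627) D14508))))))) (orK (nat_lit 189) (fin (add (add (start D14430) (orK (nat_lit 270) (fin (add (start D3105) (orK (nat_lit 289) (fin (add (start D7021) (orK (nat_lit 290) (fin (add (start D7022) (orK (nat_lit 231) (fin (add (start D15909) D7026))))))))))))) (orK (nat_lit 190) (fin (add (start D3476) (orK (nat_lit 270) (fin (add (add (add (start D630) D7030) D29531) (orK (nat_lit 251) (fin (add (start D149) (orK (nat_lit 231)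 (fin (add (start D8918) D15912)))))))))))))))) (orK (nat_lit 209) (fin (add (add (start D12996) D9805) D27400)))) (orK (nat_lit 189) (fin (add (add (start D14430) (orK (nat_lit 270) (fin (add (start D3105) (orK (nat_lit 291) (fin (add (start D7023) (orK (nat_lit 290) (fin (add (start D7024) (orK (nat_lit 309) (fin (add (start D12406) (orK (nat_lit 310) (fin (add (start D12407) (orK (nat_lit 231) (fin (add (start D15909) D12303))))))))))))))))))) (orK (nat_lit 190) (fin (add (start D3476) (orK (nat_lit 251) (fin (add (start D149) (orK (nat_lit 229) (fin (add (add (add (start D26751) (orK (nat_lit 228) (fin (add (start D4311) (orK (nat_lit 252) (fin (add (start D10519) D26438))))))) (orK (nat_lit 228) (fin (add (start D4311) (orK (nat_lit 249) (fin (add (start D8934) D9682))))))) (orK (nat_lit 228) (fin (add (start D4311) (orK (nat_lit 231) D19597))))))))))))))))) (orK (nat_lit 251) (fin (add (add (add (start D26413) D26452) (orK (nat_lit 190) D17277)) (orK (nat_lit 249) (fin (add (add (add (start D8899) (orK (nat_lit 252) (fin (add (add (start D10313) (orK (nat_lit 268) (fin (add (start D11242) (orK (nat_lit 248)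 (fin (add (start D9319) (orK (nat_lit 227) (fin (add (start D11237) (orK (nat_lit 247) (fin (add (start D4193) D4094))))))))))))) (orK (nat_lit 229) D9888))))) D26469) (orK (nat_lit 229) (fin (add (add (start D9684) (orK (nat_lit 190) (fin (add (start D8934) (orK (nat_lit 189) (fin (add (start D3476) (orK (nat_lit 252) (fin (add (start D4352) (orK (nat_lit 272) (fin (add (start D4361) D28096))))))))))))) D20285)))))))))) D29607) (orK (nat_lit 251) (fin (add (add (add (start (orK (nat_lit 249) (fin (add (add (add (start (orK (nat_lit 269) (fin (add (start D8893) (orK (nat_lit 252) (fin (add (start D9445) D10313))))))) (orK (nat_lit 229) (fin (add (add (start D9684) (orK (nat_lit 252) (fin (add (start D4352) (orK (nat_lit 268) (fin (add (start D11242) (orK (nat_lit 248) (fin (add (start D9319) (orK (nat_lit 189) (fin (add (start D20258) D6936))))))))))))) (orK (nat_lit 227) (fin (add (start D20273) (orK (nat_lit 248) (fin (add (start D4195) (orK (nat_lit 268) (fin (add (start D9319) (orK (nat_lit 209) (fin (add (start D4169) (orK (nat_lit 288) (fin (add (start (win (nat_lit 1) (nat_lit 8) (nat_lit 10) (nat_lit 3)))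 D12180))))))))))))))))))) D26469) D29640)))) (orK (nat_lit 271) (fin (add (add (start D29505) D12569) (orK (nat_lit 229) (fin (add (add (add (start (orK (nat_lit 209) (fin (add (add (start D4121) (orK (nat_lit 270) (fin (add (start D4122) (orK (nat_lit 252) (fin (add (start D4352) (orK (nat_lit 269) (fin (add (start D4223) (orK (nat_lit 272) (fin (add (start (orK (nat_lit 249) (fin (add (start D10690) D4361)))) (orK (nat_lit 292) (fin (add (start D4255) D29127)))))))))))))))) (orK (nat_lit 253) (fin (add (start (win (nat_lit 2) (nat_lit 9) (nat_lit 11) (nat_lit 1))) (orK (nat_lit 189) (fin (add (start D4119) (orK (nat_lit 249) (fin (add (start (orK (nat_lit 248) (fin (add (start D4370) D4016)))) D28304))))))))))))) (orK (nat_lit 228) D28430)) D10523) (orK (nat_lit 228) (fin (add (start D4311) (orK (nat_lit 209) (fin (add (add (start D4121) (orK (nat_lit 211) (fin (add (start D1911) (orK (nat_lit 270) (fin (add (start D4122) (orK (nat_lit 248) (fin (add (add (start (orK (nat_lit 249) (fin (add (start D4337) D4370)))) (orK (nat_lit 249) (fin (add (start D4370) D14112)))) (orK (nat_lit 247) (fin (add (start D5116)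 (orK (nat_lit 268) (fin (add (start D28728) D4070)))))))))))))))) (orK (nat_lit 189) (fin (add (start D4119) (orK (nat_lit 212) (fin (add (start D7838) (orK (nat_lit 248) (fin (add (start D27677) D13790)))))))))))))))))))))) D29507) D26413)))) (orK (nat_lit 249) (fin (add (add (add (start (orK (nat_lit 251) (fin (add (add (add (start (orK (nat_lit 190) (fin (add (start D149) (orK (nat_lit 170) (fin (add (start D7) D148))))))) D11266) (orK (nat_lit 271) D12588)) D29640)))) (orK (nat_lit 269) (fin (add (add (start D12292) D8897) (orK (nat_lit 248) (fin (add (add (start (orK (nat_lit 251) (fin (add (add (start D9459) D15363) (orK (nat_lit 268) (fin (add (start D9319) (orK (nat_lit 271) (fin (add (start D4370) (orK (nat_lit 228) (fin (add (start D9443) (orK (nat_lit 208) (fin (add (start D4371) (orK (nat_lit 209) (fin (add (start D3297) (orK (nat_lit 207) (fin (add (start D2449) D10065)))))))))))))))))))))) (orK (nat_lit 247) (fin (add (start D4094) (orK (nat_lit 270) (fin (add (start D29144) D10085))))))) D26285))))))) D12585) D8899))))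
noncomputable def D6423 : OP := win (nat_lit 2) (nat_lit 5) (nat_lit 7) (nat_lit 4)
noncomputable def D6424 : OP := win (nat_lit 2) (nat_lit 4) (nat_lit 7) (nat_lit 5)
noncomputable def D25786 : OP := orK (nat_lit 145) (fin (add (start D6424) D6423))
noncomputable def D5799 : OP := win (nat_lit 0) (nat_lit 5) (nat_lit 8) (nat_lit 5)
noncomputable def D2583 : OP := win (nat_lit 5) (nat_lit 5) (nat_lit 8) (nat_lit 5)
noncomputable def D2584 : OP := win (nat_lit 5) (nat_lit 6) (nat_lit 8) (nat_lit 4)
noncomputable def D374 : OP := win (nat_lit 0) (nat_lit 8) (nat_lit 8) (nat_lit 5)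
noncomputable def D27260 : OP := orK (nat_lit 191) (fin (add (start D374) D4886))
noncomputable def D119 : OP := win (nat_lit 4) (nat_lit 8) (nat_lit 7) (nat_lit 5)
noncomputable def D27261 : AP := fin (add (start D119) D27260)
noncomputable def D27565 : OP := orK (nat_lit 171) D27261
noncomputable def D2818 : OP := win (nat_lit 4) (nat_lit 7) (nat_lit 7) (nat_lit 4)
noncomputable def D27567 : OP := orK (nat_lit 151) (fin (add (start D2818) D27565))
noncomputable def D12842 : OP := win (nat_lit 5) (nat_lit 6) (nat_lit 8) (nat_lit 0)
noncomputable def D2644 : OP := win (nat_lit 4) (nat_lit 5) (nat_lit 8) (nat_lit 0)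
noncomputable def D28838 : OP := orK (nat_lit 186) (fin (add (start D2644) D12842))
noncomputable def D4027 : OP := win (nat_lit 7) (nat_lit 7) (nat_lit 8) (nat_lit 0)
noncomputable def D20774 : OP := win (nat_lit 6) (nat_lit 8) (nat_lit 10) (nat_lit 4)
noncomputable def D28931 : OP := orK (nat_lit 169) (fin (add (add (add (start (orK (nat_lit 149) (fin (add (start D319) (orK (nat_lit 189) (fin (add (start D318) D317))))))) (orK (nat_lit 248) (fin (add (start D2537) (orK (nat_lit 267) (fin (add (start D2527) (orK (nat_lit 268) (fin (add (start D2528) (orK (nat_lit 289) (fin (add (start D20774) D26876))))))))))))) (orK (nat_lit 168) (fin (add (start D2538) (orK (nat_lit 167) (fin (add (start D2435) (orK (nat_lit 187) (fin (add (start D4027) D28838)))))))))) (orK (nat_lit 168) (fin (add (start D2538) (orK (nat_lit 167) (fin (add (start D2435) (orK (nat_lit 170) (fin (add (start D27567) (orK (nat_lit 186) (fin (add (start D2584) (orK (nat_lit 166) (fin (add (start D2583) (orK (nat_lit 165) (fin (add (start D5799) D25786))))))))))))))))))))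
noncomputable def D4628 : OP := orK (nat_lit 149) (fin (add (start D4620) (orK (nat_lit 148) (fin (add (start D931) D4624)))))
noncomputable def D20775 : OP := win (nat_lit 6) (nat_lit 8) (nat_lit 11) (nat_lit 5)
noncomputable def D20777 : OP := orK (nat_lit 289) (fin (add (start D20774) D20775))
noncomputable def D9712 : OP := win (nat_lit 6) (nat_lit 9) (nat_lit 8) (nat_lit 1)
noncomputable def D29448 : OP := orK (nat_lit 250) (fin (add (start D3027) (orK (nat_lit 168) (fin (add (start D1912) (orK (nat_lit 169) (fin (add (start D2538) D9712))))))))
noncomputable def D28476 : OP := win (nat_lit 0) (nat_lit 6) (nat_lit 10) (nat_lit 1)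
noncomputable def D5139 : OP := orK (nat_lit 167) (fin (add (start D4027) (orK (nat_lit 147) D5136)))
noncomputable def D5141 : OP := orK (nat_lit 187) (fin (add (start D5115) D5139))
noncomputable def D4767 : OP := win (nat_lit 3) (nat_lit 11) (nat_lit 8) (nat_lit 4)
noncomputable def D5988 : OP := win (nat_lit 3) (nat_lit 11) (nat_lit 7) (nat_lit 5)
noncomputable def D7985 : OP := orK (nat_lit 172) (fin (add (start D5988) D4767))
noncomputable def D6178 : OP := win (nat_lit 1) (nat_lit 10) (nat_lit 9) (nat_lit 4)
noncomputable def D4755 : OP := win (nat_lit 1) (nat_lit 10) (nat_lit 10) (nat_lit 5)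
noncomputable def D4221 : OP := win (nat_lit 7) (nat_lit 10) (nat_lit 10) (nat_lit 0)
noncomputable def D28399 : OP := orK (nat_lit 271) (fin (add (start D4221) (orK (nat_lit 270) (fin (add (start D4755) (orK (nat_lit 191) (fin (add (start D6178) (orK (nat_lit 171) (fin (add (start D3782) D7985)))))))))))
noncomputable def D28401 : OP := orK (nat_lit 251) (fin (add (start D4059) D28399))
noncomputable def D28403 : OP := orK (nat_lit 231) (fin (add (start D515) D28401))
noncomputable def D5744 : OP := win (nat_lit 3) (nat_lit 9) (nat_lit 7) (nat_lit 5)
noncomputable def D5983 : AP := fin (add (start D4452) D3027)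
noncomputable def D5984 : OP := orK (nat_lit 250) D5983
noncomputable def D5985 : AP := fin (add (start D3782) D5984)
noncomputable def D8857 : OP := orK (nat_lit 171) D5985
noncomputable def D8290 : OP := orK (nat_lit 188) (fin (add (start D450) (orK (nat_lit 208) (fin (add (start D451) D2513)))))
noncomputable def D281 : OP := win (nat_lit 4) (nat_lit 9) (nat_lit 7) (nat_lit 5)
noncomputable def D6822 : AP := fin (add (start D1160) D281)
noncomputable def D280 : OP := win (nat_lit 4) (nat_lit 8) (nat_lit 7) (nat_lit 4)
noncomputable def D28379 : OP := orK (nat_lit 189) (fin (add (start D439) (orK (nat_lit 169) (fin (add (start D3722) (orK (nat_lit 192) (fin (add (start D845) (orK (nat_lit 168) (fin (add (start D3044) (orK (nat_lit 170) (fin (add (start D5744) (orK (nat_lit 171) (fin (add (start D241) (orK (nat_lit 152) (fin (add (start D280) (orK (nat_lit 172) D6822)))))))))))))))))))))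
noncomputable def D26583 : OP := orK (nat_lit 188) (fin (add (start D450) (orK (nat_lit 208) (fin (add (start D451) D9679)))))
noncomputable def D28387 : OP := orK (nat_lit 212) (fin (add (start D3729) (orK (nat_lit 209) (fin (add (add (add (start D26583) D28379) D28383) D8290)))))
noncomputable def D3735 : OP := orK (nat_lit 187) (fin (add (start D1890) D1889))
noncomputable def D4103 : OP := win (nat_lit 6) (nat_lit 9) (nat_lit 10) (nat_lit 5)
noncomputable def D12140 : AP := fin (add (start D4089) D4103)
noncomputable def D13694 : OP := orK (nat_lit 269) D12140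
noncomputable def D3744 : OP := win (nat_lit 7) (nat_lit 9) (nat_lit 9) (nat_lit 1)
noncomputable def D19035 : OP := win (nat_lit 0) (nat_lit 8) (nat_lit 13) (nat_lit 5)
noncomputable def D28647 : AP := fin (add (start D19035) (orK (nat_lit 251) (fin (add (start D7031) D12559))))
noncomputable def D29136 : OP := orK (nat_lit 291) D28647
noncomputable def D4243 : OP := win (nat_lit 4) (nat_lit 10) (nat_lit 12) (nat_lit 5)
noncomputable def D4242 : OP := win (nat_lit 4) (nat_lit 9) (nat_lit 12) (nat_lit 4)
noncomputable def D4245 : OP := orK (nat_lit 253) (fin (add (start D4242) D4243))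
noncomputable def D4239 : OP := win (nat_lit 0) (nat_lit 10) (nat_lit 13) (nat_lit 5)
noncomputable def D4238 : OP := win (nat_lit 0) (nat_lit 9) (nat_lit 13) (nat_lit 4)
noncomputable def D28579 : OP := orK (nat_lit 293) (fin (add (start D4238) (orK (nat_lit 273) (fin (add (start D4239) D4245)))))
noncomputable def D4248 : OP := win (nat_lit 5) (nat_lit 8) (nat_lit 13) (nat_lit 5)
noncomputable def D28719 : OP := win (nat_lit 3) (nat_lit 9) (nat_lit 10) (nat_lit 2)
noncomputable def D3691 : OP := win (nat_lit 6) (nat_lit 11) (nat_lit 9) (nat_lit 0)
noncomputable def D6855 : OP := win (nat_lit 6) (nat_lit 11) (nat_lit 10) (nat_lit 5)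
noncomputable def D28611 : OP := orK (nat_lit 272) (fin (add (start D6855) (orK (nat_lit 252) (fin (add (start D4276) D3691)))))
noncomputable def D28613 : OP := orK (nat_lit 231) (fin (add (start D4221) D28611))
noncomputable def D4230 : OP := win (nat_lit 0) (nat_lit 9) (nat_lit 13) (nat_lit 3)
noncomputable def D4229 : OP := win (nat_lit 0) (nat_lit 8) (nat_lit 13) (nat_lit 0)
noncomputable def D29391 : OP := orK (nat_lit 291) (fin (add (start D12559) (orK (nat_lit 292) (fin (add (start D4229) (orK (nat_lit 293) (fin (add (start D4230) (win (nat_lit 2) (nat_lit 10) (nat_lit 13) (nat_lit 0))))))))))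
noncomputable def D4269 : OP := win (nat_lit 4) (nat_lit 9) (nat_lit 12) (nat_lit 3)
noncomputable def D28565 : OP := orK (nat_lit 252) (fin (add (start D4223) (orK (nat_lit 253) (fin (add (start D4269) (win (nat_lit 5) (nat_lit 10) (nat_lit 12) (nat_lit 0)))))))
noncomputable def D28664 : AP := fin (add (start D7031) (orK (nat_lit 291) (fin (add (start D19035) D12559))))
noncomputable def D29360 : OP := orK (nat_lit 268) D28664
noncomputable def D29203 : OP := win (nat_lit 5) (nat_lit 8) (nat_lit 13) (nat_lit 0)
noncomputable def D29209 : OP := orK (nat_lit 288) (fin (add (start D29203) (orK (nat_lit 287) (fin (add (start (win (nat_lit 4) (nat_lit 6) (nat_lit 13) (nat_lit 0))) (win (nat_lit 5) (nat_lit 7) (nat_lit 13) (nat_lit 3)))))))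
noncomputable def D19008 : OP := win (nat_lit 4) (nat_lit 5) (nat_lit 13) (nat_lit 0)
noncomputable def D19007 : OP := win (nat_lit 5) (nat_lit 7) (nat_lit 13) (nat_lit 0)
noncomputable def D28277 : OP := win (nat_lit 1) (nat_lit 8) (nat_lit 10) (nat_lit 2)
noncomputable def D19043 : OP := orK (nat_lit 286) (fin (add (start (win (nat_lit 5) (nat_lit 5) (nat_lit 13) (nat_lit 5))) (win (nat_lit 5) (nat_lit 6) (nat_lit 13) (nat_lit 4))))
noncomputable def D19028 : OP := win (nat_lit 2) (nat_lit 5) (nat_lit 12) (nat_lit 5)
noncomputable def D19029 : OP := win (nat_lit 2) (nat_lit 6) (nat_lit 12) (nat_lit 4)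
noncomputable def D28642 : OP := orK (nat_lit 246) (fin (add (start D19029) (orK (nat_lit 266) (fin (add (start D19028) D19043)))))
noncomputable def D19034 : OP := win (nat_lit 0) (nat_lit 7) (nat_lit 13) (nat_lit 4)
noncomputable def D28644 : OP := orK (nat_lit 267) (fin (add (start D19034) D28642))
noncomputable def D28659 : OP := orK (nat_lit 268) (fin (add (add (start (orK (nat_lit 249) (fin (add (start D1899) D4103)))) (orK (nat_lit 291) (fin (add (start D28644) (orK (nat_lit 271) D28647))))) (orK (nat_lit 288) (fin (add (start D28277) (orK (nat_lit 287) (fin (add (start D19007) (orK (nat_lit 286) (fin (add (start D19008) (win (nat_lit 5) (nat_lit 6) (nat_lit 13) (nat_lit 3)))))))))))))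
noncomputable def D4251 : OP := orK (nat_lit 289) (fin (add (start D4248) (win (nat_lit 5) (nat_lit 9) (nat_lit 13) (nat_lit 4))))
noncomputable def D4241 : OP := orK (nat_lit 293) (fin (add (start D4238) D4239))
noncomputable def D4253 : OP := orK (nat_lit 273) (fin (add (start D4241) D4251))
noncomputable def D4247 : OP := orK (nat_lit 273) (fin (add (start D4241) D4245))
noncomputable def D4259 : OP := win (nat_lit 5) (nat_lit 8) (nat_lit 13) (nat_lit 4)
noncomputable def D4258 : OP := win (nat_lit 5) (nat_lit 7) (nat_lit 13) (nat_lit 5)
noncomputable def D4261 : OP := orK (nat_lit 288) (fin (add (start D4258) D4259))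
noncomputable def D29097 : AP := fin (add (start D7048) D4261)
noncomputable def D29141 : OP := orK (nat_lit 272) (fin (add (add (start (orK (nat_lit 268) D29097)) D4247) D4253))
noncomputable def D6914 : AP := fin (add (start D4059) D4221)
noncomputable def D4538 : OP := win (nat_lit 1) (nat_lit 11) (nat_lit 12) (nat_lit 5)
noncomputable def D28599 : OP := orK (nat_lit 312) (fin (add (start (win (nat_lit 7) (nat_lit 11) (nat_lit 12) (nat_lit 0))) (orK (nat_lit 311) (fin (add (start D4538) (orK (nat_lit 313) (fin (add (start (win (nat_lit 6) (nat_lit 12) (nat_lit 12) (nat_lit 5))) (orK (nat_lit 290) (fin (add (start (win (nat_lit 0) (nat_lit 9) (nat_lit 14) (nat_lit 2))) (win (nat_lit 2) (nat_lit 9) (nat_lit 14) (nat_lit 3)))))))))))))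
noncomputable def D28587 : OP := orK (nat_lit 253) (fin (add (start D4242) (orK (nat_lit 273) (fin (add (start D4243) D4251)))))
noncomputable def D28583 : OP := orK (nat_lit 293) (fin (add (start D4238) (orK (nat_lit 273) (fin (add (start D4239) D4251)))))
noncomputable def D19031 : OP := orK (nat_lit 246) (fin (add (start D19028) D19029))
noncomputable def D19024 : OP := win (nat_lit 0) (nat_lit 6) (nat_lit 13) (nat_lit 4)
noncomputable def D4756 : AP := fin (add (start D4755) D4221)
noncomputable def D28575 : OP := orK (nat_lit 231) D4756
noncomputable def D19025 : OP := win (nat_lit 0) (nat_lit 7) (nat_lit 13) (nat_lit 5)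
noncomputable def D4254 : OP := win (nat_lit 0) (nat_lit 8) (nat_lit 13) (nat_lit 4)
noncomputable def D4257 : OP := orK (nat_lit 292) (fin (add (start D4254) D4255))
noncomputable def D29317 : OP := win (nat_lit 0) (nat_lit 6) (nat_lit 13) (nat_lit 5)
noncomputable def D4786 : OP := orK (nat_lit 191) (fin (add (start D374) D3782))
noncomputable def D12141 : OP := orK (nat_lit 249) D12140
noncomputable def D4284 : AP := fin (add (start D4218) D4122)
noncomputable def D4285 : OP := orK (nat_lit 250) D4284
noncomputable def D11856 : AP := fin (add (start D3104) D4122)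
noncomputable def D28559 : OP := orK (nat_lit 250) D11856
noncomputable def D28389 : OP := orK (nat_lit 191) (fin (add (start D342) D8857))
noncomputable def D2742 : OP := orK (nat_lit 152) (fin (add (start D2726) D281))
noncomputable def D357 : OP := win (nat_lit 0) (nat_lit 8) (nat_lit 8) (nat_lit 0)
noncomputable def D79 : OP := win (nat_lit 4) (nat_lit 8) (nat_lit 9) (nat_lit 0)
noncomputable def D24512 : OP := orK (nat_lit 208) (fin (add (start D342) D9679))
noncomputable def D11857 : OP := orK (nat_lit 270) D11856
noncomputable def D28953 : OP := orK (nat_lit 250) (fin (add (add (start D11857) D4121) (orK (nat_lit 169) (fin (add (start D9712) (orK (nat_lit 191) (fin (add (add (start D4454) D24512) (orK (nat_lit 192) (fin (add (start D79) (orK (nat_lit 171) (fin (add (start D3782) (orK (nat_lit 170) (fin (add (start D357) (orK (nat_lit 172) (fin (add (start D240) D2742))))))))))))))))))))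
noncomputable def D29437 : AP := fin (add (add (add (add (start (orK (nat_lit 208) (fin (add (start D9679) (orK (nat_lit 188) (fin (add (start D1915) D9049))))))) D28953) (orK (nat_lit 208) (fin (add (start D28389) D8216)))) (orK (nat_lit 270) (fin (add (add (add (start (orK (nat_lit 250) (fin (add (start D3104) D4218)))) D28559) D4285) (orK (nat_lit 269) (fin (add (add (add (start D12141) (orK (nat_lit 189) (fin (add (start (orK (nat_lit 169) (fin (add (start D3722) (orK (nat_lit 170) (fin (add (start D5744) (orK (nat_lit 168) (fin (add (start D3044) (orK (nat_lit 171) (fin (add (start D4786) (orK (nat_lit 188) (fin (add (start D117) D2130)))))))))))))))) (orK (nat_lit 271) (fin (add (add (add (add (add (start (orK (nat_lit 251) (fin (add (start D28575) D28565)))) (orK (nat_lit 268) (fin (add (add (add (start (orK (nat_lit 292) (fin (add (start D4254) (orK (nat_lit 272) (fin (add (start D4255) D4261))))))) (orK (nat_lit 267) (fin (add (add (add (start D7039) (orK (nat_lit 288) (fin (add (start D4258) (orK (nat_lit 289) (fin (add (start D29203) (orK (nat_lit 266) (fin (add (start (win (nat_lit 0) (nat_lit 5) (nat_lit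 13) (nat_lit 0))) D29317)))))))))) (orK (nat_lit 246) (fin (add (start D19029) (orK (nat_lit 266) (fin (add (start D19028) (orK (nat_lit 289) (fin (add (start D29317) (orK (nat_lit 265) (fin (add (start (win (nat_lit 0) (nat_lit 5) (nat_lit 13) (nat_lit 4))) (orK (nat_lit 285) (fin (add (start (win (nat_lit 5) (nat_lit 4) (nat_lit 13) (nat_lit 5))) (win (nat_lit 5) (nat_lit 5) (nat_lit 13) (nat_lit 4)))))))))))))))))) D28642)))) (orK (nat_lit 272) (fin (add (add (start D4257) (orK (nat_lit 289) (fin (add (start D4248) (orK (nat_lit 290) (fin (add (start (win (nat_lit 5) (nat_lit 9) (nat_lit 13) (nat_lit 0))) (orK (nat_lit 267) (fin (add (start (win (nat_lit 0) (nat_lit 6) (nat_lit 13) (nat_lit 0))) D19025)))))))))) D28583)))) (orK (nat_lit 291) (fin (add (start D19035) D28644))))))) (orK (nat_lit 251) (fin (add (add (add (start D28575) (orK (nat_lit 268) (fin (add (start D7031) (orK (nat_lit 291) (fin (add (start D19035) (orK (nat_lit 267) (fin (add (start D19034) (orK (nat_lit 247) D7040))))))))))) D29360) (orK (nat_lit 290) (fin (add (start (win (nat_lit 1) (nat_lit 10) (nat_lit 10) (nat_lit 1))) (orK (nat_lit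 268) (fin (add (start D7031) (orK (nat_lit 287) (fin (add (start D7037) (orK (nat_lit 267) (fin (add (start D7036) (orK (nat_lit 266) (fin (add (start D19024) D19031))))))))))))))))))) (orK (nat_lit 272) (fin (add (add (add (start D28579) D28583) D28587) (orK (nat_lit 289) (fin (add (start D4248) (orK (nat_lit 252) (fin (add (start D4276) (orK (nat_lit 251) (fin (add (start D10519) (orK (nat_lit 292) (fin (add (start D4255) D28599)))))))))))))))) (orK (nat_lit 251) (fin (add (add (start (orK (nat_lit 231) D6914)) D28565) D29391)))) D29141))))))) D28659) (orK (nat_lit 271) (fin (add (add (add (start (orK (nat_lit 289) (fin (add (start D28719) D29209)))) (orK (nat_lit 251) (fin (add (add (add (start D29360) D28565) D29391) D28613)))) (orK (nat_lit 289) (fin (add (start D28719) (orK (nat_lit 272) (fin (add (start D4248) D28579))))))) (orK (nat_lit 249) (fin (add (start D4089) (orK (nat_lit 268) (fin (add (start D1899) D29136)))))))))))))))) (orK (nat_lit 189) (fin (add (add (start D4011) (orK (nat_lit 270) (fin (add (start D3744) (orK (nat_lit 188) (fin (add (start (orK (nat_lit 249) (fin (add (start D1897) D13694))))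 D3735))))))) (orK (nat_lit 169) (fin (add (start D3722) (orK (nat_lit 168) (fin (add (start D3044) (orK (nat_lit 188) (fin (add (start D4012) D3735)))))))))))))
noncomputable def D5101 : OP := win (nat_lit 4) (nat_lit 6) (nat_lit 10) (nat_lit 4)
noncomputable def D28311 : OP := win (nat_lit 0) (nat_lit 6) (nat_lit 11) (nat_lit 4)
noncomputable def D28313 : OP := orK (nat_lit 226) (fin (add (start D28311) D5101))
noncomputable def D28315 : OP := orK (nat_lit 250) (fin (add (start D4140) D28313))
noncomputable def D28323 : OP := orK (nat_lit 227) (fin (add (start D4471) D28315))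
noncomputable def D5098 : OP := orK (nat_lit 211) D5097
noncomputable def D5100 : OP := win (nat_lit 2) (nat_lit 5) (nat_lit 10) (nat_lit 5)
noncomputable def D5099 : OP := win (nat_lit 2) (nat_lit 6) (nat_lit 10) (nat_lit 4)
noncomputable def D5105 : OP := orK (nat_lit 206) (fin (add (start D5099) (orK (nat_lit 226) (fin (add (start D5100) D5101)))))
noncomputable def D5155 : OP := win (nat_lit 2) (nat_lit 7) (nat_lit 10) (nat_lit 4)
noncomputable def D4060 : OP := win (nat_lit 0) (nat_lit 7) (nat_lit 11) (nat_lit 4)
noncomputable def D28417 : OP := orK (nat_lit 227) (fin (add (add (start D28315) (orK (nat_lit 251) (fin (add (start D4060) (orK (nat_lit 231) (fin (add (start D4059) (orK (nat_lit 207) (fin (add (start D5156) D5155)))))))))) D5105))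
noncomputable def D26894 : OP := orK (nat_lit 211) D8228
noncomputable def D5110 : OP := win (nat_lit 6) (nat_lit 8) (nat_lit 9) (nat_lit 3)
noncomputable def D3355 : OP := win (nat_lit 6) (nat_lit 8) (nat_lit 8) (nat_lit 0)
noncomputable def D5114 : OP := orK (nat_lit 249) (fin (add (start D3355) (orK (nat_lit 269) (fin (add (start D4089) D5110)))))
noncomputable def D5108 : AP := fin (add (start D451) D1915)
noncomputable def D5109 : OP := orK (nat_lit 209) D5108
noncomputable def D5143 : OP := orK (nat_lit 188) (fin (add (add (start D5109) D5114) D5141))
noncomputable def D15568 : OP := orK (nat_lit 248) (fin (add (start D3847) (orK (nat_lit 271) (fin (add (start D4221) (orK (nat_lit 272) (fin (add (start (win (nat_lit 0) (nat_lit 8) (nat_lit 12) (nat_lit 1))) D6855))))))))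
noncomputable def D5124 : OP := orK (nat_lit 188) (fin (add (add (start D5109) D5114) (orK (nat_lit 187) (fin (add (start D5115) (orK (nat_lit 248) (fin (add (start D3316) D5118))))))))
noncomputable def D28704 : OP := orK (nat_lit 209) D4284
noncomputable def D28705 : AP := fin (add (start D3104) D28704)
noncomputable def D28706 : OP := orK (nat_lit 270) D28705
noncomputable def D29224 : OP := orK (nat_lit 192) (fin (add (start D846) (orK (nat_lit 212) (fin (add (start D845) D3729)))))
noncomputable def D4212 : OP := win (nat_lit 7) (nat_lit 8) (nat_lit 8) (nat_lit 3)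
noncomputable def D4304 : OP := orK (nat_lit 249) (fin (add (start D4212) D4015))
noncomputable def D4305 : AP := fin (add (start D1912) D4304)
noncomputable def D4306 : OP := orK (nat_lit 168) D4305
noncomputable def D1884 : OP := win (nat_lit 4) (nat_lit 9) (nat_lit 9) (nat_lit 3)
noncomputable def D4744 : OP := orK (nat_lit 193) (fin (add (start D1884) D3173))
noncomputable def D4745 : AP := fin (add (start D79) D4744)
noncomputable def D4746 : OP := orK (nat_lit 192) D4745
noncomputable def D18904 : OP := orK (nat_lit 191) (fin (add (start D4454) D4746))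
noncomputable def D3737 : OP := orK (nat_lit 188) (fin (add (start D1891) D3735))
noncomputable def D29092 : OP := orK (nat_lit 169) (fin (add (start D3722) (orK (nat_lit 211) (fin (add (add (add (start D3737) D18904) (orK (nat_lit 212) (fin (add (start D439) D29072)))) (orK (nat_lit 191) (fin (add (add (start D4454) (orK (nat_lit 208) (fin (add (start D342) D29076)))) (orK (nat_lit 192) (fin (add (start D79) (orK (nat_lit 171) (fin (add (start D3782) (orK (nat_lit 170) (fin (add (start D357) (orK (nat_lit 172) (fin (add (start D240) D226))))))))))))))))))))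
noncomputable def D3771 : OP := win (nat_lit 4) (nat_lit 5) (nat_lit 9) (nat_lit 4)
noncomputable def D3953 : OP := win (nat_lit 2) (nat_lit 4) (nat_lit 9) (nat_lit 5)
noncomputable def D3952 : OP := win (nat_lit 2) (nat_lit 5) (nat_lit 9) (nat_lit 4)
noncomputable def D3957 : OP := orK (nat_lit 185) (fin (add (start D3952) (orK (nat_lit 205) (fin (add (start D3953) D3771)))))
noncomputable def D3959 : OP := orK (nat_lit 206) (fin (add (start D2454) D3957))
noncomputable def D3961 : OP := orK (nat_lit 207) (fin (add (add (add (start D2461) (orK (nat_lit 206) (fin (add (start D2454) (orK (nat_lit 188) (fin (add (start D451) D305))))))) D3959) D3927))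
noncomputable def D28957 : OP := orK (nat_lit 191) (fin (add (start D4454) (orK (nat_lit 208) (fin (add (start D342) D3961)))))
noncomputable def D4446 : AP := fin (add (start D443) D4445)
noncomputable def D4449 : OP := orK (nat_lit 193) (fin (add (start D442) (orK (nat_lit 213) D4446)))
noncomputable def D29018 : OP := orK (nat_lit 211) (fin (add (add (add (start D3737) (orK (nat_lit 212) (fin (add (start D439) D4449)))) D18904) D28957))
noncomputable def D29181 : OP := orK (nat_lit 252) (fin (add (start D4352) D4223))
noncomputable def D26718 : OP := win (nat_lit 3) (nat_lit 11) (nat_lit 9) (nat_lit 2)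
noncomputable def D28390 : AP := fin (add (start D451) D28389)
noncomputable def D28665 : OP := orK (nat_lit 251) D28664
noncomputable def D4262 : AP := fin (add (start D4257) D4261)
noncomputable def D28282 : OP := orK (nat_lit 272) D4262
noncomputable def D19065 : OP := orK (nat_lit 247) (fin (add (start D7035) D7034))
noncomputable def D28572 : OP := orK (nat_lit 267) (fin (add (start D19065) D7039))
noncomputable def D8256 : OP := win (nat_lit 3) (nat_lit 11) (nat_lit 9) (nat_lit 5)
noncomputable def D29102 : OP := orK (nat_lit 212) (fin (add (start D8256) D3729))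
noncomputable def D28607 : OP := orK (nat_lit 272) (fin (add (add (add (start D28579) D28583) D28587) (orK (nat_lit 289) (fin (add (start D4248) (orK (nat_lit 292) (fin (add (start D4255) (orK (nat_lit 252) (fin (add (start D4276) D28599)))))))))))
noncomputable def D29106 : OP := orK (nat_lit 231) (fin (add (start D4221) (orK (nat_lit 211) (fin (add (start D4755) D29102)))))
noncomputable def D19037 : OP := orK (nat_lit 291) (fin (add (start D19034) D19035))
noncomputable def D19066 : AP := fin (add (start D19037) D19065)
noncomputable def D28574 : OP := orK (nat_lit 268) (fin (add (add (start (orK (nat_lit 267) D19066)) D28282) D28572))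
noncomputable def D29143 : OP := orK (nat_lit 271) (fin (add (add (add (add (start (orK (nat_lit 251) (fin (add (start D28565) D29106)))) D28574) (orK (nat_lit 251) (fin (add (add (add (start D29106) D28607) (orK (nat_lit 231) (fin (add (start D4221) (orK (nat_lit 272) (fin (add (add (start (orK (nat_lit 292) (fin (add (start D4255) D29111)))) (orK (nat_lit 252) (fin (add (start D4276) (orK (nat_lit 211) (fin (add (start D3691) D29102))))))) (orK (nat_lit 292) (fin (add (start D4255) (orK (nat_lit 252) (fin (add (start D4276) D12444))))))))))))) (orK (nat_lit 272) (fin (add (add (start (orK (nat_lit 292) (fin (add (start D4255) (orK (nat_lit 252) (fin (add (start D4276) D29127))))))) D28583) D28587))))))) (orK (nat_lit 268) (fin (add (start D29136) D28572)))) D29141))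
noncomputable def D12471 : AP := fin (add (start D614) D4122)
noncomputable def D19005 : OP := orK (nat_lit 250) D12471
noncomputable def D19045 : OP := orK (nat_lit 266) (fin (add (start D19031) D19043))
noncomputable def D4137 : AP := fin (add (start D4089) D4123)
noncomputable def D12144 : OP := orK (nat_lit 249) D4137
noncomputable def D28308 : OP := orK (nat_lit 189) (fin (add (start D4011) (orK (nat_lit 249) (fin (add (start D4093) D28304)))))
noncomputable def D4102 : OP := win (nat_lit 6) (nat_lit 9) (nat_lit 9) (nat_lit 4)
noncomputable def D4105 : OP := orK (nat_lit 270) (fin (add (start D4102) D4103))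
noncomputable def D4107 : OP := orK (nat_lit 269) (fin (add (start D4089) D4105))
noncomputable def D4109 : OP := orK (nat_lit 249) (fin (add (add (start D4093) (orK (nat_lit 248) (fin (add (start D4016) (orK (nat_lit 247) (fin (add (start D4017) (orK (nat_lit 250) (fin (add (start D4094) D4095)))))))))) D4107))
noncomputable def D4118 : OP := orK (nat_lit 189) (fin (add (add (start D4011) D4109) (orK (nat_lit 169) (fin (add (start D3722) D4114)))))
noncomputable def D12665 : OP := win (nat_lit 2) (nat_lit 7) (nat_lit 12) (nat_lit 0)
noncomputable def D29150 : OP := orK (nat_lit 268) (fin (add (start D1899) (orK (nat_lit 248) (fin (add (start D4169) (orK (nat_lit 247) (fin (add (start D29144) D12665))))))))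
noncomputable def D14183 : AP := fin (add (add (start D9837) D7058) D12079)
noncomputable def D28560 : OP := orK (nat_lit 250) D14183
noncomputable def D1312 : OP := win (nat_lit 7) (nat_lit 10) (nat_lit 7) (nat_lit 0)
noncomputable def D1311 : OP := win (nat_lit 7) (nat_lit 10) (nat_lit 6) (nat_lit 3)
noncomputable def D1313 : AP := fin (add (start D1311) D1312)
noncomputable def D1922 : OP := win (nat_lit 3) (nat_lit 9) (nat_lit 7) (nat_lit 0)
noncomputable def D11108 : OP := orK (nat_lit 168) (fin (add (start D3044) D4012))
noncomputable def D1923 : OP := win (nat_lit 5) (nat_lit 7) (nat_lit 8) (nat_lit 3)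
noncomputable def D3985 : AP := fin (add (start D1923) D2130)
noncomputable def D3986 : OP := orK (nat_lit 171) D3985
noncomputable def D18616 : OP := orK (nat_lit 127) (fin (add (start D7658) (win (nat_lit 7) (nat_lit 7) (nat_lit 6) (nat_lit 0))))
noncomputable def D18607 : OP := orK (nat_lit 166) (fin (add (start D7241) D2583))
noncomputable def D3429 : OP := win (nat_lit 6) (nat_lit 8) (nat_lit 6) (nat_lit 0)
noncomputable def D6869 : OP := win (nat_lit 0) (nat_lit 6) (nat_lit 9) (nat_lit 1)
noncomputable def D7179 : AP := fin (add (start D5744) D4012)
noncomputable def D8656 : OP := orK (nat_lit 229) D7179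
noncomputable def D4290 : OP := win (nat_lit 5) (nat_lit 7) (nat_lit 8) (nat_lit 0)
noncomputable def D7129 : OP := win (nat_lit 7) (nat_lit 8) (nat_lit 7) (nat_lit 0)
noncomputable def D8611 : AP := fin (add (start D3429) D7129)
noncomputable def D8612 : OP := orK (nat_lit 148) D8611
noncomputable def D18628 : OP := orK (nat_lit 168) (fin (add (add (start D8612) (orK (nat_lit 187) (fin (add (start D1890) (orK (nat_lit 170) (fin (add (start D4290) D8656))))))) (orK (nat_lit 186) (fin (add (start D6869) (orK (nat_lit 148) (fin (add (start D3429) (orK (nat_lit 167) (fin (add (start D18607) (orK (nat_lit 147) (fin (add (start (orK (nat_lit 146) (fin (add (start D11178) (win (nat_lit 2) (nat_lit 6) (nat_lit 7) (nat_lit 0)))))) D18616))))))))))))))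
noncomputable def D2831 : OP := win (nat_lit 1) (nat_lit 7) (nat_lit 7) (nat_lit 5)
noncomputable def D13069 : OP := win (nat_lit 2) (nat_lit 6) (nat_lit 7) (nat_lit 3)
noncomputable def D2629 : OP := win (nat_lit 2) (nat_lit 7) (nat_lit 7) (nat_lit 0)
noncomputable def D13072 : AP := fin (add (start D2629) (orK (nat_lit 146) (fin (add (start D11178) D13069))))
noncomputable def D3726 : OP := orK (nat_lit 250) (fin (add (start D3723) D3724))
noncomputable def D3727 : AP := fin (add (start D3722) D3726)
noncomputable def D3728 : OP := orK (nat_lit 169) D3727
noncomputable def D29259 : AP := fin (add (add (add (add (add (add (start (orK (nat_lit 189) (fin (add (add (add (start D3728) (orK (nat_lit 250) (fin (add (start D3724) D29018)))) (orK (nat_lit 188) (fin (add (add (add (start D4479) (orK (nat_lit 169) (fin (add (start D3722) (orK (nat_lit 211) (fin (add (start D1891) (orK (nat_lit 168) (fin (add (add (start D8612) (orK (nat_lit 229) (fin (add (start D4012) (orK (nat_lit 170) (fin (add (start D5744) (orK (nat_lit 171) (fin (add (start D2130) D4786)))))))))) (orK (nat_lit 148) (fin (add (start D3429) (orK (nat_lit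 147) (fin (add (start (orK (nat_lit 170) D13072)) (orK (nat_lit 208) (fin (add (start D4621) (orK (nat_lit 207) (fin (add (start D2449) D2831)))))))))))))))))))))) (orK (nat_lit 169) (fin (add (start D3722) D18628)))) (orK (nat_lit 169) (fin (add (start D3722) (orK (nat_lit 187) (fin (add (start D1890) (orK (nat_lit 211) (fin (add (start D1891) (orK (nat_lit 170) (fin (add (add (start D3986) (orK (nat_lit 229) (fin (add (start D5744) D11108)))) (orK (nat_lit 150) (fin (add (start D1922) (orK (nat_lit 171) (fin (add (start D2130) (orK (nat_lit 130) (fin (add (start D875) (orK (nat_lit 191) D1313)))))))))))))))))))))))))) (orK (nat_lit 250) (fin (add (start D3724) D29092))))))) (orK (nat_lit 270) (fin (add (add (add (start D4285) D28560) (orK (nat_lit 269) (fin (add (add (add (start D12141) D29143) (orK (nat_lit 249) (fin (add (start D4103) D29150)))) (orK (nat_lit 249) (fin (add (start D4089) D29150))))))) (orK (nat_lit 250) (fin (add (start D4218) D7058))))))) D4118) D28308) (orK (nat_lit 208) (fin (add (add (start D9679) (orK (nat_lit 269) (fin (add (add (add (start D12144) (orK (nat_lit 249) (fin (add (start D4089)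 (orK (nat_lit 268) (fin (add (start D1899) (orK (nat_lit 270) (fin (add (start D4103) (orK (nat_lit 267) (fin (add (add (start (orK (nat_lit 250) D4126)) D19045) (orK (nat_lit 271) (fin (add (start D19065) (orK (nat_lit 251) (fin (add (start (win (nat_lit 4) (nat_lit 7) (nat_lit 12) (nat_lit 4))) D7031))))))))))))))))))) (orK (nat_lit 270) (fin (add (add (add (start D19005) D29143) (orK (nat_lit 250) (fin (add (start D4122) (orK (nat_lit 211) (fin (add (start D3104) (orK (nat_lit 271) (fin (add (start D628) (orK (nat_lit 188) (fin (add (start D451) (orK (nat_lit 212) (fin (add (start D3729) (orK (nat_lit 192) (fin (add (start D845) (orK (nat_lit 251) (fin (add (start D26718) D29181)))))))))))))))))))))) (orK (nat_lit 271) (fin (add (add (add (start (orK (nat_lit 250) (fin (add (start D614) D628)))) (orK (nat_lit 268) (fin (add (add (start D28282) D28665) (orK (nat_lit 272) D29097))))) (orK (nat_lit 291) (fin (add (start (win (nat_lit 6) (nat_lit 10) (nat_lit 10) (nat_lit 2))) (orK (nat_lit 268) D28647))))) (orK (nat_lit 289) (fin (add (start (win (nat_lit 1) (nat_lit 9) (nat_lit 10) (nat_lit 2))) D29209))))))))))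 (orK (nat_lit 188) (fin (add (start D4217) (orK (nat_lit 211) D28390)))))))) (orK (nat_lit 207) (fin (add (start D2448) (orK (nat_lit 187) (fin (add (start D666) (orK (nat_lit 211) (fin (add (start D667) D29224))))))))))))) (orK (nat_lit 250) (fin (add (add (start D4121) (orK (nat_lit 270) (fin (add (start D4122) (orK (nat_lit 211) (fin (add (start D3104) (orK (nat_lit 212) (fin (add (start D3729) (orK (nat_lit 271) (fin (add (start D628) (orK (nat_lit 192) (fin (add (start D845) (orK (nat_lit 251) (fin (add (start D26718) (orK (nat_lit 269) (fin (add (start D614) D29181)))))))))))))))))))))) (orK (nat_lit 189) (fin (add (add (start D9291) D29018) D29092))))))) (orK (nat_lit 208) (fin (add (start D9679) (orK (nat_lit 188) (fin (add (start D4306) (orK (nat_lit 211) (fin (add (start D451) D29224))))))))))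
noncomputable def D9119 : OP := win (nat_lit 6) (nat_lit 11) (nat_lit 9) (nat_lit 4)
noncomputable def D18939 : OP := orK (nat_lit 272) (fin (add (start D9119) (orK (nat_lit 271) (fin (add (start D6855) D4221)))))
noncomputable def D4757 : OP := orK (nat_lit 271) D4756
noncomputable def D25567 : OP := orK (nat_lit 270) (fin (add (start D6178) D4757))
noncomputable def D9121 : OP := orK (nat_lit 272) (fin (add (start D9119) D6855))
noncomputable def D4691 : OP := win (nat_lit 6) (nat_lit 11) (nat_lit 9) (nat_lit 5)
noncomputable def D26737 : OP := orK (nat_lit 252) (fin (add (start D4352) D4691))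
noncomputable def D7263 : OP := win (nat_lit 1) (nat_lit 10) (nat_lit 9) (nat_lit 5)
noncomputable def D3783 : OP := win (nat_lit 1) (nat_lit 10) (nat_lit 8) (nat_lit 5)
noncomputable def D3784 : AP := fin (add (start D3782) D3783)
noncomputable def D3785 : OP := orK (nat_lit 171) D3784
noncomputable def D3034 : OP := win (nat_lit 4) (nat_lit 8) (nat_lit 10) (nat_lit 0)
noncomputable def D15818 : OP := orK (nat_lit 188) (fin (add (start D3735) (orK (nat_lit 249) (fin (add (start D1897) D4093)))))
noncomputable def D9703 : OP := orK (nat_lit 168) D7192
noncomputable def D12662 : OP := orK (nat_lit 208) (fin (add (start D4123) D9679))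
noncomputable def D7553 : OP := win (nat_lit 1) (nat_lit 8) (nat_lit 8) (nat_lit 4)
noncomputable def D26589 : OP := orK (nat_lit 188) (fin (add (start D451) D4306))
noncomputable def D5008 : AP := fin (add (start D5006) D5007)
noncomputable def D27497 : OP := orK (nat_lit 267) (fin (add (start D2527) D2528))
noncomputable def D28171 : OP := orK (nat_lit 247) (fin (add (start D3746) D4017))
noncomputable def D28856 : OP := orK (nat_lit 248) (fin (add (add (start (orK (nat_lit 249) (fin (add (start D4630) D28171)))) (orK (nat_lit 268) (fin (add (start D2532) D26876)))) (orK (nat_lit 268) (fin (add (start D27497) D26876)))))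
noncomputable def D9407 : OP := win (nat_lit 3) (nat_lit 7) (nat_lit 11) (nat_lit 0)
noncomputable def D9411 : OP := orK (nat_lit 267) (fin (add (start D9405) (orK (nat_lit 287) (fin (add (start (win (nat_lit 1) (nat_lit 7) (nat_lit 10) (nat_lit 3))) D9407)))))
noncomputable def D20771 : OP := win (nat_lit 1) (nat_lit 7) (nat_lit 11) (nat_lit 5)
noncomputable def D20770 : OP := win (nat_lit 1) (nat_lit 7) (nat_lit 10) (nat_lit 4)
noncomputable def D21037 : OP := win (nat_lit 6) (nat_lit 8) (nat_lit 12) (nat_lit 5)
noncomputable def D21036 : OP := win (nat_lit 6) (nat_lit 8) (nat_lit 11) (nat_lit 4)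
noncomputable def D21190 : OP := orK (nat_lit 309) (fin (add (start D21036) D21037))
noncomputable def D21062 : OP := orK (nat_lit 287) (fin (add (start D20770) (orK (nat_lit 288) (fin (add (start D20771) D20777)))))
noncomputable def D14197 : OP := orK (nat_lit 168) (fin (add (start D2538) D5049))
noncomputable def D5034 : OP := orK (nat_lit 249) (fin (add (start D3355) D4630))
noncomputable def D517 : OP := win (nat_lit 4) (nat_lit 8) (nat_lit 10) (nat_lit 5)
noncomputable def D28830 : OP := orK (nat_lit 231) (fin (add (start D515) (orK (nat_lit 251) (fin (add (start D4059) (orK (nat_lit 211) (fin (add (start D517) D28399))))))))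
noncomputable def D4065 : OP := win (nat_lit 5) (nat_lit 7) (nat_lit 11) (nat_lit 4)
noncomputable def D4043 : OP := win (nat_lit 5) (nat_lit 6) (nat_lit 11) (nat_lit 5)
noncomputable def D4067 : OP := orK (nat_lit 247) (fin (add (start D4043) D4065))
noncomputable def D19291 : OP := orK (nat_lit 207) (fin (add (start D5156) (orK (nat_lit 231) (fin (add (start D5155) D4067)))))
noncomputable def D28077 : OP := orK (nat_lit 252) (fin (add (start D10519) (orK (nat_lit 250) D26711)))
noncomputable def D5160 : OP := orK (nat_lit 207) (fin (add (start D5155) (orK (nat_lit 227) (fin (add (start D5156) D4067)))))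
noncomputable def D28435 : OP := orK (nat_lit 251) (fin (add (add (add (start (orK (nat_lit 231) (fin (add (start D4059) D5160)))) D28077) (orK (nat_lit 250) D28430)) (orK (nat_lit 227) (fin (add (start D4060) D19291)))))
noncomputable def D28442 : OP := win (nat_lit 7) (nat_lit 8) (nat_lit 9) (nat_lit 3)
noncomputable def D28446 : OP := orK (nat_lit 249) (fin (add (start D3355) (orK (nat_lit 269) (fin (add (start D4089) D28442)))))
noncomputable def D28796 : OP := orK (nat_lit 168) (fin (add (start D1912) D5049))
noncomputable def D12840 : AP := fin (add (start D2538) D1912)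
noncomputable def D15839 : OP := orK (nat_lit 168) D12840
noncomputable def D9613 : OP := win (nat_lit 1) (nat_lit 8) (nat_lit 8) (nat_lit 1)
noncomputable def D12332 : OP := orK (nat_lit 187) (fin (add (start D1890) D3316))
noncomputable def D4590 : OP := win (nat_lit 1) (nat_lit 8) (nat_lit 8) (nat_lit 0)
noncomputable def D13166 : OP := orK (nat_lit 189) (fin (add (start D4590) D12332))
noncomputable def D4592 : OP := orK (nat_lit 189) (fin (add (start D4590) D312))
noncomputable def D28333 : OP := orK (nat_lit 209) (fin (add (start D4070) (orK (nat_lit 189) (fin (add (start D4590) D13788)))))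
noncomputable def D28346 : OP := orK (nat_lit 268) (fin (add (start (orK (nat_lit 249) (fin (add (start D9319) (orK (nat_lit 271) (fin (add (start D4370) D12569))))))) D28333))
noncomputable def D19053 : OP := win (nat_lit 3) (nat_lit 7) (nat_lit 12) (nat_lit 0)
noncomputable def D4071 : OP := win (nat_lit 5) (nat_lit 7) (nat_lit 12) (nat_lit 2)
noncomputable def D28340 : OP := orK (nat_lit 268) (fin (add (add (start (orK (nat_lit 288) (fin (add (start D26932) (orK (nat_lit 249) (fin (add (start D12180) D9319))))))) D28333) (orK (nat_lit 267) (fin (add (start D4071) (orK (nat_lit 287) (fin (add (start (win (nat_lit 1) (nat_lit 7) (nat_lit 10) (nat_lit 0))) (orK (nat_lit 307) (fin (add (start (win (nat_lit 3) (nat_lit 7) (nat_lit 11) (nat_lit 3))) D19053)))))))))))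
noncomputable def D21071 : OP := win (nat_lit 1) (nat_lit 7) (nat_lit 12) (nat_lit 5)
noncomputable def D28737 : OP := orK (nat_lit 288) (fin (add (start D26932) (orK (nat_lit 287) (fin (add (start D20771) (orK (nat_lit 271) (fin (add (start D28728) (orK (nat_lit 289) (fin (add (start (win (nat_lit 4) (nat_lit 7) (nat_lit 13) (nat_lit 3))) D20775)))))))))))
noncomputable def D19017 : OP := win (nat_lit 2) (nat_lit 6) (nat_lit 12) (nat_lit 3)
noncomputable def D27545 : AP := fin (add (start D19017) D12665)
noncomputable def D27546 : OP := orK (nat_lit 268) D27545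
noncomputable def D28714 : OP := orK (nat_lit 250) D28705
noncomputable def D4180 : OP := win (nat_lit 1) (nat_lit 8) (nat_lit 9) (nat_lit 3)
noncomputable def D28791 : AP := fin (add (add (add (start (orK (nat_lit 212) (fin (add (start D3729) (orK (nat_lit 209) (fin (add (add (start D8197) (orK (nat_lit 270) (fin (add (add (add (start D28559) D28560) (orK (nat_lit 269) (fin (add (add (add (start D12141) (orK (nat_lit 271) (fin (add (add (add (start (orK (nat_lit 192) (fin (add (start D845) (orK (nat_lit 251) (fin (add (start D26718) D28565))))))) D28574) (orK (nat_lit 251) (fin (add (add (add (start D28575) D28607) D28613) (orK (nat_lit 231) (fin (add (start D4755) D28611))))))) (orK (nat_lit 192) (fin (add (start D845) (orK (nat_lit 251) (fin (add (start D26718) (orK (nat_lit 268) (fin (add (start D7031) (orK (nat_lit 291) (fin (add (start D19035) (orK (nat_lit 267) (fin (add (start D19034) D19065))))))))))))))))))) D28659) (orK (nat_lit 249) (fin (add (start D4089) (orK (nat_lit 268) (fin (add (start D1899) (orK (nat_lit 271) (fin (add (start (orK (nat_lit 248) (fin (add (start D7044) D4338)))) D28665)))))))))))))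 (orK (nat_lit 250) (fin (add (start D3104) (orK (nat_lit 271) (fin (add (start D628) (orK (nat_lit 269) (fin (add (start D614) (orK (nat_lit 249) (fin (add (start D4340) (orK (nat_lit 268) (fin (add (start (orK (nat_lit 288) (fin (add (start (win (nat_lit 1) (nat_lit 8) (nat_lit 10) (nat_lit 1))) D4258)))) D4127))))))))))))))))))) D28379))))))) D8225) (orK (nat_lit 228) (fin (add (start D516) (orK (nat_lit 248) (fin (add (add (add (start D27677) (orK (nat_lit 250) (fin (add (add (start (orK (nat_lit 251) (fin (add (add (start D26712) D10521) (orK (nat_lit 271) (fin (add (start D12569) (orK (nat_lit 249) (fin (add (start D4370) D20281)))))))))) D26569) D28706)))) (orK (nat_lit 247) (fin (add (add (start D27028) (orK (nat_lit 270) (fin (add (add (start (orK (nat_lit 250) (fin (add (start D3104) (orK (nat_lit 271) (fin (add (start (win (nat_lit 0) (nat_lit 7) (nat_lit 12) (nat_lit 2))) D628))))))) D28714) (orK (nat_lit 268) (fin (add (add (add (start (orK (nat_lit 209) (fin (add (start D4070) (orK (nat_lit 189) (fin (add (start D4590) D4180))))))) (orK (nat_lit 269) (fin (add (start D12665) (orK (nat_lit 289) (fin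 (add (start D28719) (orK (nat_lit 309) (fin (add (start (win (nat_lit 6) (nat_lit 8) (nat_lit 11) (nat_lit 3))) (win (nat_lit 7) (nat_lit 8) (nat_lit 12) (nat_lit 0)))))))))))) D28737) (orK (nat_lit 269) (fin (add (start D12665) (orK (nat_lit 249) (fin (add (start D4089) (orK (nat_lit 209) (fin (add (start D4169) D4103)))))))))))))))) (orK (nat_lit 246) (fin (add (start D9412) (orK (nat_lit 270) (fin (add (add (start D28714) (orK (nat_lit 250) (fin (add (start D3104) (orK (nat_lit 269) (fin (add (start D614) D27546))))))) (orK (nat_lit 268) (fin (add (add (add (start (orK (nat_lit 269) D27545)) D28737) (orK (nat_lit 288) (fin (add (start D26932) (orK (nat_lit 287) (fin (add (start D20771) (orK (nat_lit 289) (fin (add (start D20775) (orK (nat_lit 290) (fin (add (start (win (nat_lit 4) (nat_lit 7) (nat_lit 13) (nat_lit 5))) (orK (nat_lit 267) (fin (add (start (win (nat_lit 2) (nat_lit 6) (nat_lit 13) (nat_lit 5))) (win (nat_lit 2) (nat_lit 7) (nat_lit 13) (nat_lit 0)))))))))))))))))) (orK (nat_lit 267) (fin (add (start (win (nat_lit 2) (nat_lit 6) (nat_lit 12) (nat_lit 1))) (orK (nat_lit 307) (fin (add (start (win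 (nat_lit 3) (nat_lit 7) (nat_lit 11) (nat_lit 1))) (orK (nat_lit 288) (fin (add (start D26932) (orK (nat_lit 308) (fin (add (start D21071) (win (nat_lit 7) (nat_lit 7) (nat_lit 12) (nat_lit 0))))))))))))))))))))))))))) (orK (nat_lit 231) (fin (add (start D3847) D28401)))))))))) D8229)
noncomputable def D4420 : OP := win (nat_lit 6) (nat_lit 7) (nat_lit 9) (nat_lit 5)
noncomputable def D3803 : OP := win (nat_lit 6) (nat_lit 7) (nat_lit 8) (nat_lit 0)
noncomputable def D13798 : AP := fin (add (start D3803) D4420)
noncomputable def D13799 : OP := orK (nat_lit 248) D13798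
noncomputable def D20696 : OP := orK (nat_lit 188) (fin (add (start D12725) (win (nat_lit 3) (nat_lit 7) (nat_lit 9) (nat_lit 4))))
noncomputable def D12745 : OP := win (nat_lit 6) (nat_lit 7) (nat_lit 11) (nat_lit 5)
noncomputable def D12741 : OP := win (nat_lit 1) (nat_lit 6) (nat_lit 11) (nat_lit 5)
noncomputable def D12749 : OP := orK (nat_lit 287) (fin (add (start (orK (nat_lit 286) (fin (add (start (win (nat_lit 1) (nat_lit 6) (nat_lit 10) (nat_lit 4))) D12741)))) (orK (nat_lit 288) (fin (add (start (win (nat_lit 6) (nat_lit 7) (nat_lit 10) (nat_lit 4))) D12745)))))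
noncomputable def D13747 : OP := win (nat_lit 3) (nat_lit 7) (nat_lit 9) (nat_lit 5)
noncomputable def D13748 : AP := fin (add (start D13747) D327)
noncomputable def D10674 : OP := win (nat_lit 6) (nat_lit 9) (nat_lit 9) (nat_lit 0)
noncomputable def D4072 : OP := win (nat_lit 4) (nat_lit 7) (nat_lit 12) (nat_lit 3)
noncomputable def D11229 : OP := orK (nat_lit 267) (fin (add (start D4124) D4072))
noncomputable def D8908 : OP := win (nat_lit 4) (nat_lit 5) (nat_lit 12) (nat_lit 0)
noncomputable def D21184 : OP := win (nat_lit 3) (nat_lit 8) (nat_lit 12) (nat_lit 0)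
noncomputable def D28184 : OP := orK (nat_lit 269) (fin (add (start D4089) (orK (nat_lit 188) (fin (add (start D3355) D5110)))))
noncomputable def D3301 : OP := win (nat_lit 7) (nat_lit 7) (nat_lit 8) (nat_lit 3)
noncomputable def D3280 : OP := win (nat_lit 6) (nat_lit 7) (nat_lit 7) (nat_lit 0)
noncomputable def D5080 : OP := win (nat_lit 7) (nat_lit 7) (nat_lit 9) (nat_lit 0)
noncomputable def D5046 : OP := orK (nat_lit 169) (fin (add (start D2538) D2537))
noncomputable def D5051 : OP := orK (nat_lit 168) (fin (add (start D5046) D5049))
noncomputable def D27040 : OP := orK (nat_lit 248) (fin (add (add (start D26870) (orK (nat_lit 188) (fin (add (start (orK (nat_lit 247) (fin (add (start D3746) D27028)))) D5051)))) (orK (nat_lit 207) (fin (add (start D5012) (orK (nat_lit 187) (fin (add (start D5080) (orK (nat_lit 167) (fin (add (start D3280) D3301)))))))))))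
noncomputable def D19285 : OP := orK (nat_lit 246) (fin (add (start (win (nat_lit 5) (nat_lit 5) (nat_lit 11) (nat_lit 5))) (win (nat_lit 5) (nat_lit 6) (nat_lit 11) (nat_lit 4))))
noncomputable def D19287 : OP := orK (nat_lit 226) (fin (add (start D5101) D19285))
noncomputable def D28321 : OP := orK (nat_lit 227) (fin (add (add (start D28315) (orK (nat_lit 251) (fin (add (start D4060) (orK (nat_lit 231) (fin (add (start D4059) D4067))))))) D19287))
noncomputable def D26920 : OP := orK (nat_lit 187) D13798
noncomputable def D360 : OP := win (nat_lit 4) (nat_lit 8) (nat_lit 9) (nat_lit 1)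
noncomputable def D4758 : OP := win (nat_lit 3) (nat_lit 11) (nat_lit 8) (nat_lit 5)
noncomputable def D4671 : OP := win (nat_lit 1) (nat_lit 10) (nat_lit 8) (nat_lit 0)
noncomputable def D19293 : OP := orK (nat_lit 227) (fin (add (add (start D5105) D19287) D19291))
noncomputable def D27046 : OP := orK (nat_lit 228) (fin (add (add (add (start D19293) D5098) (orK (nat_lit 211) (fin (add (add (start D5096) (orK (nat_lit 208) (fin (add (add (add (start D5018) D5124) D27040) D5143)))) D5147)))) D26894))
noncomputable def D15851 : OP := orK (nat_lit 250) (fin (add (add (start D4121) (orK (nat_lit 270) (fin (add (start D4122) (orK (nat_lit 211) (fin (add (start D3104) D15796))))))) (orK (nat_lit 169) (fin (add (start D9712) (orK (nat_lit 211) (fin (add (add (start D15796) D15802) (orK (nat_lit 208) (fin (add (add (start D8216) D15806) (orK (nat_lit 188) (fin (add (start D451) (orK (nat_lit 228) (fin (add (start D516) D15839)))))))))))))))))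
noncomputable def D4160 : OP := orK (nat_lit 168) (fin (add (start D3044) D4110))
noncomputable def D13751 : OP := orK (nat_lit 247) (fin (add (start D4043) (orK (nat_lit 267) D13748)))
noncomputable def D5071 : OP := win (nat_lit 3) (nat_lit 7) (nat_lit 9) (nat_lit 0)
noncomputable def D13733 : AP := fin (add (start D12725) D5071)
noncomputable def D12717 : OP := win (nat_lit 5) (nat_lit 6) (nat_lit 11) (nat_lit 2)
noncomputable def D4410 : OP := win (nat_lit 7) (nat_lit 6) (nat_lit 7) (nat_lit 4)
noncomputable def D4409 : OP := win (nat_lit 7) (nat_lit 6) (nat_lit 6) (nat_lit 5)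
noncomputable def D4412 : OP := orK (nat_lit 146) (fin (add (start D4409) D4410))
noncomputable def D4408 : OP := win (nat_lit 3) (nat_lit 7) (nat_lit 6) (nat_lit 5)
noncomputable def D4407 : OP := win (nat_lit 3) (nat_lit 7) (nat_lit 7) (nat_lit 4)
noncomputable def D4416 : OP := orK (nat_lit 148) (fin (add (start D4407) (orK (nat_lit 147) (fin (add (start D4408) D4412)))))
noncomputable def D4419 : OP := win (nat_lit 6) (nat_lit 7) (nat_lit 8) (nat_lit 4)
noncomputable def D13698 : OP := orK (nat_lit 188) (fin (add (start D5071) D1897))
noncomputable def D13771 : OP := orK (nat_lit 189) (fin (add (add (start D4011) (orK (nat_lit 270) (fin (add (start D3744) (orK (nat_lit 208) (fin (add (add (add (add (start (orK (nat_lit 207) (fin (add (start D2448) (orK (nat_lit 227) (fin (add (start D668) (orK (nat_lit 249) (fin (add (start D13694) (orK (nat_lit 247) (fin (add (start (orK (nat_lit 248) (fin (add (start D4016) D4017)))) D13698))))))))))))) (orK (nat_lit 249) (fin (add (start D13694) (orK (nat_lit 248) (fin (add (start D4016) (orK (nat_lit 188) (fin (add (start D1897) (orK (nat_lit 187) (fin (add (start D1890)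 (orK (nat_lit 247) (fin (add (start D4017) (orK (nat_lit 228) (fin (add (start D3746) D3316))))))))))))))))))) (orK (nat_lit 249) (fin (add (start D13694) (orK (nat_lit 207) (fin (add (start D2448) (orK (nat_lit 248) (fin (add (start D4016) (orK (nat_lit 227) (fin (add (start D668) (orK (nat_lit 187) (fin (add (start D666) (orK (nat_lit 167) (fin (add (start D4419) D4416))))))))))))))))))) (orK (nat_lit 207) (fin (add (start D2448) (orK (nat_lit 227) (fin (add (start D668) (orK (nat_lit 187) (fin (add (start D666) (orK (nat_lit 247) (fin (add (start (orK (nat_lit 246) (fin (add (start D10077) D12717)))) (orK (nat_lit 188) D13733)))))))))))))) (orK (nat_lit 207) (fin (add (start D2448) (orK (nat_lit 227) (fin (add (start D668) (orK (nat_lit 228) (fin (add (start (orK (nat_lit 248) (fin (add (start D312) (orK (nat_lit 187) (fin (add (start D666) D3803))))))) D13751)))))))))))))))) (orK (nat_lit 169) (fin (add (start D3722) (orK (nat_lit 248) (fin (add (start D7553) (orK (nat_lit 249) (fin (add (start D4016) (orK (nat_lit 269) (fin (add (start D4089) D4160))))))))))))))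
noncomputable def D15559 : OP := orK (nat_lit 227) (fin (add (start D3456) (orK (nat_lit 250) (fin (add (start D4140) D4121)))))
noncomputable def D19016 : OP := win (nat_lit 0) (nat_lit 5) (nat_lit 12) (nat_lit 0)
noncomputable def D19021 : OP := orK (nat_lit 247) (fin (add (start D12665) (orK (nat_lit 246) (fin (add (start D19016) D19017)))))
noncomputable def D12179 : OP := win (nat_lit 3) (nat_lit 8) (nat_lit 10) (nat_lit 3)
noncomputable def D19013 : OP := orK (nat_lit 287) (fin (add (start D19007) (orK (nat_lit 286) (fin (add (start D19008) (win (nat_lit 4) (nat_lit 6) (nat_lit 13) (nat_lit 3)))))))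
noncomputable def D28256 : AP := fin (add (start D1898) D1899)
noncomputable def D8113 : OP := win (nat_lit 7) (nat_lit 8) (nat_lit 11) (nat_lit 0)
noncomputable def D6893 : OP := win (nat_lit 3) (nat_lit 9) (nat_lit 10) (nat_lit 4)
noncomputable def D8115 : OP := orK (nat_lit 289) (fin (add (start D6893) D8113))
noncomputable def D19027 : OP := orK (nat_lit 290) (fin (add (start D19024) D19025))
noncomputable def D19059 : OP := orK (nat_lit 266) (fin (add (start D19027) D19043))
noncomputable def D19033 : OP := orK (nat_lit 266) (fin (add (start D19027) D19031))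
noncomputable def D19071 : OP := orK (nat_lit 268) (fin (add (add (add (add (start (orK (nat_lit 288) (fin (add (start (win (nat_lit 3) (nat_lit 8) (nat_lit 10) (nat_lit 2))) D19013)))) (orK (nat_lit 248) (fin (add (start D4070) D19021)))) (orK (nat_lit 267) (fin (add (add (start D19033) (orK (nat_lit 271) (fin (add (start D19037) D7039)))) D19045)))) (orK (nat_lit 248) (fin (add (start D4070) (orK (nat_lit 267) (fin (add (add (start (orK (nat_lit 247) (fin (add (start D7035) (orK (nat_lit 287) (fin (add (start D9407) D7036))))))) D19059) D19033))))))) (orK (nat_lit 267) (fin (add (add (start (orK (nat_lit 271) D19066)) D19059) D19045)))))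
noncomputable def D6897 : OP := orK (nat_lit 288) (fin (add (start (win (nat_lit 1) (nat_lit 8) (nat_lit 10) (nat_lit 4))) (orK (nat_lit 289) (fin (add (start (win (nat_lit 1) (nat_lit 8) (nat_lit 11) (nat_lit 5))) D6893)))))
noncomputable def D6898 : AP := fin (add (start D4103) D6897)
noncomputable def D15551 : OP := orK (nat_lit 169) (fin (add (start D3065) D3722))
noncomputable def D15814 : OP := orK (nat_lit 211) D15813
noncomputable def D29495 : AP := fin (add (add (add (add (add (add (add (add (add (add (add (add (add (start (orK (nat_lit 209) (fin (add (add (add (add (start D15814) (orK (nat_lit 228) (fin (add (add (start D4473) (orK (nat_lit 211) (fin (add (start D1911) (orK (nat_lit 189) (fin (add (add (start D15551) (orK (nat_lit 270) (fin (add (start D3744) (orK (nat_lit 269) (fin (add (add (add (add (add (start (orK (nat_lit 249) (fin (add (start D4103) (orK (nat_lit 268) D28256))))) (orK (nat_lit 249) D6898)) D19071) (orK (nat_lit 249) (fin (add (start D4103) (orK (nat_lit 289) (fin (add (start D6893) (orK (nat_lit 308) (fin (add (start (win (nat_lit 1) (nat_lit 8) (nat_lit 11) (nat_lit 4))) (orK (nat_lit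 309) (fin (add (start (win (nat_lit 1) (nat_lit 8) (nat_lit 12) (nat_lit 5))) (win (nat_lit 7) (nat_lit 8) (nat_lit 11) (nat_lit 4))))))))))))))) (orK (nat_lit 249) (fin (add (start D4103) (orK (nat_lit 248) (fin (add (start D4016) D8115))))))) (orK (nat_lit 268) (fin (add (add (add (start (orK (nat_lit 249) D28256)) (orK (nat_lit 288) (fin (add (start D28277) D19013)))) (orK (nat_lit 271) (fin (add (start (orK (nat_lit 272) (fin (add (start D4257) D7048)))) (orK (nat_lit 248) (fin (add (start D7044) (orK (nat_lit 288) (fin (add (start D12179) D4258)))))))))) (orK (nat_lit 248) (fin (add (start D4180) D19021))))))))))))) D4011))))))) D15559)))) D13771) D28308) D15851)))) D27046) (orK (nat_lit 228) (fin (add (add (add (start D28321) D5098) D28323) (orK (nat_lit 211) (fin (add (add (start D5096) (orK (nat_lit 250) (fin (add (add (start D7073) D26569) (orK (nat_lit 251) (fin (add (add (start D26712) D10521) (orK (nat_lit 248) (fin (add (add (add (start D27677) D28340) D28346) (orK (nat_lit 231) (fin (add (start D3847) (orK (nat_lit 191) (fin (add (start D4671) (orK (nat_lit 208) (fin (add (start D515) (orK (nat_lit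 192) (fin (add (start D4758) D360)))))))))))))))))))))) D5147))))))) (orK (nat_lit 211) (fin (add (add (add (start D28387) D8225) (orK (nat_lit 228) (fin (add (start D516) (orK (nat_lit 208) (fin (add (add (start (orK (nat_lit 188) (fin (add (start (orK (nat_lit 209) D28390)) D5114)))) D28403) D5143))))))) D8229)))) (orK (nat_lit 228) (fin (add (add (add (add (add (start D28417) (orK (nat_lit 227) (fin (add (add (start D5105) D19287) (orK (nat_lit 247) (fin (add (start D4043) (orK (nat_lit 207) (fin (add (start D5156) (orK (nat_lit 248) (fin (add (start D5116) D26920))))))))))))) D28321) D28435) (orK (nat_lit 208) (fin (add (add (add (start D5018) D27040) (orK (nat_lit 188) (fin (add (add (start D5114) (orK (nat_lit 248) (fin (add (start D5118) (orK (nat_lit 189) (fin (add (start D311) (orK (nat_lit 209) (fin (add (start D312) D12332)))))))))) D28446)))) (orK (nat_lit 249) (fin (add (add (add (start D28184) (orK (nat_lit 269) (fin (add (start D4089) (orK (nat_lit 268) (fin (add (add (add (start (orK (nat_lit 288) (fin (add (start (win (nat_lit 1) (nat_lit 8) (nat_lit 10) (nat_lit 0))) (orK (nat_lit 308) (fin (add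 (start (win (nat_lit 3) (nat_lit 8) (nat_lit 11) (nat_lit 3))) D21184))))))) (orK (nat_lit 267) (fin (add (add (start (orK (nat_lit 248) (fin (add (start D2528) (orK (nat_lit 266) (fin (add (start D8908) (win (nat_lit 4) (nat_lit 6) (nat_lit 12) (nat_lit 5))))))))) (orK (nat_lit 287) (fin (add (start (win (nat_lit 1) (nat_lit 7) (nat_lit 10) (nat_lit 2))) (orK (nat_lit 286) (fin (add (start (win (nat_lit 5) (nat_lit 6) (nat_lit 13) (nat_lit 0))) (orK (nat_lit 285) (fin (add (start (win (nat_lit 4) (nat_lit 4) (nat_lit 13) (nat_lit 0))) (win (nat_lit 4) (nat_lit 5) (nat_lit 13) (nat_lit 3)))))))))))) (orK (nat_lit 250) (fin (add (start D4124) (orK (nat_lit 251) (fin (add (start D9682) D4072)))))))))) (orK (nat_lit 209) (fin (add (start D1899) (orK (nat_lit 206) (fin (add (start D28476) (orK (nat_lit 270) (fin (add (start D4103) (orK (nat_lit 250) (fin (add (start D10674) (orK (nat_lit 251) (fin (add (start D9682) D4314)))))))))))))))) (orK (nat_lit 250) (fin (add (add (start (orK (nat_lit 251) (fin (add (start D9682) D11229)))) (orK (nat_lit 267) (fin (add (start D4124) (orK (nat_lit 248) (fin (add (start D2528)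 (orK (nat_lit 209) (fin (add (start D4169) (orK (nat_lit 207) (fin (add (start D2448) D10065))))))))))))) (orK (nat_lit 251) (fin (add (start D9682) (orK (nat_lit 209) (fin (add (start (orK (nat_lit 270) (fin (add (start D10674) D4103)))) (orK (nat_lit 207) (fin (add (start D2448) (orK (nat_lit 187) (fin (add (start D666) (win (nat_lit 7) (nat_lit 7) (nat_lit 9) (nat_lit 1)))))))))))))))))))))))) (orK (nat_lit 188) (fin (add (start D3355) (orK (nat_lit 248) (fin (add (start D28171) (orK (nat_lit 268) (fin (add (start (orK (nat_lit 189) (fin (add (start D20258) D311)))) D26876)))))))))) (orK (nat_lit 269) (fin (add (start D4089) (orK (nat_lit 188) (fin (add (start D3355) D28442))))))))))))) (orK (nat_lit 227) (fin (add (add (start D28315) (orK (nat_lit 250) (fin (add (start D4140) (orK (nat_lit 247) (fin (add (start D4043) (orK (nat_lit 207) (fin (add (start D5156) (orK (nat_lit 267) (fin (add (add (start (orK (nat_lit 208) D13748)) D12749) (orK (nat_lit 187) (fin (add (start D20696) D13799)))))))))))))))) D5105))))))) (orK (nat_lit 211) D28791)) (orK (nat_lit 211) (fin (add (add (add (start D28387) D8225) (orK (nat_lit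 250) (fin (add (add (start (orK (nat_lit 228) (fin (add (add (start (orK (nat_lit 227) (fin (add (start D4140) D4471)))) (orK (nat_lit 251) (fin (add (add (start D26712) D10521) (orK (nat_lit 248) (fin (add (add (add (start D27677) D28340) D28346) (orK (nat_lit 208) (fin (add (add (start D26870) (orK (nat_lit 209) (fin (add (add (start D4592) (orK (nat_lit 268) (fin (add (start D4070) (orK (nat_lit 267) (fin (add (start D2528) (orK (nat_lit 188) (fin (add (start D2527) D28796)))))))))) (orK (nat_lit 188) (fin (add (add (start D13166) (orK (nat_lit 169) (fin (add (start D9613) D15839)))) D28796))))))) D5018)))))))))) (orK (nat_lit 227) (fin (add (start D4471) D28313))))))) D26569) D28706)))) D8229)))) (orK (nat_lit 228) (fin (add (add (add (start D28417) D5098) D28323) (orK (nat_lit 208) (fin (add (add (add (start D5018) (orK (nat_lit 211) (fin (add (add (start D5096) D5124) D5147)))) D28830) (orK (nat_lit 188) (fin (add (add (start (orK (nat_lit 168) (fin (add (add (add (start (orK (nat_lit 149) (fin (add (start D4620) (orK (nat_lit 148) (fin (add (start D931) D21985))))))) D28836) (orK (nat_lit 167) (fin (add (start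 D2435) (orK (nat_lit 187) (fin (add (start D4027) (orK (nat_lit 211) (fin (add (start D5115) (orK (nat_lit 169) (fin (add (start D2538) D28838))))))))))))) D4628)))) D28856) D28446)))))))))) (orK (nat_lit 228) (fin (add (add (add (start D5098) D28435) (orK (nat_lit 227) (fin (add (start D4471) (orK (nat_lit 250) (fin (add (start D4140) (orK (nat_lit 226) (fin (add (start D28311) (orK (nat_lit 206) (fin (add (start D5100) D5099))))))))))))) (orK (nat_lit 208) (fin (add (add (start D28830) (orK (nat_lit 248) (fin (add (add (start D27677) (orK (nat_lit 188) (fin (add (add (start D5034) (orK (nat_lit 169) (fin (add (start D2537) D14197)))) (orK (nat_lit 189) (fin (add (start D311) (orK (nat_lit 167) (fin (add (start D5047) (orK (nat_lit 268) (fin (add (add (add (start D2532) D21062) (orK (nat_lit 287) (fin (add (start D20770) (orK (nat_lit 288) (fin (add (start D20771) (orK (nat_lit 308) (fin (add (start (win (nat_lit 3) (nat_lit 8) (nat_lit 11) (nat_lit 4))) D21190)))))))))) (orK (nat_lit 287) (fin (add (start D20770) (orK (nat_lit 288) (fin (add (start D20771) (orK (nat_lit 249) (fin (add (start D12180) D4630))))))))))))))))))))))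 (orK (nat_lit 247) (fin (add (start D5116) D9411))))))) (orK (nat_lit 188) (fin (add (add (add (start D5114) (orK (nat_lit 168) (fin (add (start D1913) D4628)))) D28856) D28931)))))))))) (orK (nat_lit 211) (fin (add (add (add (add (start (orK (nat_lit 212) (fin (add (start D3729) (orK (nat_lit 228) D5008))))) (orK (nat_lit 209) (fin (add (add (add (add (add (start (orK (nat_lit 208) (fin (add (start D9679) D26589)))) D28953) D4118) (orK (nat_lit 189) (fin (add (add (start D4011) (orK (nat_lit 250) (fin (add (start D3724) D28957)))) (orK (nat_lit 169) (fin (add (start D3722) (orK (nat_lit 248) (fin (add (start D7553) (orK (nat_lit 249) (fin (add (start D4016) (orK (nat_lit 269) (fin (add (start D4089) (orK (nat_lit 246) (fin (add (start (win (nat_lit 4) (nat_lit 6) (nat_lit 11) (nat_lit 1))) (orK (nat_lit 270) (fin (add (start D4103) D12662)))))))))))))))))))))) (orK (nat_lit 270) (fin (add (start D28559) (orK (nat_lit 208) (fin (add (start D9679) (orK (nat_lit 188) (fin (add (start D451) D9703)))))))))) (orK (nat_lit 250) (fin (add (start (orK (nat_lit 189) (fin (add (start D4119) D15818)))) D11857))))))) (orK (nat_lit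 212) (fin (add (start D3729) (orK (nat_lit 231) (fin (add (start D3034) (orK (nat_lit 191) (fin (add (add (start D3785) (orK (nat_lit 251) (fin (add (add (start (orK (nat_lit 250) (fin (add (start D7263) D26737)))) (orK (nat_lit 271) (fin (add (start D4221) D9121)))) D25567)))) (orK (nat_lit 171) (fin (add (start D3782) (orK (nat_lit 172) (fin (add (start D5988) (orK (nat_lit 251) (fin (add (start D4767) D18939))))))))))))))))))) D28387) (orK (nat_lit 212) (fin (add (start D3729) (orK (nat_lit 209) (fin (add (start D59) (orK (nat_lit 189) (fin (add (start D439) (orK (nat_lit 192) (fin (add (start D845) D4011)))))))))))))))) (orK (nat_lit 209) D29259)) (orK (nat_lit 228) (fin (add (add (add (start D28417) D5098) (orK (nat_lit 211) (fin (add (add (start D5096) (orK (nat_lit 250) (fin (add (add (add (start D26569) (orK (nat_lit 270) (fin (add (add (start D26599) D28704) (orK (nat_lit 209) (fin (add (start D4218) (orK (nat_lit 269) (fin (add (start D614) (orK (nat_lit 271) (fin (add (start D628) (orK (nat_lit 251) (fin (add (start D10521) (orK (nat_lit 268) (fin (add (start D4314) (orK (nat_lit 288) (fin (add (start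 D28277) D4258)))))))))))))))))))))) D28706) (orK (nat_lit 251) (fin (add (add (start D26712) D10521) (orK (nat_lit 208) (fin (add (add (add (start D5018) D5124) (orK (nat_lit 231) (fin (add (start D515) (orK (nat_lit 171) (fin (add (start (win (nat_lit 1) (nat_lit 10) (nat_lit 8) (nat_lit 1))) D15568))))))) D5143)))))))))) D5147)))) D26894)))) (orK (nat_lit 228) (fin (add (add (add (start D28417) D5098) D28323) (orK (nat_lit 211) (fin (add (add (start D5096) (orK (nat_lit 209) D29437)) D5147))))))) (orK (nat_lit 211) (fin (add (add (add (start D28387) D8225) (orK (nat_lit 228) (fin (add (start D516) (orK (nat_lit 208) (fin (add (add (add (start D5018) (orK (nat_lit 191) (fin (add (add (start D8857) (orK (nat_lit 209) (fin (add (start D342) (orK (nat_lit 188) (fin (add (start D451) D29448))))))) (orK (nat_lit 209) (fin (add (start D342) (orK (nat_lit 188) (fin (add (start D451) (orK (nat_lit 168) (fin (add (start D1912) (orK (nat_lit 169) (fin (add (start D2538) (orK (nat_lit 189) (fin (add (start D3065) (orK (nat_lit 171) (fin (add (start D3782) (orK (nat_lit 170) (fin (add (start D5744) D2130)))))))))))))))))))))))))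 D28403) (orK (nat_lit 188) (fin (add (add (add (start D5141) (orK (nat_lit 209) (fin (add (start D451) (orK (nat_lit 206) (fin (add (start D28476) (orK (nat_lit 191) (fin (add (start D342) D29448)))))))))) (orK (nat_lit 168) (fin (add (add (start D28836) (orK (nat_lit 169) (fin (add (start D2538) (orK (nat_lit 248) (fin (add (start D2537) (orK (nat_lit 267) (fin (add (start D2527) (orK (nat_lit 268) (fin (add (start D2528) (orK (nat_lit 288) (fin (add (start D26932) D20777)))))))))))))))) D4628)))) D28931)))))))))) D8229))))
noncomputable def D3308 : OP := win (nat_lit 3) (nat_lit 8) (nat_lit 8) (nat_lit 3)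
noncomputable def D15202 : OP := win (nat_lit 1) (nat_lit 8) (nat_lit 8) (nat_lit 2)
noncomputable def D518 : AP := fin (add (start D516) D517)
noncomputable def D519 : OP := orK (nat_lit 211) D518
noncomputable def D27013 : OP := orK (nat_lit 228) (fin (add (start D519) (orK (nat_lit 208) (fin (add (start D515) (orK (nat_lit 248) (fin (add (start D3847) (orK (nat_lit 189) (fin (add (start D15202) D3308)))))))))))
noncomputable def D5107 : OP := orK (nat_lit 227) (fin (add (start D4471) D5105))
noncomputable def D402 : OP := win (nat_lit 7) (nat_lit 10) (nat_lit 9) (nat_lit 0)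
noncomputable def D19081 : OP := orK (nat_lit 251) (fin (add (start D4059) (orK (nat_lit 211) (fin (add (start D517) D402)))))
noncomputable def D3812 : AP := fin (add (start D1890) D3315)
noncomputable def D15280 : OP := orK (nat_lit 251) (fin (add (start D4059) D402))
noncomputable def D26347 : OP := orK (nat_lit 131) (fin (add (start D168) D178))
noncomputable def D5442 : OP := orK (nat_lit 150) (fin (add (start D175) D705))
noncomputable def D26995 : OP := orK (nat_lit 169) (fin (add (start D223) D14481))
noncomputable def D560 : OP := orK (nat_lit 131) (fin (add (start D168) (orK (nat_lit 130) (fin (add (start D167) D186)))))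
noncomputable def D610 : OP := orK (nat_lit 150) (fin (add (start D156) D560))
noncomputable def D612 : OP := orK (nat_lit 231) (fin (add (start D157) D610))
noncomputable def D26999 : OP := orK (nat_lit 170) (fin (add (add (add (start (orK (nat_lit 251) (fin (add (start D148) (orK (nat_lit 250) (fin (add (start D149) D14508))))))) D612) D26995) (orK (nat_lit 149) (fin (add (start D176) D5442)))))
noncomputable def D300 : AP := fin (add (start D297) D57)
noncomputable def D301 : OP := orK (nat_lit 212) D300
noncomputable def D425 : AP := fin (add (start D53) D301)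
noncomputable def D14352 : OP := orK (nat_lit 211) D425
noncomputable def D10888 : OP := orK (nat_lit 247) (fin (add (start D5071) D4043))
noncomputable def D354 : OP := orK (nat_lit 228) (fin (add (start D319) D317))
noncomputable def D17040 : OP := orK (nat_lit 167) (fin (add (start D3540) D2435))
noncomputable def D28115 : OP := orK (nat_lit 168) (fin (add (start D4032) D17040))
noncomputable def D3116 : OP := win (nat_lit 4) (nat_lit 7) (nat_lit 10) (nat_lit 2)
noncomputable def D413 : OP := win (nat_lit 4) (nat_lit 6) (nat_lit 9) (nat_lit 0)
noncomputable def D14397 : AP := fin (add (start D2449) D413)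
noncomputable def D14398 : OP := orK (nat_lit 207) D14397
noncomputable def D462 : OP := win (nat_lit 3) (nat_lit 9) (nat_lit 9) (nat_lit 0)
noncomputable def D11974 : OP := orK (nat_lit 249) (fin (add (start D462) D1897))
noncomputable def D14341 : OP := orK (nat_lit 167) (fin (add (start D9066) (orK (nat_lit 191) (fin (add (start D11518) D14337)))))
noncomputable def D14334 : OP := orK (nat_lit 186) (fin (add (start D9369) D11522))
noncomputable def D14343 : OP := orK (nat_lit 187) (fin (add (add (start D14332) D14334) D14341))
noncomputable def D20301 : OP := orK (nat_lit 250) (fin (add (start D3476) (orK (nat_lit 269) (fin (add (start D613) (orK (nat_lit 270) (fin (add (start D614) (orK (nat_lit 211) (fin (add (start D3104) D630)))))))))))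
noncomputable def D14974 : OP := orK (nat_lit 271) (fin (add (start D627) (orK (nat_lit 270) (fin (add (start D628) D3105)))))
noncomputable def D166 : OP := win (nat_lit 1) (nat_lit 9) (nat_lit 6) (nat_lit 4)
noncomputable def D172 : OP := orK (nat_lit 130) (fin (add (start D166) D170))
noncomputable def D80 : OP := win (nat_lit 1) (nat_lit 9) (nat_lit 7) (nat_lit 5)
noncomputable def D174 : OP := orK (nat_lit 209) (fin (add (start D80) D172))
noncomputable def D15454 : OP := orK (nat_lit 149) (fin (add (start D176) (orK (nat_lit 150) (fin (add (start D175) D174)))))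
noncomputable def D22446 : OP := orK (nat_lit 170) (fin (add (add (add (start D2958) D543) (orK (nat_lit 231) (fin (add (start D157) (orK (nat_lit 150) (fin (add (start D156) D174))))))) D15454))
noncomputable def D727 : OP := orK (nat_lit 229) (fin (add (start D20) (orK (nat_lit 150) (fin (add (start D21) D560)))))
noncomputable def D15458 : OP := orK (nat_lit 227) (fin (add (start D4060) D4471))
noncomputable def D15485 : AP := fin (add (start D4059) D519)
noncomputable def D14358 : OP := win (nat_lit 7) (nat_lit 10) (nat_lit 9) (nat_lit 3)
noncomputable def D14369 : AP := fin (add (start D14358) D4221)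
noncomputable def D14370 : OP := orK (nat_lit 271) D14369
noncomputable def D14411 : AP := fin (add (start D8918) D14370)
noncomputable def D14469 : OP := orK (nat_lit 231) D14411
noncomputable def D12493 : OP := win (nat_lit 6) (nat_lit 10) (nat_lit 9) (nat_lit 3)
noncomputable def D14468 : OP := orK (nat_lit 271) (fin (add (start D12493) (orK (nat_lit 231) D14369)))
noncomputable def D28250 : AP := fin (add (add (add (add (add (add (add (add (start (orK (nat_lit 251) (fin (add (add (add (start (orK (nat_lit 250) (fin (add (start D149) (orK (nat_lit 249) (fin (add (start D8) (orK (nat_lit 229) (fin (add (start D8934) D9684)))))))))) D14468) D14469) (orK (nat_lit 229) (fin (add (add (add (start D26751) (orK (nat_lit 228) (fin (add (add (start D15458) D28077) (orK (nat_lit 231) D15485))))) (orK (nat_lit 249) (fin (add (start D8934) (orK (nat_lit 269) D14680))))) (orK (nat_lit 231) (fin (add (start D8918) (orK (nat_lit 228) (fin (add (start D4059) D15458))))))))))))) (orK (nat_lit 170) (fin (add (add (add (start D26995) (orK (nat_lit 249) (fin (add (start D7) (orK (nat_lit 250) (fin (add (start D8) D14504))))))) D727)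 D15454)))) D22446) (orK (nat_lit 189) (fin (add (add (add (start D14230) (orK (nat_lit 250) (fin (add (add (add (start D14234) D14974) D634) (orK (nat_lit 251) (fin (add (start D149) (orK (nat_lit 249) (fin (add (start D8) (orK (nat_lit 229) (fin (add (start D9684) D28096))))))))))))) D20301) (orK (nat_lit 188) (fin (add (add (add (start D14343) (orK (nat_lit 211) (fin (add (add (start D301) D303) (orK (nat_lit 169) (fin (add (add (start D14228) (orK (nat_lit 228) (fin (add (add (add (add (start (orK (nat_lit 229) (fin (add (start D516) (orK (nat_lit 209) (fin (add (start D3065) D11974))))))) (orK (nat_lit 208) (fin (add (start D317) (orK (nat_lit 227) (fin (add (start D3116) D28115))))))) (orK (nat_lit 248) (fin (add (start (win (nat_lit 3) (nat_lit 8) (nat_lit 8) (nat_lit 2))) (orK (nat_lit 229) (fin (add (start D15202) (orK (nat_lit 231) (fin (add (start D3847) D15280)))))))))) (orK (nat_lit 208) (fin (add (start D317) (orK (nat_lit 209) (fin (add (start D104) D14398))))))) (orK (nat_lit 227) (fin (add (start D3116) (orK (nat_lit 208) (fin (add (start D324) D28115)))))))))) (orK (nat_lit 149) (fin (add (start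 D277) (orK (nat_lit 208) (fin (add (add (start D354) (orK (nat_lit 191) (fin (add (start D371) D3115)))) (orK (nat_lit 207) (fin (add (start D304) (orK (nat_lit 228) (fin (add (start D317) (orK (nat_lit 229) (fin (add (start D5012) (orK (nat_lit 227) (fin (add (start D5156) D10888))))))))))))))))))))))))) D14352) D14353))))))) D28159) D26999) (orK (nat_lit 229) (fin (add (add (add (start D14868) (orK (nat_lit 170) (fin (add (start D20) (orK (nat_lit 231) (fin (add (start D157) (orK (nat_lit 150) (fin (add (start D156) D26347)))))))))) (orK (nat_lit 228) (fin (add (add (add (start D19293) (orK (nat_lit 211) (fin (add (start D516) (orK (nat_lit 231) (fin (add (start D517) D15280))))))) (orK (nat_lit 208) (fin (add (add (start D5018) (orK (nat_lit 249) (fin (add (add (start D14733) (orK (nat_lit 188) (fin (add (start D3355) (orK (nat_lit 248) (fin (add (start D28171) (orK (nat_lit 189) (fin (add (start D311) (orK (nat_lit 187) (fin (add (start D3316) (orK (nat_lit 209) D3812)))))))))))))) D28184)))) (orK (nat_lit 231) (fin (add (start D515) D19081))))))) D5107)))) (orK (nat_lit 170) (fin (add (add (add (start D161)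 D749) (orK (nat_lit 231) (fin (add (start D157) (orK (nat_lit 169) (fin (add (start D223) D27013))))))) D2958))))))) D28247) (orK (nat_lit 170) (fin (add (add (start D163) D547) D2958))))
noncomputable def D16494 : AP := fin (add (start D9457) (orK (nat_lit 267) (fin (add (start D4124) D16491))))
noncomputable def D16495 : OP := orK (nat_lit 268) D16494
noncomputable def D26779 : OP := orK (nat_lit 249) (fin (add (add (start D8899) D26467) (orK (nat_lit 269) (fin (add (start D8893) D16495)))))
noncomputable def D9841 : OP := orK (nat_lit 269) (fin (add (start D614) (orK (nat_lit 190) (fin (add (start D613) D618)))))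
noncomputable def D26483 : OP := orK (nat_lit 270) (fin (add (add (start D9841) (orK (nat_lit 211) (fin (add (start D3104) (orK (nat_lit 290) (fin (add (start D9842) D7063))))))) D26481))
noncomputable def D26412 : OP := orK (nat_lit 270) (fin (add (add (start D26406) D7058) D26410))
noncomputable def D14440 : AP := fin (add (start D3476) D719)
noncomputable def D9299 : AP := fin (add (start D615) D630)
noncomputable def D9302 : OP := orK (nat_lit 191) (fin (add (start D616) (orK (nat_lit 190) D9299)))
noncomputable def D14443 : OP := orK (nat_lit 189) (fin (add (add (add (start D14430) (orK (nat_lit 270) (fin (add (start D3105) D9302)))) (orK (nat_lit 209) D9292)) (orK (nat_lit 190) D14440)))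
noncomputable def D5987 : OP := win (nat_lit 7) (nat_lit 10) (nat_lit 7) (nat_lit 5)
noncomputable def D16006 : OP := orK (nat_lit 171) (fin (add (start D3782) D5987))
noncomputable def D3035 : OP := win (nat_lit 0) (nat_lit 7) (nat_lit 10) (nat_lit 0)
noncomputable def D3325 : OP := orK (nat_lit 188) D3324
noncomputable def D27461 : OP := orK (nat_lit 187) (fin (add (add (start (orK (nat_lit 207) (fin (add (start D2449) D666)))) D3325) (orK (nat_lit 211) (fin (add (start D667) (orK (nat_lit 191) (fin (add (start D342) (orK (nat_lit 231) (fin (add (start D3035) D16006)))))))))))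
noncomputable def D3292 : OP := win (nat_lit 5) (nat_lit 6) (nat_lit 10) (nat_lit 3)
noncomputable def D25632 : OP := orK (nat_lit 226) (fin (add (start D3292) (orK (nat_lit 228) (fin (add (start D2519) D2518)))))
noncomputable def D10542 : OP := win (nat_lit 6) (nat_lit 9) (nat_lit 7) (nat_lit 2)
noncomputable def D276 : OP := win (nat_lit 2) (nat_lit 8) (nat_lit 7) (nat_lit 5)
noncomputable def D27604 : AP := fin (add (start D276) D10542)
noncomputable def D2392 : OP := win (nat_lit 2) (nat_lit 9) (nat_lit 7) (nat_lit 4)
noncomputable def D1112 : OP := win (nat_lit 4) (nat_lit 11) (nat_lit 7) (nat_lit 5)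
noncomputable def D1111 : OP := win (nat_lit 4) (nat_lit 10) (nat_lit 7) (nat_lit 4)
noncomputable def D1114 : OP := orK (nat_lit 154) (fin (add (start D1111) D1112))
noncomputable def D1101 : OP := win (nat_lit 0) (nat_lit 11) (nat_lit 8) (nat_lit 5)
noncomputable def D1100 : OP := win (nat_lit 0) (nat_lit 10) (nat_lit 8) (nat_lit 4)
noncomputable def D1257 : OP := win (nat_lit 3) (nat_lit 11) (nat_lit 7) (nat_lit 0)
noncomputable def D27631 : OP := orK (nat_lit 191) (fin (add (start D342) (orK (nat_lit 171) (fin (add (start D3782) (orK (nat_lit 172) (fin (add (add (start (orK (nat_lit 231) (fin (add (start D5988) D5987)))) (orK (nat_lit 152) (fin (add (start D1257) (orK (nat_lit 169) (fin (add (start D281) (orK (nat_lit 149) D27604)))))))) (orK (nat_lit 173) (fin (add (start (orK (nat_lit 174) (fin (add (start (orK (nat_lit 194) (fin (add (start D1100) D1101)))) D1114)))) (orK (nat_lit 149) (fin (add (start D2392) (orK (nat_lit 169) D27604)))))))))))))))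
noncomputable def D27640 : AP := fin (add (start D669) D27631)
noncomputable def D27643 : OP := orK (nat_lit 227) (fin (add (add (start (orK (nat_lit 207) (fin (add (start D2449) D668)))) (orK (nat_lit 211) D27640)) D25632))
noncomputable def D10764 : AP := fin (add (start D5134) D7392)
noncomputable def D10765 : OP := orK (nat_lit 147) D10764
noncomputable def D2650 : OP := win (nat_lit 7) (nat_lit 7) (nat_lit 5) (nat_lit 4)
noncomputable def D2651 : OP := win (nat_lit 7) (nat_lit 7) (nat_lit 4) (nat_lit 5)
noncomputable def D5636 : OP := orK (nat_lit 107) (fin (add (start D2651) D2650))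
noncomputable def D2634 : OP := win (nat_lit 1) (nat_lit 7) (nat_lit 5) (nat_lit 4)
noncomputable def D10794 : OP := orK (nat_lit 108) (fin (add (start D2634) D5636))
noncomputable def D10798 : OP := orK (nat_lit 129) (fin (add (start D5642) (orK (nat_lit 128) (fin (add (start D5641) D10794)))))
noncomputable def D9520 : AP := fin (add (start D2435) D4027)
noncomputable def D2639 : OP := win (nat_lit 1) (nat_lit 7) (nat_lit 5) (nat_lit 0)
noncomputable def D27724 : OP := orK (nat_lit 167) (fin (add (start D2639) (orK (nat_lit 228) D9520)))
noncomputable def D577 : OP := win (nat_lit 5) (nat_lit 7) (nat_lit 7) (nat_lit 5)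
noncomputable def D902 : OP := win (nat_lit 4) (nat_lit 8) (nat_lit 6) (nat_lit 5)
noncomputable def D16991 : OP := win (nat_lit 4) (nat_lit 7) (nat_lit 6) (nat_lit 4)
noncomputable def D7204 : OP := orK (nat_lit 129) (fin (add (start D6461) D7202))
noncomputable def D7205 : AP := fin (add (start D375) D7204)
noncomputable def D7206 : OP := orK (nat_lit 149) D7205
noncomputable def D2645 : OP := win (nat_lit 5) (nat_lit 6) (nat_lit 8) (nat_lit 3)
noncomputable def D10801 : AP := fin (add (start D2645) D4290)
noncomputable def D18546 : OP := orK (nat_lit 169) D10801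
noncomputable def D18548 : OP := orK (nat_lit 186) (fin (add (start D3274) D18546))
noncomputable def D27741 : OP := orK (nat_lit 168) (fin (add (add (add (start D18548) (orK (nat_lit 169) (fin (add (start D4290) D7206)))) (orK (nat_lit 186) (fin (add (start D3274) (orK (nat_lit 148) (fin (add (add (add (add (start D16358) (orK (nat_lit 147) (fin (add (start D4621) (orK (nat_lit 149) (fin (add (start D931) (orK (nat_lit 150) (fin (add (start D8309) (orK (nat_lit 131) (fin (add (start D16991) (orK (nat_lit 151) (fin (add (start D902) D577)))))))))))))))) (orK (nat_lit 128) (fin (add (add (start D16337) D27724) D10794)))) (orK (nat_lit 129) (fin (add (start D5642) (orK (nat_lit 128) (fin (add (start D5641) D27724))))))) D10798))))))) (orK (nat_lit 186) (fin (add (start D3274) (orK (nat_lit 167) (fin (add (start (win (nat_lit 5) (nat_lit 6) (nat_lit 8) (nat_lit 1))) D10765))))))))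
noncomputable def D27987 : OP := orK (nat_lit 169) (fin (add (start D4290) (orK (nat_lit 149) (fin (add (start D10542) D7204)))))
noncomputable def D9521 : OP := orK (nat_lit 167) D9520
noncomputable def D13280 : OP := orK (nat_lit 228) (fin (add (start D2538) D9521))
noncomputable def D5643 : OP := win (nat_lit 6) (nat_lit 8) (nat_lit 6) (nat_lit 4)
noncomputable def D7229 : OP := orK (nat_lit 129) (fin (add (start D5642) (orK (nat_lit 128) (fin (add (start D5641) D5643)))))
noncomputable def D27506 : OP := orK (nat_lit 148) (fin (add (start D4621) D7229))
noncomputable def D16339 : OP := orK (nat_lit 128) (fin (add (start D5643) D16337))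
noncomputable def D5633 : OP := win (nat_lit 3) (nat_lit 8) (nat_lit 5) (nat_lit 4)
noncomputable def D5634 : OP := win (nat_lit 3) (nat_lit 8) (nat_lit 4) (nat_lit 5)
noncomputable def D27743 : OP := orK (nat_lit 187) (fin (add (start D3315) D27741))
noncomputable def D27508 : OP := orK (nat_lit 147) (fin (add (start D4622) D27506))
noncomputable def D18634 : OP := orK (nat_lit 148) (fin (add (start D3429) D4624))
noncomputable def D4006 : OP := orK (nat_lit 186) (fin (add (start D653) (orK (nat_lit 206) (fin (add (start D654) D663)))))
noncomputable def D4008 : OP := orK (nat_lit 207) (fin (add (start D2449) D4006))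
noncomputable def D946 : OP := win (nat_lit 3) (nat_lit 7) (nat_lit 8) (nat_lit 0)
noncomputable def D8996 : OP := win (nat_lit 1) (nat_lit 7) (nat_lit 7) (nat_lit 0)
noncomputable def D9063 : OP := orK (nat_lit 168) (fin (add (start D8996) D946))
noncomputable def D9065 : OP := orK (nat_lit 227) (fin (add (start D668) D9063))
noncomputable def D17942 : OP := orK (nat_lit 187) (fin (add (start D666) (orK (nat_lit 188) (fin (add (start D3315) D9065)))))
noncomputable def D27751 : OP := orK (nat_lit 207) (fin (add (add (start D3927) D3929) D17942))
noncomputable def D943 : OP := win (nat_lit 5) (nat_lit 7) (nat_lit 8) (nat_lit 2)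
noncomputable def D10800 : OP := orK (nat_lit 148) (fin (add (start D5644) D10798))
noncomputable def D16316 : OP := orK (nat_lit 189) (fin (add (start D3722) D8656))
noncomputable def D7217 : OP := orK (nat_lit 229) D4305
noncomputable def D27693 : OP := orK (nat_lit 192) (fin (add (start D846) (orK (nat_lit 212) (fin (add (start D845) D27689)))))
noncomputable def D27745 : OP := orK (nat_lit 211) (fin (add (start D451) D27693))
noncomputable def D770 : OP := win (nat_lit 2) (nat_lit 7) (nat_lit 7) (nat_lit 5)
noncomputable def D24989 : AP := fin (add (start D770) D5644)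
noncomputable def D2215 : OP := win (nat_lit 2) (nat_lit 8) (nat_lit 7) (nat_lit 4)
noncomputable def D3307 : OP := win (nat_lit 1) (nat_lit 8) (nat_lit 7) (nat_lit 0)
noncomputable def D3826 : OP := orK (nat_lit 228) (fin (add (start D104) (orK (nat_lit 169) (fin (add (start D3307) D317)))))
noncomputable def D16008 : OP := orK (nat_lit 191) (fin (add (start D342) D16006))
noncomputable def D4594 : OP := orK (nat_lit 248) (fin (add (start D3847) D4592))
noncomputable def D14000 : AP := fin (add (start D4059) D4594)
noncomputable def D16016 : AP := fin (add (start D3035) (orK (nat_lit 211) (fin (add (start D16008) (orK (nat_lit 228) (fin (add (start D104) (orK (nat_lit 229) (fin (add (start D517) (orK (nat_lit 251) D14000)))))))))))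
noncomputable def D27521 : OP := orK (nat_lit 231) D16016
noncomputable def D27296 : OP := orK (nat_lit 211) (fin (add (add (start D2517) (orK (nat_lit 188) (fin (add (start D451) (orK (nat_lit 228) (fin (add (start D104) D2545))))))) D2560))
noncomputable def D4875 : OP := orK (nat_lit 187) (fin (add (start D1890) D4290))
noncomputable def D4879 : OP := orK (nat_lit 168) (fin (add (start D3044) (orK (nat_lit 188) (fin (add (start D4012) D4875)))))
noncomputable def D16032 : AP := fin (add (start D5744) D4879)
noncomputable def D16244 : AP := fin (add (start D3722) (orK (nat_lit 229) D16032))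
noncomputable def D759 : OP := win (nat_lit 0) (nat_lit 6) (nat_lit 7) (nat_lit 0)
noncomputable def D4295 : AP := fin (add (start D4032) D2522)
noncomputable def D4296 : OP := orK (nat_lit 227) D4295
noncomputable def D4298 : OP := orK (nat_lit 228) (fin (add (start D2538) D4296))
noncomputable def D283 : OP := orK (nat_lit 152) (fin (add (start D280) D281))
noncomputable def D2620 : OP := orK (nat_lit 192) (fin (add (start D241) (orK (nat_lit 172) (fin (add (start D240) D283)))))
noncomputable def D16218 : OP := orK (nat_lit 148) (fin (add (start D770) (orK (nat_lit 188) (fin (add (start D117) D5644)))))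
noncomputable def D1030 : OP := orK (nat_lit 192) (fin (add (start D241) D240))
noncomputable def D12866 : AP := fin (add (start D1030) D283)
noncomputable def D12867 : OP := orK (nat_lit 172) D12866
noncomputable def D2217 : OP := orK (nat_lit 148) (fin (add (start D770) D2215))
noncomputable def D12865 : OP := orK (nat_lit 172) (fin (add (start D1030) D2217))
noncomputable def D5625 : OP := orK (nat_lit 151) (fin (add (start D2818) D119))
noncomputable def D2105 : OP := win (nat_lit 2) (nat_lit 7) (nat_lit 7) (nat_lit 4)
noncomputable def D2106 : OP := win (nat_lit 2) (nat_lit 6) (nat_lit 7) (nat_lit 5)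
noncomputable def D3542 : OP := orK (nat_lit 147) (fin (add (start D2106) D2105))
noncomputable def D6265 : AP := fin (add (start D3542) D5625)
noncomputable def D6266 : OP := orK (nat_lit 167) D6265
noncomputable def D12883 : OP := orK (nat_lit 171) (fin (add (add (start D6266) D12865) D12867))
noncomputable def D7408 : OP := orK (nat_lit 247) (fin (add (start D7183) (orK (nat_lit 248) (fin (add (start D3746) D7404)))))
noncomputable def D2647 : OP := orK (nat_lit 186) (fin (add (start D2644) D2645))
noncomputable def D16209 : AP := fin (add (start D4290) D2647)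
noncomputable def D16210 : OP := orK (nat_lit 187) D16209
noncomputable def D16231 : OP := orK (nat_lit 168) (fin (add (add (add (start (orK (nat_lit 188) (fin (add (start D16210) (orK (nat_lit 228) (fin (add (start D2538) D7408))))))) D12883) (orK (nat_lit 171) (fin (add (start D16218) D2620)))) (orK (nat_lit 188) (fin (add (add (add (start D4298) D10754) (orK (nat_lit 148) (fin (add (start D5644) (orK (nat_lit 149) (fin (add (start D931) (orK (nat_lit 147) (fin (add (start D759) D4621)))))))))) D7206)))))
noncomputable def D17139 : OP := win (nat_lit 6) (nat_lit 7) (nat_lit 9) (nat_lit 3)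
noncomputable def D12369 : AP := fin (add (start D5156) D3456)
noncomputable def D12370 : OP := orK (nat_lit 227) D12369
noncomputable def D12372 : OP := orK (nat_lit 228) (fin (add (start D3065) D12370))
noncomputable def D12636 : OP := orK (nat_lit 208) D2450
noncomputable def D10701 : OP := win (nat_lit 7) (nat_lit 8) (nat_lit 7) (nat_lit 4)
noncomputable def D27943 : OP := orK (nat_lit 229) (fin (add (start D5744) (orK (nat_lit 148) (fin (add (start D10701) (orK (nat_lit 207) (fin (add (add (start D12636) D12372) (orK (nat_lit 208) (fin (add (start D2449) (orK (nat_lit 227) (fin (add (start D668) (orK (nat_lit 248) (fin (add (start D7553) (orK (nat_lit 268) (fin (add (start D4180) (orK (nat_lit 187) (fin (add (start D666) D17139)))))))))))))))))))))))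
noncomputable def D13073 : OP := orK (nat_lit 147) D13072
noncomputable def D980 : OP := win (nat_lit 6) (nat_lit 8) (nat_lit 5) (nat_lit 0)
noncomputable def D7322 : OP := orK (nat_lit 128) (fin (add (start D980) (win (nat_lit 6) (nat_lit 8) (nat_lit 6) (nat_lit 3))))
noncomputable def D25822 : OP := orK (nat_lit 148) (fin (add (start D7322) D13073))
noncomputable def D13075 : OP := orK (nat_lit 148) (fin (add (start D7129) D13073))
noncomputable def D18653 : OP := win (nat_lit 1) (nat_lit 7) (nat_lit 8) (nat_lit 2)
noncomputable def D27907 : OP := orK (nat_lit 229) (fin (add (start D4012) (orK (nat_lit 228) (fin (add (start D3065) (orK (nat_lit 227) (fin (add (start D3456) (orK (nat_lit 247) (fin (add (start D18653) D4043)))))))))))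
noncomputable def D7323 : AP := fin (add (start D7129) D7322)
noncomputable def D13061 : OP := orK (nat_lit 148) D7323
noncomputable def D1294 : OP := win (nat_lit 7) (nat_lit 11) (nat_lit 6) (nat_lit 0)
noncomputable def D1293 : OP := win (nat_lit 6) (nat_lit 11) (nat_lit 5) (nat_lit 0)
noncomputable def D1296 : OP := orK (nat_lit 131) (fin (add (start D1293) D1294))
noncomputable def D1033 : OP := win (nat_lit 4) (nat_lit 8) (nat_lit 7) (nat_lit 0)
noncomputable def D1152 : OP := win (nat_lit 7) (nat_lit 11) (nat_lit 5) (nat_lit 4)
noncomputable def D1151 : OP := win (nat_lit 7) (nat_lit 11) (nat_lit 4) (nat_lit 5)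
noncomputable def D1154 : OP := orK (nat_lit 111) (fin (add (start D1151) D1152))
noncomputable def D1273 : OP := win (nat_lit 1) (nat_lit 11) (nat_lit 5) (nat_lit 5)
noncomputable def D1570 : OP := win (nat_lit 5) (nat_lit 10) (nat_lit 6) (nat_lit 5)
noncomputable def D1974 : OP := win (nat_lit 3) (nat_lit 12) (nat_lit 5) (nat_lit 5)
noncomputable def D1161 : OP := win (nat_lit 7) (nat_lit 11) (nat_lit 5) (nat_lit 5)
noncomputable def D1149 : OP := win (nat_lit 3) (nat_lit 12) (nat_lit 5) (nat_lit 4)
noncomputable def D1150 : OP := win (nat_lit 3) (nat_lit 12) (nat_lit 4) (nat_lit 5)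
noncomputable def D17642 : OP := orK (nat_lit 113) (fin (add (start D1150) D1149))
noncomputable def D24650 : AP := fin (add (start D240) (orK (nat_lit 152) (fin (add (start D281) (orK (nat_lit 132) (fin (add (add (start (orK (nat_lit 112) (fin (add (start D1273) D17642)))) (orK (nat_lit 131) (fin (add (start D1161) (orK (nat_lit 151) (fin (add (start D1294) (orK (nat_lit 133) (fin (add (start D1974) (orK (nat_lit 134) (fin (add (start D1570) (win (nat_lit 5) (nat_lit 11) (nat_lit 6) (nat_lit 0))))))))))))))) (orK (nat_lit 112) (fin (add (start D1273) D1154))))))))))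
noncomputable def D24651 : OP := orK (nat_lit 172) D24650
noncomputable def D5629 : OP := orK (nat_lit 147) (fin (add (start D2105) (orK (nat_lit 167) (fin (add (start D2106) D5625)))))
noncomputable def D1597 : OP := win (nat_lit 2) (nat_lit 10) (nat_lit 8) (nat_lit 0)
noncomputable def D2059 : OP := win (nat_lit 0) (nat_lit 9) (nat_lit 8) (nat_lit 3)
noncomputable def D2061 : OP := orK (nat_lit 193) (fin (add (start D2059) D1597))
noncomputable def D2062 : AP := fin (add (start D357) D2061)
noncomputable def D6612 : OP := orK (nat_lit 191) D2062
noncomputable def D2108 : OP := win (nat_lit 5) (nat_lit 7) (nat_lit 8) (nat_lit 4)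
noncomputable def D2110 : OP := orK (nat_lit 187) (fin (add (start D2107) D2108))
noncomputable def D6267 : AP := fin (add (start D5625) D2110)
noncomputable def D6268 : OP := orK (nat_lit 167) D6267
noncomputable def D13089 : OP := orK (nat_lit 148) (fin (add (start D770) D3429))
noncomputable def D13090 : AP := fin (add (start D117) D13089)
noncomputable def D13093 : OP := orK (nat_lit 168) (fin (add (add (start (orK (nat_lit 188) D13090)) D6266) D6268))
noncomputable def D4885 : OP := orK (nat_lit 172) (fin (add (start D226) D239))
noncomputable def D4805 : OP := orK (nat_lit 188) (fin (add (start D2130) (orK (nat_lit 187) (fin (add (start D1890) D1923)))))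
noncomputable def D1900 : OP := win (nat_lit 7) (nat_lit 8) (nat_lit 9) (nat_lit 4)
noncomputable def D4294 : OP := orK (nat_lit 187) (fin (add (start D4290) (orK (nat_lit 186) (fin (add (start D3274) D2645)))))
noncomputable def D12902 : OP := orK (nat_lit 188) (fin (add (start D375) D4294))
noncomputable def D2604 : OP := win (nat_lit 4) (nat_lit 5) (nat_lit 7) (nat_lit 4)
noncomputable def D771 : OP := win (nat_lit 2) (nat_lit 8) (nat_lit 7) (nat_lit 0)
noncomputable def D772 : AP := fin (add (start D770) D771)
noncomputable def D2586 : OP := orK (nat_lit 186) (fin (add (start D2583) D2584))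
noncomputable def D2577 : OP := win (nat_lit 2) (nat_lit 5) (nat_lit 7) (nat_lit 5)
noncomputable def D2578 : OP := win (nat_lit 2) (nat_lit 6) (nat_lit 7) (nat_lit 4)
noncomputable def D6410 : OP := orK (nat_lit 146) (fin (add (start D2578) (orK (nat_lit 166) (fin (add (start D2577) D2586)))))
noncomputable def D12889 : OP := orK (nat_lit 188) D7205
noncomputable def D27951 : AP := fin (add (add (add (add (add (start (orK (nat_lit 208) (fin (add (add (add (start D4008) (orK (nat_lit 149) (fin (add (start D10542) (orK (nat_lit 168) (fin (add (add (start D12889) (orK (nat_lit 167) (fin (add (add (add (start D6410) (orK (nat_lit 147) (fin (add (start D2106) (orK (nat_lit 171) (fin (add (start D2105) D2620))))))) (orK (nat_lit 186) (fin (add (start D2584) (orK (nat_lit 166) (fin (add (start D2583) (orK (nat_lit 148) (fin (add (start D925) (orK (nat_lit 171) D772))))))))))) (orK (nat_lit 186) (fin (add (start D2584) (orK (nat_lit 166) (fin (add (start D2583) (orK (nat_lit 145) (fin (add (start D6423) (orK (nat_lit 165) (fin (add (start D6424) D2604)))))))))))))))) D12902))))))) (orK (nat_lit 207) (fin (add (start D2449)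 (orK (nat_lit 226) (fin (add (start D661) (orK (nat_lit 189) (fin (add (start D3722) (orK (nat_lit 206) (fin (add (start D660) (orK (nat_lit 188) (fin (add (start D305) (orK (nat_lit 171) (fin (add (start D2130) (orK (nat_lit 168) D13090)))))))))))))))))))) (orK (nat_lit 207) (fin (add (start D2449) (orK (nat_lit 226) (fin (add (start D661) (orK (nat_lit 206) (fin (add (start D660) (orK (nat_lit 185) (fin (add (start D3952) (orK (nat_lit 205) (fin (add (start D3953) (orK (nat_lit 189) (fin (add (start D3771) D3722)))))))))))))))))))))) (orK (nat_lit 189) (fin (add (start D3722) (orK (nat_lit 229) (fin (add (start D5744) (orK (nat_lit 228) (fin (add (start D3065) (orK (nat_lit 227) (fin (add (start D3456) (orK (nat_lit 207) (fin (add (start D5156) (orK (nat_lit 208) (fin (add (start D2449) D13751))))))))))))))))))) (orK (nat_lit 189) (fin (add (add (add (add (start (orK (nat_lit 229) (fin (add (start D5744) (orK (nat_lit 248) (fin (add (start D7553) (orK (nat_lit 249) (fin (add (start D4016) (orK (nat_lit 269) (fin (add (start D4089) (orK (nat_lit 188) (fin (add (start D1897) D1900)))))))))))))))) (orK (nat_lit 171)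 (fin (add (add (add (start D4805) D4885) D13093) (orK (nat_lit 192) (fin (add (add (add (start D6612) (orK (nat_lit 168) (fin (add (start D241) D5629)))) D24651) (orK (nat_lit 172) (fin (add (start D240) (orK (nat_lit 152) (fin (add (start D281) (orK (nat_lit 151) (fin (add (start D1033) D1296)))))))))))))))) (orK (nat_lit 168) (fin (add (add (add (start D13061) (orK (nat_lit 188) (fin (add (add (start D4875) (orK (nat_lit 171) (fin (add (start D2130) D27907)))) (orK (nat_lit 186) (fin (add (start D6869) D27907))))))) D13075) D25822)))) (orK (nat_lit 229) (fin (add (start D5744) (orK (nat_lit 228) (fin (add (start D3065) (orK (nat_lit 227) (fin (add (start D3456) (orK (nat_lit 207) (fin (add (start D5156) (orK (nat_lit 208) (fin (add (start D2449) (orK (nat_lit 187) (fin (add (start D666) D13751))))))))))))))))))) D27943)))) (orK (nat_lit 189) (fin (add (start D3722) D27943)))) (orK (nat_lit 208) (fin (add (add (add (start D4927) D15721) D16231) D4008)))) (orK (nat_lit 189) D16244))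
noncomputable def D16098 : OP := orK (nat_lit 248) (fin (add (start D7553) (orK (nat_lit 249) (fin (add (start D4016) D4160)))))
noncomputable def D16102 : OP := orK (nat_lit 189) (fin (add (start D3722) (orK (nat_lit 229) (fin (add (start D5744) D16098)))))
noncomputable def D23300 : OP := win (nat_lit 3) (nat_lit 7) (nat_lit 6) (nat_lit 0)
noncomputable def D2813 : OP := win (nat_lit 4) (nat_lit 6) (nat_lit 7) (nat_lit 5)
noncomputable def D16084 : OP := orK (nat_lit 192) (fin (add (start D241) (orK (nat_lit 172) (fin (add (start D240) D2217)))))
noncomputable def D25601 : OP := orK (nat_lit 186) (fin (add (start D2645) (orK (nat_lit 188) (fin (add (start D2644) D4290)))))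
noncomputable def D6269 : AP := fin (add (start D3542) D2110)
noncomputable def D6270 : OP := orK (nat_lit 167) D6269
noncomputable def D6314 : OP := orK (nat_lit 148) (fin (add (start D770) (orK (nat_lit 172) (fin (add (start D2215) D283)))))
noncomputable def D4890 : OP := orK (nat_lit 191) (fin (add (start D374) (orK (nat_lit 151) (fin (add (start D4886) D119)))))
noncomputable def D16085 : AP := fin (add (add (start D4890) D16084) D6314)
noncomputable def D27581 : OP := orK (nat_lit 171) D16085
noncomputable def D758 : OP := win (nat_lit 5) (nat_lit 9) (nat_lit 7) (nat_lit 0)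
noncomputable def D133 : OP := win (nat_lit 5) (nat_lit 8) (nat_lit 7) (nat_lit 3)
noncomputable def D12876 : AP := fin (add (start D133) D758)
noncomputable def D754 : OP := win (nat_lit 4) (nat_lit 7) (nat_lit 7) (nat_lit 0)
noncomputable def D12878 : AP := fin (add (start D754) (orK (nat_lit 152) D12876))
noncomputable def D16328 : OP := orK (nat_lit 150) D12878
noncomputable def D7240 : OP := win (nat_lit 4) (nat_lit 6) (nat_lit 7) (nat_lit 4)
noncomputable def D7676 : OP := orK (nat_lit 166) (fin (add (start D7240) D2586))
noncomputable def D7678 : OP := orK (nat_lit 150) (fin (add (start D882) D7676))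
noncomputable def D25704 : OP := orK (nat_lit 106) (fin (add (start (win (nat_lit 7) (nat_lit 6) (nat_lit 4) (nat_lit 5))) (win (nat_lit 7) (nat_lit 6) (nat_lit 5) (nat_lit 4))))
noncomputable def D22631 : OP := win (nat_lit 6) (nat_lit 7) (nat_lit 5) (nat_lit 5)
noncomputable def D24896 : OP := win (nat_lit 3) (nat_lit 7) (nat_lit 5) (nat_lit 5)
noncomputable def D24897 : OP := win (nat_lit 3) (nat_lit 7) (nat_lit 6) (nat_lit 4)
noncomputable def D3281 : OP := win (nat_lit 6) (nat_lit 7) (nat_lit 8) (nat_lit 5)
noncomputable def D12691 : OP := win (nat_lit 1) (nat_lit 6) (nat_lit 8) (nat_lit 5)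
noncomputable def D17824 : AP := fin (add (start D12691) (orK (nat_lit 228) (fin (add (start D2520) D3281))))
noncomputable def D12763 : OP := win (nat_lit 1) (nat_lit 6) (nat_lit 7) (nat_lit 4)
noncomputable def D12932 : OP := orK (nat_lit 150) (fin (add (start D7240) D882))
noncomputable def D12936 : OP := orK (nat_lit 146) (fin (add (start D2578) (orK (nat_lit 166) (fin (add (start D2577) D12932)))))
noncomputable def D4903 : OP := win (nat_lit 7) (nat_lit 10) (nat_lit 5) (nat_lit 4)
noncomputable def D1831 : OP := win (nat_lit 7) (nat_lit 10) (nat_lit 4) (nat_lit 5)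
noncomputable def D1557 : OP := win (nat_lit 3) (nat_lit 11) (nat_lit 4) (nat_lit 5)
noncomputable def D1556 : OP := win (nat_lit 3) (nat_lit 11) (nat_lit 5) (nat_lit 4)
noncomputable def D4909 : OP := orK (nat_lit 112) (fin (add (start D1556) (orK (nat_lit 111) (fin (add (start D1557) (orK (nat_lit 110) (fin (add (start D1831) D4903))))))))
noncomputable def D1559 : OP := win (nat_lit 6) (nat_lit 11) (nat_lit 6) (nat_lit 5)
noncomputable def D4911 : OP := orK (nat_lit 131) (fin (add (start D1559) D4909))
noncomputable def D4913 : OP := orK (nat_lit 192) (fin (add (start D2061) D4911))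
noncomputable def D1237 : OP := win (nat_lit 5) (nat_lit 10) (nat_lit 7) (nat_lit 0)
noncomputable def D3594 : OP := win (nat_lit 4) (nat_lit 9) (nat_lit 7) (nat_lit 3)
noncomputable def D3599 : OP := orK (nat_lit 153) (fin (add (start D3594) D1237))
noncomputable def D4901 : AP := fin (add (start D1033) D3599)
noncomputable def D4902 : OP := orK (nat_lit 152) D4901
noncomputable def D4897 : AP := fin (add (start D374) D119)
noncomputable def D4917 : OP := orK (nat_lit 151) (fin (add (add (start (orK (nat_lit 191) (fin (add (start D4886) (orK (nat_lit 168) D4897))))) D4902) (orK (nat_lit 191) (fin (add (start D4886) D4913)))))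
noncomputable def D4919 : OP := orK (nat_lit 171) (fin (add (add (add (start D4805) D4885) (orK (nat_lit 168) (fin (add (start D4890) (orK (nat_lit 148) (fin (add (start D770) (orK (nat_lit 188) (fin (add (start D117) D3429)))))))))) D4917))
noncomputable def D16026 : AP := fin (add (start D5744) D4475)
noncomputable def D16027 : OP := orK (nat_lit 229) D16026
noncomputable def D27405 : OP := orK (nat_lit 189) (fin (add (add (start D16027) D4919) (orK (nat_lit 229) (fin (add (start D5744) D4114)))))
noncomputable def D4920 : AP := fin (add (start D3722) D4919)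
noncomputable def D16030 : OP := orK (nat_lit 189) D4920
noncomputable def D16028 : AP := fin (add (start D3722) D16027)
noncomputable def D16029 : OP := orK (nat_lit 189) D16028
noncomputable def D27465 : OP := orK (nat_lit 229) (fin (add (start D4070) D1915))
noncomputable def D10049 : OP := win (nat_lit 3) (nat_lit 8) (nat_lit 10) (nat_lit 4)
noncomputable def D21008 : OP := orK (nat_lit 288) (fin (add (start D10049) D20777))
noncomputable def D21010 : OP := orK (nat_lit 268) (fin (add (start D2528) D21008))
noncomputable def D9414 : AP := fin (add (start D9412) (win (nat_lit 4) (nat_lit 6) (nat_lit 11) (nat_lit 5)))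
noncomputable def D13132 : AP := fin (add (start D3746) (orK (nat_lit 246) D9414))
noncomputable def D16592 : OP := orK (nat_lit 247) D13132
noncomputable def D27481 : OP := orK (nat_lit 248) (fin (add (add (add (add (start D2536) (orK (nat_lit 268) (fin (add (add (start D27465) D2532) D21008)))) (orK (nat_lit 249) (fin (add (start D4630) (orK (nat_lit 229) (fin (add (start D3355) D16592))))))) (orK (nat_lit 267) (fin (add (start D2527) D21010)))) (orK (nat_lit 267) (fin (add (start D2527) (orK (nat_lit 268) (fin (add (start D2528) D27465))))))))
noncomputable def D3282 : AP := fin (add (start D3280) D3281)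
noncomputable def D3283 : OP := orK (nat_lit 167) D3282
noncomputable def D4606 : OP := orK (nat_lit 187) (fin (add (start D666) D3283))
noncomputable def D4610 : OP := orK (nat_lit 227) (fin (add (start D668) (orK (nat_lit 228) (fin (add (start D2518) D4606)))))
noncomputable def D4612 : OP := orK (nat_lit 207) (fin (add (add (start D3927) D3929) D4610))
noncomputable def D12915 : AP := fin (add (start D3307) D5744)
noncomputable def D12644 : OP := orK (nat_lit 169) (fin (add (start D5744) D3722))
noncomputable def D4138 : OP := orK (nat_lit 269) D4137
noncomputable def D3364 : OP := win (nat_lit 5) (nat_lit 5) (nat_lit 10) (nat_lit 4)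
noncomputable def D3363 : OP := win (nat_lit 5) (nat_lit 4) (nat_lit 10) (nat_lit 5)
noncomputable def D3366 : OP := orK (nat_lit 225) (fin (add (start D3363) D3364))
noncomputable def D13613 : OP := orK (nat_lit 185) (fin (add (start D3952) (orK (nat_lit 205) (fin (add (start D3953) D3366)))))
noncomputable def D27451 : OP := orK (nat_lit 207) (fin (add (start D2449) (orK (nat_lit 206) (fin (add (start D2454) D13613)))))
noncomputable def D25362 : OP := orK (nat_lit 212) (fin (add (start D439) D2513))
noncomputable def D9942 : AP := fin (add (start D3308) D312)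
noncomputable def D9948 : OP := orK (nat_lit 248) D9942
noncomputable def D10009 : AP := fin (add (start D3307) D9948)
noncomputable def D10010 : OP := orK (nat_lit 169) D10009
noncomputable def D27584 : OP := orK (nat_lit 189) D10009
noncomputable def D23822 : AP := fin (add (start D2629) D4621)
noncomputable def D23825 : OP := orK (nat_lit 147) (fin (add (start D4622) (orK (nat_lit 148) D23822)))
noncomputable def D25626 : OP := orK (nat_lit 188) (fin (add (start D4032) D2538))
noncomputable def D20818 : AP := fin (add (start D4032) D2539)
noncomputable def D20606 : OP := win (nat_lit 0) (nat_lit 5) (nat_lit 12) (nat_lit 4)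
noncomputable def D27543 : OP := orK (nat_lit 245) (fin (add (start D20606) (win (nat_lit 4) (nat_lit 5) (nat_lit 11) (nat_lit 5))))
noncomputable def D9450 : OP := win (nat_lit 0) (nat_lit 6) (nat_lit 12) (nat_lit 5)
noncomputable def D9415 : OP := orK (nat_lit 229) D9414
noncomputable def D9441 : AP := fin (add (start (win (nat_lit 7) (nat_lit 8) (nat_lit 10) (nat_lit 3))) D8113)
noncomputable def D9442 : OP := orK (nat_lit 289) D9441
noncomputable def D9468 : AP := fin (add (start D4371) D9442)
noncomputable def D9395 : OP := win (nat_lit 6) (nat_lit 8) (nat_lit 10) (nat_lit 3)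
noncomputable def D9390 : OP := win (nat_lit 1) (nat_lit 8) (nat_lit 8) (nat_lit 3)
noncomputable def D9927 : AP := fin (add (start D9390) D312)
noncomputable def D9925 : AP := fin (add (start D9390) D3308)
noncomputable def D27563 : OP := orK (nat_lit 248) (fin (add (add (add (start (orK (nat_lit 189) D9925)) (orK (nat_lit 189) D9927)) (orK (nat_lit 269) (fin (add (add (add (start (orK (nat_lit 268) (fin (add (start D2530) (orK (nat_lit 267) (fin (add (start D2528) (orK (nat_lit 247) (fin (add (start D9405) (orK (nat_lit 246) (fin (add (start D19016) (win (nat_lit 2) (nat_lit 6) (nat_lit 12) (nat_lit 0))))))))))))))) (orK (nat_lit 289) (fin (add (start D9395) (orK (nat_lit 249) D9441))))) (orK (nat_lit 249) D9468)) (orK (nat_lit 247) (fin (add (add (add (start (orK (nat_lit 188) (fin (add (start D3746) D2529)))) (orK (nat_lit 246) (fin (add (add (start D27543) (orK (nat_lit 270) (fin (add (start (win (nat_lit 0) (nat_lit 6) (nat_lit 12) (nat_lit 3))) D27546)))) (orK (nat_lit 249) (fin (add (start D9450) D9415))))))) D9411) (orK (nat_lit 249) (fin (add (start D4371) (orK (nat_lit 246) (fin (add (start D9450) D27543)))))))))))))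 (orK (nat_lit 189) D9942)))
noncomputable def D5956 : AP := fin (add (start D3065) D5744)
noncomputable def D5957 : OP := orK (nat_lit 229) D5956
noncomputable def D27523 : OP := orK (nat_lit 189) (fin (add (start D3307) D5957))
noncomputable def D25642 : OP := orK (nat_lit 188) (fin (add (start D5644) D4621))
noncomputable def D13062 : OP := win (nat_lit 7) (nat_lit 7) (nat_lit 7) (nat_lit 2)
noncomputable def D13063 : AP := fin (add (start D2106) D13062)
noncomputable def D9662 : OP := orK (nat_lit 211) (fin (add (start D104) D2517))
noncomputable def D27501 : OP := orK (nat_lit 248) (fin (add (start (orK (nat_lit 187) (fin (add (start D3316) D3323)))) (orK (nat_lit 268) (fin (add (start D27497) D2532)))))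
noncomputable def D27493 : OP := orK (nat_lit 187) (fin (add (start D3323) (orK (nat_lit 167) (fin (add (start D4027) (orK (nat_lit 147) (fin (add (start D5134) D16953))))))))
noncomputable def D20819 : OP := orK (nat_lit 168) D20818
noncomputable def D9654 : OP := orK (nat_lit 212) (fin (add (start D845) D105))
noncomputable def D9656 : OP := orK (nat_lit 192) (fin (add (start D846) D9654))
noncomputable def D9585 : OP := win (nat_lit 4) (nat_lit 5) (nat_lit 9) (nat_lit 5)
noncomputable def D25220 : OP := win (nat_lit 2) (nat_lit 3) (nat_lit 9) (nat_lit 5)
noncomputable def D10118 : OP := win (nat_lit 2) (nat_lit 4) (nat_lit 9) (nat_lit 4)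
noncomputable def D27311 : OP := orK (nat_lit 207) (fin (add (start D2449) (orK (nat_lit 206) (fin (add (start D2454) (orK (nat_lit 225) (fin (add (start D3364) (orK (nat_lit 205) (fin (add (start D3363) (orK (nat_lit 184) (fin (add (start D10118) (orK (nat_lit 204) (fin (add (start D25220) (orK (nat_lit 188) (fin (add (start (win (nat_lit 4) (nat_lit 4) (nat_lit 9) (nat_lit 4))) D9585))))))))))))))))))))
noncomputable def D9554 : OP := win (nat_lit 4) (nat_lit 4) (nat_lit 9) (nat_lit 0)
noncomputable def D27409 : OP := orK (nat_lit 149) (fin (add (start D375) D10542))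
noncomputable def D3947 : OP := orK (nat_lit 192) (fin (add (start D846) (orK (nat_lit 212) (fin (add (start D845) D3731)))))
noncomputable def D6750 : OP := orK (nat_lit 167) (fin (add (start D2818) D2435))
noncomputable def D10964 : OP := win (nat_lit 1) (nat_lit 10) (nat_lit 7) (nat_lit 1)
noncomputable def D7376 : OP := orK (nat_lit 172) (fin (add (start D240) D242))
noncomputable def D24215 : OP := orK (nat_lit 192) (fin (add (start D241) D7376))
noncomputable def D924 : OP := win (nat_lit 5) (nat_lit 7) (nat_lit 7) (nat_lit 0)
noncomputable def D881 : OP := win (nat_lit 4) (nat_lit 6) (nat_lit 7) (nat_lit 0)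
noncomputable def D5708 : OP := win (nat_lit 3) (nat_lit 9) (nat_lit 6) (nat_lit 5)
noncomputable def D5473 : OP := win (nat_lit 6) (nat_lit 9) (nat_lit 7) (nat_lit 5)
noncomputable def D16360 : OP := orK (nat_lit 148) (fin (add (add (add (start D7229) D16339) (orK (nat_lit 149) (fin (add (start D931) (orK (nat_lit 147) (fin (add (start D4621) (orK (nat_lit 169) (fin (add (start D16342) (orK (nat_lit 189) (fin (add (start D5473) (orK (nat_lit 150) (fin (add (start D5708) (orK (nat_lit 167) (fin (add (start D881) D924))))))))))))))))))) D16358))
noncomputable def D24153 : AP := fin (add (start D375) D5644)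
noncomputable def D24809 : OP := orK (nat_lit 208) D24153
noncomputable def D2295 : OP := win (nat_lit 1) (nat_lit 8) (nat_lit 5) (nat_lit 1)
noncomputable def D2820 : OP := orK (nat_lit 167) (fin (add (start D2818) D2110))
noncomputable def D6546 : OP := orK (nat_lit 147) (fin (add (start D2105) (orK (nat_lit 167) (fin (add (start D2106) D2818)))))
noncomputable def D2063 : OP := orK (nat_lit 192) D2062
noncomputable def D5509 : OP := orK (nat_lit 173) (fin (add (start D2392) D235))
noncomputable def D5511 : OP := orK (nat_lit 149) (fin (add (start D276) D5509))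
noncomputable def D2221 : OP := orK (nat_lit 192) (fin (add (start D240) (orK (nat_lit 168) (fin (add (start D241) D2217)))))
noncomputable def D6624 : OP := orK (nat_lit 172) (fin (add (add (start D2221) D239) D5511))
noncomputable def D5462 : AP := fin (add (start D2217) D283)
noncomputable def D6271 : OP := orK (nat_lit 172) D5462
noncomputable def D6273 : OP := orK (nat_lit 168) (fin (add (add (start D6268) D6270) D6271))
noncomputable def D2394 : OP := orK (nat_lit 149) (fin (add (start D276) D2392))
noncomputable def D2398 : OP := orK (nat_lit 193) (fin (add (start D230) (orK (nat_lit 173) (fin (add (start D231) D2394)))))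
noncomputable def D4495 : OP := orK (nat_lit 171) (fin (add (start D2130) (orK (nat_lit 211) (fin (add (start D1891) (orK (nat_lit 191) (fin (add (start D3782) (orK (nat_lit 192) (fin (add (start D357) D79)))))))))))
noncomputable def D3988 : OP := orK (nat_lit 187) (fin (add (start D1890) D3986))
noncomputable def D4498 : AP := fin (add (start D3722) (orK (nat_lit 188) (fin (add (add (start D4479) D3988) D4495))))
noncomputable def D3747 : OP := win (nat_lit 5) (nat_lit 7) (nat_lit 11) (nat_lit 2)
noncomputable def D3749 : OP := orK (nat_lit 247) (fin (add (start D3746) D3747))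
noncomputable def D3751 : OP := orK (nat_lit 248) (fin (add (start D312) D3749))
noncomputable def D271 : OP := win (nat_lit 5) (nat_lit 8) (nat_lit 8) (nat_lit 3)
noncomputable def D2501 : OP := orK (nat_lit 188) (fin (add (start D451) (orK (nat_lit 212) (fin (add (start D450) D107)))))
noncomputable def D28059 : AP := fin (add (add (add (add (add (add (add (add (add (add (add (add (add (start (orK (nat_lit 208) (fin (add (add (add (start D15721) D27296) D27311) (orK (nat_lit 207) (fin (add (start D2449) (orK (nat_lit 227) (fin (add (start D668) (orK (nat_lit 211) (fin (add (start D669) D2517))))))))))))) (orK (nat_lit 208) (fin (add (add (add (add (start D4927) (orK (nat_lit 211) (fin (add (add (add (start D2517) D2560) D2501) (orK (nat_lit 228) (fin (add (start D104) (orK (nat_lit 188) (fin (add (start D451) (orK (nat_lit 191) (fin (add (start D342) (orK (nat_lit 171) (fin (add (start D3782) (orK (nat_lit 231) (fin (add (start D5987) (orK (nat_lit 172) (fin (add (start D5988) (orK (nat_lit 189) (fin (add (start D271) D3751))))))))))))))))))))))))) D15721) D15728) D4612)))) D27400) (orK (nat_lit 169) (fin (add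 (add (add (add (start D16029) (orK (nat_lit 189) D4498)) D27405) (orK (nat_lit 171) (fin (add (add (add (add (add (start (orK (nat_lit 168) (fin (add (start (orK (nat_lit 151) D27261)) D6270)))) (orK (nat_lit 172) (fin (add (add (add (start D2398) (orK (nat_lit 192) D24650)) D5511) D239)))) D6273) D4917) D6624) (orK (nat_lit 191) (fin (add (add (add (start D2063) (orK (nat_lit 192) (fin (add (start D357) (orK (nat_lit 211) (fin (add (start D3782) D79))))))) (orK (nat_lit 211) (fin (add (start D3782) (orK (nat_lit 192) (fin (add (start D79) D2061))))))) (orK (nat_lit 151) (fin (add (start D4886) (orK (nat_lit 168) (fin (add (add (start D6546) D2820) (orK (nat_lit 148) (fin (add (start D770) (orK (nat_lit 149) (fin (add (start D771) (orK (nat_lit 188) (fin (add (start D117) (orK (nat_lit 109) (fin (add (start D2295) D24809))))))))))))))))))))))))) D16102)))) (orK (nat_lit 208) (fin (add (add (add (add (start (orK (nat_lit 188) (fin (add (add (add (start D9049) (orK (nat_lit 168) (fin (add (add (start D16360) (orK (nat_lit 169) (fin (add (add (start D27409) (orK (nat_lit 171) (fin (add (add (start D4890) D24215) (orK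 (nat_lit 152) (fin (add (start D280) (orK (nat_lit 172) (fin (add (start D281) D242)))))))))) (orK (nat_lit 228) (fin (add (start D2538) (orK (nat_lit 229) (fin (add (start D1913) (orK (nat_lit 211) (fin (add (start D1911) (orK (nat_lit 191) (fin (add (start D342) (orK (nat_lit 151) (fin (add (start D10964) D6750))))))))))))))))))) D10754)))) (orK (nat_lit 211) (fin (add (start D451) D3947)))) (orK (nat_lit 168) (fin (add (add (start (orK (nat_lit 187) (fin (add (add (start D3323) (orK (nat_lit 169) (fin (add (start D4290) D27409)))) D18548)))) D10754) D7217))))))) (orK (nat_lit 207) (fin (add (start D2449) (orK (nat_lit 206) (fin (add (start D2454) (orK (nat_lit 187) (fin (add (start D666) (orK (nat_lit 188) (fin (add (start D3315) (orK (nat_lit 205) (fin (add (start D9554) D9585)))))))))))))))) D27311) D27451) D27461)))) (orK (nat_lit 208) (fin (add (add (add (start D4927) D15721) (orK (nat_lit 228) (fin (add (add (add (start D2524) (orK (nat_lit 211) (fin (add (add (add (start (orK (nat_lit 188) (fin (add (start D451) (orK (nat_lit 212) (fin (add (start D450) D105))))))) D9656) (orK (nat_lit 188) (fin (add (start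 D451) (orK (nat_lit 192) (fin (add (start D846) D27481))))))) D2517)))) (orK (nat_lit 227) (fin (add (add (start D2522) (orK (nat_lit 188) (fin (add (add (start D20819) D27493) D27501)))) (orK (nat_lit 225) (fin (add (start (win (nat_lit 4) (nat_lit 5) (nat_lit 10) (nat_lit 1))) (orK (nat_lit 188) (fin (add (add (add (start D2550) D27493) D27501) (orK (nat_lit 168) (fin (add (start D4032) D27508))))))))))))) D9662)))) D15728)))) (orK (nat_lit 208) (fin (add (add (add (add (start D27521) (orK (nat_lit 228) (fin (add (add (add (start D2524) (orK (nat_lit 169) (fin (add (add (add (start D27523) D27563) (orK (nat_lit 168) (fin (add (add (add (start (orK (nat_lit 188) D2540)) (orK (nat_lit 188) (fin (add (start D2538) (orK (nat_lit 167) (fin (add (start D2435) D27567))))))) (orK (nat_lit 147) (fin (add (add (start (orK (nat_lit 167) D13063)) (orK (nat_lit 148) (fin (add (start D2629) D25642)))) (orK (nat_lit 146) (fin (add (start D13069) (orK (nat_lit 148) (fin (add (start D11178) D2629)))))))))) D27581)))) D27584)))) (orK (nat_lit 169) (fin (add (add (add (start D27523) D27563) (orK (nat_lit 227) (fin (add (add (start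 D2522) (orK (nat_lit 168) (fin (add (add (start D25626) D12883) (orK (nat_lit 188) D20818))))) (orK (nat_lit 226) (fin (add (start D2519) (orK (nat_lit 168) (fin (add (add (start D25626) D12883) (orK (nat_lit 188) (fin (add (start D4032) D23825))))))))))))) D27584)))) (orK (nat_lit 189) (fin (add (add (start D10010) (orK (nat_lit 211) (fin (add (start D104) D25362)))) (orK (nat_lit 211) (fin (add (start D104) D27631)))))))))) D27451) D27643) (orK (nat_lit 227) (fin (add (add (start (orK (nat_lit 211) (fin (add (start D669) (orK (nat_lit 192) (fin (add (start D846) (orK (nat_lit 212) (fin (add (start D845) (orK (nat_lit 189) (fin (add (start D439) (orK (nat_lit 229) (fin (add (start D3729) D12644)))))))))))))))) (orK (nat_lit 207) (fin (add (start D668) (orK (nat_lit 229) (fin (add (start D2448) (orK (nat_lit 249) (fin (add (add (start D4138) (orK (nat_lit 189) (fin (add (start D12644) (orK (nat_lit 248) (fin (add (start D4016) (orK (nat_lit 247) (fin (add (start D4017) D13698)))))))))) (orK (nat_lit 269) (fin (add (start D4089) (orK (nat_lit 268) (fin (add (start D1899) (orK (nat_lit 189) (fin (add (start D1898)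 D12644))))))))))))))))))) D25632))))))) (orK (nat_lit 208) (fin (add (add (add (start D4927) (orK (nat_lit 211) (fin (add (add (add (start D2560) (orK (nat_lit 228) (fin (add (start D104) (orK (nat_lit 229) (fin (add (start D1911) (orK (nat_lit 189) (fin (add (start (orK (nat_lit 248) (fin (add (start D312) D27677)))) (orK (nat_lit 169) D12915))))))))))) (orK (nat_lit 227) D27640)) D27693)))) (orK (nat_lit 207) (fin (add (start D2449) D4610)))) D4612)))) (orK (nat_lit 208) (fin (add (add (add (add (start D4927) D15721) (orK (nat_lit 188) (fin (add (add (add (start D27743) D27745) (orK (nat_lit 228) (fin (add (add (start D2524) D27481) D2552)))) D27394)))) D15728) D27751)))) (orK (nat_lit 169) (fin (add (add (add (add (start D16029) D16030) D27405) (orK (nat_lit 168) (fin (add (add (add (add (start (orK (nat_lit 167) (fin (add (add (start D12936) (orK (nat_lit 147) (fin (add (start D2106) (orK (nat_lit 187) (fin (add (start D2107) (orK (nat_lit 207) (fin (add (start (orK (nat_lit 226) (fin (add (start D12763) (orK (nat_lit 227) D17824))))) (orK (nat_lit 128) (fin (add (start D24897) (orK (nat_lit 127) (fin (add (start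 D24896) (orK (nat_lit 107) (fin (add (start D22631) D25704))))))))))))))))))) D7678)))) (orK (nat_lit 151) (fin (add (add (start D27565) (orK (nat_lit 167) (fin (add (start D2818) (orK (nat_lit 187) (fin (add (start D2107) (orK (nat_lit 171) (fin (add (start D2108) D27260)))))))))) D16328)))) D27581) (orK (nat_lit 171) (fin (add (start D6270) D12867)))) (orK (nat_lit 187) (fin (add (add (add (start D25601) (orK (nat_lit 171) (fin (add (start D2108) D16084)))) (orK (nat_lit 167) (fin (add (start D2107) (orK (nat_lit 146) (fin (add (start D2578) (orK (nat_lit 166) (fin (add (start D2577) (orK (nat_lit 149) (fin (add (start D2813) (orK (nat_lit 165) (fin (add (start D2604) (orK (nat_lit 164) (fin (add (start (win (nat_lit 0) (nat_lit 4) (nat_lit 8) (nat_lit 5))) (orK (nat_lit 143) (fin (add (start (win (nat_lit 2) (nat_lit 3) (nat_lit 7) (nat_lit 4))) (orK (nat_lit 184) (fin (add (start (win (nat_lit 5) (nat_lit 3) (nat_lit 8) (nat_lit 5))) (win (nat_lit 5) (nat_lit 4) (nat_lit 8) (nat_lit 4))))))))))))))))))))))))))) (orK (nat_lit 167) (fin (add (start D2107) (orK (nat_lit 147) (fin (add (start D2106) (orK (nat_lit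 148) (fin (add (start D2629) (orK (nat_lit 128) (fin (add (start D2639) D23300))))))))))))))))))) D16102)))) (orK (nat_lit 169) D27951)) (orK (nat_lit 208) (fin (add (add (add (start D4927) D27296) D27521) (orK (nat_lit 231) (fin (add (start D3035) (orK (nat_lit 211) (fin (add (start D16008) (orK (nat_lit 188) (fin (add (start D451) (orK (nat_lit 189) (fin (add (start D1891) D3826)))))))))))))))) (orK (nat_lit 208) (fin (add (add (add (start D15721) (orK (nat_lit 207) (fin (add (start D2449) D17942)))) (orK (nat_lit 188) (fin (add (add (add (start D9049) (orK (nat_lit 211) (fin (add (add (add (start D2515) (orK (nat_lit 212) (fin (add (start D450) D27689)))) D27693) (orK (nat_lit 191) (fin (add (start D342) (orK (nat_lit 171) (fin (add (start D3782) (orK (nat_lit 231) (fin (add (start D5987) (orK (nat_lit 172) (fin (add (start D5988) (orK (nat_lit 169) (fin (add (start D242) (orK (nat_lit 148) (fin (add (start D2215) (orK (nat_lit 168) D24989))))))))))))))))))))))) D27745) (orK (nat_lit 187) (fin (add (add (start D3323) (orK (nat_lit 168) (fin (add (add (add (start D7217) D10800) (orK (nat_lit 169) (fin (add (start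 D4290) D16316)))) D27987)))) (orK (nat_lit 186) (fin (add (start D3274) (orK (nat_lit 168) (fin (add (add (start D18546) D10800) (orK (nat_lit 148) (fin (add (start D5644) (orK (nat_lit 129) (fin (add (start D5642) (orK (nat_lit 128) (fin (add (start D5641) (orK (nat_lit 171) (fin (add (start D943) D16337))))))))))))))))))))))))) D27751)))) (orK (nat_lit 208) (fin (add (add (add (start D4008) (orK (nat_lit 188) (fin (add (add (add (start D9049) (orK (nat_lit 228) (fin (add (add (start (orK (nat_lit 211) (fin (add (start D104) D2515)))) (orK (nat_lit 248) (fin (add (add (start D2526) D2536) (orK (nat_lit 249) (fin (add (start D4630) (orK (nat_lit 267) (fin (add (start D2527) (orK (nat_lit 168) (fin (add (add (add (start D5046) (orK (nat_lit 189) (fin (add (start D311) D18634)))) D27508) D4628))))))))))))) D2552)))) D27743) (orK (nat_lit 187) (fin (add (add (start D3323) (orK (nat_lit 168) (fin (add (add (add (start (orK (nat_lit 228) (fin (add (add (start D9521) (orK (nat_lit 247) (fin (add (start D7183) (orK (nat_lit 248) (fin (add (start D3746) D2526))))))) (orK (nat_lit 148) (fin (add (add (start D4624) (orK (nat_lit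 128) (fin (add (start D5643) (orK (nat_lit 108) (fin (add (start D2634) (orK (nat_lit 109) (fin (add (start D5634) D5633)))))))))) D16339))))))) (orK (nat_lit 147) (fin (add (add (start (orK (nat_lit 127) (fin (add (start (win (nat_lit 6) (nat_lit 7) (nat_lit 6) (nat_lit 2))) D24069)))) (orK (nat_lit 228) (fin (add (start D4622) (orK (nat_lit 247) (fin (add (start D7183) (orK (nat_lit 248) (fin (add (start D3746) (orK (nat_lit 268) (fin (add (start D3297) D2532))))))))))))) D27506)))) (orK (nat_lit 169) (fin (add (start D4290) D13280)))) D27987)))) D27741))))))) D27643) D27461))))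
noncomputable def D7377 : OP := win (nat_lit 1) (nat_lit 7) (nat_lit 7) (nat_lit 4)
noncomputable def D2114 : OP := orK (nat_lit 147) (fin (add (start D2105) (orK (nat_lit 167) (fin (add (start D2106) D2110)))))
noncomputable def D37 : OP := win (nat_lit 0) (nat_lit 7) (nat_lit 8) (nat_lit 0)
noncomputable def D3590 : AP := fin (add (start D37) D374)
noncomputable def D3591 : OP := orK (nat_lit 191) D3590
noncomputable def D27166 : AP := fin (add (start D20) (orK (nat_lit 251) (fin (add (start D148) (orK (nat_lit 171) (fin (add (start D14) (orK (nat_lit 169) (fin (add (start D223) (orK (nat_lit 168) (fin (add (add (start D3591) D2114) (orK (nat_lit 192) (fin (add (start D241) (orK (nat_lit 148) (fin (add (start D770) (orK (nat_lit 172) (fin (add (start D240) (orK (nat_lit 188) (fin (add (start D117) (orK (nat_lit 208) (fin (add (start D21985) (orK (nat_lit 227) (fin (add (start D7377) (orK (nat_lit 228) (fin (add (start D4032) D4471))))))))))))))))))))))))))))))))))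
noncomputable def D2370 : OP := win (nat_lit 5) (nat_lit 9) (nat_lit 8) (nat_lit 5)
noncomputable def D2576 : OP := win (nat_lit 0) (nat_lit 6) (nat_lit 8) (nat_lit 4)
noncomputable def D2588 : OP := orK (nat_lit 166) (fin (add (start D2576) D2586))
noncomputable def D19981 : OP := orK (nat_lit 147) (fin (add (start D2105) (orK (nat_lit 167) (fin (add (start D2106) D2588)))))
noncomputable def D19991 : OP := orK (nat_lit 168) (fin (add (add (start D3591) D19981) (orK (nat_lit 192) (fin (add (start D241) (orK (nat_lit 172) (fin (add (start D240) (orK (nat_lit 153) (fin (add (start D232) (orK (nat_lit 173) (fin (add (start D233) D2370))))))))))))))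
noncomputable def D27142 : OP := orK (nat_lit 169) (fin (add (start D223) (orK (nat_lit 171) (fin (add (start D14) D19991)))))
noncomputable def D3672 : OP := win (nat_lit 0) (nat_lit 8) (nat_lit 11) (nat_lit 4)
noncomputable def D5030 : OP := orK (nat_lit 268) (fin (add (start D3297) D4070))
noncomputable def D12859 : OP := win (nat_lit 0) (nat_lit 7) (nat_lit 8) (nat_lit 4)
noncomputable def D5152 : OP := win (nat_lit 6) (nat_lit 10) (nat_lit 8) (nat_lit 1)
noncomputable def D5154 : OP := orK (nat_lit 251) (fin (add (start D4059) D5152))
noncomputable def D5162 : OP := orK (nat_lit 231) (fin (add (start D5154) D5160))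
noncomputable def D4793 : OP := win (nat_lit 3) (nat_lit 11) (nat_lit 7) (nat_lit 2)
noncomputable def D270 : OP := win (nat_lit 4) (nat_lit 8) (nat_lit 8) (nat_lit 3)
noncomputable def D292 : AP := fin (add (start D270) D227)
noncomputable def D293 : OP := orK (nat_lit 172) D292
noncomputable def D11723 : OP := orK (nat_lit 188) (fin (add (start D53) D293))
noncomputable def D27133 : AP := fin (add (start D20) (orK (nat_lit 171) (fin (add (start D14) (orK (nat_lit 211) (fin (add (add (add (start (orK (nat_lit 228) (fin (add (start D516) (orK (nat_lit 231) (fin (add (start D517) D157))))))) (orK (nat_lit 228) (fin (add (start D516) (orK (nat_lit 189) (fin (add (add (start D11723) (orK (nat_lit 188) (fin (add (start D53) (orK (nat_lit 231) (fin (add (start D157) (orK (nat_lit 208) (fin (add (start D515) (orK (nat_lit 248) (fin (add (start D3847) (orK (nat_lit 268) (fin (add (start D5037) D21062)))))))))))))))) (orK (nat_lit 231) (fin (add (start D157) (orK (nat_lit 208) (fin (add (start D515) (orK (nat_lit 248) (fin (add (start D3847) (orK (nat_lit 268) (fin (add (start D5037) (orK (nat_lit 287) (fin (add (start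 D20770) (orK (nat_lit 288) (fin (add (start D20771) (orK (nat_lit 172) (fin (add (start D227) D20777)))))))))))))))))))))))))))) (orK (nat_lit 212) (fin (add (start D3729) (orK (nat_lit 231) (fin (add (start D157) (orK (nat_lit 189) (fin (add (start (orK (nat_lit 172) (fin (add (start D227) (orK (nat_lit 152) (fin (add (start (win (nat_lit 1) (nat_lit 11) (nat_lit 7) (nat_lit 2))) D4793))))))) D840)))))))))) D8229)))))))
noncomputable def D27020 : AP := fin (add (start D20) (orK (nat_lit 169) (fin (add (start D223) (orK (nat_lit 151) (fin (add (start D23) (orK (nat_lit 231) (fin (add (start D157) D27013))))))))))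
noncomputable def D15988 : OP := orK (nat_lit 190) D14654
noncomputable def D18418 : OP := orK (nat_lit 169) (fin (add (start D2538) (orK (nat_lit 167) (fin (add (start D15441) D2435)))))
noncomputable def D19598 : OP := orK (nat_lit 251) D19597
noncomputable def D5075 : OP := orK (nat_lit 247) (fin (add (start D4043) (orK (nat_lit 188) (fin (add (start D325) D5071)))))
noncomputable def D414 : OP := win (nat_lit 4) (nat_lit 7) (nat_lit 9) (nat_lit 5)
noncomputable def D15291 : AP := fin (add (start D20) D2958)
noncomputable def D15986 : OP := orK (nat_lit 190) D14474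
noncomputable def D28061 : AP := fin (add (add (add (add (add (add (add (add (start D15986) (orK (nat_lit 190) (fin (add (add (add (start D29) D163) D533) (orK (nat_lit 229) D27020))))) (orK (nat_lit 229) (fin (add (add (add (add (start (orK (nat_lit 190) D162)) D27046) (orK (nat_lit 190) D750)) (orK (nat_lit 190) D15291)) (orK (nat_lit 190) (fin (add (add (add (start D161) D749) (orK (nat_lit 228) (fin (add (add (add (start (orK (nat_lit 227) (fin (add (add (add (start D5105) D19287) (orK (nat_lit 206) (fin (add (start D5099) (orK (nat_lit 226) (fin (add (start D5100) D19285))))))) (orK (nat_lit 207) (fin (add (start D5156) (orK (nat_lit 208) (fin (add (start D5012) (orK (nat_lit 209) (fin (add (start D414) D5075))))))))))))) D5098) (orK (nat_lit 231) (fin (add (add (start D19598) (orK (nat_lit 211) (fin (add (start D517) (orK (nat_lit 208) (fin (add (start D515) (orK (nat_lit 248) (fin (add (start D3847) (orK (nat_lit 209) (fin (add (start (orK (nat_lit 188) (fin (add (start D451) (orK (nat_lit 191) (fin (add (start D342) (orK (nat_lit 168) (fin (add (start D1912) D18418)))))))))) D5030))))))))))))) D19081))))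 D26894)))) D2958))))))) D15988) (orK (nat_lit 190) (fin (add (add (add (start D29) D163) D533) (orK (nat_lit 229) D27133))))) (orK (nat_lit 229) (fin (add (add (add (add (add (start D27046) (orK (nat_lit 190) D27020)) (orK (nat_lit 190) D27133)) (orK (nat_lit 190) (fin (add (start D20) D27142)))) (orK (nat_lit 190) D27166)) (orK (nat_lit 228) (fin (add (add (start D5162) (orK (nat_lit 231) (fin (add (add (start D5154) (orK (nat_lit 211) (fin (add (start D517) (orK (nat_lit 248) (fin (add (start D3847) (orK (nat_lit 208) (fin (add (start D515) (orK (nat_lit 209) (fin (add (start (orK (nat_lit 188) (fin (add (start D451) (orK (nat_lit 191) (fin (add (start D342) (orK (nat_lit 168) (fin (add (start D1912) (orK (nat_lit 169) (fin (add (start D2538) (orK (nat_lit 167) (fin (add (start D12859) D2435)))))))))))))))) D5030))))))))))))) (orK (nat_lit 208) (fin (add (start D515) (orK (nat_lit 211) (fin (add (start D517) (orK (nat_lit 252) (fin (add (start D3672) (orK (nat_lit 188) (fin (add (add (add (start (orK (nat_lit 187) (fin (add (start D5115) (orK (nat_lit 248) (fin (add (start D3847) D3316))))))) (orK (nat_lit 209)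 (fin (add (start D451) (orK (nat_lit 191) (fin (add (start D342) (orK (nat_lit 171) (fin (add (start D3782) (orK (nat_lit 172) (fin (add (start D5988) (orK (nat_lit 169) (fin (add (start D242) (orK (nat_lit 149) (fin (add (start D276) D319))))))))))))))))))) (orK (nat_lit 248) (fin (add (start D3847) (orK (nat_lit 169) (fin (add (start D2537) (orK (nat_lit 168) (fin (add (start D2538) (orK (nat_lit 148) (fin (add (start D21985) (orK (nat_lit 147) D23822)))))))))))))) (orK (nat_lit 248) (fin (add (start D3847) (orK (nat_lit 169) (fin (add (start D2537) (orK (nat_lit 168) (fin (add (start D2538) (orK (nat_lit 171) (fin (add (start D117) D4786)))))))))))))))))))))))))))) D26894))))))) (orK (nat_lit 190) (fin (add (start D27142) D163)))) (orK (nat_lit 190) (fin (add (add (add (start D29) D163) D533) (orK (nat_lit 229) D27166))))) (orK (nat_lit 209) D28059))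
noncomputable def D746 : AP := fin (add (add (start D155) D745) D543)
noncomputable def D14960 : OP := orK (nat_lit 170) D746
noncomputable def D638 : OP := orK (nat_lit 171) (fin (add (start D14) (orK (nat_lit 250) (fin (add (start D15) D634)))))
noncomputable def D643 : AP := fin (add (add (add (start D612) (orK (nat_lit 251) (fin (add (start D148) (orK (nat_lit 250) (fin (add (start D149) D622))))))) D638) D642)
noncomputable def D15300 : OP := orK (nat_lit 170) D643
noncomputable def D5412 : OP := orK (nat_lit 208) (fin (add (start D360) D371))
noncomputable def D8801 : OP := orK (nat_lit 171) (fin (add (start D3782) D3428))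
noncomputable def D14355 : OP := orK (nat_lit 188) (fin (add (add (add (start D14343) (orK (nat_lit 211) (fin (add (add (start D301) D303) (orK (nat_lit 191) (fin (add (start D8801) (orK (nat_lit 168) (fin (add (start D373) (orK (nat_lit 192) (fin (add (start D11925) D5412))))))))))))) D14352) D14353))
noncomputable def D14324 : AP := fin (add (start D3476) D622)
noncomputable def D14325 : OP := orK (nat_lit 250) D14324
noncomputable def D14357 : OP := orK (nat_lit 189) (fin (add (add (add (start D14230) (orK (nat_lit 191) (fin (add (add (start D14319) D10250) (orK (nat_lit 250) (fin (add (start D615) D14234))))))) D14325) D14355))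
noncomputable def D20357 : AP := fin (add (start D14457) D634)
noncomputable def D15048 : OP := orK (nat_lit 227) (fin (add (start D4471) (orK (nat_lit 250) D4141)))
noncomputable def D10676 : OP := win (nat_lit 7) (nat_lit 9) (nat_lit 11) (nat_lit 0)
noncomputable def D26916 : AP := fin (add (start D4017) D5116)
noncomputable def D20668 : OP := win (nat_lit 0) (nat_lit 5) (nat_lit 11) (nat_lit 0)
noncomputable def D5242 : OP := orK (nat_lit 168) D3590
noncomputable def D14809 : OP := orK (nat_lit 170) (fin (add (add (start D27) (orK (nat_lit 171) (fin (add (start D14) (orK (nat_lit 191) (fin (add (start D2673) (orK (nat_lit 169) (fin (add (start D223) D5242)))))))))) D749))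
noncomputable def D26839 : OP := orK (nat_lit 291) (fin (add (start D7023) (orK (nat_lit 290) (fin (add (start D7024) D14810)))))
noncomputable def D26853 : AP := fin (add (start D342) D1911)
noncomputable def D14848 : OP := orK (nat_lit 187) (fin (add (start D5115) D3316))
noncomputable def D12535 : OP := orK (nat_lit 268) (fin (add (start D4070) D2530))
noncomputable def D5062 : OP := win (nat_lit 2) (nat_lit 6) (nat_lit 10) (nat_lit 3)
noncomputable def D14585 : OP := orK (nat_lit 211) (fin (add (start D45) D178))
noncomputable def D21463 : OP := orK (nat_lit 250) (fin (add (add (start D9318) D634) D719))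
noncomputable def D14515 : OP := orK (nat_lit 150) (fin (add (start D25) D178))
noncomputable def D15541 : OP := orK (nat_lit 170) (fin (add (add (start (orK (nat_lit 250) (fin (add (start D602) D151)))) (orK (nat_lit 150) (fin (add (start D159) D178)))) D14515))
noncomputable def D15425 : AP := fin (add (add (start D539) D612) D727)
noncomputable def D15426 : OP := orK (nat_lit 170) D15425
noncomputable def D26987 : AP := fin (add (add (add (add (add (add (add (start (orK (nat_lit 250) (fin (add (add (add (start D622) D634) D719) (orK (nat_lit 251) (fin (add (start D149) (orK (nat_lit 171) (fin (add (start D15) (orK (nat_lit 249) (fin (add (start D8) D26467))))))))))))) D15426) D15541) D15157) D21463) (orK (nat_lit 229) (fin (add (add (add (start D14868) (orK (nat_lit 170) (fin (add (start D20) (orK (nat_lit 151) (fin (add (start D23) (orK (nat_lit 150) (fin (add (start D22) D14585)))))))))) (orK (nat_lit 228) (fin (add (add (add (start D19293) D5098) D5107) (orK (nat_lit 211) (fin (add (add (start D5096) (orK (nat_lit 231) (fin (add (start D15280) (orK (nat_lit 208) (fin (add (start D515) D5124))))))) D5147)))))))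 (orK (nat_lit 228) (fin (add (add (add (start D19293) D5098) D5107) (orK (nat_lit 231) (fin (add (add (start D19598) (orK (nat_lit 208) (fin (add (start D515) (orK (nat_lit 170) (fin (add (start (orK (nat_lit 169) (fin (add (start D223) (orK (nat_lit 171) (fin (add (start D14) (orK (nat_lit 168) (fin (add (start D3591) (orK (nat_lit 148) (fin (add (start D770) (orK (nat_lit 188) (fin (add (start D117) D21985)))))))))))))))) (orK (nat_lit 211) (fin (add (start D517) D400)))))))))) D19081)))))))))) (orK (nat_lit 229) (fin (add (add (add (start D14809) (orK (nat_lit 269) (fin (add (add (add (start D26834) D26835) (orK (nat_lit 250) (fin (add (add (add (start D620) (orK (nat_lit 270) (fin (add (start D614) D26839)))) (orK (nat_lit 191) (fin (add (start D615) (orK (nat_lit 228) (fin (add (add (add (start (orK (nat_lit 207) (fin (add (add (start D26843) (orK (nat_lit 227) (fin (add (start D5156) D19287)))) (orK (nat_lit 206) (fin (add (start D5062) (orK (nat_lit 208) (fin (add (start D5013) D5012)))))))))) D5098) (orK (nat_lit 208) (fin (add (add (start (orK (nat_lit 211) (fin (add (add (start (orK (nat_lit 209) D26853))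 D5096) (orK (nat_lit 248) (fin (add (add (start (orK (nat_lit 209) (fin (add (start D342) D12535)))) (orK (nat_lit 188) (fin (add (start D5118) D14848)))) (orK (nat_lit 267) (fin (add (start (orK (nat_lit 247) (fin (add (start D9405) D5116)))) D26862)))))))))) D26888) (orK (nat_lit 209) (fin (add (start D50) (orK (nat_lit 211) D26853)))))))) D26894))))))) (orK (nat_lit 191) (fin (add (start D615) (orK (nat_lit 270) (fin (add (start D616) D26839)))))))))) D26905)))) D14761) D14868)))) (orK (nat_lit 229) (fin (add (add (add (start D14809) (orK (nat_lit 249) (fin (add (add (start D14731) D14733) (orK (nat_lit 228) (fin (add (add (start (orK (nat_lit 247) (fin (add (add (start (orK (nat_lit 248) D26916)) (orK (nat_lit 248) (fin (add (start D5116) (orK (nat_lit 227) (fin (add (start (orK (nat_lit 226) (fin (add (start D20668) D5101)))) (orK (nat_lit 207) (fin (add (start D5156) D26920)))))))))) (orK (nat_lit 227) (fin (add (start D4043) D5105))))))) (orK (nat_lit 248) (fin (add (start (orK (nat_lit 247) D26916)) (orK (nat_lit 268) (fin (add (add (start D26934) (orK (nat_lit 250) (fin (add (start (orK (nat_lit 251) (fin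 (add (start D9682) D9319)))) (orK (nat_lit 191) (fin (add (start D615) (orK (nat_lit 270) (fin (add (start D616) (orK (nat_lit 290) (fin (add (start D14810) D10676))))))))))))) (orK (nat_lit 288) (fin (add (start D12180) (orK (nat_lit 287) (fin (add (start D20771) (orK (nat_lit 208) (fin (add (start D20770) (orK (nat_lit 188) (fin (add (start D3355) D26876))))))))))))))))))) D15048))))))) D14761) D14868))))
noncomputable def D15161 : OP := win (nat_lit 3) (nat_lit 11) (nat_lit 8) (nat_lit 1)
noncomputable def D98 : OP := win (nat_lit 0) (nat_lit 8) (nat_lit 9) (nat_lit 0)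
noncomputable def D3858 : OP := win (nat_lit 1) (nat_lit 11) (nat_lit 7) (nat_lit 0)
noncomputable def D5386 : OP := win (nat_lit 3) (nat_lit 11) (nat_lit 9) (nat_lit 0)
noncomputable def D21823 : OP := orK (nat_lit 209) (fin (add (start D79) D845))
noncomputable def D26716 : OP := orK (nat_lit 228) (fin (add (start D516) (orK (nat_lit 251) (fin (add (start D26413) D26712)))))
noncomputable def D26585 : OP := orK (nat_lit 212) (fin (add (start D3729) D26583))
noncomputable def D452 : AP := fin (add (start D50) D342)
noncomputable def D26651 : OP := orK (nat_lit 249) (fin (add (start D8) (orK (nat_lit 228) (fin (add (start D516) (orK (nat_lit 208) (fin (add (add (start (orK (nat_lit 209) D452)) (orK (nat_lit 188) (fin (add (start D3355) (orK (nat_lit 189) (fin (add (start D53) D371))))))) (orK (nat_lit 209) (fin (add (start D342) (orK (nat_lit 188) (fin (add (start D451) D3355))))))))))))))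
noncomputable def D26605 : AP := fin (add (start D8934) D8)
noncomputable def D26624 : OP := orK (nat_lit 249) D26605
noncomputable def D11609 : OP := orK (nat_lit 172) (fin (add (start D66) D2906))
noncomputable def D21825 : OP := orK (nat_lit 192) (fin (add (start D21823) D11609))
noncomputable def D26619 : OP := orK (nat_lit 212) (fin (add (start D3729) (orK (nat_lit 189) (fin (add (start D98) D21825)))))
noncomputable def D26606 : OP := orK (nat_lit 190) D26605
noncomputable def D26601 : OP := orK (nat_lit 270) (fin (add (start D4218) D26599))
noncomputable def D8606 : OP := win (nat_lit 0) (nat_lit 7) (nat_lit 9) (nat_lit 3)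
noncomputable def D8708 : AP := fin (add (start D1890) D8606)
noncomputable def D8709 : OP := orK (nat_lit 187) D8708
noncomputable def D8710 : AP := fin (add (start D1891) D8709)
noncomputable def D18173 : OP := orK (nat_lit 189) D8710
noncomputable def D9222 : OP := win (nat_lit 3) (nat_lit 9) (nat_lit 8) (nat_lit 5)
noncomputable def D9224 : OP := orK (nat_lit 190) (fin (add (start D9222) D462))
noncomputable def D461 : OP := win (nat_lit 3) (nat_lit 9) (nat_lit 8) (nat_lit 3)
noncomputable def D9198 : OP := orK (nat_lit 170) (fin (add (start D460) D461))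
noncomputable def D9200 : OP := orK (nat_lit 190) (fin (add (start D462) D9198))
noncomputable def D3343 : AP := fin (add (start D1912) D3342)
noncomputable def D13373 : OP := win (nat_lit 3) (nat_lit 9) (nat_lit 9) (nat_lit 5)
noncomputable def D7546 : OP := win (nat_lit 5) (nat_lit 7) (nat_lit 10) (nat_lit 3)
noncomputable def D8133 : OP := orK (nat_lit 227) (fin (add (start D3456) D7546))
noncomputable def D8137 : OP := orK (nat_lit 228) (fin (add (start D1911) D8133))
noncomputable def D1919 : OP := orK (nat_lit 228) (fin (add (start D104) (orK (nat_lit 229) (fin (add (start D1911) D1915)))))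
noncomputable def D1921 : OP := orK (nat_lit 208) (fin (add (start D451) D1919))
noncomputable def D18168 : OP := orK (nat_lit 187) (fin (add (start D1889) (orK (nat_lit 189) D8708)))
noncomputable def D9844 : OP := orK (nat_lit 290) (fin (add (start D9842) D7061))
noncomputable def D26571 : OP := orK (nat_lit 270) (fin (add (start D4218) D9844))
noncomputable def D26151 : OP := orK (nat_lit 188) (fin (add (start D451) (orK (nat_lit 248) (fin (add (start D3847) D5030)))))
noncomputable def D26782 : AP := fin (add (add (add (add (add (start (orK (nat_lit 270) (fin (add (add (start D26406) D9302) D7030)))) D7073) (orK (nat_lit 211) (fin (add (add (add (start D26569) (orK (nat_lit 209) (fin (add (add (add (start D26571) D26579) (orK (nat_lit 229) (fin (add (add (start D15796) D26585) (orK (nat_lit 227) (fin (add (start D4859) (orK (nat_lit 208) (fin (add (start D26587) D26589)))))))))) D26601)))) D26604) (orK (nat_lit 191) (fin (add (add (start D4454) (orK (nat_lit 229) (fin (add (add (add (start (orK (nat_lit 249) (fin (add (add (start D26606) (orK (nat_lit 269) (fin (add (start D4089) (orK (nat_lit 268) (fin (add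 (start (orK (nat_lit 251) D16494)) (orK (nat_lit 209) (fin (add (start D1899) (orK (nat_lit 208) (fin (add (start D342) D4123))))))))))))) (orK (nat_lit 190) (fin (add (start D8934) D26619))))))) D8225) (orK (nat_lit 190) (fin (add (add (start D26624) (orK (nat_lit 170) (fin (add (add (start (orK (nat_lit 150) (fin (add (start D21) D44)))) (orK (nat_lit 228) (fin (add (start D516) (orK (nat_lit 231) (fin (add (start D157) (orK (nat_lit 208) (fin (add (start D515) (orK (nat_lit 209) (fin (add (start D342) D26151))))))))))))) D47)))) D26651)))) D8229)))) D15391))))))) (orK (nat_lit 211) (fin (add (add (add (start D26569) (orK (nat_lit 209) (fin (add (add (add (start D26571) (orK (nat_lit 188) (fin (add (add (add (start D18168) D1921) (orK (nat_lit 229) (fin (add (add (start D8137) (orK (nat_lit 249) (fin (add (add (start (orK (nat_lit 269) (fin (add (start D13373) D1900)))) (orK (nat_lit 168) (fin (add (start D4212) (orK (nat_lit 208) D3343))))) D9200)))) (orK (nat_lit 189) (fin (add (start D1891) (orK (nat_lit 249) (fin (add (start D1897) D9224)))))))))) D18173)))) D12996) D26601)))) D26604) (orK (nat_lit 229) (fin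 (add (add (add (start (orK (nat_lit 249) (fin (add (add (start D26606) (orK (nat_lit 269) (fin (add (start D4089) (orK (nat_lit 212) (fin (add (start D3729) (orK (nat_lit 209) (fin (add (start (orK (nat_lit 268) (fin (add (start D1899) (orK (nat_lit 248) (fin (add (start D4169) D6936))))))) (orK (nat_lit 192) (fin (add (start D845) (orK (nat_lit 208) (fin (add (start D846) D4123)))))))))))))))) (orK (nat_lit 190) (fin (add (start D8934) (orK (nat_lit 191) (fin (add (start D615) D26619)))))))))) D8225) (orK (nat_lit 190) (fin (add (add (start D26624) (orK (nat_lit 171) (fin (add (start D15) (orK (nat_lit 170) (fin (add (start D14) D14872))))))) (orK (nat_lit 191) (fin (add (start D615) D26651))))))) D8229))))))) (orK (nat_lit 211) (fin (add (add (add (start D26569) (orK (nat_lit 229) (fin (add (add (start D26716) (orK (nat_lit 209) (fin (add (add (start (orK (nat_lit 270) D4284)) D26585) (orK (nat_lit 212) (fin (add (start D3729) (orK (nat_lit 270) (fin (add (start D4122) (orK (nat_lit 271) (fin (add (start D628) (orK (nat_lit 192) (fin (add (start D845) (orK (nat_lit 251) (fin (add (start D26718) D12245)))))))))))))))))))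 D8229)))) D26604) (orK (nat_lit 229) (fin (add (add (start D26716) (orK (nat_lit 191) (fin (add (add (start D4454) (orK (nat_lit 212) (fin (add (start D3729) (orK (nat_lit 192) (fin (add (add (start D21823) (orK (nat_lit 194) (fin (add (start (win (nat_lit 5) (nat_lit 10) (nat_lit 9) (nat_lit 1))) (orK (nat_lit 231) (fin (add (start (orK (nat_lit 251) (fin (add (start D5386) D26737)))) (orK (nat_lit 172) (fin (add (start D3858) (orK (nat_lit 190) (fin (add (start (orK (nat_lit 189) (fin (add (start D98) D66)))) (orK (nat_lit 170) (fin (add (start D20) D400)))))))))))))))) (orK (nat_lit 209) (fin (add (start D79) (orK (nat_lit 189) (fin (add (start D439) (orK (nat_lit 190) (fin (add (start D9696) (orK (nat_lit 251) (fin (add (start D149) (orK (nat_lit 172) (fin (add (start D15161) D66)))))))))))))))))))))) D15391)))) D8229))))))) (orK (nat_lit 251) (fin (add (add (add (start D26413) D26452) (orK (nat_lit 190) (fin (add (start D149) D9318)))) D26779))))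
noncomputable def D188 : OP := orK (nat_lit 130) (fin (add (start D166) D186))
noncomputable def D189 : AP := fin (add (start D80) D188)
noncomputable def D190 : OP := orK (nat_lit 209) D189
noncomputable def D731 : OP := orK (nat_lit 151) (fin (add (start D23) (orK (nat_lit 150) (fin (add (start D22) D190)))))
noncomputable def D15307 : OP := orK (nat_lit 170) (fin (add (add (start D155) (orK (nat_lit 231) (fin (add (start D157) (orK (nat_lit 150) (fin (add (start D156) D190))))))) D731))
noncomputable def D15222 : OP := orK (nat_lit 250) (fin (add (add (start D14974) D719) D14452))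
noncomputable def D15224 : OP := orK (nat_lit 189) (fin (add (add (start D15222) D14244) D14651))
noncomputable def D17324 : OP := win (nat_lit 5) (nat_lit 10) (nat_lit 9) (nat_lit 4)
noncomputable def D17346 : OP := orK (nat_lit 174) (fin (add (start (win (nat_lit 4) (nat_lit 10) (nat_lit 8) (nat_lit 4))) (orK (nat_lit 194) (fin (add (start (win (nat_lit 4) (nat_lit 11) (nat_lit 8) (nat_lit 5))) D17324)))))
noncomputable def D17709 : OP := win (nat_lit 2) (nat_lit 11) (nat_lit 8) (nat_lit 4)
noncomputable def D17717 : OP := orK (nat_lit 193) (fin (add (add (start D14306) (orK (nat_lit 194) (fin (add (start D17324) (orK (nat_lit 215) (fin (add (start (win (nat_lit 0) (nat_lit 11) (nat_lit 9) (nat_lit 4))) (orK (nat_lit 195) (fin (add (start (win (nat_lit 0) (nat_lit 12) (nat_lit 9) (nat_lit 5))) D17709)))))))))) D17346))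
noncomputable def D3215 : OP := win (nat_lit 1) (nat_lit 9) (nat_lit 6) (nat_lit 0)
noncomputable def D3216 : AP := fin (add (start D3215) D80)
noncomputable def D3217 : OP := orK (nat_lit 150) D3216
noncomputable def D824 : OP := win (nat_lit 2) (nat_lit 9) (nat_lit 8) (nat_lit 5)
noncomputable def D15093 : OP := orK (nat_lit 193) (fin (add (start D14616) (orK (nat_lit 170) (fin (add (start D824) D1597)))))
noncomputable def D10258 : OP := orK (nat_lit 270) (fin (add (start D616) D10256))
noncomputable def D14464 : AP := fin (add (start D149) D9279)
noncomputable def D30000 : AP := fin (add (add (add (add (add (add (add (add (add (add (add (add (add (add (add (start (orK (nat_lit 250) (fin (add (add (add (start D26412) D14443) (orK (nat_lit 251) (fin (add (add (add (start D26413) D26452) (orK (nat_lit 190) D14464)) (orK (nat_lit 249) (fin (add (add (start D26467) D8899) D26469))))))) D26483)))) (orK (nat_lit 250) (fin (add (add (add (start D7073) (orK (nat_lit 270) (fin (add (add (start D9841) D7058) D9302)))) D14443) (orK (nat_lit 190) (fin (add (add (start D9318) (orK (nat_lit 189) (fin (add (start D3476) D26507))))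 D9279))))))) (orK (nat_lit 190) (fin (add (add (add (add (add (add (add (start D26521) (orK (nat_lit 191) (fin (add (add (add (start D10250) (orK (nat_lit 250) (fin (add (add (add (start D717) D10258) D14504) (orK (nat_lit 251) (fin (add (start D149) (orK (nat_lit 231) (fin (add (start D8918) (orK (nat_lit 189) (fin (add (start D3476) D26503))))))))))))) D10443) (orK (nat_lit 171) (fin (add (add (start D10248) (orK (nat_lit 192) (fin (add (add (add (start D15093) D20404) (orK (nat_lit 189) (fin (add (add (start D2687) (orK (nat_lit 168) (fin (add (start D11925) (orK (nat_lit 188) (fin (add (start D373) (orK (nat_lit 187) (fin (add (start D9201) D2690)))))))))) (orK (nat_lit 172) (fin (add (start D66) (orK (nat_lit 209) (fin (add (start D3405) (orK (nat_lit 169) (fin (add (start D10232) (orK (nat_lit 170) (fin (add (start D3217) (orK (nat_lit 231) (fin (add (start D157) (orK (nat_lit 152) (fin (add (start (win (nat_lit 3) (nat_lit 11) (nat_lit 7) (nat_lit 1))) D281)))))))))))))))))))))) (orK (nat_lit 189) (fin (add (add (start D2687) (orK (nat_lit 168) (fin (add (start D11925) (orK (nat_lit 188) (fin (add (start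 D373) D11517))))))) D17717))))))) D10441))))))) D22446) D15224) D15307) D15541) D15872) D14475)))) (orK (nat_lit 250) D26782)) (orK (nat_lit 190) D26987)) (orK (nat_lit 190) (fin (add (add (add (add (add (add (start (orK (nat_lit 250) D20357)) D14357) D15300) D14960) D26999) (orK (nat_lit 169) (fin (add (add (start (orK (nat_lit 149) (fin (add (start D10543) (orK (nat_lit 189) (fin (add (start D277) D3024))))))) D14481) D27001)))) D14475)))) (orK (nat_lit 170) D28061)) (orK (nat_lit 250) (fin (add (add (add (add (start D14443) D26412) D26483) D7073) (orK (nat_lit 251) (fin (add (add (start D26452) (orK (nat_lit 190) (fin (add (start D149) D14457)))) D26779))))))) (orK (nat_lit 190) D28250)) (orK (nat_lit 229) D29495)) (orK (nat_lit 250) D29726)) (orK (nat_lit 190) (fin (add (add (add (add (add (start (orK (nat_lit 170) D3563)) D14475) (orK (nat_lit 250) (fin (add (add (add (start D622) D634) D719) (orK (nat_lit 251) (fin (add (start D149) (orK (nat_lit 249) (fin (add (start D8) (orK (nat_lit 191) (fin (add (start D615) (orK (nat_lit 169) (fin (add (start D9) D26467)))))))))))))))) D28159) D14486) D14498)))) (orK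 (nat_lit 190) (fin (add (add (add (add (add (start D15157) D14520) D15872) (orK (nat_lit 250) (fin (add (add (add (start D634) D14508) D14504) (orK (nat_lit 249) (fin (add (start D8) (orK (nat_lit 251) (fin (add (start D149) (orK (nat_lit 189) (fin (add (start D3476) (orK (nat_lit 191) (fin (add (start D615) D26467)))))))))))))))) D14486) D14655)))) (orK (nat_lit 190) (fin (add (add (add (add (add (add (add (start D14655) D14498) D14653) D26521) (orK (nat_lit 191) (fin (add (add (start D14659) D10443) (orK (nat_lit 171) (fin (add (add (start D10248) (orK (nat_lit 192) (fin (add (add (start D20404) (orK (nat_lit 189) (fin (add (add (start D2687) D25903) (orK (nat_lit 209) (fin (add (start D3405) (orK (nat_lit 172) (fin (add (start D66) (orK (nat_lit 212) (fin (add (start D2688) (orK (nat_lit 229) (fin (add (start D9696) (orK (nat_lit 211) (fin (add (start D59) D2906))))))))))))))))))) D15140)))) D10441))))))) D26061) D28247) (orK (nat_lit 229) (fin (add (add (add (start D14888) (orK (nat_lit 269) (fin (add (add (add (start D26834) D26835) (orK (nat_lit 211) (fin (add (add (add (start (orK (nat_lit 212) (fin (add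 (start D3729) (orK (nat_lit 189) (fin (add (start D840) (orK (nat_lit 250) (fin (add (start D3476) D29773)))))))))) D8225) (orK (nat_lit 228) (fin (add (start D516) (orK (nat_lit 250) (fin (add (add (add (start D14506) D29773) (orK (nat_lit 208) (fin (add (add (add (start D5018) (orK (nat_lit 189) (fin (add (start D3476) (orK (nat_lit 188) (fin (add (start D53) (orK (nat_lit 248) (fin (add (start D5118) (orK (nat_lit 268) (fin (add (start D5037) D2530))))))))))))) D26888) (orK (nat_lit 188) (fin (add (add (start (orK (nat_lit 169) (fin (add (start D9) (orK (nat_lit 168) (fin (add (start D2538) D28836))))))) (orK (nat_lit 187) (fin (add (start D5115) (orK (nat_lit 248) (fin (add (start D3316) (orK (nat_lit 268) (fin (add (start D2530) D3298)))))))))) (orK (nat_lit 189) (fin (add (start D53) D3476)))))))))) (orK (nat_lit 189) (fin (add (start D3476) (orK (nat_lit 270) (fin (add (start D3105) D26408))))))))))))) D8229)))) D26905)))) D14761) D14868))))))) (orK (nat_lit 190) (fin (add (add (add (start D14297) D26521) D28159) D14655)))) (orK (nat_lit 250) D29998))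
noncomputable def D30001 : OP := orK (nat_lit 230) D30000
noncomputable def D453 : OP := orK (nat_lit 191) D452
noncomputable def D455 : OP := orK (nat_lit 208) (fin (add (start D451) D453))
noncomputable def D457 : OP := orK (nat_lit 188) (fin (add (start D450) D455))
noncomputable def D444 : AP := fin (add (start D442) D443)
noncomputable def D445 : OP := orK (nat_lit 193) D444
noncomputable def D102 : OP := win (nat_lit 0) (nat_lit 10) (nat_lit 10) (nat_lit 5)
noncomputable def D103 : OP := win (nat_lit 0) (nat_lit 9) (nat_lit 10) (nat_lit 4)
noncomputable def D449 : OP := orK (nat_lit 233) (fin (add (start D103) (orK (nat_lit 213) (fin (add (start D102) D445)))))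
noncomputable def D440 : AP := fin (add (start D439) D57)
noncomputable def D441 : OP := orK (nat_lit 189) D440
noncomputable def D459 : OP := orK (nat_lit 212) (fin (add (add (start D441) D449) D457))
noncomputable def D1018 : OP := orK (nat_lit 211) (fin (add (start D45) D459))
noncomputable def D411 : OP := win (nat_lit 0) (nat_lit 9) (nat_lit 10) (nat_lit 5)
noncomputable def D3352 : OP := orK (nat_lit 212) (fin (add (start D411) D2513))
noncomputable def D412 : OP := win (nat_lit 0) (nat_lit 8) (nat_lit 10) (nat_lit 4)
noncomputable def D3354 : OP := orK (nat_lit 232) (fin (add (start D412) D3352))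
noncomputable def D10033 : AP := fin (add (start D2556) D3354)
noncomputable def D655 : OP := win (nat_lit 4) (nat_lit 6) (nat_lit 9) (nat_lit 4)
noncomputable def D659 : OP := orK (nat_lit 186) (fin (add (start D653) (orK (nat_lit 206) (fin (add (start D654) D655)))))
noncomputable def D684 : OP := orK (nat_lit 207) (fin (add (start D414) D659))
noncomputable def D679 : AP := fin (add (start D647) D678)
noncomputable def D680 : OP := orK (nat_lit 192) D679
noncomputable def D681 : AP := fin (add (start D50) D680)
noncomputable def D682 : OP := orK (nat_lit 191) D681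
noncomputable def D665 : OP := orK (nat_lit 206) (fin (add (start D655) D663))
noncomputable def D677 : OP := orK (nat_lit 207) (fin (add (add (start D659) D665) D675))
noncomputable def D14601 : OP := orK (nat_lit 208) (fin (add (add (add (start D677) D682) D684) (orK (nat_lit 211) D10033)))
noncomputable def D2852 : OP := win (nat_lit 6) (nat_lit 10) (nat_lit 6) (nat_lit 5)
noncomputable def D5336 : OP := orK (nat_lit 150) (fin (add (start D80) (orK (nat_lit 131) (fin (add (start D168) (orK (nat_lit 130) (fin (add (start D167) (orK (nat_lit 191) (fin (add (start D2852) D186)))))))))))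
noncomputable def D463 : AP := fin (add (start D461) D462)
noncomputable def D464 : OP := orK (nat_lit 249) D463
noncomputable def D465 : AP := fin (add (start D460) D464)
noncomputable def D466 : OP := orK (nat_lit 229) D465
noncomputable def D182 : OP := orK (nat_lit 151) (fin (add (start D22) (orK (nat_lit 230) (fin (add (start D23) D178)))))
noncomputable def D192 : OP := orK (nat_lit 150) (fin (add (add (start D174) D182) D190))
noncomputable def D218 : OP := win (nat_lit 1) (nat_lit 10) (nat_lit 6) (nat_lit 3)
noncomputable def D217 : OP := win (nat_lit 1) (nat_lit 10) (nat_lit 5) (nat_lit 0)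
noncomputable def D219 : AP := fin (add (start D217) D218)
noncomputable def D220 : OP := orK (nat_lit 131) D219
noncomputable def D216 : OP := win (nat_lit 3) (nat_lit 10) (nat_lit 7) (nat_lit 0)
noncomputable def D221 : AP := fin (add (start D216) D220)
noncomputable def D5454 : OP := orK (nat_lit 171) D221
noncomputable def D2365 : OP := win (nat_lit 3) (nat_lit 10) (nat_lit 6) (nat_lit 3)
noncomputable def D5451 : OP := orK (nat_lit 131) (fin (add (start D2365) (orK (nat_lit 171) D219)))
noncomputable def D2407 : OP := win (nat_lit 1) (nat_lit 9) (nat_lit 8) (nat_lit 3)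
noncomputable def D2419 : AP := fin (add (start D2407) D462)
noncomputable def D2420 : OP := orK (nat_lit 249) D2419
noncomputable def D2472 : AP := fin (add (start D460) D2420)
noncomputable def D2473 : OP := orK (nat_lit 229) D2472
noncomputable def D49 : OP := win (nat_lit 0) (nat_lit 8) (nat_lit 10) (nat_lit 5)
noncomputable def D2459 : OP := win (nat_lit 0) (nat_lit 7) (nat_lit 10) (nat_lit 4)
noncomputable def D2465 : OP := orK (nat_lit 231) (fin (add (start D2459) (orK (nat_lit 211) (fin (add (start D49) D2461)))))
noncomputable def D2458 : OP := orK (nat_lit 230) (fin (add (start D2449) (orK (nat_lit 206) (fin (add (start D2454) D655)))))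
noncomputable def D2467 : OP := orK (nat_lit 207) (fin (add (add (start D2458) D2465) D659))
noncomputable def D2451 : OP := orK (nat_lit 230) D2450
noncomputable def D2453 : OP := orK (nat_lit 207) (fin (add (start D414) D2451))
noncomputable def D648 : OP := win (nat_lit 5) (nat_lit 8) (nat_lit 9) (nat_lit 3)
noncomputable def D696 : AP := fin (add (start D648) D678)
noncomputable def D697 : OP := orK (nat_lit 192) D696
noncomputable def D2434 : OP := win (nat_lit 2) (nat_lit 7) (nat_lit 8) (nat_lit 2)
noncomputable def D2439 : OP := orK (nat_lit 168) (fin (add (start D1912) (orK (nat_lit 167) (fin (add (start D2434) D2435)))))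
noncomputable def D2443 : OP := orK (nat_lit 228) (fin (add (start D104) (orK (nat_lit 188) (fin (add (start D451) D2439)))))
noncomputable def D116 : OP := win (nat_lit 0) (nat_lit 8) (nat_lit 9) (nat_lit 1)
noncomputable def D2431 : OP := orK (nat_lit 212) (fin (add (start D411) (orK (nat_lit 188) (fin (add (start D116) D451)))))
noncomputable def D2427 : OP := orK (nat_lit 228) (fin (add (start D104) D1911))
noncomputable def D2445 : OP := orK (nat_lit 211) (fin (add (add (start D2427) (orK (nat_lit 232) (fin (add (start D412) D2431)))) D2443))
noncomputable def D2421 : OP := win (nat_lit 0) (nat_lit 6) (nat_lit 10) (nat_lit 5)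
noncomputable def D2423 : OP := orK (nat_lit 206) (fin (add (start D2421) D655))
noncomputable def D2425 : OP := orK (nat_lit 207) (fin (add (start D414) D2423))
noncomputable def D2471 : OP := orK (nat_lit 229) (fin (add (add (start D2420) D464) (orK (nat_lit 208) (fin (add (add (add (start D2425) (orK (nat_lit 191) (fin (add (add (start D680) D2445) D697)))) D2453) D2467)))))
noncomputable def D2714 : AP := fin (add (start D50) D697)
noncomputable def D2715 : OP := orK (nat_lit 208) D2714
noncomputable def D2871 : OP := orK (nat_lit 208) D681
noncomputable def D1797 : OP := orK (nat_lit 169) (fin (add (start D1033) D758))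
noncomputable def D1795 : OP := win (nat_lit 3) (nat_lit 11) (nat_lit 6) (nat_lit 5)
noncomputable def D1799 : OP := orK (nat_lit 152) (fin (add (start D1795) D1797))
noncomputable def D2854 : OP := orK (nat_lit 130) (fin (add (start D166) D2852))
noncomputable def D14581 : OP := orK (nat_lit 191) (fin (add (add (start (orK (nat_lit 150) (fin (add (add (start D2854) (orK (nat_lit 151) (fin (add (start D22) (orK (nat_lit 171) (fin (add (start D216) (orK (nat_lit 211) (fin (add (start D45) D1799)))))))))) D172)))) D2871) D2715))
noncomputable def D32 : OP := win (nat_lit 7) (nat_lit 9) (nat_lit 6) (nat_lit 3)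
noncomputable def D1 : OP := win (nat_lit 6) (nat_lit 9) (nat_lit 5) (nat_lit 0)
noncomputable def D34 : OP := orK (nat_lit 129) (fin (add (start D1) D32))
noncomputable def D775 : OP := win (nat_lit 5) (nat_lit 7) (nat_lit 9) (nat_lit 2)
noncomputable def D781 : OP := orK (nat_lit 188) (fin (add (start D117) (orK (nat_lit 208) (fin (add (start D375) (orK (nat_lit 207) (fin (add (start D774) D775))))))))
noncomputable def D773 : OP := orK (nat_lit 148) D772
noncomputable def D785 : OP := orK (nat_lit 171) (fin (add (start D773) (orK (nat_lit 191) (fin (add (start D374) D781)))))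
noncomputable def D2821 : AP := fin (add (start D119) D2820)
noncomputable def D2822 : OP := orK (nat_lit 151) D2821
noncomputable def D2824 : OP := orK (nat_lit 171) (fin (add (start D773) D2822))
noncomputable def D2817 : OP := orK (nat_lit 167) (fin (add (start D2603) (orK (nat_lit 166) (fin (add (start D2576) D2813)))))
noncomputable def D3 : AP := fin (add (start D1) (win (nat_lit 6) (nat_lit 9) (nat_lit 6) (nat_lit 3)))
noncomputable def D4 : OP := orK (nat_lit 129) D3
noncomputable def D3091 : OP := orK (nat_lit 149) (fin (add (add (start D4) (orK (nat_lit 168) (fin (add (add (start D2817) D2824) D785)))) D34))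
noncomputable def D0 : OP := win (nat_lit 7) (nat_lit 9) (nat_lit 7) (nat_lit 0)
noncomputable def D36 : OP := orK (nat_lit 149) (fin (add (start D0) D34))
noncomputable def D2367 : OP := orK (nat_lit 131) (fin (add (start D217) D2365))
noncomputable def D2369 : OP := orK (nat_lit 151) (fin (add (start D216) D2367))
noncomputable def D3087 : OP := orK (nat_lit 171) (fin (add (start D250) D2369))
noncomputable def D5 : AP := fin (add (start D0) D4)
noncomputable def D6 : OP := orK (nat_lit 149) D5
noncomputable def D3093 : OP := orK (nat_lit 169) (fin (add (add (add (start D6) D3087) D36) D3091))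
noncomputable def D3717 : AP := fin (add (add (start D606) D745) D547)
noncomputable def D11210 : OP := orK (nat_lit 230) D3717
noncomputable def D14566 : AP := fin (add (start D45) D188)
noncomputable def D8836 : OP := win (nat_lit 4) (nat_lit 7) (nat_lit 9) (nat_lit 4)
noncomputable def D9114 : AP := fin (add (start D342) (orK (nat_lit 207) (fin (add (start D8836) D671))))
noncomputable def D9115 : OP := orK (nat_lit 191) D9114
noncomputable def D6743 : OP := orK (nat_lit 231) (fin (add (start D49) (orK (nat_lit 207) (fin (add (start D2459) D671)))))
noncomputable def D9116 : AP := fin (add (add (start D6743) D9115) D3354)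
noncomputable def D9186 : OP := orK (nat_lit 208) D9116
noncomputable def D14607 : OP := orK (nat_lit 170) (fin (add (add (add (add (add (add (start (orK (nat_lit 209) (fin (add (add (add (start (orK (nat_lit 211) (fin (add (add (start D9186) (orK (nat_lit 150) D14566)) D459)))) D2471) D2473) D466)))) D11210) D3093) (orK (nat_lit 209) (fin (add (add (add (start D14581) D2471) D2473) D466)))) (orK (nat_lit 151) (fin (add (add (add (start D5451) (orK (nat_lit 230) (fin (add (start D23) (orK (nat_lit 229) (fin (add (start D20) (orK (nat_lit 150) (fin (add (start D21) D14585)))))))))) D5454) (orK (nat_lit 150) (fin (add (start D22) (orK (nat_lit 229) (fin (add (start D21) (orK (nat_lit 230) (fin (add (start D20) D14585))))))))))))) D192) (orK (nat_lit 209) (fin (add (add (add (start D466) D5336) D14601) (orK (nat_lit 150) (fin (add (add (start D172) D1018) D705))))))))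
noncomputable def D3457 : OP := win (nat_lit 4) (nat_lit 7) (nat_lit 10) (nat_lit 3)
noncomputable def D3459 : OP := orK (nat_lit 227) (fin (add (start D3456) D3457))
noncomputable def D3461 : OP := orK (nat_lit 228) (fin (add (start D1911) D3459))
noncomputable def D17870 : OP := win (nat_lit 0) (nat_lit 7) (nat_lit 8) (nat_lit 2)
noncomputable def D18083 : OP := orK (nat_lit 188) (fin (add (start D451) (orK (nat_lit 168) (fin (add (start D1912) (orK (nat_lit 167) (fin (add (start D17870) D2434))))))))
noncomputable def D2025 : OP := win (nat_lit 7) (nat_lit 10) (nat_lit 6) (nat_lit 5)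
noncomputable def D11960 : OP := orK (nat_lit 151) (fin (add (start D118) D2025))
noncomputable def D10151 : OP := win (nat_lit 1) (nat_lit 9) (nat_lit 7) (nat_lit 1)
noncomputable def D11725 : OP := orK (nat_lit 168) (fin (add (start D3044) D8664))
noncomputable def D9207 : OP := orK (nat_lit 149) (fin (add (start D277) D5473))
noncomputable def D18065 : OP := orK (nat_lit 188) (fin (add (start D53) D3428))
noncomputable def D3390 : OP := win (nat_lit 5) (nat_lit 9) (nat_lit 9) (nat_lit 1)
noncomputable def D14817 : OP := orK (nat_lit 208) D452
noncomputable def D3455 : OP := orK (nat_lit 212) (fin (add (start D59) D441))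
noncomputable def D10229 : OP := orK (nat_lit 170) D465
noncomputable def D10150 : OP := orK (nat_lit 170) D2472
noncomputable def D9211 : OP := orK (nat_lit 248) (fin (add (start D4016) (orK (nat_lit 169) (fin (add (start D7553) D9207)))))
noncomputable def D9202 : AP := fin (add (start D1890) D9201)
noncomputable def D9203 : OP := orK (nat_lit 187) D9202
noncomputable def D9205 : OP := orK (nat_lit 188) (fin (add (start D1897) D9203))
noncomputable def D9213 : OP := orK (nat_lit 189) (fin (add (start D9205) D9211))
noncomputable def D11173 : OP := orK (nat_lit 249) (fin (add (start D462) D9213))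
noncomputable def D18093 : OP := orK (nat_lit 229) (fin (add (add (add (start D11173) D10150) D10229) (orK (nat_lit 211) (fin (add (add (start D3455) (orK (nat_lit 191) (fin (add (add (start D14817) (orK (nat_lit 193) (fin (add (start D3390) (orK (nat_lit 171) (fin (add (add (start D11338) (orK (nat_lit 170) (fin (add (start D460) (orK (nat_lit 189) (fin (add (start D18065) (orK (nat_lit 169) (fin (add (start D9207) D11725)))))))))) (orK (nat_lit 150) (fin (add (start D10151) D11960)))))))))) (orK (nat_lit 170) (fin (add (start D460) (orK (nat_lit 208) (fin (add (start D50) D18083)))))))))) D3461)))))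
noncomputable def D48 : OP := win (nat_lit 7) (nat_lit 10) (nat_lit 8) (nat_lit 0)
noncomputable def D10406 : OP := orK (nat_lit 170) (fin (add (start D400) D48))
noncomputable def D10408 : OP := orK (nat_lit 231) (fin (add (start D49) D10406))
noncomputable def D18019 : OP := orK (nat_lit 208) (fin (add (add (add (start D677) D682) D684) (orK (nat_lit 191) (fin (add (add (start D680) (orK (nat_lit 211) (fin (add (start D10408) (orK (nat_lit 188) (fin (add (start D451) (orK (nat_lit 189) (fin (add (start D54) (orK (nat_lit 168) (fin (add (start D373) D11532))))))))))))) D697)))))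
noncomputable def D3359 : OP := orK (nat_lit 188) (fin (add (start D451) (orK (nat_lit 228) (fin (add (start D104) D3355)))))
noncomputable def D3361 : OP := orK (nat_lit 211) (fin (add (start D3354) D3359))
noncomputable def D401 : OP := win (nat_lit 7) (nat_lit 10) (nat_lit 8) (nat_lit 3)
noncomputable def D403 : AP := fin (add (start D401) D402)
noncomputable def D2412 : OP := win (nat_lit 6) (nat_lit 10) (nat_lit 8) (nat_lit 3)
noncomputable def D2780 : OP := orK (nat_lit 251) (fin (add (start D2412) (orK (nat_lit 211) D403)))
noncomputable def D344 : OP := orK (nat_lit 191) (fin (add (start D342) D48))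
noncomputable def D17907 : AP := fin (add (start D49) D344)
noncomputable def D3565 : OP := win (nat_lit 2) (nat_lit 8) (nat_lit 10) (nat_lit 0)
noncomputable def D9759 : AP := fin (add (start D3565) D157)
noncomputable def D3629 : OP := win (nat_lit 0) (nat_lit 8) (nat_lit 10) (nat_lit 3)
noncomputable def D9760 : OP := orK (nat_lit 231) D9759
noncomputable def D10173 : OP := orK (nat_lit 229) (fin (add (start D20) D9760))
noncomputable def D18032 : OP := orK (nat_lit 231) (fin (add (start D3035) D157))
noncomputable def D213 : OP := orK (nat_lit 151) (fin (add (start D22) (orK (nat_lit 230) (fin (add (start D23) D159)))))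
noncomputable def D215 : OP := orK (nat_lit 150) (fin (add (add (start D213) D207) D182))
noncomputable def D18063 : OP := orK (nat_lit 170) (fin (add (add (add (start D2473) D215) (orK (nat_lit 208) (fin (add (add (add (start D682) (orK (nat_lit 230) (fin (add (add (start D18032) (orK (nat_lit 229) (fin (add (start D20) (orK (nat_lit 207) (fin (add (start D2448) (orK (nat_lit 187) (fin (add (start D666) (orK (nat_lit 211) (fin (add (start D667) D15804))))))))))))) D10173)))) (orK (nat_lit 207) (fin (add (start D414) (orK (nat_lit 230) (fin (add (start D2449) (orK (nat_lit 229) (fin (add (start D2448) D20)))))))))) (orK (nat_lit 229) (fin (add (add (start D2420) (orK (nat_lit 231) (fin (add (add (add (start (orK (nat_lit 232) (fin (add (start D3629) (win (nat_lit 2) (nat_lit 8) (nat_lit 10) (nat_lit 2)))))) (orK (nat_lit 230) D9759)) (orK (nat_lit 211) D17907)) D2780)))) (orK (nat_lit 249) (fin (add (start D462) D3361)))))))))) D5336))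
noncomputable def D101 : OP := win (nat_lit 2) (nat_lit 10) (nat_lit 9) (nat_lit 0)
noncomputable def D9604 : OP := win (nat_lit 2) (nat_lit 9) (nat_lit 9) (nat_lit 5)
noncomputable def D10409 : AP := fin (add (start D9604) D101)
noncomputable def D10414 : OP := orK (nat_lit 228) (fin (add (start D104) (orK (nat_lit 212) (fin (add (start D105) (orK (nat_lit 213) D10409))))))
noncomputable def D10416 : OP := orK (nat_lit 211) (fin (add (start D10408) D10414))
noncomputable def D10563 : OP := orK (nat_lit 191) (fin (add (add (start D680) D10416) D697))
noncomputable def D10169 : OP := orK (nat_lit 207) (fin (add (start D414) D2458))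
noncomputable def D9090 : AP := fin (add (start D49) D671)
noncomputable def D9093 : OP := orK (nat_lit 231) (fin (add (start D2459) (orK (nat_lit 211) D9090)))
noncomputable def D10561 : OP := orK (nat_lit 229) (fin (add (start (orK (nat_lit 207) (fin (add (add (start D2451) D4006) D9093)))) D10229))
noncomputable def D18020 : OP := orK (nat_lit 208) (fin (add (add (add (start D10561) D682) D10169) D10563))
noncomputable def D8535 : OP := orK (nat_lit 231) (fin (add (start D49) D48))
noncomputable def D17977 : OP := orK (nat_lit 208) (fin (add (start D50) (orK (nat_lit 211) (fin (add (start D8535) D2427)))))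
noncomputable def D2408 : AP := fin (add (start D2407) D461)
noncomputable def D10234 : OP := orK (nat_lit 169) (fin (add (start D10232) D9207))
noncomputable def D10240 : OP := orK (nat_lit 189) (fin (add (start D10234) (orK (nat_lit 212) (fin (add (start D2688) (orK (nat_lit 188) (fin (add (start D2689) D68))))))))
noncomputable def D10242 : OP := orK (nat_lit 192) (fin (add (start D678) D10240))
noncomputable def D197 : OP := orK (nat_lit 130) (fin (add (start D166) D195))
noncomputable def D10185 : OP := orK (nat_lit 150) (fin (add (add (start D172) D197) D213))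
noncomputable def D17983 : OP := orK (nat_lit 170) (fin (add (add (add (start D10185) (orK (nat_lit 191) (fin (add (add (add (start D10242) D2871) (orK (nat_lit 229) (fin (add (start (orK (nat_lit 249) D2408)) D17977)))) D2715)))) D2473) D466))
noncomputable def D3385 : OP := orK (nat_lit 191) D2714
noncomputable def D4422 : OP := orK (nat_lit 248) (fin (add (start D4419) D4420))
noncomputable def D4426 : OP := orK (nat_lit 168) (fin (add (start D4417) (orK (nat_lit 247) (fin (add (start D4418) D4422)))))
noncomputable def D4429 : AP := fin (add (start D666) (orK (nat_lit 167) (fin (add (add (start (orK (nat_lit 228) D3282)) D4416) D4426))))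
noncomputable def D4432 : OP := orK (nat_lit 227) (fin (add (start D668) (orK (nat_lit 187) D4429)))
noncomputable def D16674 : AP := fin (add (start D2449) D4432)
noncomputable def D11195 : OP := orK (nat_lit 150) (fin (add (add (start D172) D188) D182))
noncomputable def D17264 : OP := orK (nat_lit 170) (fin (add (add (add (start D11195) (orK (nat_lit 229) (fin (add (add (start D2420) D464) (orK (nat_lit 208) (fin (add (add (start (orK (nat_lit 207) (fin (add (add (start D2451) D4006) (orK (nat_lit 230) D16674))))) (orK (nat_lit 230) (fin (add (start D9760) D745)))) D3385))))))) D2473) D466))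
noncomputable def D4069 : OP := orK (nat_lit 227) (fin (add (start D3456) D4067))
noncomputable def D4844 : OP := win (nat_lit 4) (nat_lit 8) (nat_lit 10) (nat_lit 4)
noncomputable def D3677 : OP := win (nat_lit 4) (nat_lit 9) (nat_lit 10) (nat_lit 5)
noncomputable def D10384 : OP := orK (nat_lit 212) (fin (add (start D3677) (orK (nat_lit 228) (fin (add (start D4844) D4069)))))
noncomputable def D501 : OP := win (nat_lit 2) (nat_lit 9) (nat_lit 10) (nat_lit 0)
noncomputable def D10386 : OP := orK (nat_lit 232) (fin (add (start D501) D10384))
noncomputable def D10388 : OP := orK (nat_lit 231) (fin (add (start D157) D10386))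
noncomputable def D3566 : AP := fin (add (start D3035) D3565)
noncomputable def D3567 : OP := orK (nat_lit 208) D3566
noncomputable def D3569 : OP := orK (nat_lit 231) (fin (add (start D157) D3567))
noncomputable def D12047 : OP := orK (nat_lit 150) (fin (add (start D188) D213))
noncomputable def D18007 : OP := orK (nat_lit 170) (fin (add (add (add (start D12047) (orK (nat_lit 229) (fin (add (add (start D2420) D464) (orK (nat_lit 230) (fin (add (add (start D3569) (orK (nat_lit 211) (fin (add (add (start D15796) (orK (nat_lit 212) (fin (add (start D3729) (orK (nat_lit 169) (fin (add (start D223) (orK (nat_lit 188) (fin (add (start D450) (orK (nat_lit 187) (fin (add (start D1889) (orK (nat_lit 171) (fin (add (start D14) D1923)))))))))))))))) (orK (nat_lit 228) (fin (add (start D516) (orK (nat_lit 169) (fin (add (start D223) (orK (nat_lit 189) (fin (add (start D3065) D14876))))))))))))) D10388))))))) D2473) D466))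
noncomputable def D222 : OP := orK (nat_lit 151) D221
noncomputable def D12604 : AP := fin (add (start D14) D223)
noncomputable def D64 : OP := win (nat_lit 2) (nat_lit 9) (nat_lit 8) (nat_lit 0)
noncomputable def D38 : OP := win (nat_lit 0) (nat_lit 8) (nat_lit 8) (nat_lit 3)
noncomputable def D94 : OP := orK (nat_lit 192) (fin (add (start D38) D64))
noncomputable def D95 : AP := fin (add (start D37) D94)
noncomputable def D2600 : OP := orK (nat_lit 191) D95
noncomputable def D39 : OP := win (nat_lit 2) (nat_lit 8) (nat_lit 8) (nat_lit 3)
noncomputable def D90 : OP := orK (nat_lit 192) (fin (add (start D39) D64))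
noncomputable def D91 : AP := fin (add (start D37) D90)
noncomputable def D2599 : OP := orK (nat_lit 191) D91
noncomputable def D5630 : OP := win (nat_lit 6) (nat_lit 8) (nat_lit 6) (nat_lit 5)
noncomputable def D5631 : AP := fin (add (start D980) D5630)
noncomputable def D8340 : OP := orK (nat_lit 128) D5631
noncomputable def D121 : OP := orK (nat_lit 151) (fin (add (start D118) D119))
noncomputable def D2592 : OP := orK (nat_lit 147) (fin (add (start D2106) (orK (nat_lit 171) (fin (add (start D2105) D2110)))))
noncomputable def D2580 : OP := orK (nat_lit 146) (fin (add (start D2577) D2578))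
noncomputable def D2582 : OP := orK (nat_lit 166) (fin (add (start D2576) D2580))
noncomputable def D2594 : OP := orK (nat_lit 167) (fin (add (add (start D2582) D2588) D2592))
noncomputable def D23975 : OP := orK (nat_lit 168) (fin (add (add (add (start D2594) (orK (nat_lit 191) (fin (add (add (start D90) D94) (orK (nat_lit 171) (fin (add (start D121) (orK (nat_lit 188) (fin (add (start D117) (orK (nat_lit 189) (fin (add (start D3428) (orK (nat_lit 211) (fin (add (start D54) (orK (nat_lit 148) (fin (add (start D770) D8340))))))))))))))))))) D2599) D2600))
noncomputable def D3268 : OP := orK (nat_lit 229) (fin (add (start D21) (orK (nat_lit 230) (fin (add (start D20) D178)))))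
noncomputable def D5458 : OP := orK (nat_lit 151) (fin (add (add (add (start D5451) (orK (nat_lit 230) (fin (add (start D23) D751)))) D5454) (orK (nat_lit 150) (fin (add (start D22) D3268)))))
noncomputable def D3473 : OP := orK (nat_lit 229) (fin (add (add (start D2420) D464) (orK (nat_lit 211) (fin (add (add (start D3461) (orK (nat_lit 208) (fin (add (add (start D453) (orK (nat_lit 187) (fin (add (start D667) (orK (nat_lit 207) (fin (add (start D666) D2423))))))) (orK (nat_lit 191) (fin (add (start D342) D2443))))))) D459)))))
noncomputable def D755 : OP := win (nat_lit 5) (nat_lit 8) (nat_lit 7) (nat_lit 0)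
noncomputable def D3236 : OP := win (nat_lit 1) (nat_lit 8) (nat_lit 7) (nat_lit 5)
noncomputable def D5340 : OP := orK (nat_lit 168) (fin (add (start D37) D39))
noncomputable def D5366 : OP := orK (nat_lit 209) (fin (add (add (add (start (orK (nat_lit 191) (fin (add (add (start (orK (nat_lit 192) (fin (add (start D678) (orK (nat_lit 169) (fin (add (start D5340) D36))))))) D2871) (orK (nat_lit 208) (fin (add (start D50) (orK (nat_lit 150) (fin (add (add (start D2854) (orK (nat_lit 149) (fin (add (start D175) (orK (nat_lit 169) (fin (add (start D0) (orK (nat_lit 168) (fin (add (start D37) (orK (nat_lit 189) (fin (add (start D3236) (orK (nat_lit 151) (fin (add (start D22) D755)))))))))))))))) (orK (nat_lit 131) (fin (add (start D168) (orK (nat_lit 130) (fin (add (start D167) D2852)))))))))))))))) D3473) D2473) D466))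
noncomputable def D721 : OP := orK (nat_lit 250) (fin (add (start D8) D719))
noncomputable def D723 : OP := orK (nat_lit 249) (fin (add (start D7) D721))
noncomputable def D732 : AP := fin (add (add (add (start D723) D727) D638) D731)
noncomputable def D733 : OP := orK (nat_lit 230) D732
noncomputable def D2942 : OP := orK (nat_lit 188) (fin (add (start (win (nat_lit 4) (nat_lit 8) (nat_lit 8) (nat_lit 1))) D117))
noncomputable def D2948 : OP := orK (nat_lit 171) (fin (add (start D121) (orK (nat_lit 148) (fin (add (start D770) (orK (nat_lit 172) (fin (add (start D2215) D2942))))))))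
noncomputable def D3014 : OP := orK (nat_lit 191) (fin (add (add (start D90) D94) D2948))
noncomputable def D3016 : OP := orK (nat_lit 168) (fin (add (add (add (start D2594) D3014) D2599) D2600))
noncomputable def D2574 : OP := orK (nat_lit 230) D2573
noncomputable def D13 : OP := orK (nat_lit 249) (fin (add (start D7) (orK (nat_lit 250) (fin (add (start D8) D9)))))
noncomputable def D254 : OP := orK (nat_lit 249) (fin (add (start D7) (orK (nat_lit 250) (fin (add (start D8) D15)))))
noncomputable def D2812 : OP := orK (nat_lit 171) (fin (add (add (start D250) (orK (nat_lit 230) (fin (add (start D14) D254)))) (orK (nat_lit 230) (fin (add (start D14) D13)))))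
noncomputable def D8489 : OP := orK (nat_lit 169) (fin (add (add (add (start D6) D2812) D2574) D3016))
noncomputable def D1751 : OP := win (nat_lit 7) (nat_lit 9) (nat_lit 4) (nat_lit 5)
noncomputable def D3394 : OP := orK (nat_lit 109) (fin (add (start D1751) (win (nat_lit 7) (nat_lit 9) (nat_lit 5) (nat_lit 4))))
noncomputable def D3391 : OP := win (nat_lit 6) (nat_lit 10) (nat_lit 5) (nat_lit 4)
noncomputable def D3396 : OP := orK (nat_lit 110) (fin (add (start D3391) D3394))
noncomputable def D3451 : OP := orK (nat_lit 131) (fin (add (start D168) (orK (nat_lit 130) (fin (add (start D167) (orK (nat_lit 191) (fin (add (start D2852) D3396))))))))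
noncomputable def D3439 : OP := orK (nat_lit 168) (fin (add (start D754) (orK (nat_lit 191) (fin (add (start D374) (orK (nat_lit 188) (fin (add (start D117) (orK (nat_lit 148) (fin (add (start D770) (orK (nat_lit 189) (fin (add (start D3428) D3429))))))))))))))
noncomputable def D269 : OP := win (nat_lit 4) (nat_lit 7) (nat_lit 8) (nat_lit 0)
noncomputable def D1372 : OP := win (nat_lit 7) (nat_lit 11) (nat_lit 7) (nat_lit 0)
noncomputable def D3407 : OP := orK (nat_lit 212) (fin (add (start D2688) D1372))
noncomputable def D1869 : OP := win (nat_lit 5) (nat_lit 9) (nat_lit 7) (nat_lit 1)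
noncomputable def D3404 : OP := orK (nat_lit 188) (fin (add (start D269) D2130))
noncomputable def D1027 : AP := fin (add (start D754) D119)
noncomputable def D1028 : OP := orK (nat_lit 168) D1027
noncomputable def D3402 : OP := orK (nat_lit 130) (fin (add (start D166) (orK (nat_lit 191) (fin (add (start D2852) (orK (nat_lit 193) (fin (add (start D3390) D3396))))))))
noncomputable def D3453 : OP := orK (nat_lit 150) (fin (add (add (add (start D172) D3402) (orK (nat_lit 151) (fin (add (start D22) (orK (nat_lit 171) (fin (add (start D216) (orK (nat_lit 169) (fin (add (add (start D1028) (orK (nat_lit 189) (fin (add (add (start D3404) (orK (nat_lit 153) (fin (add (start D1869) (orK (nat_lit 172) (fin (add (start D227) (orK (nat_lit 192) (fin (add (start D240) (orK (nat_lit 191) (fin (add (start D3405) D3407))))))))))))) (orK (nat_lit 188) (fin (add (start D269) (orK (nat_lit 211) (fin (add (start D1891) (orK (nat_lit 152) (fin (add (start D758) (orK (nat_lit 191) (fin (add (start D1795) (orK (nat_lit 192) (fin (add (start D64) D79))))))))))))))))))) D3439)))))))))) D3451))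
noncomputable def D3475 : OP := orK (nat_lit 209) (fin (add (add (add (start D3453) D3473) D2473) D466))
noncomputable def D5326 : OP := orK (nat_lit 230) (fin (add (add (start D751) D723) (orK (nat_lit 169) (fin (add (start D223) (orK (nat_lit 250) (fin (add (start D9) D719))))))))
noncomputable def D1034 : AP := fin (add (start D1033) D281)
noncomputable def D1035 : OP := orK (nat_lit 152) D1034
noncomputable def D2400 : OP := orK (nat_lit 169) (fin (add (start D1035) D2398))
noncomputable def D2374 : OP := win (nat_lit 0) (nat_lit 9) (nat_lit 9) (nat_lit 2)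
noncomputable def D2481 : OP := orK (nat_lit 213) (fin (add (start D2374) (win (nat_lit 2) (nat_lit 9) (nat_lit 9) (nat_lit 2))))
noncomputable def D2483 : OP := orK (nat_lit 212) (fin (add (start D1372) D2481))
noncomputable def D2389 : OP := orK (nat_lit 188) (fin (add (start D269) D270))
noncomputable def D2391 : OP := orK (nat_lit 189) (fin (add (start D227) D2389))
noncomputable def D2495 : OP := orK (nat_lit 151) (fin (add (add (start D220) (orK (nat_lit 172) (fin (add (add (start D2391) (orK (nat_lit 169) (fin (add (add (start D1035) D2221) (orK (nat_lit 152) (fin (add (start D281) (orK (nat_lit 192) (fin (add (start D240) (orK (nat_lit 189) (fin (add (start D226) D2483))))))))))))) D2400)))) D2367))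
noncomputable def D2361 : AP := fin (add (start D223) D13)
noncomputable def D256 : OP := orK (nat_lit 230) (fin (add (start D223) D254))
noncomputable def D2364 : OP := orK (nat_lit 169) (fin (add (add (start D250) D256) (orK (nat_lit 230) D2361)))
noncomputable def D8596 : OP := orK (nat_lit 171) (fin (add (add (start D2364) D2369) D2495))
noncomputable def D578 : OP := win (nat_lit 5) (nat_lit 8) (nat_lit 7) (nat_lit 4)
noncomputable def D580 : OP := orK (nat_lit 168) (fin (add (start D577) D578))
noncomputable def D575 : OP := win (nat_lit 0) (nat_lit 8) (nat_lit 7) (nat_lit 4)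
noncomputable def D576 : OP := win (nat_lit 0) (nat_lit 9) (nat_lit 7) (nat_lit 5)
noncomputable def D1238 : OP := win (nat_lit 4) (nat_lit 10) (nat_lit 6) (nat_lit 5)
noncomputable def D1545 : OP := win (nat_lit 4) (nat_lit 9) (nat_lit 6) (nat_lit 4)
noncomputable def D8576 : OP := orK (nat_lit 133) (fin (add (start D1545) D1238))
noncomputable def D1591 : OP := win (nat_lit 0) (nat_lit 10) (nat_lit 7) (nat_lit 5)
noncomputable def D7931 : OP := win (nat_lit 0) (nat_lit 9) (nat_lit 7) (nat_lit 4)
noncomputable def D8580 : OP := orK (nat_lit 173) (fin (add (start D7931) (orK (nat_lit 153) (fin (add (start D1591) D8576)))))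
noncomputable def D8572 : OP := win (nat_lit 5) (nat_lit 8) (nat_lit 7) (nat_lit 5)
noncomputable def D8574 : OP := orK (nat_lit 169) (fin (add (start D8572) D758))
noncomputable def D8592 : OP := orK (nat_lit 149) (fin (add (start D175) (orK (nat_lit 229) (fin (add (start D21) (orK (nat_lit 151) (fin (add (start D22) (orK (nat_lit 152) (fin (add (add (start D8574) D8580) (orK (nat_lit 172) (fin (add (start D576) (orK (nat_lit 148) (fin (add (start D575) D580)))))))))))))))))
noncomputable def D8593 : AP := fin (add (add (add (start D174) D8592) D190) D560)
noncomputable def D8594 : OP := orK (nat_lit 150) D8593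
noncomputable def D8597 : AP := fin (add (add (add (add (add (add (add (add (start D8594) D8596) D5326) D3475) D8489) D733) D5366) D5458) D3093)
noncomputable def D17961 : OP := orK (nat_lit 170) D8597
noncomputable def D17952 : OP := orK (nat_lit 188) (fin (add (start D451) (orK (nat_lit 189) (fin (add (start D54) (orK (nat_lit 168) (fin (add (start D373) D3826))))))))
noncomputable def D3310 : OP := orK (nat_lit 169) (fin (add (start D3307) D3308))
noncomputable def D3311 : AP := fin (add (start D312) D3310)
noncomputable def D3312 : OP := orK (nat_lit 189) D3311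
noncomputable def D3302 : OP := win (nat_lit 6) (nat_lit 7) (nat_lit 8) (nat_lit 3)
noncomputable def D3303 : AP := fin (add (start D3280) D3302)
noncomputable def D3306 : OP := orK (nat_lit 167) (fin (add (start D3301) (orK (nat_lit 207) D3303)))
noncomputable def D3294 : OP := orK (nat_lit 226) (fin (add (start D2519) D3292))
noncomputable def D3295 : AP := fin (add (start D2518) D3294)
noncomputable def D3296 : OP := orK (nat_lit 227) D3295
noncomputable def D3285 : OP := orK (nat_lit 228) (fin (add (start D2518) D3283))
noncomputable def D3289 : OP := orK (nat_lit 207) (fin (add (start D666) (orK (nat_lit 227) (fin (add (start D668) D3285)))))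
noncomputable def D3273 : OP := win (nat_lit 2) (nat_lit 6) (nat_lit 9) (nat_lit 3)
noncomputable def D3279 : OP := orK (nat_lit 186) (fin (add (start D3273) (orK (nat_lit 188) D3276)))
noncomputable def D3327 : OP := orK (nat_lit 187) (fin (add (add (add (start D3279) D3289) (orK (nat_lit 228) (fin (add (add (start D3296) (orK (nat_lit 248) (fin (add (add (start (orK (nat_lit 268) (fin (add (start D3297) D3298)))) D3306) D3312)))) (orK (nat_lit 188) (fin (add (start D3315) (orK (nat_lit 248) (fin (add (start D3316) D2526)))))))))) D3325))
noncomputable def D17958 : OP := orK (nat_lit 208) (fin (add (add (add (start D3327) D682) (orK (nat_lit 191) (fin (add (add (start D680) (orK (nat_lit 211) (fin (add (start D10408) D17952)))) D697)))) D3385))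
noncomputable def D8847 : AP := fin (add (start D3429) D5644)
noncomputable def D8848 : OP := orK (nat_lit 148) D8847
noncomputable def D13446 : OP := orK (nat_lit 188) (fin (add (start D451) (orK (nat_lit 189) (fin (add (start D54) (orK (nat_lit 168) (fin (add (start D373) (orK (nat_lit 171) (fin (add (start D3428) D8848)))))))))))
noncomputable def D13448 : OP := orK (nat_lit 211) (fin (add (start D10408) D13446))
noncomputable def D13450 : OP := orK (nat_lit 191) (fin (add (add (start D680) D13448) D697))
noncomputable def D17946 : OP := orK (nat_lit 208) (fin (add (add (add (start (orK (nat_lit 207) (fin (add (add (start D659) D665) D17942)))) D682) D684) D13450))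
noncomputable def D17936 : OP := orK (nat_lit 208) (fin (add (start D50) D13448))
noncomputable def D11632 : AP := fin (add (start D118) D1372)
noncomputable def D11633 : OP := orK (nat_lit 151) D11632
noncomputable def D11639 : OP := orK (nat_lit 172) (fin (add (start D66) (orK (nat_lit 171) (fin (add (start D2685) (orK (nat_lit 212) (fin (add (start D2688) D11633))))))))
noncomputable def D5243 : OP := win (nat_lit 7) (nat_lit 8) (nat_lit 6) (nat_lit 5)
noncomputable def D10703 : OP := orK (nat_lit 148) (fin (add (start D5243) D10701))
noncomputable def D10705 : OP := orK (nat_lit 149) (fin (add (start D277) D10703))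
noncomputable def D17076 : OP := orK (nat_lit 168) (fin (add (start D37) D3044))
noncomputable def D11911 : OP := orK (nat_lit 149) (fin (add (start D5708) D277))
noncomputable def D12005 : OP := orK (nat_lit 150) (fin (add (start D10151) D11911))
noncomputable def D10709 : OP := orK (nat_lit 248) (fin (add (start D4016) (orK (nat_lit 169) (fin (add (start D7553) D10705)))))
noncomputable def D11909 : OP := orK (nat_lit 249) (fin (add (start D462) D10709))
noncomputable def D58 : OP := win (nat_lit 3) (nat_lit 9) (nat_lit 8) (nat_lit 0)
noncomputable def D11907 : OP := orK (nat_lit 170) (fin (add (start D460) D58))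
noncomputable def D17938 : OP := orK (nat_lit 191) (fin (add (add (start (orK (nat_lit 192) (fin (add (start D678) (orK (nat_lit 189) (fin (add (start (orK (nat_lit 229) (fin (add (add (start D11907) D11909) (orK (nat_lit 169) (fin (add (add (start D12005) (orK (nat_lit 170) (fin (add (start D460) D17076)))) D10705))))))) D11639))))))) D2871) D17936))
noncomputable def D3362 : OP := win (nat_lit 0) (nat_lit 5) (nat_lit 10) (nat_lit 4)
noncomputable def D3367 : AP := fin (add (start D3362) D3366)
noncomputable def D3368 : OP := orK (nat_lit 205) D3367
noncomputable def D3374 : OP := orK (nat_lit 207) (fin (add (start D414) (orK (nat_lit 186) (fin (add (start D653) (orK (nat_lit 206) (fin (add (start D654) D3368))))))))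
noncomputable def D3344 : OP := orK (nat_lit 168) D3343
noncomputable def D3346 : OP := orK (nat_lit 186) (fin (add (start D3274) D3273))
noncomputable def D3347 : AP := fin (add (start D3315) D3346)
noncomputable def D3348 : OP := orK (nat_lit 187) D3347
noncomputable def D3350 : OP := orK (nat_lit 188) (fin (add (start D3344) D3348))
noncomputable def D17882 : OP := orK (nat_lit 171) (fin (add (start D770) D121))
noncomputable def D10286 : OP := win (nat_lit 6) (nat_lit 8) (nat_lit 7) (nat_lit 2)
noncomputable def D16639 : OP := orK (nat_lit 149) (fin (add (start D3236) D277))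
noncomputable def D11946 : AP := fin (add (start D1890) D11047)
noncomputable def D11947 : OP := orK (nat_lit 187) D11946
noncomputable def D10615 : OP := win (nat_lit 7) (nat_lit 8) (nat_lit 7) (nat_lit 2)
noncomputable def D13508 : OP := orK (nat_lit 170) (fin (add (start D460) (orK (nat_lit 207) (fin (add (add (add (start D659) D665) D4006) (orK (nat_lit 187) (fin (add (start D666) (orK (nat_lit 188) (fin (add (start D3315) (orK (nat_lit 189) (fin (add (start D11047) D9065))))))))))))))
noncomputable def D6932 : OP := win (nat_lit 2) (nat_lit 7) (nat_lit 11) (nat_lit 0)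
noncomputable def D11990 : OP := orK (nat_lit 248) (fin (add (start D4016) (orK (nat_lit 228) (fin (add (start D4590) (orK (nat_lit 227) (fin (add (start D3456) (orK (nat_lit 250) (fin (add (start D6932) D4095)))))))))))
noncomputable def D17869 : OP := orK (nat_lit 249) (fin (add (start D462) (orK (nat_lit 189) (fin (add (start D9205) D11990)))))
noncomputable def D17920 : OP := orK (nat_lit 229) (fin (add (add (add (start D10229) D17869) (orK (nat_lit 208) (fin (add (add (add (start D13508) D682) (orK (nat_lit 170) (fin (add (start D460) (orK (nat_lit 191) (fin (add (start (orK (nat_lit 168) (fin (add (add (add (add (start (orK (nat_lit 167) (fin (add (start D17870) (orK (nat_lit 188) (fin (add (start D2434) (orK (nat_lit 228) (fin (add (start D2435) D4034)))))))))) (orK (nat_lit 148) (fin (add (start D10286) (orK (nat_lit 169) (fin (add (start D10615) D17882))))))) (orK (nat_lit 188) (fin (add (start D1912) (orK (nat_lit 189) (fin (add (start D373) D11947))))))) (orK (nat_lit 169) (fin (add (start D37) (orK (nat_lit 189) (fin (add (start D3044) D16639))))))) (orK (nat_lit 169) (fin (add (start D37) (orK (nat_lit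 148) (fin (add (start D10286) D17882)))))))))) D680))))))) D3385)))) (orK (nat_lit 249) (fin (add (start D462) (orK (nat_lit 170) (fin (add (start D460) (orK (nat_lit 208) (fin (add (add (add (start D682) D3350) (orK (nat_lit 188) (fin (add (start D3344) (orK (nat_lit 211) (fin (add (start D451) (orK (nat_lit 231) D17907)))))))) D3374)))))))))))
noncomputable def D12015 : OP := orK (nat_lit 187) (fin (add (start D3061) (orK (nat_lit 169) (fin (add (add (start D12005) (orK (nat_lit 170) (fin (add (start D460) (orK (nat_lit 168) (fin (add (start D3044) (orK (nat_lit 167) (fin (add (start D3540) D2107)))))))))) D10705)))))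
noncomputable def D3857 : OP := win (nat_lit 1) (nat_lit 11) (nat_lit 8) (nat_lit 5)
noncomputable def D6041 : AP := fin (add (start D3858) D3857)
noncomputable def D6765 : OP := orK (nat_lit 172) D6041
noncomputable def D17811 : OP := orK (nat_lit 192) (fin (add (start D845) D6765))
noncomputable def D3038 : OP := win (nat_lit 0) (nat_lit 8) (nat_lit 10) (nat_lit 0)
noncomputable def D17817 : OP := orK (nat_lit 212) (fin (add (start D57) (orK (nat_lit 232) (fin (add (start D411) (orK (nat_lit 231) (fin (add (start D3038) D17811))))))))
noncomputable def D11953 : OP := orK (nat_lit 249) (fin (add (start D462) D9205))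
noncomputable def D11954 : AP := fin (add (start D53) D1891)
noncomputable def D11997 : OP := orK (nat_lit 188) D11954
noncomputable def D14525 : OP := orK (nat_lit 211) (fin (add (start D45) D11997))
noncomputable def D3219 : OP := orK (nat_lit 207) (fin (add (start D413) D671))
noncomputable def D3238 : OP := orK (nat_lit 207) (fin (add (start D666) D413))
noncomputable def D17797 : OP := orK (nat_lit 187) (fin (add (start D3061) D3238))
noncomputable def D341 : OP := win (nat_lit 3) (nat_lit 9) (nat_lit 8) (nat_lit 1)
noncomputable def D61 : OP := orK (nat_lit 229) (fin (add (start D58) D59))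
noncomputable def D17825 : OP := orK (nat_lit 226) D17824
noncomputable def D17837 : OP := orK (nat_lit 187) (fin (add (start D1890) (orK (nat_lit 207) (fin (add (start D8665) (orK (nat_lit 167) (fin (add (start D9066) (orK (nat_lit 227) (fin (add (add (start D17825) D4426) (orK (nat_lit 246) (fin (add (start D12770) (orK (nat_lit 247) (fin (add (start D10077) D12774)))))))))))))))))
noncomputable def D5955 : OP := win (nat_lit 1) (nat_lit 8) (nat_lit 7) (nat_lit 4)
noncomputable def D16575 : OP := orK (nat_lit 149) (fin (add (start D5955) D277))
noncomputable def D17198 : OP := orK (nat_lit 169) (fin (add (add (start (orK (nat_lit 228) (fin (add (start D3065) D16575)))) D10705) (orK (nat_lit 228) (fin (add (start D3065) (orK (nat_lit 172) (fin (add (start (win (nat_lit 5) (nat_lit 8) (nat_lit 8) (nat_lit 1))) (orK (nat_lit 168) (fin (add (start D3044) (orK (nat_lit 167) (fin (add (start D3540) (orK (nat_lit 147) (fin (add (start D2106) (win (nat_lit 7) (nat_lit 7) (nat_lit 7) (nat_lit 1)))))))))))))))))))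
noncomputable def D17804 : AP := fin (add (start D57) D59)
noncomputable def D17805 : OP := orK (nat_lit 212) D17804
noncomputable def D5372 : OP := orK (nat_lit 232) (fin (add (start D411) (orK (nat_lit 208) (fin (add (start D412) D3219)))))
noncomputable def D11999 : OP := orK (nat_lit 229) (fin (add (start D59) D11907))
noncomputable def D12019 : OP := orK (nat_lit 211) (fin (add (add (start D11997) (orK (nat_lit 212) (fin (add (start D57) D11999)))) (orK (nat_lit 229) (fin (add (add (start D11907) (orK (nat_lit 188) (fin (add (start D53) D11974)))) D12015)))))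
noncomputable def D17864 : AP := fin (add (add (add (add (add (start D12019) (orK (nat_lit 211) (fin (add (add (start D11997) (orK (nat_lit 212) (fin (add (start D57) D5372)))) (orK (nat_lit 208) (fin (add (add (start D17797) D3219) (orK (nat_lit 188) (fin (add (start D53) D3826)))))))))) (orK (nat_lit 229) (fin (add (start D11907) (orK (nat_lit 211) (fin (add (add (start D17805) (orK (nat_lit 228) (fin (add (start D8133) (orK (nat_lit 169) (fin (add (start D3065) D10705))))))) D17817))))))) (orK (nat_lit 229) (fin (add (add (start D11907) D11909) (orK (nat_lit 170) (fin (add (start D460) (orK (nat_lit 188) (fin (add (add (start D11947) D17198) D17837)))))))))) (orK (nat_lit 170) (fin (add (add (start D3217) (orK (nat_lit 211) (fin (add (add (start D11997) (orK (nat_lit 212) (fin (add (start D57) D61)))) (orK (nat_lit 249) (fin (add (start D341) (orK (nat_lit 208) (fin (add (add (start D17797) D3219) (orK (nat_lit 188) (fin (add (start D53) (orK (nat_lit 228) (fin (add (start D104) (orK (nat_lit 248) (fin (add (start D312) D4630))))))))))))))))))) (orK (nat_lit 150) (fin (add (start D3215) D14525))))))) (orK (nat_lit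 229) (fin (add (add (start D11907) D11953) (orK (nat_lit 211) (fin (add (start D17817) D12015)))))))
noncomputable def D17865 : OP := orK (nat_lit 189) D17864
noncomputable def D17791 : OP := orK (nat_lit 207) (fin (add (start D414) D4006))
noncomputable def D3937 : OP := orK (nat_lit 212) (fin (add (start D411) D107))
noncomputable def D3939 : OP := orK (nat_lit 232) (fin (add (start D412) D3937))
noncomputable def D17789 : OP := orK (nat_lit 211) (fin (add (add (start (orK (nat_lit 231) (fin (add (start D49) (orK (nat_lit 191) (fin (add (start D342) D10406))))))) D3939) D2560))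
noncomputable def D9645 : OP := orK (nat_lit 228) D2523
noncomputable def D16112 : AP := fin (add (start D3273) (orK (nat_lit 188) (fin (add (start D3274) D3315))))
noncomputable def D16113 : OP := orK (nat_lit 186) D16112
noncomputable def D16107 : AP := fin (add (start D666) D3285)
noncomputable def D9636 : OP := orK (nat_lit 226) (fin (add (start D3292) (orK (nat_lit 228) D2521)))
noncomputable def D16123 : OP := orK (nat_lit 227) (fin (add (add (add (start D9636) (orK (nat_lit 187) (fin (add (add (add (start (orK (nat_lit 211) (fin (add (start D667) D669)))) (orK (nat_lit 207) D16107)) (orK (nat_lit 207) D4429)) D16113)))) D9645) (orK (nat_lit 207) (fin (add (start D668) (orK (nat_lit 187) (fin (add (start D666) (orK (nat_lit 188) (fin (add (start D3315) D9063)))))))))))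
noncomputable def D17793 : OP := orK (nat_lit 208) (fin (add (add (add (start D682) D16123) D17789) D17791))
noncomputable def D10728 : AP := fin (add (start D9604) D445)
noncomputable def D10739 : OP := orK (nat_lit 207) (fin (add (add (start D659) (orK (nat_lit 227) (fin (add (start D668) (orK (nat_lit 211) (fin (add (start D669) (orK (nat_lit 232) (fin (add (start D412) (orK (nat_lit 212) (fin (add (start D411) (orK (nat_lit 213) D10728)))))))))))))) D4006))
noncomputable def D10740 : AP := fin (add (add (add (start D684) D682) D10739) D10563)
noncomputable def D13930 : OP := orK (nat_lit 208) D10740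
noncomputable def D565 : OP := win (nat_lit 2) (nat_lit 7) (nat_lit 6) (nat_lit 4)
noncomputable def D566 : OP := win (nat_lit 2) (nat_lit 6) (nat_lit 6) (nat_lit 5)
noncomputable def D761 : OP := orK (nat_lit 127) (fin (add (start D566) D565))
noncomputable def D757 : OP := orK (nat_lit 168) (fin (add (start D754) D755))
noncomputable def D793 : OP := orK (nat_lit 149) (fin (add (start D175) (orK (nat_lit 151) (fin (add (start D22) (orK (nat_lit 169) (fin (add (add (start D757) (orK (nat_lit 152) (fin (add (start D758) (orK (nat_lit 172) (fin (add (start D576) (orK (nat_lit 148) (fin (add (start D575) (orK (nat_lit 147) (fin (add (start D759) D761))))))))))))) (orK (nat_lit 168) (fin (add (start D754) D785)))))))))))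
noncomputable def D17201 : OP := win (nat_lit 3) (nat_lit 7) (nat_lit 7) (nat_lit 0)
noncomputable def D944 : OP := win (nat_lit 1) (nat_lit 7) (nat_lit 6) (nat_lit 0)
noncomputable def D17203 : OP := orK (nat_lit 148) (fin (add (start D944) D17201))
noncomputable def D17237 : OP := orK (nat_lit 207) (fin (add (start D8665) D17203))
noncomputable def D11589 : OP := win (nat_lit 7) (nat_lit 8) (nat_lit 7) (nat_lit 3)
noncomputable def D11978 : OP := orK (nat_lit 148) (fin (add (start D3429) D11589))
noncomputable def D11982 : OP := orK (nat_lit 191) (fin (add (start (orK (nat_lit 192) (fin (add (start D678) D68)))) (orK (nat_lit 168) (fin (add (start D373) D11978)))))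
noncomputable def D15404 : OP := orK (nat_lit 192) D14299
noncomputable def D11992 : OP := orK (nat_lit 249) (fin (add (start D462) D11990))
noncomputable def D11994 : OP := orK (nat_lit 229) (fin (add (add (start D11974) D11982) D11992))
noncomputable def D17210 : AP := fin (add (start D7658) (win (nat_lit 6) (nat_lit 7) (nat_lit 6) (nat_lit 5)))
noncomputable def D17211 : OP := orK (nat_lit 127) D17210
noncomputable def D13064 : OP := orK (nat_lit 147) D13063
noncomputable def D10206 : OP := win (nat_lit 4) (nat_lit 6) (nat_lit 10) (nat_lit 1)
noncomputable def D415 : AP := fin (add (start D413) D414)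
noncomputable def D416 : OP := orK (nat_lit 207) D415
noncomputable def D2872 : OP := win (nat_lit 4) (nat_lit 7) (nat_lit 9) (nat_lit 1)
noncomputable def D16632 : OP := orK (nat_lit 187) (fin (add (start D1890) (orK (nat_lit 207) (fin (add (start D2872) D8665)))))
noncomputable def D13047 : OP := orK (nat_lit 167) (fin (add (start D9066) D11518))
noncomputable def D13049 : OP := orK (nat_lit 187) (fin (add (start D1890) D13047))
noncomputable def D16628 : OP := orK (nat_lit 172) (fin (add (start D66) (orK (nat_lit 188) (fin (add (start D65) D13049)))))
noncomputable def D9914 : OP := orK (nat_lit 208) D9913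
noncomputable def D16636 : OP := orK (nat_lit 191) (fin (add (add (start D9914) (orK (nat_lit 192) (fin (add (start D678) D16628)))) (orK (nat_lit 188) (fin (add (add (start D13049) D16632) (orK (nat_lit 168) (fin (add (start D373) (orK (nat_lit 208) (fin (add (start D50) D8848)))))))))))
noncomputable def D12701 : OP := win (nat_lit 1) (nat_lit 6) (nat_lit 9) (nat_lit 3)
noncomputable def D12700 : OP := win (nat_lit 1) (nat_lit 6) (nat_lit 8) (nat_lit 0)
noncomputable def D17155 : OP := orK (nat_lit 246) (fin (add (start D12700) (orK (nat_lit 266) (fin (add (start D12701) (win (nat_lit 3) (nat_lit 6) (nat_lit 9) (nat_lit 3)))))))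
noncomputable def D12688 : OP := win (nat_lit 4) (nat_lit 6) (nat_lit 10) (nat_lit 2)
noncomputable def D17130 : OP := orK (nat_lit 268) (fin (add (start (win (nat_lit 6) (nat_lit 7) (nat_lit 9) (nat_lit 4))) (win (nat_lit 6) (nat_lit 7) (nat_lit 10) (nat_lit 5))))
noncomputable def D17132 : OP := orK (nat_lit 267) (fin (add (start D12731) D17130))
noncomputable def D12786 : AP := fin (add (start D12772) D12785)
noncomputable def D17150 : OP := orK (nat_lit 247) (fin (add (add (start (orK (nat_lit 167) D12786)) D17132) (orK (nat_lit 267) (fin (add (start D17130) D17134)))))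
noncomputable def D11174 : AP := fin (add (start D3540) D3044)
noncomputable def D12824 : AP := fin (add (start D3307) D3065)
noncomputable def D16854 : AP := fin (add (start D119) D13089)
noncomputable def D279 : OP := orK (nat_lit 149) (fin (add (start D276) D277))
noncomputable def D17054 : OP := orK (nat_lit 168) (fin (add (start D37) D119))
noncomputable def D11805 : OP := orK (nat_lit 188) (fin (add (start D269) D3428))
noncomputable def D17248 : AP := fin (add (add (add (add (add (add (add (add (start (orK (nat_lit 191) (fin (add (start D9914) (orK (nat_lit 171) (fin (add (add (start D11805) (orK (nat_lit 172) (fin (add (start D227) (orK (nat_lit 151) (fin (add (start D118) (orK (nat_lit 169) (fin (add (start D17054) D279)))))))))) (orK (nat_lit 151) (fin (add (start D118) (orK (nat_lit 188) (fin (add (start D269) (orK (nat_lit 168) (fin (add (start D373) (orK (nat_lit 169) D16854))))))))))))))))) (orK (nat_lit 208) (fin (add (add (start D416) (orK (nat_lit 191) (fin (add (start D9912) (orK (nat_lit 229) (fin (add (start D58) (orK (nat_lit 169) (fin (add (start D16639) D17076)))))))))) (orK (nat_lit 207)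 (fin (add (start D413) (orK (nat_lit 229) (fin (add (start D58) (orK (nat_lit 227) (fin (add (start D668) (orK (nat_lit 187) (fin (add (start D666) (orK (nat_lit 169) (fin (add (add (start (orK (nat_lit 228) D12824)) (orK (nat_lit 167) (fin (add (start (orK (nat_lit 168) D11174)) (orK (nat_lit 228) (fin (add (start D3065) D3280))))))) D10705))))))))))))))))))) (orK (nat_lit 208) (fin (add (start D416) (orK (nat_lit 169) (fin (add (add (start D16639) (orK (nat_lit 229) (fin (add (start D58) (orK (nat_lit 228) (fin (add (start D3065) (orK (nat_lit 227) (fin (add (start D3456) (orK (nat_lit 168) (fin (add (start D3044) (orK (nat_lit 188) (fin (add (start D4032) D11947)))))))))))))))) (orK (nat_lit 229) (fin (add (start D58) D10705)))))))))) (orK (nat_lit 191) (fin (add (add (start D9914) (orK (nat_lit 192) (fin (add (start D678) (orK (nat_lit 249) (fin (add (start D341) D11639))))))) (orK (nat_lit 207) (fin (add (start D2872) (orK (nat_lit 229) (fin (add (start D58) (orK (nat_lit 187) (fin (add (add (start (orK (nat_lit 188) D11946)) (orK (nat_lit 227) (fin (add (add (add (add (start (orK (nat_lit 228) (fin (add (start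 D3456) (orK (nat_lit 248) (fin (add (start D4590) D3803))))))) (orK (nat_lit 247) (fin (add (add (start (orK (nat_lit 167) (fin (add (start D4422) D12785)))) D17132) D17136)))) (orK (nat_lit 228) (fin (add (start D3456) (orK (nat_lit 248) (fin (add (start D4590) (orK (nat_lit 268) (fin (add (start D4070) D17139)))))))))) D17150) (orK (nat_lit 226) (fin (add (start D12688) D17155))))))) (orK (nat_lit 188) (fin (add (start D11047) D8665)))))))))))))))) D16636) (orK (nat_lit 208) (fin (add (start D416) (orK (nat_lit 229) (fin (add (start D58) (orK (nat_lit 169) (fin (add (add (start D16639) (orK (nat_lit 228) (fin (add (start D3065) (orK (nat_lit 226) (fin (add (start D10206) (orK (nat_lit 168) (fin (add (start D3044) (orK (nat_lit 167) (fin (add (start D3540) D13064))))))))))))) D10705)))))))))) (orK (nat_lit 188) (fin (add (add (start D11947) (orK (nat_lit 229) (fin (add (start D58) D17198)))) (orK (nat_lit 187) (fin (add (start D1890) (orK (nat_lit 229) (fin (add (start D58) (orK (nat_lit 207) (fin (add (start D8665) (orK (nat_lit 167) (fin (add (start D9066) (orK (nat_lit 168) (fin (add (start D17203) (orK (nat_lit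 147) (fin (add (start (orK (nat_lit 146) (fin (add (start (win (nat_lit 2) (nat_lit 6) (nat_lit 7) (nat_lit 1))) D4409)))) D17211)))))))))))))))))))))) (orK (nat_lit 188) (fin (add (add (start D11947) D11994) (orK (nat_lit 187) (fin (add (start D1890) (orK (nat_lit 167) (fin (add (start D9066) (orK (nat_lit 191) (fin (add (start D11518) (orK (nat_lit 249) (fin (add (start D341) D15404)))))))))))))))) (orK (nat_lit 229) (fin (add (start D58) (orK (nat_lit 188) (fin (add (add (start D11947) D11982) (orK (nat_lit 187) (fin (add (start D1890) (orK (nat_lit 167) (fin (add (start D9066) (orK (nat_lit 168) (fin (add (start D14769) D17237))))))))))))))))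
noncomputable def D10856 : OP := orK (nat_lit 150) (fin (add (start D80) D560))
noncomputable def D17253 : OP := orK (nat_lit 170) (fin (add (add (add (start D466) D10856) (orK (nat_lit 189) D17248)) (orK (nat_lit 150) (fin (add (add (add (start D172) D188) D793) D560)))))
noncomputable def D11933 : OP := orK (nat_lit 172) (fin (add (start D65) (orK (nat_lit 192) (fin (add (start D66) D678)))))
noncomputable def D17776 : OP := orK (nat_lit 187) (fin (add (start D1890) (orK (nat_lit 167) (fin (add (start D9066) (orK (nat_lit 191) (fin (add (start D11518) D11933))))))))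
noncomputable def D11962 : OP := orK (nat_lit 171) (fin (add (start D3428) D11960))
noncomputable def D11964 : OP := orK (nat_lit 211) (fin (add (start D54) D11962))
noncomputable def D11819 : OP := orK (nat_lit 192) (fin (add (start D2688) D678))
noncomputable def D11821 : OP := orK (nat_lit 212) (fin (add (start D2689) D11819))
noncomputable def D11966 : OP := orK (nat_lit 191) (fin (add (add (start D11821) D11964) D11933))
noncomputable def D17767 : OP := orK (nat_lit 187) (fin (add (start D1890) D14645))
noncomputable def D1846 : OP := win (nat_lit 4) (nat_lit 8) (nat_lit 7) (nat_lit 1)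
noncomputable def D11929 : OP := orK (nat_lit 168) (fin (add (start D373) (orK (nat_lit 192) (fin (add (start D11925) D678)))))
noncomputable def D11943 : OP := orK (nat_lit 191) (fin (add (add (start D11929) D11933) (orK (nat_lit 168) (fin (add (start D373) (orK (nat_lit 171) (fin (add (start D3428) (orK (nat_lit 151) (fin (add (start D118) (orK (nat_lit 152) (fin (add (start D1795) D1846))))))))))))))
noncomputable def D12023 : OP := orK (nat_lit 150) (fin (add (start D3215) D45))
noncomputable def D11996 : OP := orK (nat_lit 188) (fin (add (start D9203) D11994))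
noncomputable def D12033 : OP := orK (nat_lit 170) (fin (add (start D11047) D3217))
noncomputable def D11968 : OP := orK (nat_lit 150) (fin (add (start D10151) D11966))
noncomputable def D12037 : OP := orK (nat_lit 188) (fin (add (add (start D9203) (orK (nat_lit 229) (fin (add (start D11992) D11968)))) (orK (nat_lit 187) (fin (add (start D1890) D12033)))))
noncomputable def D12043 : OP := orK (nat_lit 229) (fin (add (add (start D11907) D11909) (orK (nat_lit 169) (fin (add (add (start D12005) D10705) (orK (nat_lit 170) (fin (add (start D460) D11725))))))))
noncomputable def D17783 : OP := orK (nat_lit 189) (fin (add (add (add (add (add (start D12019) D12043) D12037) D11996) (orK (nat_lit 188) (fin (add (add (start D9203) (orK (nat_lit 211) (fin (add (start D1891) (orK (nat_lit 170) (fin (add (start D12023) D11943))))))) D17767)))) (orK (nat_lit 150) (fin (add (add (start (orK (nat_lit 170) D3216)) (orK (nat_lit 188) (fin (add (add (start D9203) D11966) D17776)))) (orK (nat_lit 170) (fin (add (start D80) D14525))))))))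
noncomputable def D9088 : AP := fin (add (start D414) D665)
noncomputable def D1349 : OP := orK (nat_lit 188) (fin (add (start D451) D450))
noncomputable def D3933 : OP := orK (nat_lit 212) (fin (add (start D411) D1349))
noncomputable def D3935 : OP := orK (nat_lit 232) (fin (add (start D412) D3933))
noncomputable def D3940 : AP := fin (add (add (start D3935) D2556) D3939)
noncomputable def D3941 : OP := orK (nat_lit 211) D3940
noncomputable def D2755 : OP := orK (nat_lit 211) D46
noncomputable def D10402 : OP := orK (nat_lit 150) (fin (add (start D80) D2755))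
noncomputable def D1239 : OP := win (nat_lit 1) (nat_lit 12) (nat_lit 4) (nat_lit 0)
noncomputable def D1685 : OP := win (nat_lit 3) (nat_lit 12) (nat_lit 6) (nat_lit 0)
noncomputable def D2933 : OP := orK (nat_lit 153) (fin (add (start (win (nat_lit 4) (nat_lit 9) (nat_lit 7) (nat_lit 2))) (orK (nat_lit 133) (fin (add (start D1685) (orK (nat_lit 113) (fin (add (start D1239) (win (nat_lit 1) (nat_lit 12) (nat_lit 5) (nat_lit 3))))))))))
noncomputable def D2921 : OP := win (nat_lit 3) (nat_lit 11) (nat_lit 8) (nat_lit 0)
noncomputable def D2727 : OP := win (nat_lit 1) (nat_lit 11) (nat_lit 7) (nat_lit 3)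
noncomputable def D2924 : AP := fin (add (start D2726) (orK (nat_lit 231) (fin (add (start D2727) D2921))))
noncomputable def D2925 : OP := orK (nat_lit 211) D2924
noncomputable def D1145 : OP := win (nat_lit 1) (nat_lit 11) (nat_lit 5) (nat_lit 0)
noncomputable def D1146 : OP := win (nat_lit 1) (nat_lit 11) (nat_lit 6) (nat_lit 5)
noncomputable def D2920 : OP := orK (nat_lit 132) (fin (add (start D1146) (orK (nat_lit 171) (fin (add (start D1145) D281)))))
noncomputable def D2935 : OP := orK (nat_lit 152) (fin (add (add (start D2920) D2925) D2933))
noncomputable def D1147 : AP := fin (add (start D1145) D1146)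
noncomputable def D1284 : OP := orK (nat_lit 132) D1147
noncomputable def D1286 : OP := orK (nat_lit 152) (fin (add (start D281) D1284))
noncomputable def D2914 : OP := orK (nat_lit 171) (fin (add (start D276) D1286))
noncomputable def D2916 : OP := orK (nat_lit 149) (fin (add (start D4) D2914))
noncomputable def D8514 : OP := orK (nat_lit 189) (fin (add (start D66) (orK (nat_lit 212) (fin (add (start D2688) (orK (nat_lit 211) (fin (add (start D98) (orK (nat_lit 232) (fin (add (start D411) D2906)))))))))))
noncomputable def D1580 : OP := win (nat_lit 5) (nat_lit 11) (nat_lit 8) (nat_lit 0)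
noncomputable def D2902 : OP := orK (nat_lit 174) (fin (add (start (win (nat_lit 5) (nat_lit 10) (nat_lit 8) (nat_lit 3))) D1580))
noncomputable def D2899 : OP := win (nat_lit 4) (nat_lit 9) (nat_lit 8) (nat_lit 0)
noncomputable def D2904 : OP := orK (nat_lit 173) (fin (add (start D2899) D2902))
noncomputable def D8505 : AP := fin (add (start D37) D38)
noncomputable def D8506 : OP := orK (nat_lit 168) D8505
noncomputable def D10404 : OP := orK (nat_lit 170) (fin (add (add (start (orK (nat_lit 192) (fin (add (start D678) (orK (nat_lit 169) (fin (add (add (start D8506) (orK (nat_lit 172) (fin (add (add (add (start D2904) D8514) D2916) D2935)))) D5340))))))) D466) D10402))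
noncomputable def D10420 : OP := orK (nat_lit 191) (fin (add (add (add (start D10404) D2871) (orK (nat_lit 208) (fin (add (start D50) D10416)))) D2715))
noncomputable def D17960 : OP := orK (nat_lit 209) (fin (add (add (add (add (add (add (add (add (add (add (start D10420) (orK (nat_lit 208) (fin (add (add (add (start D684) D3941) (orK (nat_lit 207) D9088)) (orK (nat_lit 207) (fin (add (start D414) (orK (nat_lit 187) (fin (add (start D666) (orK (nat_lit 211) (fin (add (start D667) (orK (nat_lit 231) D9090)))))))))))))) D17783) D17253) D13930) D17793) D17865) D17920) D17938) D17946) D17958))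
noncomputable def D906 : OP := win (nat_lit 6) (nat_lit 8) (nat_lit 4) (nat_lit 0)
noncomputable def D909 : OP := orK (nat_lit 108) (fin (add (start D906) (win (nat_lit 6) (nat_lit 8) (nat_lit 5) (nat_lit 5))))
noncomputable def D905 : OP := win (nat_lit 2) (nat_lit 7) (nat_lit 6) (nat_lit 5)
noncomputable def D561 : OP := win (nat_lit 0) (nat_lit 7) (nat_lit 7) (nat_lit 0)
noncomputable def D1000 : OP := win (nat_lit 4) (nat_lit 9) (nat_lit 6) (nat_lit 5)
noncomputable def D1036 : OP := win (nat_lit 3) (nat_lit 11) (nat_lit 6) (nat_lit 1)
noncomputable def D874 : OP := win (nat_lit 2) (nat_lit 9) (nat_lit 7) (nat_lit 0)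
noncomputable def D562 : OP := win (nat_lit 0) (nat_lit 8) (nat_lit 7) (nat_lit 5)
noncomputable def D563 : AP := fin (add (start D561) D562)
noncomputable def D1026 : OP := orK (nat_lit 148) D563
noncomputable def D1052 : OP := orK (nat_lit 171) (fin (add (add (start D1026) (orK (nat_lit 172) (fin (add (start D874) (orK (nat_lit 169) (fin (add (add (start D1028) (orK (nat_lit 168) (fin (add (start D754) D1030)))) (orK (nat_lit 152) (fin (add (start D281) (orK (nat_lit 132) (fin (add (start D1036) D1000))))))))))))) (orK (nat_lit 148) (fin (add (start D561) (orK (nat_lit 168) (fin (add (start D577) (orK (nat_lit 169) (fin (add (start D119) (orK (nat_lit 128) (fin (add (start D905) D909))))))))))))))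
noncomputable def D1054 : OP := orK (nat_lit 149) (fin (add (start D175) D1052))
noncomputable def D1058 : OP := orK (nat_lit 151) (fin (add (start D22) (orK (nat_lit 211) (fin (add (start D45) D1054)))))
noncomputable def D1059 : AP := fin (add (add (add (start D705) D207) D560) D1058)
noncomputable def D8490 : OP := orK (nat_lit 150) D1059
noncomputable def D552 : OP := orK (nat_lit 169) D5
noncomputable def D481 : OP := orK (nat_lit 129) (fin (add (start D32) (orK (nat_lit 169) D3)))
noncomputable def D556 : OP := orK (nat_lit 149) (fin (add (add (add (start D481) (orK (nat_lit 230) (fin (add (start D176) D533)))) D552) (orK (nat_lit 150) (fin (add (start D175) D213)))))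
noncomputable def D404 : OP := orK (nat_lit 251) D403
noncomputable def D405 : AP := fin (add (start D400) D404)
noncomputable def D406 : OP := orK (nat_lit 231) D405
noncomputable def D2413 : AP := fin (add (start D2412) D402)
noncomputable def D2414 : OP := orK (nat_lit 251) D2413
noncomputable def D2415 : AP := fin (add (start D400) D2414)
noncomputable def D2416 : OP := orK (nat_lit 231) D2415
noncomputable def D3063 : AP := fin (add (start D37) D3062)
noncomputable def D5430 : OP := orK (nat_lit 251) (fin (add (start D148) (orK (nat_lit 169) (fin (add (start D223) (orK (nat_lit 188) (fin (add (start D53) (orK (nat_lit 191) (fin (add (add (start (orK (nat_lit 168) D3063)) (orK (nat_lit 192) (fin (add (start D64) D5412)))) (orK (nat_lit 168) (fin (add (start D37) (orK (nat_lit 208) (fin (add (start D371) D5418)))))))))))))))))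
noncomputable def D3107 : OP := orK (nat_lit 270) (fin (add (start D3104) D3105))
noncomputable def D3111 : OP := orK (nat_lit 251) (fin (add (start D148) (orK (nat_lit 250) (fin (add (start D149) D3107)))))
noncomputable def D3026 : OP := orK (nat_lit 169) (fin (add (start D223) D3024))
noncomputable def D5432 : OP := orK (nat_lit 230) (fin (add (add (start D3026) D3111) D5430))
noncomputable def D428 : OP := orK (nat_lit 188) D427
noncomputable def D426 : OP := orK (nat_lit 188) D425
noncomputable def D1662 : OP := win (nat_lit 1) (nat_lit 12) (nat_lit 5) (nat_lit 0)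
noncomputable def D1655 : OP := win (nat_lit 3) (nat_lit 12) (nat_lit 7) (nat_lit 0)
noncomputable def D5295 : OP := win (nat_lit 4) (nat_lit 9) (nat_lit 8) (nat_lit 2)
noncomputable def D5385 : OP := win (nat_lit 1) (nat_lit 11) (nat_lit 8) (nat_lit 3)
noncomputable def D5390 : OP := orK (nat_lit 231) (fin (add (start D3858) (orK (nat_lit 251) (fin (add (start D5385) D5386)))))
noncomputable def D5376 : OP := orK (nat_lit 191) (fin (add (start D2726) D66))
noncomputable def D5378 : OP := orK (nat_lit 152) (fin (add (start D1160) D5376))
noncomputable def D5401 : OP := orK (nat_lit 172) (fin (add (add (start D5378) D5390) (orK (nat_lit 173) (fin (add (start D5295) (orK (nat_lit 153) (fin (add (start D1655) (orK (nat_lit 133) (fin (add (start D1662) (win (nat_lit 1) (nat_lit 12) (nat_lit 6) (nat_lit 3)))))))))))))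
noncomputable def D2699 : OP := win (nat_lit 6) (nat_lit 12) (nat_lit 8) (nat_lit 5)
noncomputable def D1361 : OP := win (nat_lit 0) (nat_lit 9) (nat_lit 10) (nat_lit 0)
noncomputable def D1179 : OP := win (nat_lit 3) (nat_lit 12) (nat_lit 7) (nat_lit 5)
noncomputable def D5392 : OP := orK (nat_lit 172) (fin (add (add (start D5378) (orK (nat_lit 173) (fin (add (start D5295) (orK (nat_lit 232) (fin (add (start D1179) (orK (nat_lit 233) (fin (add (start D1361) D2699)))))))))) D5390))
noncomputable def D1497 : OP := win (nat_lit 5) (nat_lit 11) (nat_lit 9) (nat_lit 0)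
noncomputable def D3205 : AP := fin (add (start (win (nat_lit 5) (nat_lit 10) (nat_lit 9) (nat_lit 3))) D1497)
noncomputable def D823 : OP := win (nat_lit 4) (nat_lit 9) (nat_lit 9) (nat_lit 0)
noncomputable def D3208 : OP := orK (nat_lit 193) (fin (add (start D823) (orK (nat_lit 194) D3205)))
noncomputable def D5405 : OP := orK (nat_lit 212) (fin (add (start D57) (orK (nat_lit 192) (fin (add (add (add (start D3208) (orK (nat_lit 209) (fin (add (start D845) D5372)))) D5392) D5401)))))
noncomputable def D3099 : OP := orK (nat_lit 149) (fin (add (start D175) (orK (nat_lit 169) (fin (add (start D0) (orK (nat_lit 151) (fin (add (start D22) D757))))))))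
noncomputable def D470 : OP := orK (nat_lit 131) (fin (add (start D168) (orK (nat_lit 130) (fin (add (start D167) D193)))))
noncomputable def D5436 : OP := orK (nat_lit 211) (fin (add (add (add (start (orK (nat_lit 150) (fin (add (add (start D470) D3099) D205)))) (orK (nat_lit 189) (fin (add (add (add (start (orK (nat_lit 230) (fin (add (add (start D3026) D3111) (orK (nat_lit 169) (fin (add (start D223) D5405))))))) D426) D428) D5432)))) D2416) D406))
noncomputable def D5311 : OP := orK (nat_lit 207) (fin (add (start D2459) D2461))
noncomputable def D5313 : OP := orK (nat_lit 208) (fin (add (add (start (orK (nat_lit 207) (fin (add (start D2459) D414)))) D2517) D5311))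
noncomputable def D5309 : OP := orK (nat_lit 208) (fin (add (start D49) D453))
noncomputable def D5288 : OP := win (nat_lit 5) (nat_lit 10) (nat_lit 10) (nat_lit 5)
noncomputable def D808 : OP := win (nat_lit 2) (nat_lit 10) (nat_lit 9) (nat_lit 4)
noncomputable def D5307 : OP := orK (nat_lit 212) (fin (add (add (start D441) (orK (nat_lit 233) (fin (add (start D103) (orK (nat_lit 213) (fin (add (start D102) (orK (nat_lit 214) (fin (add (start D808) D5288)))))))))) (orK (nat_lit 232) (fin (add (start D411) (orK (nat_lit 189) (fin (add (start D439) (orK (nat_lit 192) (fin (add (start D845) (orK (nat_lit 172) (fin (add (start D3858) (orK (nat_lit 173) (fin (add (start D1179) D5295)))))))))))))))))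
noncomputable def D5283 : OP := win (nat_lit 2) (nat_lit 9) (nat_lit 10) (nat_lit 3)
noncomputable def D4718 : OP := win (nat_lit 0) (nat_lit 9) (nat_lit 10) (nat_lit 3)
noncomputable def D5286 : AP := fin (add (start D3038) (orK (nat_lit 233) (fin (add (start D4718) D5283))))
noncomputable def D5287 : OP := orK (nat_lit 232) D5286
noncomputable def D5222 : OP := win (nat_lit 3) (nat_lit 10) (nat_lit 5) (nat_lit 4)
noncomputable def D1750 : OP := win (nat_lit 3) (nat_lit 10) (nat_lit 4) (nat_lit 5)
noncomputable def D3483 : OP := win (nat_lit 1) (nat_lit 9) (nat_lit 5) (nat_lit 4)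
noncomputable def D5226 : OP := orK (nat_lit 110) (fin (add (start D3483) (orK (nat_lit 111) (fin (add (start D1750) D5222)))))
noncomputable def D5252 : OP := win (nat_lit 0) (nat_lit 7) (nat_lit 7) (nat_lit 1)
noncomputable def D5201 : OP := orK (nat_lit 148) (fin (add (start D561) D771))
noncomputable def D5278 : OP := orK (nat_lit 150) (fin (add (add (add (start D205) (orK (nat_lit 130) (fin (add (start D193) (orK (nat_lit 189) (fin (add (start D3228) (orK (nat_lit 187) (fin (add (start D3061) D5226)))))))))) (orK (nat_lit 149) (fin (add (start D175) (orK (nat_lit 169) (fin (add (start D0) (orK (nat_lit 171) (fin (add (add (start D5201) (orK (nat_lit 172) (fin (add (start D874) (orK (nat_lit 192) (fin (add (start D240) (orK (nat_lit 168) (fin (add (start D241) (orK (nat_lit 166) (fin (add (start (win (nat_lit 4) (nat_lit 6) (nat_lit 7) (nat_lit 1))) D244))))))))))))) (orK (nat_lit 191) (fin (add (add (start D5242) (orK (nat_lit 148) (fin (add (start D561) (orK (nat_lit 192) (fin (add (start D64) (orK (nat_lit 209) (fin (add (start D79) (orK (nat_lit 189) (fin (add (start D5243) D56))))))))))))) (orK (nat_lit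 147) (fin (add (start D5252) (orK (nat_lit 168) (fin (add (start D37) (orK (nat_lit 188) (fin (add (start D117) (orK (nat_lit 189) (fin (add (start D54) (orK (nat_lit 208) (fin (add (start D375) D371)))))))))))))))))))))))))))) (orK (nat_lit 129) (fin (add (start D184) (orK (nat_lit 130) (fin (add (start D183) (orK (nat_lit 189) (fin (add (start D3228) D5226)))))))))))
noncomputable def D5320 : OP := orK (nat_lit 211) (fin (add (add (add (start D5278) (orK (nat_lit 231) (fin (add (add (start D2414) D404) (orK (nat_lit 209) (fin (add (add (add (start D5287) D5307) D5309) D5313))))))) D2416) (orK (nat_lit 150) D206)))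
noncomputable def D3554 : OP := orK (nat_lit 188) (fin (add (start D269) D271))
noncomputable def D3558 : OP := orK (nat_lit 189) (fin (add (start D227) D3554))
noncomputable def D289 : OP := orK (nat_lit 169) (fin (add (start D279) (orK (nat_lit 192) (fin (add (start D240) (orK (nat_lit 168) (fin (add (start D241) D283))))))))
noncomputable def D3522 : OP := win (nat_lit 5) (nat_lit 10) (nat_lit 8) (nat_lit 4)
noncomputable def D1110 : OP := orK (nat_lit 193) (fin (add (start D231) (orK (nat_lit 169) (fin (add (start D230) D235)))))
noncomputable def D3532 : OP := orK (nat_lit 173) (fin (add (add (start (orK (nat_lit 194) (fin (add (start D1100) (orK (nat_lit 174) (fin (add (start D1101) D3522))))))) D1110) (orK (nat_lit 154) (fin (add (start D1111) (orK (nat_lit 174) (fin (add (start D1112) D3522))))))))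
noncomputable def D2478 : OP := orK (nat_lit 230) (fin (add (add (start D153) D743) D543))
noncomputable def D8567 : OP := orK (nat_lit 171) (fin (add (add (add (start D222) D2478) (orK (nat_lit 230) (fin (add (start D14) (orK (nat_lit 251) (fin (add (start D148) (orK (nat_lit 250) (fin (add (start D149) (orK (nat_lit 269) (fin (add (start D613) D260))))))))))))) (orK (nat_lit 172) (fin (add (add (add (start D2391) D3532) (orK (nat_lit 189) (fin (add (add (start D2389) D289) D3554)))) D3558)))))
noncomputable def D644 : OP := orK (nat_lit 230) D643
noncomputable def D392 : AP := fin (add (start D271) D227)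
noncomputable def D393 : OP := orK (nat_lit 172) D392
noncomputable def D395 : OP := orK (nat_lit 188) (fin (add (start D269) D393))
noncomputable def D294 : AP := fin (add (start D269) D293)
noncomputable def D295 : OP := orK (nat_lit 188) D294
noncomputable def D1317 : OP := win (nat_lit 6) (nat_lit 10) (nat_lit 5) (nat_lit 5)
noncomputable def D3485 : OP := orK (nat_lit 110) (fin (add (start D3483) D1317))
noncomputable def D3478 : OP := orK (nat_lit 250) (fin (add (start D15) D3476))
noncomputable def D3495 : OP := orK (nat_lit 189) (fin (add (add (start (orK (nat_lit 230) (fin (add (add (add (start D3478) D153) (orK (nat_lit 251) (fin (add (start D148) (orK (nat_lit 250) (fin (add (start D149) D3476))))))) (orK (nat_lit 231) (fin (add (start D157) (orK (nat_lit 150) (fin (add (start D156) (orK (nat_lit 130) (fin (add (start D3228) D3485))))))))))))) D295) D395))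
noncomputable def D3513 : OP := orK (nat_lit 171) (fin (add (add (add (start D222) D3495) D2369) (orK (nat_lit 189) (fin (add (add (start D3501) (orK (nat_lit 172) (fin (add (start D227) (orK (nat_lit 151) (fin (add (start (orK (nat_lit 169) (fin (add (start D1035) (orK (nat_lit 192) (fin (add (start D240) D2483))))))) D2367))))))) D395)))))
noncomputable def D2960 : OP := orK (nat_lit 250) (fin (add (start D15) D260))
noncomputable def D2963 : AP := fin (add (add (start D155) D2958) (orK (nat_lit 171) (fin (add (start D14) D2960))))
noncomputable def D2964 : OP := orK (nat_lit 230) D2963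
noncomputable def D8568 : AP := fin (add (add (add (add (add (add (add (add (start D2964) D3093) D3513) D644) D8567) D5320) D5436) D556) D8490)
noncomputable def D17745 : OP := orK (nat_lit 170) D8568
noncomputable def D795 : OP := orK (nat_lit 209) (fin (add (start D80) D793))
noncomputable def D796 : AP := fin (add (add (add (start D174) D190) D560) D795)
noncomputable def D797 : OP := orK (nat_lit 150) D796
noncomputable def D753 : OP := orK (nat_lit 230) D752
noncomputable def D645 : AP := fin (add (add (start D29) D539) D155)
noncomputable def D646 : OP := orK (nat_lit 230) D645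
noncomputable def D747 : OP := orK (nat_lit 230) D746
noncomputable def D798 : AP := fin (add (add (add (start D747) D646) D753) D797)
noncomputable def D17396 : OP := orK (nat_lit 170) D798
noncomputable def D499 : OP := orK (nat_lit 149) (fin (add (add (start D481) (orK (nat_lit 230) (fin (add (start D176) (orK (nat_lit 249) (fin (add (start D7) (orK (nat_lit 250) (fin (add (start D8) (orK (nat_lit 151) (fin (add (start D23) D151))))))))))))) (orK (nat_lit 150) (fin (add (start D175) (orK (nat_lit 151) (fin (add (start D22) (orK (nat_lit 230) (fin (add (start D23) (orK (nat_lit 249) (fin (add (start D7) D159))))))))))))))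
noncomputable def D5444 : OP := orK (nat_lit 149) (fin (add (add (start D481) (orK (nat_lit 230) (fin (add (start D176) D539)))) D5442))
noncomputable def D2835 : OP := orK (nat_lit 208) (fin (add (start D375) (orK (nat_lit 207) (fin (add (start D2831) D775)))))
noncomputable def D2145 : OP := win (nat_lit 1) (nat_lit 9) (nat_lit 5) (nat_lit 5)
noncomputable def D96 : OP := orK (nat_lit 168) D95
noncomputable def D92 : OP := orK (nat_lit 168) D91
noncomputable def D2731 : OP := orK (nat_lit 189) (fin (add (start D66) D56))
noncomputable def D2732 : OP := win (nat_lit 3) (nat_lit 11) (nat_lit 7) (nat_lit 3)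
noncomputable def D2733 : AP := fin (add (start D2726) D2732)
noncomputable def D2734 : OP := orK (nat_lit 152) D2733
noncomputable def D2754 : OP := orK (nat_lit 211) (fin (add (add (start D47) (orK (nat_lit 192) (fin (add (start D64) (orK (nat_lit 231) (fin (add (start D48) (orK (nat_lit 172) (fin (add (start D2731) D2734)))))))))) (orK (nat_lit 192) (fin (add (start D64) (orK (nat_lit 150) (fin (add (start D44) (orK (nat_lit 149) (fin (add (start D175) (orK (nat_lit 172) (fin (add (start D2731) (orK (nat_lit 171) (fin (add (start D276) D2742)))))))))))))))))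
noncomputable def D5183 : OP := orK (nat_lit 228) D518
noncomputable def D5221 : OP := orK (nat_lit 169) (fin (add (add (add (start D6) (orK (nat_lit 191) (fin (add (add (start (orK (nat_lit 230) (fin (add (start (orK (nat_lit 250) (fin (add (start D615) D9)))) (orK (nat_lit 231) (fin (add (start D157) (orK (nat_lit 211) (fin (add (start D400) (orK (nat_lit 229) (fin (add (start D20) D5183))))))))))))) D92) D96)))) D36) (orK (nat_lit 191) (fin (add (add (add (start D2754) D92) D96) (orK (nat_lit 150) (fin (add (add (start D2755) (orK (nat_lit 129) (fin (add (start D184) (orK (nat_lit 130) (fin (add (start D183) (orK (nat_lit 110) (fin (add (start D2145) D3391)))))))))) (orK (nat_lit 231) (fin (add (start D156) (orK (nat_lit 168) (fin (add (start D37) (orK (nat_lit 149) (fin (add (start D175) (orK (nat_lit 171) (fin (add (add (start D5201) (orK (nat_lit 172) (fin (add (start D874) D2942)))) (orK (nat_lit 148) (fin (add (start D561) (orK (nat_lit 188) (fin (add (start D117) D2835))))))))))))))))))))))))))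
noncomputable def D3564 : OP := orK (nat_lit 230) D3563
noncomputable def D8491 : AP := fin (add (add (add (add (add (start D3564) D8489) D5221) D5444) D499) D8490)
noncomputable def D17744 : OP := orK (nat_lit 170) D8491
noncomputable def D869 : OP := win (nat_lit 2) (nat_lit 8) (nat_lit 7) (nat_lit 3)
noncomputable def D1070 : OP := orK (nat_lit 148) (fin (add (start D561) D869))
noncomputable def D1071 : AP := fin (add (start D874) D1070)
noncomputable def D825 : OP := win (nat_lit 6) (nat_lit 12) (nat_lit 7) (nat_lit 0)
noncomputable def D1068 : OP := orK (nat_lit 187) (fin (add (start D667) (orK (nat_lit 207) (fin (add (start D666) D671)))))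
noncomputable def D1093 : AP := fin (add (add (add (start D705) D207) D560) (orK (nat_lit 211) (fin (add (start D45) (orK (nat_lit 131) (fin (add (start D168) (orK (nat_lit 209) (fin (add (start D80) (orK (nat_lit 149) (fin (add (start D175) (orK (nat_lit 208) (fin (add (start D1068) (orK (nat_lit 192) (fin (add (start D846) (orK (nat_lit 212) (fin (add (start D845) (orK (nat_lit 233) (fin (add (start D103) (orK (nat_lit 213) (fin (add (start D102) (orK (nat_lit 172) (fin (add (start D825) (orK (nat_lit 171) D1071))))))))))))))))))))))))))))))))
noncomputable def D5459 : OP := orK (nat_lit 150) D1093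
noncomputable def D203 : OP := orK (nat_lit 229) (fin (add (start D21) (orK (nat_lit 230) (fin (add (start D20) D159)))))
noncomputable def D22501 : OP := orK (nat_lit 150) (fin (add (add (start D203) D213) D8592))
noncomputable def D521 : OP := orK (nat_lit 228) (fin (add (start D515) D519))
noncomputable def D3636 : OP := win (nat_lit 2) (nat_lit 10) (nat_lit 10) (nat_lit 4)
noncomputable def D3635 : OP := win (nat_lit 0) (nat_lit 11) (nat_lit 11) (nat_lit 5)
noncomputable def D3634 : OP := win (nat_lit 0) (nat_lit 10) (nat_lit 11) (nat_lit 4)
noncomputable def D3640 : OP := orK (nat_lit 254) (fin (add (start D3634) (orK (nat_lit 234) (fin (add (start D3635) D3636)))))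
noncomputable def D507 : OP := win (nat_lit 4) (nat_lit 10) (nat_lit 10) (nat_lit 5)
noncomputable def D506 : OP := win (nat_lit 4) (nat_lit 9) (nat_lit 10) (nat_lit 4)
noncomputable def D514 : OP := win (nat_lit 2) (nat_lit 8) (nat_lit 10) (nat_lit 4)
noncomputable def D25855 : OP := orK (nat_lit 208) (fin (add (add (start (orK (nat_lit 207) (fin (add (start (win (nat_lit 0) (nat_lit 7) (nat_lit 10) (nat_lit 2))) (win (nat_lit 2) (nat_lit 7) (nat_lit 10) (nat_lit 3)))))) (orK (nat_lit 232) (fin (add (start D514) (orK (nat_lit 213) (fin (add (start D506) (orK (nat_lit 233) (fin (add (start D507) D3640)))))))))) D521))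
noncomputable def D26036 : OP := orK (nat_lit 231) (fin (add (start D157) (orK (nat_lit 229) (fin (add (start D20) D25855)))))
noncomputable def D2781 : OP := orK (nat_lit 211) D405
noncomputable def D3263 : AP := fin (add (start D157) D751)
noncomputable def D3272 : OP := orK (nat_lit 231) (fin (add (add (add (start (orK (nat_lit 230) D3263)) D2780) D2781) (orK (nat_lit 150) (fin (add (start D156) D3268)))))
noncomputable def D21622 : OP := orK (nat_lit 207) (fin (add (start D2461) D671))
noncomputable def D9055 : OP := orK (nat_lit 191) (fin (add (start D8836) D342))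
noncomputable def D21626 : OP := orK (nat_lit 208) (fin (add (add (start (orK (nat_lit 207) (fin (add (start D9055) D671)))) D21622) (orK (nat_lit 212) (fin (add (start D1349) D2513)))))
noncomputable def D21628 : OP := orK (nat_lit 211) (fin (add (start D45) D21626))
noncomputable def D693 : OP := orK (nat_lit 188) (fin (add (start D451) (orK (nat_lit 212) (fin (add (start D116) D107)))))
noncomputable def D686 : AP := fin (add (start (win (nat_lit 7) (nat_lit 10) (nat_lit 8) (nat_lit 5))) D402)
noncomputable def D699 : OP := orK (nat_lit 191) (fin (add (add (start D680) (orK (nat_lit 211) (fin (add (start (orK (nat_lit 231) (fin (add (start D49) (orK (nat_lit 251) D686))))) D693)))) D697))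
noncomputable def D701 : OP := orK (nat_lit 208) (fin (add (add (add (start D677) D682) D684) D699))
noncomputable def D22465 : OP := orK (nat_lit 209) (fin (add (add (add (start D466) D701) D5336) (orK (nat_lit 150) (fin (add (add (add (start D172) D197) (orK (nat_lit 151) (fin (add (start D22) D21628)))) D705)))))
noncomputable def D165 : OP := orK (nat_lit 230) D164
noncomputable def D20067 : OP := orK (nat_lit 208) (fin (add (start D3035) D2562))
noncomputable def D20065 : OP := orK (nat_lit 208) (fin (add (start D3035) (orK (nat_lit 211) (fin (add (start D49) D2517)))))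
noncomputable def D4020 : OP := orK (nat_lit 247) (fin (add (start D4017) (win (nat_lit 5) (nat_lit 7) (nat_lit 11) (nat_lit 3))))
noncomputable def D5125 : OP := win (nat_lit 5) (nat_lit 8) (nat_lit 11) (nat_lit 0)
noncomputable def D12551 : OP := orK (nat_lit 249) (fin (add (start D462) (orK (nat_lit 248) (fin (add (start D5125) D4020)))))
noncomputable def D3767 : AP := fin (add (start D3629) D501)
noncomputable def D3768 : OP := orK (nat_lit 232) D3767
noncomputable def D3769 : AP := fin (add (start D3035) D3768)
noncomputable def D3910 : OP := orK (nat_lit 208) D3769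
noncomputable def D3653 : OP := win (nat_lit 2) (nat_lit 8) (nat_lit 10) (nat_lit 3)
noncomputable def D3831 : AP := fin (add (start D3653) D501)
noncomputable def D3832 : OP := orK (nat_lit 232) D3831
noncomputable def D3833 : AP := fin (add (start D3035) D3832)
noncomputable def D3909 : OP := orK (nat_lit 208) D3833
noncomputable def D10516 : OP := win (nat_lit 3) (nat_lit 9) (nat_lit 9) (nat_lit 1)
noncomputable def D3659 : OP := win (nat_lit 5) (nat_lit 8) (nat_lit 11) (nat_lit 5)
noncomputable def D12968 : OP := orK (nat_lit 249) (fin (add (start D462) D3659))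
noncomputable def D25875 : OP := orK (nat_lit 209) (fin (add (add (add (start (orK (nat_lit 232) (fin (add (start D501) (orK (nat_lit 229) (fin (add (add (start D12968) D10384) (orK (nat_lit 269) (fin (add (start D10516) (orK (nat_lit 212) (fin (add (start D3677) (orK (nat_lit 211) (fin (add (start D3034) D17811)))))))))))))))) D3909) D3910) D20067))
noncomputable def D14412 : OP := orK (nat_lit 251) D14411
noncomputable def D14610 : OP := win (nat_lit 4) (nat_lit 6) (nat_lit 8) (nat_lit 5)
noncomputable def D3122 : OP := orK (nat_lit 208) (fin (add (start D371) (orK (nat_lit 228) (fin (add (start D317) (orK (nat_lit 227) (fin (add (start D3116) D324))))))))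
noncomputable def D25968 : AP := fin (add (start D54) D3122)
noncomputable def D14612 : OP := orK (nat_lit 186) (fin (add (start D9369) D14610))
noncomputable def D15447 : OP := orK (nat_lit 191) (fin (add (add (start D14319) (orK (nat_lit 188) (fin (add (add (start D11517) (orK (nat_lit 167) (fin (add (start D11518) (orK (nat_lit 187) (fin (add (start D9066) D14612))))))) D14628)))) (orK (nat_lit 168) (fin (add (start D3062) (orK (nat_lit 167) (fin (add (start D3540) D15441))))))))
noncomputable def D15531 : OP := orK (nat_lit 169) (fin (add (add (start D14228) D15447) D14242))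
noncomputable def D10324 : OP := win (nat_lit 4) (nat_lit 8) (nat_lit 11) (nat_lit 5)
noncomputable def D4359 : OP := win (nat_lit 4) (nat_lit 7) (nat_lit 11) (nat_lit 0)
noncomputable def D10325 : AP := fin (add (start D4359) D10324)
noncomputable def D14063 : OP := orK (nat_lit 249) (fin (add (start D8) (orK (nat_lit 248) D10325)))
noncomputable def D14067 : OP := orK (nat_lit 251) (fin (add (start D149) (orK (nat_lit 231) (fin (add (start D8918) D14063)))))
noncomputable def D15506 : OP := orK (nat_lit 211) (fin (add (add (start (orK (nat_lit 250) (fin (add (start D3107) D14067)))) D426) D428))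
noncomputable def D21888 : OP := orK (nat_lit 187) (fin (add (start D9201) D14332))
noncomputable def D377 : OP := orK (nat_lit 149) (fin (add (start D318) D375))
noncomputable def D22001 : OP := orK (nat_lit 208) (fin (add (start D371) D377))
noncomputable def D18448 : OP := orK (nat_lit 128) (fin (add (start (orK (nat_lit 129) (fin (add (start D5641) D5642)))) D16337))
noncomputable def D9539 : OP := orK (nat_lit 149) (fin (add (start D931) D4620))
noncomputable def D9033 : AP := fin (add (start D373) D8848)
noncomputable def D9034 : OP := orK (nat_lit 168) D9033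
noncomputable def D15242 : OP := orK (nat_lit 208) (fin (add (start D371) (orK (nat_lit 209) (fin (add (start D342) (orK (nat_lit 231) (fin (add (start D49) D9034))))))))
noncomputable def D21978 : OP := orK (nat_lit 168) (fin (add (start D373) (orK (nat_lit 192) (fin (add (start D11925) (orK (nat_lit 193) (fin (add (start D14616) D3173))))))))
noncomputable def D15233 : AP := fin (add (start D49) D3826)
noncomputable def D15238 : OP := orK (nat_lit 208) (fin (add (start D371) (orK (nat_lit 209) (fin (add (start D342) (orK (nat_lit 231) D15233))))))
noncomputable def D22011 : OP := orK (nat_lit 188) (fin (add (add (add (start D14343) (orK (nat_lit 211) (fin (add (add (start D301) D303) (orK (nat_lit 191) (fin (add (add (add (add (start D15238) D21978) D15242) (orK (nat_lit 208) (fin (add (start D371) (orK (nat_lit 168) (fin (add (start D373) (orK (nat_lit 148) (fin (add (add (start (orK (nat_lit 228) (fin (add (start D9539) (orK (nat_lit 229) (fin (add (start D21985) D1913))))))) (orK (nat_lit 128) (fin (add (start D5630) D16337)))) D18448)))))))))) (orK (nat_lit 168) (fin (add (start D373) (orK (nat_lit 169) (fin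 (add (start D3062) D22001))))))))))))) D14353) D21888))
noncomputable def D14842 : OP := win (nat_lit 5) (nat_lit 9) (nat_lit 11) (nat_lit 0)
noncomputable def D8963 : OP := win (nat_lit 5) (nat_lit 8) (nat_lit 11) (nat_lit 3)
noncomputable def D8907 : OP := win (nat_lit 1) (nat_lit 8) (nat_lit 9) (nat_lit 2)
noncomputable def D12324 : OP := orK (nat_lit 271) (fin (add (start D4370) D4221))
noncomputable def D8902 : OP := win (nat_lit 4) (nat_lit 8) (nat_lit 11) (nat_lit 3)
noncomputable def D26287 : OP := orK (nat_lit 232) (fin (add (start D8902) D14842))
noncomputable def D12192 : OP := orK (nat_lit 247) (fin (add (start D4094) D12190))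
noncomputable def D14473 : OP := orK (nat_lit 251) (fin (add (add (add (start (orK (nat_lit 250) D14464)) D14468) D14469) (orK (nat_lit 170) (fin (add (start D148) D547)))))
noncomputable def D15250 : OP := orK (nat_lit 208) (fin (add (start D371) (orK (nat_lit 168) (fin (add (start D373) (orK (nat_lit 228) (fin (add (start D5416) D15244))))))))
noncomputable def D15228 : OP := orK (nat_lit 173) (fin (add (start D14303) (orK (nat_lit 193) (fin (add (start D14304) D3173)))))
noncomputable def D15252 : OP := orK (nat_lit 191) (fin (add (add (add (start (orK (nat_lit 168) (fin (add (start D373) (orK (nat_lit 192) (fin (add (start D11925) D15228))))))) D15238) D15242) D15250))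
noncomputable def D15256 : OP := orK (nat_lit 188) (fin (add (add (add (start D14343) (orK (nat_lit 211) (fin (add (add (start D301) D303) D15252)))) D14352) D14353))
noncomputable def D4026 : OP := orK (nat_lit 248) (fin (add (start D312) D3847))
noncomputable def D14789 : OP := orK (nat_lit 229) (fin (add (start (orK (nat_lit 211) (fin (add (add (start D410) (orK (nat_lit 212) (fin (add (start D57) D6978)))) (orK (nat_lit 188) (fin (add (start D53) (orK (nat_lit 228) (fin (add (start D516) (orK (nat_lit 208) (fin (add (add (add (start (orK (nat_lit 207) (fin (add (start D5012) D304)))) D5018) (orK (nat_lit 168) (fin (add (start (orK (nat_lit 167) (fin (add (start D14769) D2435)))) (orK (nat_lit 209) (fin (add (start D1912) (orK (nat_lit 231) (fin (add (start D49) D4026)))))))))) (orK (nat_lit 207) (fin (add (start D304) D5016)))))))))))))))) D14761))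
noncomputable def D12495 : OP := orK (nat_lit 271) (fin (add (start D12493) D4221))
noncomputable def D13021 : OP := orK (nat_lit 251) (fin (add (start D8918) D12495))
noncomputable def D4373 : OP := orK (nat_lit 269) (fin (add (start D4089) D4371))
noncomputable def D5129 : OP := orK (nat_lit 248) (fin (add (start D3847) (orK (nat_lit 249) (fin (add (start D5125) D4373)))))
noncomputable def D26056 : OP := orK (nat_lit 228) (fin (add (add (add (start D19293) D5098) D5107) (orK (nat_lit 211) (fin (add (add (start D5096) (orK (nat_lit 208) (fin (add (add (add (start D5018) D5124) (orK (nat_lit 231) (fin (add (start D515) D5129)))) D5143)))) D5147)))))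
noncomputable def D26060 : OP := orK (nat_lit 229) (fin (add (add (start D26056) (orK (nat_lit 231) (fin (add (start D13021) D25855)))) D14761))
noncomputable def D6601 : OP := win (nat_lit 3) (nat_lit 11) (nat_lit 7) (nat_lit 4)
noncomputable def D17504 : OP := orK (nat_lit 152) (fin (add (start D1795) D6601))
noncomputable def D17506 : OP := orK (nat_lit 151) (fin (add (start D118) D17504))
noncomputable def D7262 : OP := win (nat_lit 1) (nat_lit 10) (nat_lit 8) (nat_lit 4)
noncomputable def D17512 : OP := orK (nat_lit 251) (fin (add (start D402) (orK (nat_lit 250) (fin (add (start D7263) (orK (nat_lit 171) (fin (add (start D7262) D17506))))))))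
noncomputable def D17518 : OP := orK (nat_lit 211) (fin (add (add (start D3939) D2560) (orK (nat_lit 231) (fin (add (start D49) (orK (nat_lit 191) (fin (add (start D342) D17512))))))))
noncomputable def D9260 : OP := orK (nat_lit 230) D9259
noncomputable def D9258 : OP := orK (nat_lit 230) D4926
noncomputable def D9262 : OP := orK (nat_lit 207) (fin (add (add (start D9258) D4432) D9260))
noncomputable def D17520 : OP := orK (nat_lit 208) (fin (add (add (start D682) D9262) D17518))
noncomputable def D13454 : OP := orK (nat_lit 189) (fin (add (start D3428) D9034))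
noncomputable def D10367 : AP := fin (add (start D101) D4445)
noncomputable def D10368 : OP := orK (nat_lit 213) D10367
noncomputable def D10370 : OP := orK (nat_lit 212) (fin (add (start D411) D10368))
noncomputable def D4619 : OP := orK (nat_lit 231) D3767
noncomputable def D4618 : OP := orK (nat_lit 231) D3831
noncomputable def D3669 : AP := fin (add (start D3629) D3653)
noncomputable def D4617 : OP := orK (nat_lit 231) D3669
noncomputable def D14671 : OP := orK (nat_lit 232) (fin (add (add (add (start D4617) D4618) D4619) (orK (nat_lit 211) (fin (add (add (start D2431) D10370) (orK (nat_lit 171) (fin (add (start D3782) (orK (nat_lit 188) (fin (add (start D451) D13454)))))))))))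
noncomputable def D9274 : AP := fin (add (start D3476) D3724)
noncomputable def D9275 : OP := orK (nat_lit 189) D9274
noncomputable def D10262 : OP := orK (nat_lit 250) (fin (add (start D615) D9275))
noncomputable def D15888 : OP := win (nat_lit 1) (nat_lit 10) (nat_lit 9) (nat_lit 1)
noncomputable def D17502 : OP := orK (nat_lit 208) (fin (add (add (add (start D2467) D682) D10169) (orK (nat_lit 191) (fin (add (add (start D680) (orK (nat_lit 230) (fin (add (add (add (start D10250) (orK (nat_lit 231) (fin (add (add (start D3832) D3768) (orK (nat_lit 251) (fin (add (add (start D12495) D14370) (orK (nat_lit 250) (fin (add (add (start (orK (nat_lit 270) (fin (add (start D15888) D4218)))) (orK (nat_lit 249) (fin (add (start D8) (orK (nat_lit 248) (fin (add (start D4359) (orK (nat_lit 268) (fin (add (start D9319) (orK (nat_lit 189) (fin (add (start D8907) D3476))))))))))))) (orK (nat_lit 269) (fin (add (start D613) (orK (nat_lit 270) (fin (add (start D614) D15888)))))))))))))))) D10262) D14671)))) D697)))))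
noncomputable def D11917 : OP := orK (nat_lit 168) (fin (add (start D3044) (orK (nat_lit 167) (fin (add (start D3540) (orK (nat_lit 191) (fin (add (start D11576) D3062))))))))
noncomputable def D11537 : AP := fin (add (start D4016) D462)
noncomputable def D11540 : OP := orK (nat_lit 248) (fin (add (start D7553) (orK (nat_lit 249) D11537)))
noncomputable def D16693 : OP := orK (nat_lit 169) (fin (add (start D9207) (orK (nat_lit 229) (fin (add (start D11540) D11917)))))
noncomputable def D13901 : OP := orK (nat_lit 271) (fin (add (start D4370) (orK (nat_lit 231) (fin (add (start D10324) D4221)))))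
noncomputable def D13895 : OP := orK (nat_lit 267) (fin (add (start D4631) (orK (nat_lit 266) (fin (add (start D8908) (win (nat_lit 5) (nat_lit 6) (nat_lit 12) (nat_lit 3)))))))
noncomputable def D8906 : OP := orK (nat_lit 231) (fin (add (start D4359) (orK (nat_lit 232) (fin (add (start D501) D8902)))))
noncomputable def D8901 : OP := orK (nat_lit 229) D8900
noncomputable def D13907 : OP := orK (nat_lit 248) (fin (add (add (add (start D8901) D8906) (orK (nat_lit 268) (fin (add (start D8907) D13895)))) (orK (nat_lit 268) (fin (add (start D8907) (orK (nat_lit 251) (fin (add (start D9319) D13901))))))))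
noncomputable def D13909 : OP := orK (nat_lit 249) (fin (add (start D8) D13907))
noncomputable def D13910 : AP := fin (add (start D3476) D13909)
noncomputable def D16649 : AP := fin (add (start D462) D4095)
noncomputable def D26252 : OP := orK (nat_lit 249) D16649
noncomputable def D16650 : OP := orK (nat_lit 229) D16649
noncomputable def D19188 : OP := orK (nat_lit 191) (fin (add (add (start D11821) D11534) D11933))
noncomputable def D11550 : OP := orK (nat_lit 149) (fin (add (start D277) (orK (nat_lit 148) (fin (add (start D5243) (orK (nat_lit 229) (fin (add (start D10701) D11540))))))))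
noncomputable def D5764 : OP := orK (nat_lit 228) (fin (add (start D3065) (orK (nat_lit 227) (fin (add (start D3456) (orK (nat_lit 230) (fin (add (start D4471) D4009))))))))
noncomputable def D7554 : OP := win (nat_lit 6) (nat_lit 9) (nat_lit 8) (nat_lit 4)
noncomputable def D7556 : OP := orK (nat_lit 250) (fin (add (start D7554) D4095))
noncomputable def D11542 : OP := orK (nat_lit 249) (fin (add (start D462) D7556))
noncomputable def D11552 : OP := orK (nat_lit 169) (fin (add (add (start D9207) (orK (nat_lit 229) (fin (add (add (start D11540) D11542) D5764)))) D11550))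
noncomputable def D19190 : OP := orK (nat_lit 188) (fin (add (add (start D9203) D19188) D17776))
noncomputable def D8919 : OP := win (nat_lit 4) (nat_lit 8) (nat_lit 11) (nat_lit 0)
noncomputable def D8921 : OP := orK (nat_lit 232) (fin (add (start D501) D8919))
noncomputable def D16835 : OP := orK (nat_lit 249) (fin (add (start D8) D8921))
noncomputable def D7096 : OP := win (nat_lit 6) (nat_lit 11) (nat_lit 7) (nat_lit 4)
noncomputable def D19766 : OP := orK (nat_lit 151) (fin (add (start D118) D7096))
noncomputable def D3840 : OP := win (nat_lit 4) (nat_lit 9) (nat_lit 10) (nat_lit 0)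
noncomputable def D7268 : OP := win (nat_lit 2) (nat_lit 10) (nat_lit 10) (nat_lit 0)
noncomputable def D7269 : AP := fin (add (start D4718) D7268)
noncomputable def D7270 : OP := orK (nat_lit 233) D7269
noncomputable def D19756 : OP := orK (nat_lit 233) (fin (add (start D5283) D7268))
noncomputable def D8758 : AP := fin (add (start D4758) D402)
noncomputable def D8759 : OP := orK (nat_lit 251) D8758
noncomputable def D19780 : OP := orK (nat_lit 231) (fin (add (add (start D8759) (orK (nat_lit 172) (fin (add (add (start (orK (nat_lit 152) (fin (add (start D2726) D2727)))) (orK (nat_lit 232) (fin (add (add (start D19756) D7270) (orK (nat_lit 171) (fin (add (add (start D11338) (orK (nat_lit 230) (fin (add (start D3783) (orK (nat_lit 173) (fin (add (start D10469) (orK (nat_lit 212) (fin (add (start D1179) (orK (nat_lit 213) (fin (add (start D101) D3840))))))))))))) D19766))))))) D2734)))) (orK (nat_lit 251) (fin (add (start D402) (orK (nat_lit 250) (fin (add (start D7263) (orK (nat_lit 230) (fin (add (start D4671) D16835)))))))))))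
noncomputable def D19740 : OP := orK (nat_lit 151) (fin (add (start D118) (orK (nat_lit 152) (fin (add (start D1795) (orK (nat_lit 172) (fin (add (start D1257) (orK (nat_lit 173) (fin (add (start D10469) (orK (nat_lit 150) (fin (add (start (win (nat_lit 0) (nat_lit 9) (nat_lit 7) (nat_lit 0))) D2025))))))))))))))
noncomputable def D13150 : OP := win (nat_lit 3) (nat_lit 10) (nat_lit 8) (nat_lit 1)
noncomputable def D13152 : OP := orK (nat_lit 250) (fin (add (start D13150) D4095))
noncomputable def D2876 : OP := orK (nat_lit 233) (fin (add (start D103) (orK (nat_lit 213) (fin (add (start D102) D101)))))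
noncomputable def D4659 : OP := orK (nat_lit 232) (fin (add (start D411) (orK (nat_lit 208) (fin (add (start D412) D107)))))
noncomputable def D10611 : AP := fin (add (start D3782) D2673)
noncomputable def D10612 : OP := orK (nat_lit 171) D10611
noncomputable def D100 : OP := orK (nat_lit 189) (fin (add (start D98) D57))
noncomputable def D649 : AP := fin (add (start D647) D648)
noncomputable def D17474 : OP := orK (nat_lit 207) (fin (add (add (start D2458) D9093) D665))
noncomputable def D20989 : OP := orK (nat_lit 207) (fin (add (add (start D659) D665) (orK (nat_lit 227) (fin (add (start D668) (orK (nat_lit 187) D16107))))))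
noncomputable def D3337 : OP := orK (nat_lit 191) D696
noncomputable def D3334 : OP := orK (nat_lit 188) (fin (add (start D451) (orK (nat_lit 212) (fin (add (start D450) D845)))))
noncomputable def D11419 : OP := win (nat_lit 4) (nat_lit 7) (nat_lit 11) (nat_lit 4)
noncomputable def D13997 : OP := orK (nat_lit 232) (fin (add (start D412) (orK (nat_lit 212) (fin (add (start D411) D845)))))
noncomputable def D3329 : OP := orK (nat_lit 191) D679
noncomputable def D3328 : OP := orK (nat_lit 191) D649
noncomputable def D17472 : OP := orK (nat_lit 208) (fin (add (add (add (start D677) D682) (orK (nat_lit 192) (fin (add (add (add (start D3328) D3329) (orK (nat_lit 211) (fin (add (add (start D13997) (orK (nat_lit 228) (fin (add (start D104) (orK (nat_lit 188) (fin (add (start D451) (orK (nat_lit 231) (fin (add (start D49) (orK (nat_lit 248) (fin (add (start D2526) (orK (nat_lit 249) (fin (add (start D4630) (orK (nat_lit 247) (fin (add (start D3746) (orK (nat_lit 250) (fin (add (start D11419) (orK (nat_lit 271) (fin (add (start D11234) (win (nat_lit 7) (nat_lit 10) (nat_lit 9) (nat_lit 1))))))))))))))))))))))))))) D3334))))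 D3337)))) D3385))
noncomputable def D17442 : OP := orK (nat_lit 168) (fin (add (add (start (orK (nat_lit 189) D9033)) (orK (nat_lit 167) (fin (add (start D2434) (orK (nat_lit 147) D17433))))) (orK (nat_lit 229) (fin (add (start D1912) (orK (nat_lit 249) (fin (add (start D462) D3342))))))))
noncomputable def D19243 : OP := orK (nat_lit 151) (fin (add (start D118) (orK (nat_lit 230) (fin (add (start D4886) D2673)))))
noncomputable def D19251 : OP := orK (nat_lit 188) (fin (add (add (start (orK (nat_lit 171) (fin (add (start D19243) D13454)))) (orK (nat_lit 211) (fin (add (start D451) (orK (nat_lit 231) (fin (add (start D49) D17512))))))) D17442))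
noncomputable def D11607 : OP := orK (nat_lit 192) (fin (add (start D678) (orK (nat_lit 189) (fin (add (start D10234) (orK (nat_lit 172) (fin (add (start D66) (orK (nat_lit 188) (fin (add (start D65) D9203)))))))))))
noncomputable def D9947 : OP := orK (nat_lit 248) D9927
noncomputable def D10361 : AP := fin (add (start D3307) D9947)
noncomputable def D10362 : OP := orK (nat_lit 169) D10361
noncomputable def D10351 : AP := fin (add (start D931) D3429)
noncomputable def D10352 : OP := orK (nat_lit 148) D10351
noncomputable def D3231 : OP := win (nat_lit 1) (nat_lit 8) (nat_lit 7) (nat_lit 1)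
noncomputable def D10366 : OP := orK (nat_lit 228) (fin (add (start D104) (orK (nat_lit 189) (fin (add (add (start (orK (nat_lit 171) (fin (add (start D3782) (orK (nat_lit 188) (fin (add (start D3428) (orK (nat_lit 168) (fin (add (start D373) (orK (nat_lit 248) (fin (add (start D312) D8848))))))))))))) (orK (nat_lit 149) (fin (add (start D3231) (orK (nat_lit 171) (fin (add (start D3782) (orK (nat_lit 188) (fin (add (start D3428) (orK (nat_lit 168) (fin (add (start D373) D10352))))))))))))) D10362)))))
noncomputable def D10342 : OP := orK (nat_lit 212) (fin (add (start D411) D100))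
noncomputable def D10376 : OP := orK (nat_lit 208) (fin (add (start D50) (orK (nat_lit 232) (fin (add (add (add (start D4617) D4618) D4619) (orK (nat_lit 211) (fin (add (add (start D10342) D10366) D10370))))))))
noncomputable def D10244 : OP := orK (nat_lit 270) (fin (add (start D616) D4218))
noncomputable def D13919 : OP := orK (nat_lit 191) (fin (add (add (add (start D10242) D2871) (orK (nat_lit 230) (fin (add (add (add (start D10250) (orK (nat_lit 208) (fin (add (start D50) (orK (nat_lit 250) (fin (add (add (start D10244) (orK (nat_lit 189) D13910)) D10302))))))) D10262) D10376)))) D2715))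
noncomputable def D2507 : OP := orK (nat_lit 212) (fin (add (start D450) D449))
noncomputable def D2509 : OP := orK (nat_lit 188) (fin (add (start D451) D2507))
noncomputable def D2511 : OP := orK (nat_lit 211) (fin (add (add (start (orK (nat_lit 228) (fin (add (start D104) (orK (nat_lit 212) (fin (add (start D105) D449))))))) D2509) D1068))
noncomputable def D2564 : OP := orK (nat_lit 208) (fin (add (add (add (start D684) D682) D2511) D2562))
noncomputable def D3766 : OP := win (nat_lit 6) (nat_lit 9) (nat_lit 7) (nat_lit 1)
noncomputable def D16722 : OP := orK (nat_lit 149) (fin (add (start D3766) (orK (nat_lit 188) (fin (add (add (start D13049) D16632) (orK (nat_lit 168) (fin (add (start D373) (orK (nat_lit 208) (fin (add (start D50) D10352)))))))))))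
noncomputable def D10517 : AP := fin (add (start D10232) D3722)
noncomputable def D10518 : OP := orK (nat_lit 169) D10517
noncomputable def D9916 : OP := orK (nat_lit 191) (fin (add (start D615) D9914))
noncomputable def D10996 : OP := orK (nat_lit 169) (fin (add (start D3722) D3024))
noncomputable def D16726 : OP := orK (nat_lit 230) (fin (add (add (start D10996) (orK (nat_lit 250) (fin (add (start D3724) D9916)))) (orK (nat_lit 191) (fin (add (add (start D9914) (orK (nat_lit 192) (fin (add (start D678) D10518)))) D16722)))))
noncomputable def D16706 : OP := orK (nat_lit 230) (fin (add (start D2449) D10996))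
noncomputable def D12687 : OP := orK (nat_lit 228) D12369
noncomputable def D9943 : OP := orK (nat_lit 228) D9942
noncomputable def D15355 : OP := orK (nat_lit 226) (fin (add (start D9426) D9427))
noncomputable def D15357 : OP := orK (nat_lit 246) (fin (add (start D15355) D15351))
noncomputable def D10084 : OP := win (nat_lit 0) (nat_lit 6) (nat_lit 12) (nat_lit 4)
noncomputable def D16643 : OP := orK (nat_lit 270) (fin (add (start D10084) D10085))
noncomputable def D16648 : OP := orK (nat_lit 247) (fin (add (add (start (orK (nat_lit 246) (fin (add (start D16643) D15355)))) (orK (nat_lit 251) D11263)) D15357))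
noncomputable def D9926 : OP := orK (nat_lit 228) D9925
noncomputable def D16728 : OP := orK (nat_lit 189) (fin (add (add (add (add (add (start D16636) (orK (nat_lit 208) (fin (add (start (orK (nat_lit 191) D9913)) (orK (nat_lit 169) (fin (add (add (start D16639) (orK (nat_lit 250) (fin (add (start (win (nat_lit 7) (nat_lit 9) (nat_lit 8) (nat_lit 1))) (orK (nat_lit 248) (fin (add (add (start D9926) (orK (nat_lit 249) (fin (add (add (add (start (orK (nat_lit 229) D11537)) D16648) D16650) (orK (nat_lit 229) (fin (add (start D4016) D4095))))))) D9943))))))) D9207))))))) (orK (nat_lit 169) (fin (add (add (start D9207) (orK (nat_lit 230) (fin (add (start D3024) (orK (nat_lit 207) (fin (add (add (start (orK (nat_lit 208) D14397)) (orK (nat_lit 229) (fin (add (add (start D12372) D4114) (orK (nat_lit 168) (fin (add (start D3044) (orK (nat_lit 188) (fin (add (start D4012) (orK (nat_lit 187) (fin (add (start D1890) (orK (nat_lit 227) (fin (add (start D946) D12687)))))))))))))))) (orK (nat_lit 208) D16674)))))))) (orK (nat_lit 149) (fin (add (start D277) (orK (nat_lit 228) (fin (add (start D5955) (orK (nat_lit 229) (fin (add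 (start D3065) (orK (nat_lit 249) (fin (add (start D462) D10703)))))))))))))))) D16693) (orK (nat_lit 207) (fin (add (add (start (orK (nat_lit 208) D415)) (orK (nat_lit 169) (fin (add (add (start D9207) (orK (nat_lit 229) (fin (add (add (start D11540) D11542) (orK (nat_lit 228) (fin (add (start D3065) (orK (nat_lit 227) (fin (add (start D3456) (orK (nat_lit 230) (fin (add (start D5156) D4009))))))))))))) D11550)))) (orK (nat_lit 208) (fin (add (start D414) D16706))))))) D16726))
noncomputable def D26276 : AP := fin (add (add (add (add (add (add (add (add (add (add (start D16728) (orK (nat_lit 208) (fin (add (add (start D20989) D17518) D3385)))) D2564) D13919) (orK (nat_lit 191) (fin (add (add (add (start D11607) D2871) (orK (nat_lit 208) (fin (add (start D50) D19251)))) D2715)))) D17472) (orK (nat_lit 208) (fin (add (add (add (add (start D20989) D2467) D17474) D9262) D3941)))) (orK (nat_lit 191) (fin (add (add (add (add (start (orK (nat_lit 192) (fin (add (start D678) (orK (nat_lit 208) D649))))) (orK (nat_lit 211) (fin (add (add (add (start (orK (nat_lit 189) (fin (add (start D11997) D11552)))) (orK (nat_lit 212)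 (fin (add (add (start D100) D2876) (orK (nat_lit 188) (fin (add (start D116) (orK (nat_lit 232) (fin (add (start D411) (orK (nat_lit 208) (fin (add (start D412) D451))))))))))))) (orK (nat_lit 230) (fin (add (start D10612) (orK (nat_lit 212) (fin (add (add (start D10368) D4659) D2876))))))) (orK (nat_lit 171) (fin (add (add (start D11338) (orK (nat_lit 189) (fin (add (start D18065) (orK (nat_lit 169) (fin (add (add (start (orK (nat_lit 230) (fin (add (start D2673) D3722)))) D11550) (orK (nat_lit 229) (fin (add (add (start D11540) (orK (nat_lit 228) (fin (add (start D3065) (orK (nat_lit 230) (fin (add (start D2673) D4473))))))) (orK (nat_lit 249) (fin (add (start D462) D13152))))))))))))) D19740))))))) (orK (nat_lit 192) (fin (add (start D678) (orK (nat_lit 211) (fin (add (start D79) D19780))))))) D10242) (orK (nat_lit 192) (fin (add (start D678) (orK (nat_lit 189) (fin (add (start D3405) (orK (nat_lit 169) (fin (add (start D10232) (orK (nat_lit 172) (fin (add (start D66) D9207)))))))))))))))) (orK (nat_lit 189) (fin (add (add (add (add (start D19190) D11552) (orK (nat_lit 188) (fin (add (add (start D9203) D19188)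 (orK (nat_lit 187) (fin (add (start D1890) (orK (nat_lit 167) (fin (add (start D9066) (orK (nat_lit 207) (fin (add (start D8665) (orK (nat_lit 250) (fin (add (add (start (orK (nat_lit 230) D9274)) (orK (nat_lit 227) (fin (add (add (add (add (start D17825) (orK (nat_lit 248) (fin (add (start D4419) (orK (nat_lit 247) (fin (add (start D4420) (orK (nat_lit 266) (fin (add (start D12728) (orK (nat_lit 267) (fin (add (start D12729) (win (nat_lit 5) (nat_lit 6) (nat_lit 12) (nat_lit 1))))))))))))))) (orK (nat_lit 247) (fin (add (add (start (orK (nat_lit 249) (fin (add (start D12772) D16650)))) D17132) (orK (nat_lit 249) (fin (add (start (orK (nat_lit 248) (fin (add (start D4193) D4420)))) D16650))))))) (orK (nat_lit 228) (fin (add (start D3281) (orK (nat_lit 229) (fin (add (start D3456) D26252))))))) (orK (nat_lit 226) (fin (add (start D12691) (orK (nat_lit 229) (fin (add (start D12688) D26252)))))))))) (orK (nat_lit 230) D13910))))))))))))))))) D16693) D11996)))) D17502) D17520)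
noncomputable def D6767 : OP := orK (nat_lit 231) (fin (add (start D3038) D6765))
noncomputable def D25435 : AP := fin (add (start D845) (orK (nat_lit 232) (fin (add (start D411) D6767))))
noncomputable def D803 : OP := orK (nat_lit 188) (fin (add (start D53) D296))
noncomputable def D19313 : AP := fin (add (start D20) D533)
noncomputable def D19971 : OP := orK (nat_lit 170) D19313
noncomputable def D14673 : OP := orK (nat_lit 208) (fin (add (start D50) D14671))
noncomputable def D1140 : OP := win (nat_lit 5) (nat_lit 11) (nat_lit 7) (nat_lit 0)
noncomputable def D3872 : OP := win (nat_lit 3) (nat_lit 12) (nat_lit 6) (nat_lit 5)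
noncomputable def D5600 : OP := win (nat_lit 3) (nat_lit 12) (nat_lit 6) (nat_lit 4)
noncomputable def D11807 : OP := orK (nat_lit 133) (fin (add (start D1974) D5600))
noncomputable def D11809 : OP := orK (nat_lit 132) (fin (add (start D1145) D11807))
noncomputable def D19842 : OP := orK (nat_lit 132) (fin (add (start D1145) D1161))
noncomputable def D372 : OP := win (nat_lit 1) (nat_lit 10) (nat_lit 6) (nat_lit 1)
noncomputable def D19853 : OP := orK (nat_lit 152) (fin (add (add (start (orK (nat_lit 131) (fin (add (start D372) D19842)))) D11809) (orK (nat_lit 151) (fin (add (start D118) (orK (nat_lit 153) (fin (add (start D3872) (orK (nat_lit 154) (fin (add (start (win (nat_lit 0) (nat_lit 11) (nat_lit 7) (nat_lit 5))) D1140)))))))))))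
noncomputable def D4719 : OP := win (nat_lit 2) (nat_lit 9) (nat_lit 10) (nat_lit 2)
noncomputable def D2016 : OP := win (nat_lit 6) (nat_lit 12) (nat_lit 7) (nat_lit 4)
noncomputable def D19840 : OP := win (nat_lit 5) (nat_lit 10) (nat_lit 8) (nat_lit 1)
noncomputable def D15096 : OP := orK (nat_lit 189) D2686
noncomputable def D17351 : AP := fin (add (start D3857) D501)
noncomputable def D3871 : OP := win (nat_lit 1) (nat_lit 11) (nat_lit 7) (nat_lit 4)
noncomputable def D6644 : OP := win (nat_lit 0) (nat_lit 10) (nat_lit 6) (nat_lit 0)
noncomputable def D21491 : OP := win (nat_lit 5) (nat_lit 8) (nat_lit 11) (nat_lit 1)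
noncomputable def D10326 : OP := orK (nat_lit 231) D10325
noncomputable def D21474 : OP := orK (nat_lit 249) (fin (add (start D8) (orK (nat_lit 251) (fin (add (start D149) (orK (nat_lit 248) (fin (add (start D10326) (orK (nat_lit 228) (fin (add (start D9443) (orK (nat_lit 268) (fin (add (start D9319) (orK (nat_lit 229) D20278)))))))))))))))
noncomputable def D26063 : OP := orK (nat_lit 250) (fin (add (add (start D10244) D21474) D10302))
noncomputable def D713 : OP := orK (nat_lit 211) (fin (add (add (start D459) D406) (orK (nat_lit 150) (fin (add (start D45) D172)))))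
noncomputable def D5338 : OP := orK (nat_lit 209) (fin (add (add (add (start D466) D701) D5336) D713))
noncomputable def D1164 : OP := orK (nat_lit 131) (fin (add (start D1161) (win (nat_lit 7) (nat_lit 11) (nat_lit 6) (nat_lit 4))))
noncomputable def D1159 : OP := win (nat_lit 1) (nat_lit 11) (nat_lit 6) (nat_lit 4)
noncomputable def D1158 : OP := orK (nat_lit 113) (fin (add (start D1149) (orK (nat_lit 112) (fin (add (start D1150) D1154)))))
noncomputable def D1170 : OP := orK (nat_lit 132) (fin (add (add (start (orK (nat_lit 191) D1147)) D1158) (orK (nat_lit 211) (fin (add (start D1159) (orK (nat_lit 212) (fin (add (start D1160) D1164))))))))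
noncomputable def D1225 : OP := orK (nat_lit 192) (fin (add (start D240) D1170))
noncomputable def D1292 : OP := orK (nat_lit 152) (fin (add (start D281) D1225))
noncomputable def D268 : OP := orK (nat_lit 230) (fin (add (start D14) (orK (nat_lit 249) (fin (add (start D7) (orK (nat_lit 250) (fin (add (start D8) D262))))))))
noncomputable def D209 : OP := orK (nat_lit 150) (fin (add (add (start D203) D207) D190))
noncomputable def D2418 : OP := orK (nat_lit 211) (fin (add (start D2416) D459))
noncomputable def D3387 : OP := orK (nat_lit 208) (fin (add (add (add (start D677) D682) D699) D3385))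
noncomputable def D3389 : OP := orK (nat_lit 209) (fin (add (add (start D3387) D2473) D2418))
noncomputable def D1020 : OP := orK (nat_lit 209) (fin (add (start D80) D1018))
noncomputable def D1024 : AP := fin (add (add (start D190) D207) D1020)
noncomputable def D5180 : OP := orK (nat_lit 150) D1024
noncomputable def D25859 : OP := orK (nat_lit 229) (fin (add (start D20) (orK (nat_lit 231) (fin (add (start D157) D25855)))))
noncomputable def D707 : OP := orK (nat_lit 150) (fin (add (start D80) D705))
noncomputable def D715 : OP := orK (nat_lit 209) (fin (add (add (add (start D466) D701) D707) D713))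
noncomputable def D3595 : OP := win (nat_lit 5) (nat_lit 9) (nat_lit 7) (nat_lit 3)
noncomputable def D3597 : OP := orK (nat_lit 153) (fin (add (start D3594) D3595))
noncomputable def D3617 : AP := fin (add (start D1033) D3597)
noncomputable def D3618 : OP := orK (nat_lit 152) D3617
noncomputable def D3613 : AP := fin (add (start D3595) D1237)
noncomputable def D3614 : OP := orK (nat_lit 153) D3613
noncomputable def D2375 : OP := win (nat_lit 6) (nat_lit 12) (nat_lit 7) (nat_lit 5)
noncomputable def D2379 : OP := orK (nat_lit 212) (fin (add (start D1372) (orK (nat_lit 213) (fin (add (start D2374) D2375)))))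
noncomputable def D1579 : OP := win (nat_lit 2) (nat_lit 10) (nat_lit 7) (nat_lit 5)
noncomputable def D3593 : OP := orK (nat_lit 168) (fin (add (start D119) D3591))
noncomputable def D3589 : OP := orK (nat_lit 172) (fin (add (add (start D229) (orK (nat_lit 193) (fin (add (start D230) (orK (nat_lit 173) (fin (add (start D231) (orK (nat_lit 174) (fin (add (start D1579) D3522)))))))))) D248))
noncomputable def D3570 : AP := fin (add (start D460) D3569)
noncomputable def D3577 : OP := orK (nat_lit 189) (fin (add (add (start (orK (nat_lit 230) (fin (add (start D3478) (orK (nat_lit 229) (fin (add (start D20) (orK (nat_lit 209) D3570)))))))) D295) D395))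
noncomputable def D3624 : OP := orK (nat_lit 171) (fin (add (add (add (start D222) D3577) D2369) (orK (nat_lit 151) (fin (add (add (start D220) (orK (nat_lit 169) (fin (add (add (add (start D3589) D3593) (orK (nat_lit 152) (fin (add (add (start D3599) (orK (nat_lit 172) (fin (add (add (start D229) (orK (nat_lit 193) (fin (add (start D230) (orK (nat_lit 173) (fin (add (start D231) (orK (nat_lit 174) (fin (add (start D1579) (win (nat_lit 2) (nat_lit 11) (nat_lit 7) (nat_lit 0)))))))))))) (orK (nat_lit 192) (fin (add (start D240) (orK (nat_lit 189) (fin (add (start D226) D2379)))))))))) D3614)))) D3618)))) D2367)))))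
noncomputable def D19322 : OP := orK (nat_lit 229) (fin (add (add (add (start (orK (nat_lit 230) D19313)) (orK (nat_lit 249) (fin (add (start D2407) (orK (nat_lit 209) D463))))) (orK (nat_lit 209) D465)) (orK (nat_lit 150) (fin (add (start D21) D213)))))
noncomputable def D19362 : OP := orK (nat_lit 187) (fin (add (start D667) (orK (nat_lit 207) (fin (add (start D666) D665)))))
noncomputable def D20223 : OP := orK (nat_lit 212) (fin (add (start D845) D441))
noncomputable def D20220 : AP := fin (add (start D79) D678)
noncomputable def D20227 : OP := orK (nat_lit 192) (fin (add (add (start (orK (nat_lit 191) D20220)) D20223) (orK (nat_lit 208) (fin (add (start D846) D19362)))))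
noncomputable def D20231 : OP := orK (nat_lit 209) (fin (add (add (start D3387) D2473) (orK (nat_lit 211) (fin (add (start D2416) D20227)))))
noncomputable def D23540 : OP := orK (nat_lit 150) (fin (add (start D80) D205))
noncomputable def D20141 : OP := orK (nat_lit 171) D392
noncomputable def D8537 : OP := orK (nat_lit 229) (fin (add (start D58) D1912))
noncomputable def D20121 : OP := orK (nat_lit 171) D292
noncomputable def D20120 : OP := orK (nat_lit 171) (fin (add (start D270) D271))
noncomputable def D20119 : OP := orK (nat_lit 212) (fin (add (start D57) (orK (nat_lit 209) (fin (add (add (start D61) (orK (nat_lit 192) (fin (add (start D845) (orK (nat_lit 208) (fin (add (start D846) (orK (nat_lit 231) (fin (add (start D49) D3219)))))))))) (orK (nat_lit 249) (fin (add (start D341) (orK (nat_lit 192) (fin (add (start D845) (orK (nat_lit 191) (fin (add (start D79) D11609))))))))))))))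
noncomputable def D20209 : OP := orK (nat_lit 189) (fin (add (add (add (start D20119) D426) D428) (orK (nat_lit 188) (fin (add (start D53) (orK (nat_lit 172) (fin (add (add (add (start D20120) D20121) (orK (nat_lit 191) (fin (add (add (start (orK (nat_lit 168) (fin (add (start D373) (orK (nat_lit 192) (fin (add (start D11925) D66))))))) (orK (nat_lit 192) (fin (add (start D66) D5412)))) (orK (nat_lit 208) (fin (add (start D371) (orK (nat_lit 168) (fin (add (start D373) (orK (nat_lit 231) (fin (add (start D48) (orK (nat_lit 209) (fin (add (start D49) D8537)))))))))))))))) D20141))))))))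
noncomputable def D23492 : OP := orK (nat_lit 150) (fin (add (start D45) D190))
noncomputable def D2575 : OP := orK (nat_lit 191) (fin (add (start D37) (orK (nat_lit 192) (fin (add (start D38) D39)))))
noncomputable def D2849 : OP := orK (nat_lit 169) (fin (add (add (start D2812) D36) (orK (nat_lit 149) (fin (add (add (start D4) (orK (nat_lit 168) (fin (add (add (add (start D2817) D2824) D2575) (orK (nat_lit 171) (fin (add (add (start D773) (orK (nat_lit 192) (fin (add (start D241) (orK (nat_lit 172) (fin (add (start D240) (orK (nat_lit 173) (fin (add (start D2392) D2370)))))))))) (orK (nat_lit 191) (fin (add (start D374) (orK (nat_lit 188) (fin (add (start D117) (orK (nat_lit 148) (fin (add (start D770) D2835)))))))))))))))) D34)))))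
noncomputable def D2791 : OP := orK (nat_lit 171) (fin (add (start D14) D159))
noncomputable def D2805 : OP := orK (nat_lit 149) (fin (add (add (add (start D481) (orK (nat_lit 230) (fin (add (start D176) (orK (nat_lit 229) (fin (add (start D20) (orK (nat_lit 150) (fin (add (start D21) D2791)))))))))) D552) (orK (nat_lit 150) (fin (add (start D175) (orK (nat_lit 229) (fin (add (start D21) (orK (nat_lit 230) (fin (add (start D20) D2791)))))))))))
noncomputable def D2771 : OP := orK (nat_lit 171) (fin (add (start D14) D178))
noncomputable def D2789 : OP := orK (nat_lit 231) (fin (add (add (add (start (orK (nat_lit 230) (fin (add (start D157) (orK (nat_lit 229) (fin (add (start D20) (orK (nat_lit 150) (fin (add (start D21) D2771)))))))))) D2780) D2781) (orK (nat_lit 150) (fin (add (start D156) (orK (nat_lit 229) (fin (add (start D21) (orK (nat_lit 230) (fin (add (start D20) D2771)))))))))))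
noncomputable def D2596 : OP := orK (nat_lit 171) (fin (add (start D773) D781))
noncomputable def D2723 : OP := orK (nat_lit 251) (fin (add (start D148) (orK (nat_lit 250) (fin (add (start D149) D9)))))
noncomputable def D2725 : OP := orK (nat_lit 230) (fin (add (add (start D2723) D155) D2570))
noncomputable def D2765 : OP := orK (nat_lit 169) (fin (add (add (start D2725) D36) (orK (nat_lit 191) (fin (add (add (add (start D2754) D92) D96) (orK (nat_lit 150) (fin (add (start D2755) (orK (nat_lit 149) (fin (add (start D175) (orK (nat_lit 168) (fin (add (start D37) D2596))))))))))))))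
noncomputable def D2228 : OP := win (nat_lit 1) (nat_lit 7) (nat_lit 6) (nat_lit 5)
noncomputable def D936 : OP := win (nat_lit 3) (nat_lit 8) (nat_lit 6) (nat_lit 0)
noncomputable def D2622 : OP := orK (nat_lit 188) (fin (add (start D936) D117))
noncomputable def D2633 : OP := orK (nat_lit 171) (fin (add (start D771) D2622))
noncomputable def D2631 : OP := orK (nat_lit 147) (fin (add (start D759) D2629))
noncomputable def D2606 : OP := win (nat_lit 5) (nat_lit 5) (nat_lit 8) (nat_lit 4)
noncomputable def D2605 : OP := win (nat_lit 5) (nat_lit 4) (nat_lit 8) (nat_lit 5)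
noncomputable def D2608 : OP := orK (nat_lit 185) (fin (add (start D2605) D2606))
noncomputable def D2610 : OP := orK (nat_lit 165) (fin (add (start D2604) D2608))
noncomputable def D2614 : OP := orK (nat_lit 146) (fin (add (start D2578) (orK (nat_lit 166) (fin (add (start D2577) D2610)))))
noncomputable def D2667 : OP := orK (nat_lit 168) (fin (add (add (add (start D2600) (orK (nat_lit 167) (fin (add (start D2603) D2614)))) (orK (nat_lit 129) (fin (add (start D1) (orK (nat_lit 171) (fin (add (start D2620) (orK (nat_lit 148) (fin (add (start D770) D2622)))))))))) (orK (nat_lit 129) (fin (add (start D1) (orK (nat_lit 148) (fin (add (add (start D2631) D2633) (orK (nat_lit 147) (fin (add (start D759) (orK (nat_lit 188) (fin (add (start D936) (orK (nat_lit 128) (fin (add (start (orK (nat_lit 187) (fin (add (start D2228) D2647)))) (orK (nat_lit 107) (fin (add (start D2650) (orK (nat_lit 108) (fin (add (start D906) D2651)))))))))))))))))))))))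
noncomputable def D2671 : OP := orK (nat_lit 169) (fin (add (add (add (start D6) (orK (nat_lit 230) (fin (add (add (start D13) D2570) D606)))) D2574) (orK (nat_lit 149) (fin (add (add (start D4) (orK (nat_lit 168) (fin (add (add (add (start D2594) (orK (nat_lit 191) (fin (add (add (start D90) D94) D2596)))) D2599) D2600)))) D2667)))))
noncomputable def D2676 : AP := fin (add (start D49) D400)
noncomputable def D3341 : OP := orK (nat_lit 208) (fin (add (add (add (start D3327) D682) D684) (orK (nat_lit 192) (fin (add (add (add (start D3328) D3329) (orK (nat_lit 211) (fin (add (start (orK (nat_lit 231) D2676)) D3334)))) D3337)))))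
noncomputable def D3382 : OP := orK (nat_lit 209) (fin (add (add (add (start D466) D3341) (orK (nat_lit 229) (fin (add (start D460) (orK (nat_lit 249) (fin (add (start D462) (orK (nat_lit 208) (fin (add (add (add (start D682) D3350) D3361) D3374)))))))))) D701))
noncomputable def D22491 : OP := orK (nat_lit 209) (fin (add (add (start D3341) D2471) D2473))
noncomputable def D22494 : AP := fin (add (add (add (add (add (start D11210) D22491) D165) D19322) D747) (orK (nat_lit 150) (fin (add (add (start D174) D3382) D705))))
noncomputable def D14743 : OP := win (nat_lit 0) (nat_lit 7) (nat_lit 9) (nat_lit 2)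
noncomputable def D3028 : AP := fin (add (start D615) D3027)
noncomputable def D3029 : OP := orK (nat_lit 191) D3028
noncomputable def D3030 : AP := fin (add (start D149) D3029)
noncomputable def D3031 : OP := orK (nat_lit 250) D3030
noncomputable def D11703 : OP := orK (nat_lit 231) D403
noncomputable def D11702 : OP := orK (nat_lit 231) D2413
noncomputable def D11701 : OP := orK (nat_lit 231) (fin (add (start D2412) D401))
noncomputable def D12244 : OP := win (nat_lit 0) (nat_lit 7) (nat_lit 10) (nat_lit 1)
noncomputable def D19 : OP := orK (nat_lit 171) (fin (add (start D14) (orK (nat_lit 250) (fin (add (start D15) D9)))))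
noncomputable def D23664 : AP := fin (add (start D223) D19)
noncomputable def D10424 : OP := orK (nat_lit 231) (fin (add (start D156) (orK (nat_lit 230) (fin (add (start D157) D178)))))
noncomputable def D21433 : OP := orK (nat_lit 150) (fin (add (add (start D705) D10424) D560))
noncomputable def D3012 : OP := orK (nat_lit 230) D3011
noncomputable def D3017 : AP := fin (add (add (add (start D6) D2725) D3012) D3016)
noncomputable def D3018 : OP := orK (nat_lit 169) D3017
noncomputable def D198 : AP := fin (add (start D80) D197)
noncomputable def D199 : OP := orK (nat_lit 209) D198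
noncomputable def D600 : OP := orK (nat_lit 150) (fin (add (add (start D174) D213) D199))
noncomputable def D19295 : OP := orK (nat_lit 208) (fin (add (start D515) D514))
noncomputable def D3848 : OP := win (nat_lit 5) (nat_lit 8) (nat_lit 11) (nat_lit 4)
noncomputable def D3850 : OP := orK (nat_lit 248) (fin (add (start D3847) D3848))
noncomputable def D500 : OP := win (nat_lit 2) (nat_lit 8) (nat_lit 10) (nat_lit 5)
noncomputable def D3654 : AP := fin (add (start D3035) D3653)
noncomputable def D3656 : AP := fin (add (start D501) (orK (nat_lit 208) D3654))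
noncomputable def D11653 : OP := win (nat_lit 7) (nat_lit 12) (nat_lit 10) (nat_lit 0)
noncomputable def D1480 : OP := win (nat_lit 7) (nat_lit 12) (nat_lit 9) (nat_lit 5)
noncomputable def D505 : OP := win (nat_lit 0) (nat_lit 10) (nat_lit 11) (nat_lit 5)
noncomputable def D3648 : OP := orK (nat_lit 214) (fin (add (start (win (nat_lit 4) (nat_lit 10) (nat_lit 10) (nat_lit 4))) (win (nat_lit 4) (nat_lit 11) (nat_lit 10) (nat_lit 5))))
noncomputable def D17318 : OP := orK (nat_lit 250) (fin (add (start D615) (orK (nat_lit 269) (fin (add (start D613) (orK (nat_lit 270) (fin (add (start D614) (orK (nat_lit 251) (fin (add (start D149) D10256)))))))))))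
noncomputable def D15129 : AP := fin (add (start D50) D648)
noncomputable def D15130 : OP := orK (nat_lit 208) D15129
noncomputable def D20439 : OP := orK (nat_lit 209) (fin (add (start D678) D15130))
noncomputable def D17334 : OP := orK (nat_lit 169) (fin (add (start D10232) (orK (nat_lit 209) (fin (add (start D3405) D3722)))))
noncomputable def D1403 : OP := win (nat_lit 1) (nat_lit 12) (nat_lit 7) (nat_lit 5)
noncomputable def D1654 : OP := win (nat_lit 1) (nat_lit 12) (nat_lit 6) (nat_lit 0)
noncomputable def D2855 : OP := win (nat_lit 0) (nat_lit 9) (nat_lit 9) (nat_lit 0)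
noncomputable def D17328 : OP := orK (nat_lit 214) (fin (add (start (win (nat_lit 0) (nat_lit 10) (nat_lit 9) (nat_lit 4))) (orK (nat_lit 194) (fin (add (start (win (nat_lit 0) (nat_lit 11) (nat_lit 9) (nat_lit 5))) D17324)))))
noncomputable def D21490 : OP := orK (nat_lit 193) (fin (add (add (start D17328) (orK (nat_lit 213) (fin (add (start D14302) (orK (nat_lit 212) (fin (add (start D2855) (orK (nat_lit 173) (fin (add (start D14304) (orK (nat_lit 153) (fin (add (start D1654) D1403))))))))))))) D17346))
noncomputable def D14425 : OP := orK (nat_lit 169) (fin (add (add (start (orK (nat_lit 250) (fin (add (start D9) D9318)))) D14421) (orK (nat_lit 170) (fin (add (start D223) D29)))))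
noncomputable def D19652 : OP := orK (nat_lit 227) (fin (add (start D3456) (orK (nat_lit 247) (fin (add (start D4043) (orK (nat_lit 248) (fin (add (start D5116) (orK (nat_lit 207) (fin (add (start D5156) (orK (nat_lit 268) (fin (add (start D4070) (win (nat_lit 6) (nat_lit 7) (nat_lit 9) (nat_lit 0))))))))))))))))
noncomputable def D12526 : AP := fin (add (start D8934) D462)
noncomputable def D9147 : OP := win (nat_lit 2) (nat_lit 9) (nat_lit 10) (nat_lit 1)
noncomputable def D14904 : OP := orK (nat_lit 188) (fin (add (start D3428) D11517))
noncomputable def D20245 : OP := orK (nat_lit 192) (fin (add (start D10232) D14300))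
noncomputable def D10254 : OP := orK (nat_lit 251) (fin (add (start D149) D10252))
noncomputable def D10260 : OP := orK (nat_lit 250) (fin (add (add (start D717) D10254) D10258))
noncomputable def D20257 : OP := orK (nat_lit 191) (fin (add (add (add (start D10250) D10260) D10443) (orK (nat_lit 171) (fin (add (add (start D10248) (orK (nat_lit 189) (fin (add (start (orK (nat_lit 169) (fin (add (add (start (orK (nat_lit 149) (fin (add (start D14226) D10543)))) D20245) (orK (nat_lit 192) (fin (add (start D10232) (orK (nat_lit 170) (fin (add (start D64) D223)))))))))) D14904)))) D10441)))))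
noncomputable def D568 : OP := win (nat_lit 5) (nat_lit 7) (nat_lit 7) (nat_lit 4)
noncomputable def D567 : OP := win (nat_lit 5) (nat_lit 6) (nat_lit 7) (nat_lit 5)
noncomputable def D570 : OP := orK (nat_lit 167) (fin (add (start D567) D568))
noncomputable def D574 : OP := orK (nat_lit 127) (fin (add (start D565) (orK (nat_lit 147) (fin (add (start D566) D570)))))
noncomputable def D564 : OP := orK (nat_lit 171) D563
noncomputable def D590 : OP := orK (nat_lit 149) (fin (add (start D175) (orK (nat_lit 151) (fin (add (start D22) (orK (nat_lit 148) (fin (add (add (start D564) D574) (orK (nat_lit 172) (fin (add (start D575) (orK (nat_lit 152) (fin (add (start D576) D580))))))))))))))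
noncomputable def D594 : OP := orK (nat_lit 211) (fin (add (start D45) (orK (nat_lit 229) (fin (add (start D21) D590)))))
noncomputable def D595 : AP := fin (add (add (add (start D174) D190) D560) D594)
noncomputable def D596 : OP := orK (nat_lit 150) D595
noncomputable def D19323 : OP := orK (nat_lit 230) D15425
noncomputable def D22486 : AP := fin (add (add (add (add (add (start D600) D8489) D209) D215) D192) D8490)
noncomputable def D26397 : AP := fin (add (add (add (add (add (add (add (add (add (add (add (add (add (add (add (add (add (add (add (add (add (start (orK (nat_lit 170) D22486)) (orK (nat_lit 170) (fin (add (add (add (add (add (start D192) (orK (nat_lit 230) (fin (add (add (start D25859) D543) D547)))) D19322) D19323) D556) D596)))) (orK (nat_lit 230) (fin (add (add (add (add (start D14473) D15157) D20257) D14357) (orK (nat_lit 231) (fin (add (add (add (start D14412) D25875) (orK (nat_lit 170) (fin (add (start D157) D745)))) (orK (nat_lit 209) (fin (add (add (add (add (start (orK (nat_lit 232) (fin (add (start D501) (orK (nat_lit 208) D3669))))) (orK (nat_lit 233) (fin (add (start D9147) (orK (nat_lit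 229) (fin (add (start (orK (nat_lit 249) D12526)) (orK (nat_lit 228) (fin (add (add (start D4473) (orK (nat_lit 189) (fin (add (start D15551) (orK (nat_lit 188) (fin (add (add (start D9203) (orK (nat_lit 191) (fin (add (add (start (orK (nat_lit 211) (fin (add (start D54) D8801)))) D11821) D11933)))) D17776))))))) D19652)))))))))) D3909) D3910) D15730)))))))))) (orK (nat_lit 230) (fin (add (add (add (add (add (start D14297) D14473) D14425) (orK (nat_lit 191) (fin (add (add (start D10250) (orK (nat_lit 192) (fin (add (add (add (start D20404) D21490) (orK (nat_lit 189) (fin (add (add (start D17334) D14317) D25903)))) D20439)))) D17318)))) D22446) (orK (nat_lit 231) (fin (add (add (start D14412) (orK (nat_lit 232) (fin (add (add (add (start (orK (nat_lit 209) (fin (add (start D501) (orK (nat_lit 208) (fin (add (start D3035) D3629))))))) (orK (nat_lit 233) (fin (add (add (add (start D3640) (orK (nat_lit 234) (fin (add (start D3636) D3648)))) (orK (nat_lit 254) (fin (add (start D3634) (orK (nat_lit 234) (fin (add (start D3635) D3648))))))) (orK (nat_lit 213) (fin (add (start D507) (orK (nat_lit 212) (fin (add (start D3840)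 (orK (nat_lit 253) (fin (add (start D505) (orK (nat_lit 211) (fin (add (start D9604) (orK (nat_lit 273) (fin (add (start D1480) D11653))))))))))))))))))) (orK (nat_lit 209) D3656)) (orK (nat_lit 229) (fin (add (add (start (orK (nat_lit 209) (fin (add (start D500) D12968)))) (orK (nat_lit 228) (fin (add (start D519) D3850)))) (orK (nat_lit 228) (fin (add (start D19295) D519)))))))))) (orK (nat_lit 170) (fin (add (start D157) D29)))))))))) (orK (nat_lit 170) (fin (add (add (add (add (add (add (start D600) D3018) D797) D21433) (orK (nat_lit 169) (fin (add (add (add (start (orK (nat_lit 230) D23664)) (orK (nat_lit 230) (fin (add (add (add (start D19) D2723) D155) (orK (nat_lit 231) (fin (add (start D157) (orK (nat_lit 150) (fin (add (start D156) (orK (nat_lit 209) (fin (add (start D80) (orK (nat_lit 207) (fin (add (start D12244) (orK (nat_lit 130) (fin (add (start D166) (orK (nat_lit 171) (fin (add (start D14) (orK (nat_lit 110) (fin (add (start D1317) D3394))))))))))))))))))))))))) D36) D3091)))) (orK (nat_lit 211) (fin (add (add (add (start D5278) (orK (nat_lit 251) (fin (add (add (add (start D11701) D11702) D11703)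 (orK (nat_lit 230) (fin (add (add (start D3031) D541) (orK (nat_lit 169) (fin (add (start D223) (orK (nat_lit 188) (fin (add (add (add (start (orK (nat_lit 189) D409)) (orK (nat_lit 187) (fin (add (start D14743) (orK (nat_lit 168) D16209))))) (orK (nat_lit 191) (fin (add (add (start (orK (nat_lit 189) (fin (add (start D54) (orK (nat_lit 192) (fin (add (start D64) D68))))))) (orK (nat_lit 167) (fin (add (start (win (nat_lit 0) (nat_lit 7) (nat_lit 8) (nat_lit 1))) (orK (nat_lit 189) D25968))))) D96)))) (orK (nat_lit 168) (fin (add (add (add (start (orK (nat_lit 171) (fin (add (start D117) (orK (nat_lit 148) (fin (add (start D770) (orK (nat_lit 192) (fin (add (start D241) (orK (nat_lit 193) (fin (add (start D2059) (orK (nat_lit 209) (fin (add (start D1884) (orK (nat_lit 208) (fin (add (start D5644) (orK (nat_lit 227) (fin (add (start D7377) D669)))))))))))))))))))))) (orK (nat_lit 167) (fin (add (start D2603) (orK (nat_lit 147) (fin (add (start D2106) (orK (nat_lit 187) (fin (add (start D2107) (orK (nat_lit 208) (fin (add (start D5115) D5134))))))))))))) D2600) D16210)))))))))))))))) D2416) D406)))) D556)))) (orK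 (nat_lit 170) D22494)) (orK (nat_lit 170) (fin (add (add (add (add (add (add (start D2671) D20231) D2765) D2789) D2805) D2849) (orK (nat_lit 211) (fin (add (add (add (start D406) D23492) D20209) (orK (nat_lit 209) (fin (add (add (start D20227) D23540) D466)))))))))) (orK (nat_lit 170) (fin (add (add (add (add (add (add (add (start D20231) D3475) D3513) (orK (nat_lit 230) (fin (add (add (add (start D606) D539) D155) (orK (nat_lit 171) (fin (add (start D14) D25859))))))) D19322) D3564) D3624) D715)))) (orK (nat_lit 170) (fin (add (add (add (add (add (add (add (start (orK (nat_lit 230) (fin (add (add (add (start D539) (orK (nat_lit 169) (fin (add (start D223) D25859)))) D543) D547)))) D5180) D3389) D3272) D753) D5221) D5320) D5326)))) (orK (nat_lit 170) (fin (add (add (add (add (add (start D165) D192) D209) D215) (orK (nat_lit 171) (fin (add (add (add (start D222) (orK (nat_lit 230) (fin (add (add (start D254) D153) D26036)))) D268) (orK (nat_lit 172) (fin (add (add (add (start D2391) D3532) (orK (nat_lit 189) (fin (add (add (start D2389) (orK (nat_lit 169) (fin (add (start D279) D1292)))) D3554)))) D3558))))))) D5338))))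 (orK (nat_lit 230) (fin (add (add (add (add (add (add (add (start D21463) D26060) D26061) D15157) (orK (nat_lit 191) (fin (add (add (add (start D10250) (orK (nat_lit 209) (fin (add (add (add (start (orK (nat_lit 193) (fin (add (start D3390) D26063)))) D2871) (orK (nat_lit 207) (fin (add (start D2872) D26063)))) D2715)))) (orK (nat_lit 250) (fin (add (start D615) D634)))) (orK (nat_lit 209) (fin (add (add (add (start (orK (nat_lit 171) (fin (add (add (add (start D10248) (orK (nat_lit 211) (fin (add (start D3782) (orK (nat_lit 212) (fin (add (add (start D100) D10368) (orK (nat_lit 189) (fin (add (start D98) (orK (nat_lit 229) (fin (add (start D59) (orK (nat_lit 232) (fin (add (start D411) (orK (nat_lit 249) (fin (add (start D462) (orK (nat_lit 248) (fin (add (start D4016) D21491)))))))))))))))))))))) (orK (nat_lit 192) (fin (add (start D678) (orK (nat_lit 172) (fin (add (add (start D15096) (orK (nat_lit 152) (fin (add (add (start D1284) (orK (nat_lit 211) (fin (add (start D1257) (orK (nat_lit 173) (fin (add (start D10469) (orK (nat_lit 212) (fin (add (start D10368) (orK (nat_lit 153) (fin (add (start D3872) D1655)))))))))))))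 (orK (nat_lit 132) (fin (add (start D1145) (orK (nat_lit 133) (fin (add (start D1974) (orK (nat_lit 153) (fin (add (start D1685) (orK (nat_lit 154) (fin (add (start D1140) (orK (nat_lit 131) (fin (add (start D6644) D1161))))))))))))))))))) (orK (nat_lit 189) (fin (add (start D2685) (orK (nat_lit 212) (fin (add (start D2688) (orK (nat_lit 152) (fin (add (start (orK (nat_lit 231) (fin (add (start D3871) (orK (nat_lit 232) D17351))))) D11809)))))))))))))))) (orK (nat_lit 192) (fin (add (start D678) (orK (nat_lit 172) (fin (add (add (start D15096) (orK (nat_lit 174) (fin (add (start D19840) (orK (nat_lit 212) (fin (add (add (start D11633) (orK (nat_lit 152) (fin (add (start D11809) (orK (nat_lit 233) (fin (add (start D2016) (orK (nat_lit 232) (fin (add (start D4719) D2699)))))))))) D19853))))))) (orK (nat_lit 151) (fin (add (start D118) (orK (nat_lit 189) (fin (add (start D2685) D3407)))))))))))))))) D2871) D14673) D2715))))))) D15300) D15307) (orK (nat_lit 229) (fin (add (add (add (start D14868) D19971) D26056) (orK (nat_lit 211) (fin (add (add (add (start (orK (nat_lit 212) (fin (add (start D3729) (orK (nat_lit 189)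 (fin (add (add (start D803) (orK (nat_lit 192) (fin (add (add (add (start D3208) (orK (nat_lit 209) D25435)) D5392) D5401)))) D840))))))) D8225) (orK (nat_lit 228) (fin (add (start D516) (orK (nat_lit 231) (fin (add (start D8757) (orK (nat_lit 208) (fin (add (start D515) (orK (nat_lit 209) (fin (add (start D49) D26151))))))))))))) D8229)))))))))) (orK (nat_lit 209) D26276)) (orK (nat_lit 230) (fin (add (add (add (add (add (add (add (add (start D22446) D26060) (orK (nat_lit 189) (fin (add (add (start D14789) D14244) D15256)))) D14473) (orK (nat_lit 189) (fin (add (add (add (start D14230) (orK (nat_lit 250) (fin (add (add (add (start D14234) D14974) D634) (orK (nat_lit 249) (fin (add (start D8) (orK (nat_lit 248) (fin (add (add (add (start D26285) (orK (nat_lit 231) (fin (add (start D4359) D26287)))) D12192) (orK (nat_lit 231) (fin (add (add (start D26287) (orK (nat_lit 251) (fin (add (start D12324) (orK (nat_lit 228) (fin (add (start D9443) (orK (nat_lit 268) (fin (add (start D9319) (orK (nat_lit 209) (fin (add (start D8907) D13788))))))))))))) (orK (nat_lit 232) (fin (add (start D8963) D14842)))))))))))))))) D20301)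 D22011)))) D14520) (orK (nat_lit 189) (fin (add (add (add (start D14230) D15506) D14244) D15531)))) (orK (nat_lit 189) (fin (add (add (add (start D14230) (orK (nat_lit 250) (fin (add (add (start D14974) D634) (orK (nat_lit 249) (fin (add (start D8) (orK (nat_lit 229) (fin (add (start D8934) (orK (nat_lit 188) (fin (add (add (start (orK (nat_lit 187) (fin (add (start D9201) (orK (nat_lit 209) (fin (add (start D1890) D1897))))))) D14353) (orK (nat_lit 168) (fin (add (start (win (nat_lit 7) (nat_lit 8) (nat_lit 8) (nat_lit 2))) (orK (nat_lit 191) (fin (add (start D373) (orK (nat_lit 208) (fin (add (start D371) D3342)))))))))))))))))))))) D14244) (orK (nat_lit 169) (fin (add (add (start D14228) (orK (nat_lit 188) (fin (add (add (add (start (orK (nat_lit 187) (fin (add (start D9201) D14612)))) (orK (nat_lit 191) (fin (add (start D3115) (orK (nat_lit 211) D25968))))) (orK (nat_lit 187) (fin (add (start D9201) (orK (nat_lit 166) (fin (add (start D14328) (orK (nat_lit 186) (fin (add (start D14327) D14610)))))))))) D14343)))) D14242))))))) (orK (nat_lit 231) (fin (add (add (add (start D14412) D25875) (orK (nat_lit 170) (fin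 (add (start D157) (orK (nat_lit 229) (fin (add (start D20) (orK (nat_lit 150) (fin (add (start D21) D26347)))))))))) (orK (nat_lit 209) (fin (add (add (add (start (orK (nat_lit 229) (fin (add (add (start D9696) D12551) (orK (nat_lit 228) (fin (add (start D4473) (orK (nat_lit 170) (fin (add (start D460) (orK (nat_lit 248) (fin (add (start D3847) (orK (nat_lit 169) (fin (add (start D9613) D223)))))))))))))))) (orK (nat_lit 208) (fin (add (start D3035) (orK (nat_lit 229) (fin (add (start D3565) D9696))))))) D20065) D20067)))))))))) (orK (nat_lit 170) (fin (add (add (add (add (start D753) (orK (nat_lit 169) (fin (add (add (start D6) D23975) D2574)))) D2964) D165) D22465)))) (orK (nat_lit 170) (fin (add (add (add (add (add (start D215) D3272) D5458) (orK (nat_lit 230) (fin (add (add (start D606) D26036) D155)))) D22501) D5459)))) D17744) D17396) D17745) D17960) D17961) (orK (nat_lit 209) (fin (add (add (add (add (add (add (add (add (start (orK (nat_lit 170) (fin (add (add (add (start D12047) (orK (nat_lit 229) (fin (add (add (start D2420) D464) (orK (nat_lit 169) (fin (add (add (start D6) D23975) (orK (nat_lit 171) (fin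 (add (add (start (orK (nat_lit 230) D12604)) (orK (nat_lit 168) (fin (add (add (start D3591) D2114) D16084)))) D222)))))))))) D2473) D466)))) D18007) D14601) D17264) D17983) D18020) D18063) D18019) D18093)))) D14607)
noncomputable def D26398 : OP := orK (nat_lit 190) D26397
noncomputable def D19960 : OP := orK (nat_lit 150) (fin (add (add (start D174) D3268) D560))
noncomputable def D20165 : OP := orK (nat_lit 208) (fin (add (start D50) (orK (nat_lit 229) (fin (add (start (orK (nat_lit 211) (fin (add (start D2427) D18083)))) D2420)))))
noncomputable def D20155 : OP := orK (nat_lit 169) (fin (add (start D357) (orK (nat_lit 172) (fin (add (start D15096) D1286)))))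
noncomputable def D2674 : AP := fin (add (start D14) D2673)
noncomputable def D2675 : OP := orK (nat_lit 171) D2674
noncomputable def D1388 : OP := win (nat_lit 2) (nat_lit 10) (nat_lit 7) (nat_lit 0)
noncomputable def D23659 : OP := orK (nat_lit 209) (fin (add (add (add (start (orK (nat_lit 150) (fin (add (add (add (start D172) D3402) (orK (nat_lit 151) (fin (add (start D22) (orK (nat_lit 171) (fin (add (start D216) (orK (nat_lit 169) (fin (add (add (start D1028) (orK (nat_lit 172) (fin (add (add (start (orK (nat_lit 173) (fin (add (start D1388) D2370)))) (orK (nat_lit 152) (fin (add (start D281) (orK (nat_lit 192) (fin (add (start D240) (orK (nat_lit 189) (fin (add (start D226) (orK (nat_lit 191) (fin (add (start D3405) D1284))))))))))))) (orK (nat_lit 193) (fin (add (start D230) (orK (nat_lit 173) (fin (add (start D231) D1388)))))))))) D3439)))))))))) D3451)))) (orK (nat_lit 191) (fin (add (add (add (start (orK (nat_lit 230) (fin (add (add (start D2675) (orK (nat_lit 249) (fin (add (start D7) (orK (nat_lit 250) (fin (add (start D8) D10244))))))) (orK (nat_lit 171) (fin (add (start D14) (orK (nat_lit 192) (fin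 (add (start D678) D20155)))))))))) D2871) D20165) D2715)))) D2473) D466))
noncomputable def D4732 : OP := win (nat_lit 6) (nat_lit 11) (nat_lit 8) (nat_lit 5)
noncomputable def D16937 : AP := fin (add (start D678) D10234)
noncomputable def D23493 : OP := win (nat_lit 5) (nat_lit 9) (nat_lit 8) (nat_lit 2)
noncomputable def D24110 : AP := fin (add (start D3858) (orK (nat_lit 173) (fin (add (start D1179) D23493))))
noncomputable def D23495 : OP := orK (nat_lit 173) (fin (add (start D5295) D23493))
noncomputable def D24140 : OP := orK (nat_lit 211) (fin (add (add (add (start D5278) (orK (nat_lit 231) (fin (add (add (start D2414) D404) (orK (nat_lit 209) (fin (add (add (add (start D5287) (orK (nat_lit 232) (fin (add (add (start D19756) D7270) (orK (nat_lit 189) (fin (add (add (start D11997) (orK (nat_lit 192) (fin (add (add (start (orK (nat_lit 212) (fin (add (start D845) (orK (nat_lit 172) D24110))))) (orK (nat_lit 172) (fin (add (add (add (start D23495) (orK (nat_lit 152) (fin (add (start D2727) D5376)))) (orK (nat_lit 152) (fin (add (start D2727) (orK (nat_lit 191) D2733))))) (orK (nat_lit 212) D24110))))) (orK (nat_lit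 191) D16937))))) (orK (nat_lit 188) (fin (add (start D53) (orK (nat_lit 191) (fin (add (start (orK (nat_lit 171) (fin (add (start D3428) D4732)))) D11929))))))))))))) D5309) D5313))))))) D2416) D406))
noncomputable def D1272 : OP := win (nat_lit 1) (nat_lit 11) (nat_lit 4) (nat_lit 0)
noncomputable def D3579 : OP := orK (nat_lit 167) (fin (add (start D2603) D2818))
noncomputable def D3581 : OP := orK (nat_lit 168) (fin (add (start D119) D3579))
noncomputable def D23621 : OP := orK (nat_lit 171) (fin (add (add (add (start D222) D3495) D2369) (orK (nat_lit 151) (fin (add (add (start D220) (orK (nat_lit 169) (fin (add (add (add (start D3581) D3589) D3618) (orK (nat_lit 172) (fin (add (start D229) (orK (nat_lit 152) (fin (add (start D281) (orK (nat_lit 192) (fin (add (start D240) (orK (nat_lit 212) (fin (add (start D1372) (orK (nat_lit 211) (fin (add (start D1160) (orK (nat_lit 132) (fin (add (start D1159) (orK (nat_lit 112) (fin (add (start D1272) D17642))))))))))))))))))))))))) D2367)))))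
noncomputable def D799 : OP := orK (nat_lit 190) D798
noncomputable def D8492 : OP := orK (nat_lit 190) D8491
noncomputable def D20091 : OP := orK (nat_lit 209) D3566
noncomputable def D504 : OP := win (nat_lit 0) (nat_lit 9) (nat_lit 11) (nat_lit 4)
noncomputable def D22481 : OP := orK (nat_lit 229) (fin (add (start D20) (orK (nat_lit 231) (fin (add (start D157) (orK (nat_lit 208) (fin (add (add (start (orK (nat_lit 232) (fin (add (start D514) (orK (nat_lit 253) (fin (add (start D504) (orK (nat_lit 233) (fin (add (start D505) (orK (nat_lit 211) (fin (add (start D7268) D5183))))))))))))) D521) D20091))))))))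
noncomputable def D24198 : OP := orK (nat_lit 230) (fin (add (add (start D543) D547) D22481))
noncomputable def D6626 : OP := orK (nat_lit 172) (fin (add (add (start D2398) D1292) D5511))
noncomputable def D5664 : OP := win (nat_lit 0) (nat_lit 7) (nat_lit 7) (nat_lit 3)
noncomputable def D5665 : AP := fin (add (start D759) D5664)
noncomputable def D5677 : OP := orK (nat_lit 147) D5665
noncomputable def D5678 : AP := fin (add (start D771) D5677)
noncomputable def D5679 : OP := orK (nat_lit 149) D5678
noncomputable def D5674 : OP := orK (nat_lit 192) (fin (add (start D241) (orK (nat_lit 172) (fin (add (start D240) D244)))))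
noncomputable def D5663 : OP := win (nat_lit 2) (nat_lit 7) (nat_lit 7) (nat_lit 3)
noncomputable def D5668 : OP := orK (nat_lit 147) (fin (add (start D5663) (orK (nat_lit 149) D5665)))
noncomputable def D5681 : OP := orK (nat_lit 148) (fin (add (add (add (start D5668) (orK (nat_lit 172) (fin (add (start D2215) D248)))) (orK (nat_lit 168) (fin (add (start D770) D5674)))) D5679))
noncomputable def D1223 : OP := orK (nat_lit 168) (fin (add (start D280) D244))
noncomputable def D5662 : OP := orK (nat_lit 172) (fin (add (add (start D248) (orK (nat_lit 152) (fin (add (start D281) D1223)))) D239))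
noncomputable def D5640 : OP := orK (nat_lit 109) (fin (add (start D5633) (orK (nat_lit 108) (fin (add (start D5634) D5636)))))
noncomputable def D5655 : AP := fin (add (start D117) (orK (nat_lit 148) (fin (add (start D770) (orK (nat_lit 128) (fin (add (add (start (orK (nat_lit 189) D5631)) D5640) (orK (nat_lit 129) (fin (add (start D5641) (orK (nat_lit 208) (fin (add (start D5642) (orK (nat_lit 209) (fin (add (start D5643) D5644))))))))))))))))
noncomputable def D5656 : OP := orK (nat_lit 188) D5655
noncomputable def D5658 : OP := orK (nat_lit 168) (fin (add (add (start D5629) D5656) D2822))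
noncomputable def D8484 : AP := fin (add (add (add (start D5658) D5662) D5681) D6626)
noncomputable def D5962 : OP := win (nat_lit 7) (nat_lit 8) (nat_lit 6) (nat_lit 4)
noncomputable def D5725 : OP := win (nat_lit 7) (nat_lit 8) (nat_lit 5) (nat_lit 5)
noncomputable def D5964 : OP := orK (nat_lit 128) (fin (add (start D5725) D5962))
noncomputable def D5722 : OP := win (nat_lit 3) (nat_lit 9) (nat_lit 5) (nat_lit 4)
noncomputable def D5748 : OP := win (nat_lit 1) (nat_lit 8) (nat_lit 6) (nat_lit 4)
noncomputable def D5971 : AP := fin (add (start D5473) (orK (nat_lit 208) (fin (add (start D3236) (orK (nat_lit 129) (fin (add (start D5748) (orK (nat_lit 110) (fin (add (start D5722) D5964))))))))))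
noncomputable def D5972 : OP := orK (nat_lit 209) D5971
noncomputable def D5961 : OP := orK (nat_lit 209) (fin (add (start D5473) (orK (nat_lit 228) (fin (add (start D5955) D5957)))))
noncomputable def D5723 : OP := win (nat_lit 6) (nat_lit 9) (nat_lit 4) (nat_lit 4)
noncomputable def D5845 : OP := win (nat_lit 7) (nat_lit 8) (nat_lit 4) (nat_lit 5)
noncomputable def D5846 : OP := win (nat_lit 7) (nat_lit 8) (nat_lit 5) (nat_lit 4)
noncomputable def D5950 : OP := orK (nat_lit 108) (fin (add (start D5846) (orK (nat_lit 109) (fin (add (start D5845) (orK (nat_lit 90) (fin (add (start (win (nat_lit 3) (nat_lit 9) (nat_lit 4) (nat_lit 4))) (orK (nat_lit 89) (fin (add (start (win (nat_lit 3) (nat_lit 9) (nat_lit 3) (nat_lit 5))) D5723)))))))))))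
noncomputable def D5721 : OP := win (nat_lit 1) (nat_lit 8) (nat_lit 6) (nat_lit 5)
noncomputable def D5934 : OP := orK (nat_lit 89) (fin (add (start D5723) (orK (nat_lit 88) (fin (add (start (win (nat_lit 7) (nat_lit 8) (nat_lit 3) (nat_lit 5))) (win (nat_lit 7) (nat_lit 8) (nat_lit 4) (nat_lit 4)))))))
noncomputable def D984 : OP := win (nat_lit 3) (nat_lit 9) (nat_lit 4) (nat_lit 5)
noncomputable def D5938 : OP := orK (nat_lit 110) (fin (add (start D5722) (orK (nat_lit 109) (fin (add (start D984) D5934)))))
noncomputable def D5940 : OP := orK (nat_lit 188) (fin (add (start D5721) D5938))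
noncomputable def D5916 : OP := win (nat_lit 5) (nat_lit 8) (nat_lit 6) (nat_lit 0)
noncomputable def D5917 : AP := fin (add (start (win (nat_lit 5) (nat_lit 7) (nat_lit 6) (nat_lit 3))) D5916)
noncomputable def D5749 : OP := win (nat_lit 3) (nat_lit 9) (nat_lit 5) (nat_lit 5)
noncomputable def D5907 : AP := fin (add (start (win (nat_lit 1) (nat_lit 8) (nat_lit 3) (nat_lit 4))) (orK (nat_lit 68) (fin (add (start (win (nat_lit 7) (nat_lit 8) (nat_lit 2) (nat_lit 5))) (win (nat_lit 7) (nat_lit 8) (nat_lit 3) (nat_lit 4))))))
noncomputable def D5924 : OP := orK (nat_lit 148) (fin (add (add (start D5677) (orK (nat_lit 110) (fin (add (start D5722) (orK (nat_lit 109) (fin (add (start D984) (orK (nat_lit 89) (fin (add (start D5723) (orK (nat_lit 69) D5907))))))))))) (orK (nat_lit 147) (fin (add (start D759) (orK (nat_lit 130) (fin (add (start D5749) (orK (nat_lit 131) D5917)))))))))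
noncomputable def D5928 : OP := orK (nat_lit 188) (fin (add (start D5721) (orK (nat_lit 187) (fin (add (start D5703) D5924)))))
noncomputable def D5879 : OP := win (nat_lit 5) (nat_lit 6) (nat_lit 6) (nat_lit 0)
noncomputable def D976 : OP := win (nat_lit 0) (nat_lit 6) (nat_lit 6) (nat_lit 0)
noncomputable def D5859 : OP := win (nat_lit 2) (nat_lit 8) (nat_lit 6) (nat_lit 0)
noncomputable def D5853 : OP := win (nat_lit 0) (nat_lit 7) (nat_lit 6) (nat_lit 3)
noncomputable def D5877 : AP := fin (add (start D976) (orK (nat_lit 151) (fin (add (start D5853) D5859))))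
noncomputable def D5878 : OP := orK (nat_lit 127) D5877
noncomputable def D977 : OP := win (nat_lit 2) (nat_lit 7) (nat_lit 6) (nat_lit 0)
noncomputable def D1531 : OP := win (nat_lit 1) (nat_lit 10) (nat_lit 4) (nat_lit 0)
noncomputable def D5848 : OP := orK (nat_lit 108) (fin (add (start D5845) D5846))
noncomputable def D5852 : OP := orK (nat_lit 110) (fin (add (start D5722) (orK (nat_lit 109) (fin (add (start D984) D5848)))))
noncomputable def D5712 : OP := orK (nat_lit 209) (fin (add (start D5473) (orK (nat_lit 150) (fin (add (start D5708) D1922)))))
noncomputable def D5974 : OP := orK (nat_lit 189) (fin (add (add (add (start D5712) (orK (nat_lit 129) (fin (add (add (add (add (start D5852) (orK (nat_lit 188) (fin (add (start D5721) (orK (nat_lit 128) (fin (add (start D5725) (orK (nat_lit 150) (fin (add (add (add (start (orK (nat_lit 148) (fin (add (start D561) (orK (nat_lit 151) (fin (add (start D5859) (orK (nat_lit 131) (fin (add (start D902) (orK (nat_lit 111) (fin (add (start D1531) (orK (nat_lit 112) (fin (add (start D1557) (win (nat_lit 4) (nat_lit 8) (nat_lit 5) (nat_lit 2)))))))))))))))))) (orK (nat_lit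 127) (fin (add (start D976) (orK (nat_lit 148) (fin (add (start D561) D977))))))) D5878) (orK (nat_lit 147) (fin (add (start D5252) (orK (nat_lit 127) (fin (add (start D976) (orK (nat_lit 146) (fin (add (start D5879) (orK (nat_lit 186) (fin (add (start (win (nat_lit 4) (nat_lit 6) (nat_lit 8) (nat_lit 1))) (orK (nat_lit 166) (fin (add (start (win (nat_lit 3) (nat_lit 6) (nat_lit 6) (nat_lit 0))) (orK (nat_lit 107) (fin (add (start (win (nat_lit 1) (nat_lit 6) (nat_lit 4) (nat_lit 0))) (win (nat_lit 1) (nat_lit 6) (nat_lit 5) (nat_lit 3)))))))))))))))))))))))))))))) D5928) D5940) (orK (nat_lit 188) (fin (add (start D5721) D5950))))))) D5961) D5972))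
noncomputable def D5844 : OP := orK (nat_lit 172) (fin (add (start D276) D239))
noncomputable def D5840 : OP := orK (nat_lit 189) (fin (add (start D226) D5712))
noncomputable def D5842 : OP := orK (nat_lit 172) (fin (add (start D5840) D239))
noncomputable def D5702 : OP := orK (nat_lit 148) D5678
noncomputable def D5976 : OP := orK (nat_lit 149) (fin (add (add (add (start D5702) D5842) D5844) D5974))
noncomputable def D5716 : OP := orK (nat_lit 147) (fin (add (start D759) D5663))
noncomputable def D5705 : OP := orK (nat_lit 187) (fin (add (start D5703) D1923))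
noncomputable def D5720 : OP := orK (nat_lit 209) (fin (add (start D5473) D5243))
noncomputable def D5718 : OP := orK (nat_lit 148) (fin (add (start D771) D5716))
noncomputable def D5707 : OP := orK (nat_lit 188) (fin (add (start D2130) D5705))
noncomputable def D5743 : OP := orK (nat_lit 149) (fin (add (add (add (start D5702) (orK (nat_lit 189) (fin (add (start D5707) D5712)))) D5718) (orK (nat_lit 148) (fin (add (add (start D5677) (orK (nat_lit 189) (fin (add (add (start D5720) (orK (nat_lit 188) (fin (add (start D5705) (orK (nat_lit 129) (fin (add (start D5721) (orK (nat_lit 110) (fin (add (start D5722) (orK (nat_lit 109) (fin (add (start D984) (orK (nat_lit 89) (fin (add (start D5723) (orK (nat_lit 128) (fin (add (start (win (nat_lit 1) (nat_lit 8) (nat_lit 3) (nat_lit 0))) D5725))))))))))))))))))) D5712)))) D5716)))))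
noncomputable def D2065 : OP := orK (nat_lit 193) (fin (add (start D230) D231))
noncomputable def D5619 : OP := orK (nat_lit 173) (fin (add (start D2065) D2394))
noncomputable def D5623 : OP := orK (nat_lit 172) (fin (add (add (start (orK (nat_lit 168) D5462)) D5619) (orK (nat_lit 173) (fin (add (start D2065) D235)))))
noncomputable def D8482 : AP := fin (add (add (add (add (start D5623) D5743) D5662) D5976) D5658)
noncomputable def D6721 : OP := orK (nat_lit 92) (fin (add (start (win (nat_lit 3) (nat_lit 11) (nat_lit 3) (nat_lit 5))) (win (nat_lit 3) (nat_lit 11) (nat_lit 4) (nat_lit 4))))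
noncomputable def D6678 : OP := win (nat_lit 1) (nat_lit 10) (nat_lit 4) (nat_lit 4)
noncomputable def D6723 : OP := orK (nat_lit 91) (fin (add (start D6678) D6721))
noncomputable def D6729 : OP := orK (nat_lit 192) (fin (add (start D1559) (orK (nat_lit 110) (fin (add (start D4903) (orK (nat_lit 111) (fin (add (start D1831) D6723))))))))
noncomputable def D6709 : OP := orK (nat_lit 90) (fin (add (start (win (nat_lit 7) (nat_lit 10) (nat_lit 3) (nat_lit 5))) (win (nat_lit 7) (nat_lit 10) (nat_lit 4) (nat_lit 4))))
noncomputable def D6692 : OP := win (nat_lit 0) (nat_lit 8) (nat_lit 6) (nat_lit 0)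
noncomputable def D6017 : OP := win (nat_lit 7) (nat_lit 10) (nat_lit 5) (nat_lit 5)
noncomputable def D6681 : OP := win (nat_lit 6) (nat_lit 11) (nat_lit 3) (nat_lit 4)
noncomputable def D6680 : OP := win (nat_lit 3) (nat_lit 11) (nat_lit 2) (nat_lit 5)
noncomputable def D6679 : OP := win (nat_lit 3) (nat_lit 11) (nat_lit 3) (nat_lit 4)
noncomputable def D6701 : OP := orK (nat_lit 152) (fin (add (add (start D3614) (orK (nat_lit 110) (fin (add (start D4903) (orK (nat_lit 111) (fin (add (start D1831) (orK (nat_lit 91) (fin (add (start D6678) (orK (nat_lit 72) (fin (add (start D6679) (orK (nat_lit 71) (fin (add (start D6680) D6681)))))))))))))))) (orK (nat_lit 153) (fin (add (start D1237) (orK (nat_lit 130) (fin (add (start D6017) (orK (nat_lit 129) (fin (add (start D6692) (win (nat_lit 0) (nat_lit 9) (nat_lit 6) (nat_lit 3)))))))))))))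
noncomputable def D1529 : OP := win (nat_lit 6) (nat_lit 9) (nat_lit 4) (nat_lit 0)
noncomputable def D1247 : OP := win (nat_lit 2) (nat_lit 8) (nat_lit 6) (nat_lit 5)
noncomputable def D1823 : OP := win (nat_lit 4) (nat_lit 8) (nat_lit 6) (nat_lit 0)
noncomputable def D1700 : OP := win (nat_lit 5) (nat_lit 10) (nat_lit 6) (nat_lit 0)
noncomputable def D1824 : OP := win (nat_lit 5) (nat_lit 9) (nat_lit 6) (nat_lit 3)
noncomputable def D1827 : AP := fin (add (start D1823) (orK (nat_lit 133) (fin (add (start D1824) D1700))))
noncomputable def D1828 : OP := orK (nat_lit 149) D1827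
noncomputable def D6645 : OP := win (nat_lit 2) (nat_lit 10) (nat_lit 8) (nat_lit 1)
noncomputable def D1566 : OP := win (nat_lit 3) (nat_lit 11) (nat_lit 5) (nat_lit 5)
noncomputable def D6731 : OP := orK (nat_lit 131) (fin (add (add (add (add (start D4909) (orK (nat_lit 192) (fin (add (start D1559) (orK (nat_lit 132) (fin (add (start D1566) (orK (nat_lit 150) (fin (add (add (add (start (orK (nat_lit 149) (fin (add (start D1823) (orK (nat_lit 152) (fin (add (start D1000) D758))))))) (orK (nat_lit 153) (fin (add (start D1869) (orK (nat_lit 133) (fin (add (start D1700) (orK (nat_lit 154) (fin (add (start D6644) (orK (nat_lit 194) (fin (add (start D6645) (orK (nat_lit 174) (fin (add (start (win (nat_lit 7) (nat_lit 13) (nat_lit 6) (nat_lit 0))) (orK (nat_lit 113) (fin (add (start (win (nat_lit 6) (nat_lit 13) (nat_lit 4) (nat_lit 0))) (win (nat_lit 6) (nat_lit 13) (nat_lit 5) (nat_lit 3))))))))))))))))))))) D1828) (orK (nat_lit 149) (fin (add (start D1823) (orK (nat_lit 152) (fin (add (start D758) (orK (nat_lit 129) (fin (add (start D1247) (orK (nat_lit 109) (fin (add (start D1529) (orK (nat_lit 108) (fin (add (start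 (win (nat_lit 2) (nat_lit 8) (nat_lit 5) (nat_lit 2))) D5845))))))))))))))))))))))))) (orK (nat_lit 192) (fin (add (start D1559) (orK (nat_lit 193) (fin (add (start D1597) D6701))))))) (orK (nat_lit 112) (fin (add (start D1556) (orK (nat_lit 111) (fin (add (start D1557) (orK (nat_lit 91) (fin (add (start D6678) (orK (nat_lit 192) (fin (add (start D1559) D6709))))))))))))) D6729))
noncomputable def D1803 : OP := orK (nat_lit 193) (fin (add (start D1597) D823))
noncomputable def D1801 : OP := win (nat_lit 6) (nat_lit 11) (nat_lit 6) (nat_lit 0)
noncomputable def D1800 : OP := win (nat_lit 6) (nat_lit 11) (nat_lit 7) (nat_lit 5)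
noncomputable def D1807 : OP := orK (nat_lit 212) (fin (add (start D1800) (orK (nat_lit 192) (fin (add (start D1801) D1803)))))
noncomputable def D6638 : AP := fin (add (start D5556) (orK (nat_lit 152) (fin (add (start D1795) D1807))))
noncomputable def D6639 : OP := orK (nat_lit 211) D6638
noncomputable def D5981 : AP := fin (add (start D5556) (orK (nat_lit 150) (fin (add (start D2025) D1312))))
noncomputable def D6542 : OP := orK (nat_lit 211) D5981
noncomputable def D6733 : OP := orK (nat_lit 191) (fin (add (add (start D6542) D6639) D6731))
noncomputable def D6633 : OP := orK (nat_lit 191) (fin (add (start D374) D6542))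
noncomputable def D6635 : OP := orK (nat_lit 168) (fin (add (start D6633) D2114))
noncomputable def D6628 : AP := fin (add (start D374) D2114)
noncomputable def D6631 : OP := orK (nat_lit 168) (fin (add (start D119) (orK (nat_lit 191) D6628)))
noncomputable def D6292 : AP := fin (add (start D1033) D3614)
noncomputable def D6627 : OP := orK (nat_lit 152) D6292
noncomputable def D6308 : OP := orK (nat_lit 148) (fin (add (start D2215) (orK (nat_lit 168) (fin (add (start D770) D283)))))
noncomputable def D6620 : OP := orK (nat_lit 172) (fin (add (start D240) D6308))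
noncomputable def D6618 : OP := orK (nat_lit 172) (fin (add (start D240) (orK (nat_lit 152) (fin (add (start D281) D1170)))))
noncomputable def D6614 : OP := orK (nat_lit 168) (fin (add (start D241) D2114))
noncomputable def D5557 : AP := fin (add (start D5556) D1795)
noncomputable def D6607 : OP := orK (nat_lit 191) (fin (add (add (start (orK (nat_lit 211) D5557)) D4913) (orK (nat_lit 211) (fin (add (start D5556) (orK (nat_lit 231) (fin (add (start D6601) D5987))))))))
noncomputable def D6609 : OP := orK (nat_lit 152) (fin (add (add (start D3599) D6607) D3614))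
noncomputable def D6598 : OP := orK (nat_lit 191) (fin (add (start D2063) D6542))
noncomputable def D6538 : OP := orK (nat_lit 147) (fin (add (start D5663) (orK (nat_lit 149) (fin (add (start D759) D771)))))
noncomputable def D6525 : AP := fin (add (start D754) D2025)
noncomputable def D6586 : OP := orK (nat_lit 150) (fin (add (start D1312) (orK (nat_lit 151) D6525)))
noncomputable def D6011 : OP := orK (nat_lit 232) (fin (add (start D4732) (orK (nat_lit 209) (fin (add (start D3038) D501)))))
noncomputable def D6015 : OP := orK (nat_lit 231) (fin (add (start D5987) (orK (nat_lit 230) (fin (add (start D3783) D6011)))))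
noncomputable def D5986 : OP := orK (nat_lit 230) D5985
noncomputable def D6526 : OP := orK (nat_lit 150) D6525
noncomputable def D6527 : AP := fin (add (start D5556) D6526)
noncomputable def D6583 : OP := orK (nat_lit 151) D6527
noncomputable def D6588 : OP := orK (nat_lit 211) (fin (add (add (add (start D6583) D5986) D6015) D6586))
noncomputable def D6020 : OP := orK (nat_lit 130) (fin (add (start D6017) (win (nat_lit 7) (nat_lit 10) (nat_lit 6) (nat_lit 4))))
noncomputable def D6016 : OP := win (nat_lit 6) (nat_lit 11) (nat_lit 6) (nat_lit 4)
noncomputable def D6028 : OP := orK (nat_lit 151) (fin (add (start D5556) (orK (nat_lit 212) (fin (add (start D1800) (orK (nat_lit 131) (fin (add (start D6016) (orK (nat_lit 112) (fin (add (start D1556) D6020)))))))))))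
noncomputable def D960 : OP := win (nat_lit 6) (nat_lit 10) (nat_lit 5) (nat_lit 0)
noncomputable def D1958 : OP := orK (nat_lit 130) (fin (add (start D960) D1311))
noncomputable def D6000 : AP := fin (add (start D1312) D1958)
noncomputable def D6001 : OP := orK (nat_lit 150) D6000
noncomputable def D6029 : AP := fin (add (add (add (start D5986) D6015) D6001) D6028)
noncomputable def D6477 : OP := orK (nat_lit 211) D6029
noncomputable def D6582 : OP := orK (nat_lit 172) (fin (add (start D2215) (orK (nat_lit 192) (fin (add (start D240) (orK (nat_lit 191) (fin (add (start D357) D6477))))))))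
noncomputable def D6736 : AP := fin (add (add (add (add (add (add (start (orK (nat_lit 148) (fin (add (add (add (start D6582) (orK (nat_lit 168) (fin (add (start D770) (orK (nat_lit 191) (fin (add (start D374) (orK (nat_lit 188) (fin (add (start D117) D6588)))))))))) D6538) D5679)))) (orK (nat_lit 151) (fin (add (add (add (start D6598) D4902) (orK (nat_lit 168) D2821)) D6609)))) D6273) (orK (nat_lit 192) (fin (add (add (start D6614) D6618) D6620)))) D6624) D6626) (orK (nat_lit 151) (fin (add (add (add (start D6627) D6631) D6635) D6733))))
noncomputable def D7130 : OP := win (nat_lit 7) (nat_lit 8) (nat_lit 6) (nat_lit 3)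
noncomputable def D7132 : OP := orK (nat_lit 128) (fin (add (start D980) D7130))
noncomputable def D7133 : AP := fin (add (start D7129) D7132)
noncomputable def D7134 : OP := orK (nat_lit 189) D7133
noncomputable def D7146 : OP := orK (nat_lit 191) (fin (add (start D374) (orK (nat_lit 211) (fin (add (start D5556) (orK (nat_lit 232) (fin (add (start D7096) (orK (nat_lit 231) (fin (add (start D4732) (orK (nat_lit 148) (fin (add (start D770) (orK (nat_lit 209) (fin (add (start D3038) D7134)))))))))))))))))
noncomputable def D7147 : AP := fin (add (start D119) D7146)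
noncomputable def D2124 : AP := fin (add (start D79) D1884)
noncomputable def D2125 : OP := orK (nat_lit 209) D2124
noncomputable def D6438 : OP := win (nat_lit 0) (nat_lit 7) (nat_lit 6) (nat_lit 5)
noncomputable def D1852 : OP := orK (nat_lit 109) (fin (add (start D984) D1529))
noncomputable def D5472 : OP := win (nat_lit 1) (nat_lit 9) (nat_lit 5) (nat_lit 1)
noncomputable def D6364 : OP := orK (nat_lit 110) (fin (add (start D5472) D1852))
noncomputable def D5475 : OP := orK (nat_lit 209) (fin (add (start D1922) D5473))
noncomputable def D1234 : OP := win (nat_lit 0) (nat_lit 8) (nat_lit 7) (nat_lit 0)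
noncomputable def D1358 : AP := fin (add (start D1234) D874)
noncomputable def D6436 : OP := orK (nat_lit 167) (fin (add (add (add (start D3542) (orK (nat_lit 186) (fin (add (start D2584) (orK (nat_lit 166) (fin (add (start D2583) (orK (nat_lit 148) (fin (add (start D770) (orK (nat_lit 149) (fin (add (start D925) D2813))))))))))))) (orK (nat_lit 186) (fin (add (start D2584) (orK (nat_lit 166) (fin (add (start D2583) (orK (nat_lit 145) (fin (add (start D6423) (orK (nat_lit 165) (fin (add (start D6424) (orK (nat_lit 149) (fin (add (start D2604) D2813)))))))))))))))) D6410))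
noncomputable def D6412 : OP := orK (nat_lit 167) (fin (add (start D2818) D6410))
noncomputable def D6458 : OP := orK (nat_lit 168) (fin (add (add (add (start D6314) (orK (nat_lit 151) (fin (add (start D119) D6412)))) D6436) (orK (nat_lit 151) (fin (add (start D119) (orK (nat_lit 150) (fin (add (start D754) (orK (nat_lit 149) (fin (add (start (orK (nat_lit 172) D1358)) (orK (nat_lit 189) (fin (add (start D5475) (orK (nat_lit 129) (fin (add (add (start D6364) (orK (nat_lit 130) (fin (add (start D875) (orK (nat_lit 128) (fin (add (start D5725) (orK (nat_lit 127) (fin (add (start D976) D6438)))))))))) (orK (nat_lit 109) (fin (add (start D1529) D5848))))))))))))))))))))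
noncomputable def D6531 : AP := fin (add (start D119) (orK (nat_lit 191) (fin (add (start D374) (orK (nat_lit 211) D6527)))))
noncomputable def D7602 : OP := orK (nat_lit 191) (fin (add (start D374) D6588))
noncomputable def D7606 : OP := orK (nat_lit 148) (fin (add (add (add (start D6582) (orK (nat_lit 168) (fin (add (start D770) D7602)))) D6538) D5679))
noncomputable def D8466 : AP := fin (add (add (add (add (add (add (start D7606) (orK (nat_lit 151) (fin (add (add (add (start D6598) D4902) (orK (nat_lit 168) D6531)) D6609)))) D6458) (orK (nat_lit 192) (fin (add (add (add (add (start D6612) D6618) (orK (nat_lit 191) (fin (add (start D357) (orK (nat_lit 193) (fin (add (start D1597) (orK (nat_lit 211) (fin (add (start D2125) D5986)))))))))) D6620) (orK (nat_lit 168) (fin (add (start D241) D6314))))))) D6624) D6626) (orK (nat_lit 151) (fin (add (add (add (start D6627) (orK (nat_lit 168) D7147)) (orK (nat_lit 168) (fin (add (add (start D6546) D6633) D7146)))) D6733))))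
noncomputable def D5768 : OP := win (nat_lit 3) (nat_lit 9) (nat_lit 6) (nat_lit 3)
noncomputable def D5769 : AP := fin (add (start D875) D5768)
noncomputable def D5770 : OP := orK (nat_lit 130) D5769
noncomputable def D25035 : OP := win (nat_lit 7) (nat_lit 10) (nat_lit 7) (nat_lit 3)
noncomputable def D3781 : OP := orK (nat_lit 188) (fin (add (start D451) D1891))
noncomputable def D25294 : OP := orK (nat_lit 228) (fin (add (start D9948) D3296))
noncomputable def D25034 : OP := orK (nat_lit 228) (fin (add (start D3307) D3296))
noncomputable def D25032 : OP := orK (nat_lit 228) D10009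
noncomputable def D25304 : OP := orK (nat_lit 208) (fin (add (add (add (start D25032) D25034) D25294) (orK (nat_lit 211) (fin (add (start D3781) (orK (nat_lit 191) (fin (add (start D342) (orK (nat_lit 231) (fin (add (start D49) (orK (nat_lit 150) (fin (add (start D25035) D5770))))))))))))))
noncomputable def D24771 : OP := orK (nat_lit 148) D7133
noncomputable def D24766 : OP := orK (nat_lit 229) (fin (add (start D4012) (orK (nat_lit 228) (fin (add (start D3065) (orK (nat_lit 208) (fin (add (start D3307) D4034))))))))
noncomputable def D25824 : OP := orK (nat_lit 168) (fin (add (add (start (orK (nat_lit 188) (fin (add (start D4875) D24766)))) D24771) D25822))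
noncomputable def D7548 : OP := orK (nat_lit 211) (fin (add (start D7546) D1911))
noncomputable def D7550 : OP := orK (nat_lit 227) (fin (add (start D3456) D7548))
noncomputable def D7552 : OP := orK (nat_lit 228) (fin (add (start D3065) D7550))
noncomputable def D24537 : OP := orK (nat_lit 229) (fin (add (start D5744) D7552))
noncomputable def D5771 : AP := fin (add (start D1922) D5770)
noncomputable def D5772 : OP := orK (nat_lit 150) D5771
noncomputable def D8311 : OP := orK (nat_lit 147) (fin (add (start D759) D8309))
noncomputable def D8313 : OP := orK (nat_lit 148) (fin (add (start D5243) D8311))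
noncomputable def D8317 : OP := orK (nat_lit 149) (fin (add (start D5473) (orK (nat_lit 150) (fin (add (start D5708) D8313)))))
noncomputable def D3787 : OP := orK (nat_lit 191) (fin (add (start D342) D3785))
noncomputable def D8627 : OP := orK (nat_lit 228) (fin (add (start D317) D104))
noncomputable def D18580 : OP := orK (nat_lit 166) (fin (add (start D7241) D2580))
noncomputable def D8621 : OP := win (nat_lit 6) (nat_lit 8) (nat_lit 6) (nat_lit 1)
noncomputable def D25758 : OP := orK (nat_lit 188) (fin (add (add (start D4479) (orK (nat_lit 168) (fin (add (add (start D4875) (orK (nat_lit 148) (fin (add (start D3429) D13073)))) (orK (nat_lit 128) (fin (add (start D8621) (orK (nat_lit 167) (fin (add (add (start (orK (nat_lit 166) (fin (add (start D7241) (orK (nat_lit 186) (fin (add (start D6869) D2583))))))) (orK (nat_lit 187) (fin (add (start D1890) (orK (nat_lit 147) (fin (add (start D2106) (orK (nat_lit 127) (fin (add (start D24896) D7658)))))))))) D18580)))))))))) (orK (nat_lit 211) (fin (add (start D1891) (orK (nat_lit 208) (fin (add (add (start D8627) (orK (nat_lit 231) (fin (add (start D49) (orK (nat_lit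 207) (fin (add (start D2459) (orK (nat_lit 206) (fin (add (start D305) (orK (nat_lit 191) (fin (add (start D342) D663))))))))))))) (orK (nat_lit 231) (fin (add (start D49) (orK (nat_lit 230) (fin (add (start D3035) (orK (nat_lit 248) (fin (add (start (win (nat_lit 3) (nat_lit 8) (nat_lit 8) (nat_lit 1))) D3787)))))))))))))))))
noncomputable def D5750 : OP := win (nat_lit 3) (nat_lit 9) (nat_lit 6) (nat_lit 4)
noncomputable def D5752 : OP := orK (nat_lit 130) (fin (add (start D5749) D5750))
noncomputable def D5758 : OP := orK (nat_lit 149) (fin (add (start D5473) (orK (nat_lit 208) (fin (add (start D3236) (orK (nat_lit 129) (fin (add (start D5748) D5752))))))))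
noncomputable def D24760 : OP := orK (nat_lit 149) D5971
noncomputable def D7275 : OP := win (nat_lit 0) (nat_lit 5) (nat_lit 8) (nat_lit 4)
noncomputable def D24899 : OP := orK (nat_lit 128) (fin (add (start D24896) D24897))
noncomputable def D25712 : OP := orK (nat_lit 147) (fin (add (start D2106) (orK (nat_lit 187) (fin (add (start D2107) (orK (nat_lit 127) (fin (add (add (start (orK (nat_lit 207) (fin (add (start D24899) (orK (nat_lit 208) (fin (add (start (win (nat_lit 6) (nat_lit 7) (nat_lit 6) (nat_lit 4))) D9067))))))) (orK (nat_lit 188) D17210)) (orK (nat_lit 107) (fin (add (start (orK (nat_lit 108) (fin (add (start (win (nat_lit 3) (nat_lit 7) (nat_lit 4) (nat_lit 5))) (win (nat_lit 3) (nat_lit 7) (nat_lit 5) (nat_lit 4)))))) D25704)))))))))))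
noncomputable def D24484 : OP := orK (nat_lit 228) (fin (add (start D3065) (orK (nat_lit 211) (fin (add (start D1891) D3459)))))
noncomputable def D24724 : OP := orK (nat_lit 229) (fin (add (start D4012) D24484))
noncomputable def D5767 : OP := orK (nat_lit 230) D3727
noncomputable def D5766 : OP := orK (nat_lit 229) (fin (add (start D5744) D5764))
noncomputable def D8318 : AP := fin (add (add (add (start D8317) D5766) D5767) D5772)
noncomputable def D24751 : OP := orK (nat_lit 189) D8318
noncomputable def D24710 : OP := orK (nat_lit 229) (fin (add (start D5744) (orK (nat_lit 230) (fin (add (start D4009) D4879)))))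
noncomputable def D7528 : AP := fin (add (start D3038) D4732)
noncomputable def D7529 : OP := orK (nat_lit 231) D7528
noncomputable def D7566 : OP := orK (nat_lit 211) (fin (add (start D5556) (orK (nat_lit 232) (fin (add (start D7096) D7529)))))
noncomputable def D25613 : OP := orK (nat_lit 171) (fin (add (start D119) (orK (nat_lit 191) (fin (add (start D374) D7566)))))
noncomputable def D11179 : OP := win (nat_lit 0) (nat_lit 6) (nat_lit 7) (nat_lit 3)
noncomputable def D11180 : AP := fin (add (start D11178) D11179)
noncomputable def D11181 : OP := orK (nat_lit 146) D11180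
noncomputable def D11182 : AP := fin (add (start D2629) D11181)
noncomputable def D24095 : OP := orK (nat_lit 148) D11182
noncomputable def D6532 : OP := orK (nat_lit 151) D6531
noncomputable def D24060 : OP := orK (nat_lit 146) (fin (add (start D13069) (orK (nat_lit 148) D11180)))
noncomputable def D13987 : OP := orK (nat_lit 231) (fin (add (start D2459) D49))
noncomputable def D13988 : AP := fin (add (start D13987) D671)
noncomputable def D13983 : OP := orK (nat_lit 230) (fin (add (start D2454) D2449))
noncomputable def D13993 : OP := orK (nat_lit 207) (fin (add (add (start (orK (nat_lit 206) (fin (add (start D13983) D3925)))) (orK (nat_lit 211) D13988)) (orK (nat_lit 206) (fin (add (start D3925) D663)))))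
noncomputable def D7326 : OP := orK (nat_lit 149) (fin (add (start D931) D375))
noncomputable def D24089 : AP := fin (add (start D4621) D7326)
noncomputable def D7378 : AP := fin (add (start D4032) D2518)
noncomputable def D7379 : OP := orK (nat_lit 228) D7378
noncomputable def D7383 : OP := orK (nat_lit 208) (fin (add (start D5644) (orK (nat_lit 227) (fin (add (start D7377) D7379)))))
noncomputable def D7327 : AP := fin (add (start D5644) D7326)
noncomputable def D7328 : OP := orK (nat_lit 188) D7327
noncomputable def D24167 : OP := orK (nat_lit 187) (fin (add (start D3315) D4290))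
noncomputable def D11183 : OP := orK (nat_lit 147) D11182
noncomputable def D12946 : OP := orK (nat_lit 166) (fin (add (start D2580) D12932))
noncomputable def D5773 : AP := fin (add (add (add (start D5758) D5766) D5767) D5772)
noncomputable def D24706 : OP := orK (nat_lit 189) D5773
noncomputable def D25831 : AP := fin (add (add (add (add (add (add (add (start D24706) (orK (nat_lit 189) (fin (add (add (add (start D8317) D24710) D5767) D5772)))) (orK (nat_lit 168) (fin (add (add (add (add (add (start (orK (nat_lit 167) (fin (add (add (start (orK (nat_lit 171) D6267)) (orK (nat_lit 171) D6269)) D12946)))) (orK (nat_lit 187) (fin (add (add (add (add (start D25601) (orK (nat_lit 171) (fin (add (start D2108) D6532)))) (orK (nat_lit 188) (fin (add (start D4290) (orK (nat_lit 208) D3347))))) (orK (nat_lit 186) (fin (add (start D2645) (orK (nat_lit 208) D16112))))) (orK (nat_lit 167) (fin (add (start D2107) (orK (nat_lit 151) (fin (add (start D2818) D25613)))))))))) (orK (nat_lit 148) (fin (add (add (add (start D11183) (orK (nat_lit 208) (fin (add (add (add (start (orK (nat_lit 188) (fin (add (start D5644) D24167)))) D7328)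 D13993) (orK (nat_lit 227) (fin (add (add (start (orK (nat_lit 207) (fin (add (start (win (nat_lit 1) (nat_lit 7) (nat_lit 7) (nat_lit 2))) D668)))) (orK (nat_lit 228) (fin (add (start D2518) D25626)))) D25632))))))) (orK (nat_lit 171) (fin (add (start D770) (orK (nat_lit 188) (fin (add (start D117) D7383))))))) (orK (nat_lit 147) (fin (add (add (start D11181) (orK (nat_lit 208) (fin (add (add (start D25642) D13993) (orK (nat_lit 188) D24089))))) (orK (nat_lit 146) (fin (add (start D11178) (orK (nat_lit 208) (fin (add (add (start D25642) D13993) (orK (nat_lit 188) (fin (add (start D4621) (orK (nat_lit 207) (fin (add (start D2831) (orK (nat_lit 187) (fin (add (start D944) D666)))))))))))))))))))))) (orK (nat_lit 147) (fin (add (add (add (start D24060) (orK (nat_lit 171) (fin (add (start D2105) D6532)))) (orK (nat_lit 167) (fin (add (start D2106) (orK (nat_lit 151) (fin (add (start D2818) (orK (nat_lit 171) (fin (add (start D119) (orK (nat_lit 191) (fin (add (start D374) (orK (nat_lit 211) (fin (add (start D5556) (orK (nat_lit 212) (fin (add (start D1800) (orK (nat_lit 228) (fin (add (start D105) (orK (nat_lit 208)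 (fin (add (start D104) D13062))))))))))))))))))))))))) D24095)))) (orK (nat_lit 167) (fin (add (add (start D12936) D25712) D7678)))) (orK (nat_lit 151) (fin (add (start D25613) D6412))))))) (orK (nat_lit 189) (fin (add (add (start D24710) D25758) D24537)))) D24751) (orK (nat_lit 189) (fin (add (add (add (start D5767) (orK (nat_lit 168) (fin (add (add (start (orK (nat_lit 188) (fin (add (start D4875) D24724)))) D13075) (orK (nat_lit 167) (fin (add (add (add (add (add (start D6410) D25712) (orK (nat_lit 148) (fin (add (add (start D7322) (orK (nat_lit 186) (fin (add (start D2584) (orK (nat_lit 166) (fin (add (start D2583) (orK (nat_lit 165) (fin (add (start D7275) (orK (nat_lit 144) (fin (add (start (win (nat_lit 2) (nat_lit 4) (nat_lit 7) (nat_lit 4))) (orK (nat_lit 164) (fin (add (start (win (nat_lit 2) (nat_lit 3) (nat_lit 7) (nat_lit 5))) (win (nat_lit 4) (nat_lit 4) (nat_lit 7) (nat_lit 4)))))))))))))))))) (orK (nat_lit 187) (fin (add (start D2107) (orK (nat_lit 128) (fin (add (start D2639) (orK (nat_lit 207) (fin (add (start (win (nat_lit 3) (nat_lit 7) (nat_lit 6) (nat_lit 3))) D17201))))))))))))) (orK (nat_lit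 186) (fin (add (start D2584) (orK (nat_lit 166) (fin (add (start D2583) (orK (nat_lit 165) (fin (add (start D7275) D25786)))))))))) (orK (nat_lit 146) (fin (add (start D2578) (orK (nat_lit 166) (fin (add (start D2577) (orK (nat_lit 188) (fin (add (start D7241) (orK (nat_lit 211) (fin (add (start D1891) (orK (nat_lit 208) (fin (add (start D451) (orK (nat_lit 231) (fin (add (start D49) (orK (nat_lit 207) (fin (add (start D2459) (orK (nat_lit 148) (fin (add (start D2831) D3429))))))))))))))))))))))))) (orK (nat_lit 146) (fin (add (start D2578) (orK (nat_lit 166) (fin (add (start D2577) (orK (nat_lit 165) (fin (add (start D7275) D2608)))))))))))))))) D24760) D25824)))) (orK (nat_lit 189) (fin (add (add (add (start D5758) D25758) D8317) D25304)))) (orK (nat_lit 189) (fin (add (add (add (start D5772) D24537) D25824) D25304))))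
noncomputable def D25404 : OP := orK (nat_lit 229) (fin (add (start D5744) (orK (nat_lit 250) (fin (add (start D7554) (orK (nat_lit 249) (fin (add (start D4095) D4160))))))))
noncomputable def D3978 : OP := orK (nat_lit 187) D3812
noncomputable def D3773 : OP := orK (nat_lit 205) (fin (add (start D3771) D3366))
noncomputable def D3777 : OP := orK (nat_lit 186) (fin (add (start D653) (orK (nat_lit 206) (fin (add (start D654) D3773)))))
noncomputable def D25464 : AP := fin (add (start (win (nat_lit 0) (nat_lit 4) (nat_lit 10) (nat_lit 4))) (orK (nat_lit 224) (fin (add (start (win (nat_lit 5) (nat_lit 3) (nat_lit 10) (nat_lit 5))) (win (nat_lit 5) (nat_lit 4) (nat_lit 10) (nat_lit 4))))))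
noncomputable def D25504 : OP := orK (nat_lit 208) (fin (add (add (start D25034) (orK (nat_lit 207) (fin (add (add (add (add (start D4006) D4432) (orK (nat_lit 206) (fin (add (add (add (start D663) (orK (nat_lit 205) (fin (add (start D3771) (orK (nat_lit 184) (fin (add (start D10118) (orK (nat_lit 204) (fin (add (start D25220) (orK (nat_lit 227) (fin (add (start (win (nat_lit 0) (nat_lit 4) (nat_lit 10) (nat_lit 5))) D668))))))))))))) (orK (nat_lit 205) (fin (add (start D3771) (orK (nat_lit 184) (fin (add (start D10118) (orK (nat_lit 204) (fin (add (start D25220) (orK (nat_lit 228) D25464))))))))))) D3773)))) (orK (nat_lit 228) (fin (add (add (start D9948) (orK (nat_lit 186) (fin (add (start D653) (orK (nat_lit 206) (fin (add (start D654) (orK (nat_lit 205) (fin (add (start D3771) (orK (nat_lit 204) D25464))))))))))) (orK (nat_lit 187) (fin (add (start D666) (orK (nat_lit 248) (fin (add (start D312) (orK (nat_lit 167) D3303))))))))))) D3777)))) (orK (nat_lit 188) (fin (add (start D3978) (orK (nat_lit 149) (fin (add (start D318) (orK (nat_lit 150) (fin (add (start D5708) (orK (nat_lit 148) (fin (add (start D5243)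 (orK (nat_lit 147) (fin (add (start D759) (orK (nat_lit 127) (fin (add (start D566) (win (nat_lit 7) (nat_lit 7) (nat_lit 6) (nat_lit 2))))))))))))))))))))))
noncomputable def D10193 : OP := orK (nat_lit 227) (fin (add (start D3456) D2518))
noncomputable def D25520 : OP := orK (nat_lit 229) (fin (add (add (start D4483) (orK (nat_lit 228) (fin (add (start D3065) (orK (nat_lit 208) (fin (add (start D3307) D10193))))))) D16098))
noncomputable def D6052 : OP := orK (nat_lit 232) (fin (add (start D412) D411))
noncomputable def D25156 : OP := orK (nat_lit 212) (fin (add (start D6052) D2513))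
noncomputable def D25264 : OP := orK (nat_lit 211) (fin (add (start D25156) D21622))
noncomputable def D19222 : OP := orK (nat_lit 207) (fin (add (add (start D9260) D4006) D2465))
noncomputable def D4222 : OP := win (nat_lit 0) (nat_lit 8) (nat_lit 11) (nat_lit 0)
noncomputable def D12248 : AP := fin (add (start D4222) D4352)
noncomputable def D12249 : OP := orK (nat_lit 229) D12248
noncomputable def D24859 : OP := orK (nat_lit 207) (fin (add (start D2459) D666))
noncomputable def D12948 : OP := orK (nat_lit 166) (fin (add (start D12932) D2586))
noncomputable def D883 : AP := fin (add (start D881) D882)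
noncomputable def D6468 : OP := orK (nat_lit 150) D883
noncomputable def D7210 : OP := orK (nat_lit 230) D3833
noncomputable def D10817 : AP := fin (add (start D3629) (orK (nat_lit 230) D3831))
noncomputable def D10818 : OP := orK (nat_lit 232) D10817
noncomputable def D24529 : OP := orK (nat_lit 207) D13988
noncomputable def D25162 : OP := orK (nat_lit 211) (fin (add (add (start D25156) D24529) (orK (nat_lit 212) (fin (add (start D2513) D107)))))
noncomputable def D10756 : OP := win (nat_lit 3) (nat_lit 7) (nat_lit 8) (nat_lit 2)
noncomputable def D7560 : OP := orK (nat_lit 248) (fin (add (start D7553) (orK (nat_lit 249) (fin (add (start D4016) D7556)))))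
noncomputable def D18689 : OP := orK (nat_lit 187) (fin (add (start D1890) (orK (nat_lit 229) (fin (add (add (start D11108) D7560) (orK (nat_lit 168) (fin (add (start D3044) (orK (nat_lit 228) (fin (add (start D3065) (orK (nat_lit 227) (fin (add (start D3456) (orK (nat_lit 247) (fin (add (start D18653) D10756)))))))))))))))))
noncomputable def D11112 : OP := orK (nat_lit 229) (fin (add (start D11108) (orK (nat_lit 228) (fin (add (start D3065) D3459)))))
noncomputable def D18693 : OP := orK (nat_lit 211) (fin (add (start D1891) D11112))
noncomputable def D25449 : OP := orK (nat_lit 149) (fin (add (start D5473) (orK (nat_lit 130) (fin (add (start D5750) (orK (nat_lit 129) (fin (add (start D5749) D5964))))))))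
noncomputable def D24531 : OP := orK (nat_lit 207) (fin (add (start D13987) D2461))
noncomputable def D18787 : OP := orK (nat_lit 188) (fin (add (start D451) D8627))
noncomputable def D24533 : OP := orK (nat_lit 208) (fin (add (add (start D18787) D24529) D24531))
noncomputable def D2972 : OP := win (nat_lit 6) (nat_lit 12) (nat_lit 10) (nat_lit 5)
noncomputable def D2971 : OP := win (nat_lit 6) (nat_lit 12) (nat_lit 9) (nat_lit 4)
noncomputable def D2979 : OP := win (nat_lit 1) (nat_lit 11) (nat_lit 9) (nat_lit 5)
noncomputable def D2980 : OP := win (nat_lit 1) (nat_lit 11) (nat_lit 8) (nat_lit 4)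
noncomputable def D21256 : OP := orK (nat_lit 132) (fin (add (start D1159) D1164))
noncomputable def D3873 : OP := win (nat_lit 3) (nat_lit 12) (nat_lit 7) (nat_lit 4)
noncomputable def D6042 : OP := orK (nat_lit 231) D6041
noncomputable def D25422 : AP := fin (add (start D845) (orK (nat_lit 232) (fin (add (start D411) (orK (nat_lit 172) (fin (add (add (start D6042) (orK (nat_lit 153) (fin (add (start D3873) (orK (nat_lit 152) (fin (add (start D3872) D21256))))))) (orK (nat_lit 251) (fin (add (start D2980) (orK (nat_lit 252) (fin (add (start D2979) (orK (nat_lit 273) (fin (add (start D2971) (orK (nat_lit 272) (fin (add (start D2972) (win (nat_lit 7) (nat_lit 11) (nat_lit 9) (nat_lit 5)))))))))))))))))))))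
noncomputable def D4438 : OP := orK (nat_lit 186) (fin (add (start D653) D671))
noncomputable def D25441 : OP := orK (nat_lit 211) (fin (add (add (add (start D3737) (orK (nat_lit 212) (fin (add (start D439) (orK (nat_lit 192) D25422))))) (orK (nat_lit 192) (fin (add (add (add (start (orK (nat_lit 191) D4745)) (orK (nat_lit 208) (fin (add (start D846) (orK (nat_lit 231) (fin (add (start D49) (orK (nat_lit 207) (fin (add (start D2459) D4438)))))))))) (orK (nat_lit 212) D25435)) (orK (nat_lit 212) D25422))))) D24533))
noncomputable def D24750 : OP := orK (nat_lit 189) (fin (add (add (add (start (orK (nat_lit 149) (fin (add (start D5473) (orK (nat_lit 130) (fin (add (start D5750) (orK (nat_lit 129) (fin (add (start D5749) (orK (nat_lit 188) (fin (add (start D5721) D5964))))))))))))) (orK (nat_lit 229) (fin (add (start D5744) (orK (nat_lit 250) (fin (add (start D7554) (orK (nat_lit 249) (fin (add (start D4095) (orK (nat_lit 268) (fin (add (start D1898) D4160))))))))))))) D5767) D5772))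
noncomputable def D3982 : OP := orK (nat_lit 191) (fin (add (start D342) (orK (nat_lit 171) (fin (add (start D3782) D2130)))))
noncomputable def D25318 : OP := orK (nat_lit 188) (fin (add (start D451) D3982))
noncomputable def D25341 : OP := orK (nat_lit 208) (fin (add (start D9679) (orK (nat_lit 211) (fin (add (start D15796) D25318)))))
noncomputable def D25388 : OP := orK (nat_lit 229) (fin (add (start D5744) (orK (nat_lit 230) (fin (add (start D4009) D25341)))))
noncomputable def D8004 : OP := win (nat_lit 3) (nat_lit 11) (nat_lit 6) (nat_lit 4)
noncomputable def D7991 : OP := orK (nat_lit 231) (fin (add (start D5987) (orK (nat_lit 250) (fin (add (start D7262) (orK (nat_lit 251) (fin (add (start D7263) D7985))))))))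
noncomputable def D8013 : AP := fin (add (add (add (start D5986) D7991) D6001) (orK (nat_lit 151) (fin (add (start D5556) (orK (nat_lit 132) (fin (add (start D8004) (orK (nat_lit 131) (fin (add (start D1566) (orK (nat_lit 192) (fin (add (start D1559) D6020)))))))))))))
noncomputable def D24957 : AP := fin (add (start D5987) (orK (nat_lit 232) D7528))
noncomputable def D8014 : OP := orK (nat_lit 191) D8013
noncomputable def D5989 : OP := win (nat_lit 6) (nat_lit 11) (nat_lit 8) (nat_lit 4)
noncomputable def D2966 : OP := win (nat_lit 7) (nat_lit 11) (nat_lit 9) (nat_lit 0)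
noncomputable def D3167 : OP := win (nat_lit 7) (nat_lit 11) (nat_lit 8) (nat_lit 3)
noncomputable def D6187 : OP := orK (nat_lit 252) (fin (add (start D3167) D2966))
noncomputable def D2858 : OP := win (nat_lit 6) (nat_lit 11) (nat_lit 7) (nat_lit 0)
noncomputable def D6189 : OP := orK (nat_lit 232) (fin (add (start D2858) D6187))
noncomputable def D8286 : OP := orK (nat_lit 191) (fin (add (add (start D6189) (orK (nat_lit 231) (fin (add (start D5987) (orK (nat_lit 252) (fin (add (start D5989) (orK (nat_lit 251) (fin (add (start D4691) (orK (nat_lit 270) (fin (add (start D6178) (orK (nat_lit 271) (fin (add (start D4755) D8256)))))))))))))))) D6001))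
noncomputable def D24526 : OP := orK (nat_lit 212) (fin (add (start D439) D8286))
noncomputable def D2132 : OP := orK (nat_lit 188) (fin (add (start D1891) D2130))
noncomputable def D25384 : OP := orK (nat_lit 211) (fin (add (add (add (start D3737) (orK (nat_lit 171) (fin (add (add (add (start D2132) D24526) D8014) D4885)))) (orK (nat_lit 191) (fin (add (add (start D4746) (orK (nat_lit 171) (fin (add (add (start (orK (nat_lit 231) D24957)) D5986) (orK (nat_lit 151) (fin (add (start D5556) (orK (nat_lit 152) (fin (add (start D1795) D3597)))))))))) (orK (nat_lit 171) D8013))))) D24533))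
noncomputable def D24757 : OP := orK (nat_lit 149) (fin (add (start D5473) (orK (nat_lit 208) (fin (add (start D3236) (orK (nat_lit 129) (fin (add (start D5748) D5964))))))))
noncomputable def D25346 : AP := fin (add (start D49) (orK (nat_lit 191) (fin (add (start D4671) D342))))
noncomputable def D25286 : OP := orK (nat_lit 226) (fin (add (start D661) (orK (nat_lit 206) (fin (add (start D660) D3957)))))
noncomputable def D25370 : OP := orK (nat_lit 230) (fin (add (add (start D3726) (orK (nat_lit 229) (fin (add (add (add (start D4475) (orK (nat_lit 248) (fin (add (start D7553) (orK (nat_lit 249) (fin (add (start D4016) (orK (nat_lit 269) (fin (add (start D4089) (orK (nat_lit 231) (fin (add (start D5125) (orK (nat_lit 208) (fin (add (start D3035) D4123)))))))))))))))) (orK (nat_lit 208) (fin (add (add (start D9679) (orK (nat_lit 211) (fin (add (add (start D3781) D3354) D25318)))) (orK (nat_lit 207) (fin (add (start D2448) (orK (nat_lit 187) (fin (add (start D666) (orK (nat_lit 188) (fin (add (start D3315) (orK (nat_lit 227) (fin (add (start D668) (orK (nat_lit 247) (fin (add (start D5071) (orK (nat_lit 246) (fin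 (add (start D10077) (orK (nat_lit 248) (fin (add (start D25321) D4420))))))))))))))))))))))))) D25341)))) (orK (nat_lit 250) (fin (add (start D3724) (orK (nat_lit 208) (fin (add (add (add (start (orK (nat_lit 231) (fin (add (start D3035) (orK (nat_lit 211) D25346))))) (orK (nat_lit 207) (fin (add (start D2449) D25286)))) (orK (nat_lit 211) (fin (add (add (start (orK (nat_lit 231) D25346)) (orK (nat_lit 231) (fin (add (start D49) (orK (nat_lit 228) (fin (add (start D104) (orK (nat_lit 248) (fin (add (start D312) (orK (nat_lit 188) (fin (add (start D1891) (orK (nat_lit 247) (fin (add (start D3746) (win (nat_lit 4) (nat_lit 7) (nat_lit 11) (nat_lit 2)))))))))))))))))) D25362)))) D25294))))))))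
noncomputable def D25029 : OP := orK (nat_lit 228) D10361
noncomputable def D25292 : OP := orK (nat_lit 208) (fin (add (start (orK (nat_lit 211) (fin (add (start D3354) (orK (nat_lit 207) (fin (add (add (add (start D2461) (orK (nat_lit 188) (fin (add (start D451) (orK (nat_lit 206) (fin (add (start D305) D663))))))) D25286) D4006))))))) D25029))
noncomputable def D6907 : OP := orK (nat_lit 289) (fin (add (start D6893) (orK (nat_lit 290) (fin (add (start (win (nat_lit 6) (nat_lit 9) (nat_lit 10) (nat_lit 4))) (win (nat_lit 6) (nat_lit 9) (nat_lit 11) (nat_lit 5)))))))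
noncomputable def D6911 : OP := orK (nat_lit 268) (fin (add (start D1898) (orK (nat_lit 269) (fin (add (start D1899) D6907)))))
noncomputable def D6843 : OP := orK (nat_lit 268) (fin (add (start D1898) (orK (nat_lit 269) (fin (add (start D1899) D4105)))))
noncomputable def D24510 : OP := orK (nat_lit 249) (fin (add (add (add (start D7556) D6843) D6911) (orK (nat_lit 268) (fin (add (start D1898) (orK (nat_lit 269) (fin (add (start D1899) (orK (nat_lit 230) (fin (add (start D4089) D4009)))))))))))
noncomputable def D24522 : OP := orK (nat_lit 229) (fin (add (start D5744) D24510))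
noncomputable def D25225 : OP := orK (nat_lit 184) (fin (add (start D10118) (orK (nat_lit 204) (fin (add (start D25220) (win (nat_lit 4) (nat_lit 4) (nat_lit 9) (nat_lit 5)))))))
noncomputable def D5465 : OP := orK (nat_lit 173) (fin (add (start D2394) D235))
noncomputable def D7831 : OP := win (nat_lit 7) (nat_lit 10) (nat_lit 7) (nat_lit 2)
noncomputable def D7428 : OP := orK (nat_lit 152) (fin (add (start D2727) D281))
noncomputable def D24837 : OP := orK (nat_lit 193) (fin (add (start D2059) D1884))
noncomputable def D24712 : OP := orK (nat_lit 191) (fin (add (start D342) D5987))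
noncomputable def D25169 : OP := orK (nat_lit 191) (fin (add (start D342) (orK (nat_lit 231) (fin (add (start D49) (orK (nat_lit 171) (fin (add (start D5987) (orK (nat_lit 230) D3784)))))))))
noncomputable def D14005 : OP := win (nat_lit 5) (nat_lit 7) (nat_lit 11) (nat_lit 1)
noncomputable def D25397 : AP := fin (add (add (add (add (add (add (add (start D24706) (orK (nat_lit 189) (fin (add (add (add (start D8317) D24522) D5767) D5772)))) (orK (nat_lit 208) (fin (add (add (add (add (add (start D25162) (orK (nat_lit 211) (fin (add (add (start D2560) D25169) (orK (nat_lit 228) (fin (add (start D104) (orK (nat_lit 229) (fin (add (start D1911) (orK (nat_lit 231) (fin (add (start D49) (orK (nat_lit 188) (fin (add (start D451) (orK (nat_lit 269) (fin (add (start D4217) (orK (nat_lit 248) (fin (add (start (orK (nat_lit 247) (fin (add (start D3746) D14005)))) D12535)))))))))))))))))))))) (orK (nat_lit 187) (fin (add (add (add (start D16113) (orK (nat_lit 211) (fin (add (start D667) D25169)))) (orK (nat_lit 231) (fin (add (add (start D24859) (orK (nat_lit 211) (fin (add (start D49) (orK (nat_lit 191) (fin (add (start D342)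 (orK (nat_lit 171) (fin (add (start D5987) (orK (nat_lit 151) (fin (add (start D5556) D17504))))))))))))) (orK (nat_lit 211) (fin (add (start D49) (orK (nat_lit 186) (fin (add (start D3273) (orK (nat_lit 171) (fin (add (add (add (start D24712) (orK (nat_lit 192) (fin (add (start D846) D24837)))) (orK (nat_lit 172) (fin (add (add (start D5619) (orK (nat_lit 192) (fin (add (start D240) D7428)))) D5465)))) (orK (nat_lit 172) (fin (add (add (start (orK (nat_lit 152) (fin (add (start D4793) D281)))) (orK (nat_lit 149) (fin (add (start D276) (orK (nat_lit 150) (fin (add (start D874) D7831))))))) D5465)))))))))))))))) (orK (nat_lit 207) (fin (add (start D666) (orK (nat_lit 230) (fin (add (start D2449) (orK (nat_lit 206) (fin (add (start D2454) (orK (nat_lit 225) (fin (add (start D3364) (orK (nat_lit 205) (fin (add (start D3363) D25225))))))))))))))))))) (orK (nat_lit 207) (fin (add (add (add (start D9258) D9260) D4006) (orK (nat_lit 230) (fin (add (start D2449) (orK (nat_lit 227) (fin (add (start D668) (orK (nat_lit 187) (fin (add (start D666) (orK (nat_lit 248) (fin (add (start (orK (nat_lit 247) (fin (add (start D4420)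 (orK (nat_lit 266) (fin (add (start D12728) (orK (nat_lit 267) (fin (add (start D12729) D13747)))))))))) (orK (nat_lit 167) (fin (add (start D4419) (orK (nat_lit 146) (fin (add (start D4410) (orK (nat_lit 147) (fin (add (start D4409) (orK (nat_lit 148) (fin (add (start D11179) D4408)))))))))))))))))))))))))))) D25264) (orK (nat_lit 187) (fin (add (add (add (start D16113) (orK (nat_lit 211) (fin (add (start D667) D2560)))) D3289) (orK (nat_lit 207) (fin (add (start D666) (orK (nat_lit 226) (fin (add (start D661) (orK (nat_lit 206) (fin (add (start D660) (orK (nat_lit 229) (fin (add (start D2421) (orK (nat_lit 205) (fin (add (start D3362) D25225)))))))))))))))))))))) (orK (nat_lit 189) (fin (add (add (add (start D5772) D24537) D25292) D25304)))) (orK (nat_lit 189) (fin (add (add (add (add (start D24522) D24537) D25370) D25384) D25388)))) (orK (nat_lit 189) (fin (add (add (add (start D5767) D25292) D25370) D24760)))) (orK (nat_lit 189) (fin (add (add (add (start D8317) D24757) D25384) D25304)))) (orK (nat_lit 189) (fin (add (add (add (start D5758) D25388) D5767) D5772))))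
noncomputable def D6513 : AP := fin (add (start D5556) (orK (nat_lit 212) (fin (add (start D1801) D1800))))
noncomputable def D24295 : OP := orK (nat_lit 192) (fin (add (start D357) (orK (nat_lit 211) D6513)))
noncomputable def D7495 : OP := win (nat_lit 3) (nat_lit 9) (nat_lit 2) (nat_lit 5)
noncomputable def D7494 : OP := win (nat_lit 3) (nat_lit 9) (nat_lit 3) (nat_lit 4)
noncomputable def D7480 : OP := win (nat_lit 5) (nat_lit 5) (nat_lit 6) (nat_lit 5)
noncomputable def D7474 : OP := win (nat_lit 2) (nat_lit 5) (nat_lit 5) (nat_lit 5)
noncomputable def D7477 : OP := orK (nat_lit 106) (fin (add (start D7474) (win (nat_lit 2) (nat_lit 6) (nat_lit 5) (nat_lit 4))))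
noncomputable def D7449 : OP := win (nat_lit 0) (nat_lit 6) (nat_lit 6) (nat_lit 5)
noncomputable def D7459 : OP := win (nat_lit 5) (nat_lit 6) (nat_lit 6) (nat_lit 5)
noncomputable def D7519 : OP := orK (nat_lit 189) (fin (add (add (add (start D5712) (orK (nat_lit 129) (fin (add (add (add (add (start D5852) (orK (nat_lit 130) (fin (add (start D5749) (orK (nat_lit 128) (fin (add (start D5725) (orK (nat_lit 208) (fin (add (start D5748) (orK (nat_lit 127) (fin (add (add (start (orK (nat_lit 147) (fin (add (start D7459) (orK (nat_lit 148) (fin (add (start D5664) (win (nat_lit 5) (nat_lit 7) (nat_lit 6) (nat_lit 0))))))))) (orK (nat_lit 126) (fin (add (start D7449) D7477)))) (orK (nat_lit 126) (fin (add (start D7477) (orK (nat_lit 146) (fin (add (start D7480) (win (nat_lit 5) (nat_lit 6) (nat_lit 6) (nat_lit 4))))))))))))))))))))) (orK (nat_lit 208) (fin (add (start D5748) (orK (nat_lit 109) (fin (add (add (add (start D5848) (orK (nat_lit 89) (fin (add (start D5723) (orK (nat_lit 70) (fin (add (start D7494) (orK (nat_lit 69) (fin (add (start D7495) (orK (nat_lit 128) (fin (add (start (win (nat_lit 1) (nat_lit 8) (nat_lit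 3) (nat_lit 5))) D5725))))))))))))) (orK (nat_lit 89) (fin (add (start D5723) (orK (nat_lit 70) (fin (add (start D7494) (orK (nat_lit 69) (fin (add (start D7495) (orK (nat_lit 148) D5907))))))))))) D5934))))))) D5928) D5940)))) D5961) D5972))
noncomputable def D7521 : OP := orK (nat_lit 149) (fin (add (add (start D5842) D5844) D7519))
noncomputable def D6293 : OP := orK (nat_lit 151) D6292
noncomputable def D5774 : OP := orK (nat_lit 209) D5773
noncomputable def D6282 : OP := orK (nat_lit 189) (fin (add (start D226) (orK (nat_lit 209) (fin (add (add (add (start (orK (nat_lit 149) (fin (add (start D5473) (orK (nat_lit 150) (fin (add (start D874) D5708))))))) D5766) D5767) D5772)))))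
noncomputable def D6295 : OP := orK (nat_lit 152) (fin (add (add (add (start (orK (nat_lit 172) (fin (add (start D281) D6282)))) (orK (nat_lit 151) D4901)) (orK (nat_lit 168) (fin (add (start D280) (orK (nat_lit 188) (fin (add (start D117) (orK (nat_lit 189) (fin (add (start D2130) D5774)))))))))) D6293))
noncomputable def D1178 : OP := win (nat_lit 7) (nat_lit 11) (nat_lit 7) (nat_lit 5)
noncomputable def D5689 : OP := orK (nat_lit 208) (fin (add (start D3236) (orK (nat_lit 211) (fin (add (start D846) (orK (nat_lit 232) (fin (add (start D412) (orK (nat_lit 212) (fin (add (start D411) D1178)))))))))))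
noncomputable def D5697 : OP := orK (nat_lit 192) (fin (add (start D240) (orK (nat_lit 189) (fin (add (start D226) (orK (nat_lit 149) (fin (add (start D276) (orK (nat_lit 209) (fin (add (start D5473) D5689)))))))))))
noncomputable def D5836 : OP := orK (nat_lit 148) (fin (add (start D2215) (orK (nat_lit 168) (fin (add (start D770) D244)))))
noncomputable def D6554 : OP := orK (nat_lit 172) (fin (add (add (add (start D2221) D248) D5836) D5697))
noncomputable def D7684 : OP := orK (nat_lit 168) (fin (add (add (add (add (start D2114) D5656) (orK (nat_lit 192) (fin (add (start D241) (orK (nat_lit 167) (fin (add (add (start D2110) (orK (nat_lit 150) (fin (add (start D882) (orK (nat_lit 166) (fin (add (start D7240) (orK (nat_lit 145) (fin (add (start D6423) (orK (nat_lit 165) (fin (add (start D6424) D2608))))))))))))) (orK (nat_lit 150) (fin (add (start D882) (orK (nat_lit 166) (fin (add (start D7240) (orK (nat_lit 145) (fin (add (start D6423) (orK (nat_lit 165) (fin (add (start D6424) (orK (nat_lit 188) (fin (add (start D5799) D117)))))))))))))))))))))) (orK (nat_lit 147) (fin (add (start D2105) (orK (nat_lit 167) (fin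 (add (start D2106) (orK (nat_lit 150) (fin (add (start D882) (orK (nat_lit 149) (fin (add (start D881) (orK (nat_lit 189) (fin (add (start D5475) (orK (nat_lit 129) (fin (add (start (orK (nat_lit 127) (fin (add (start (orK (nat_lit 128) (fin (add (start D976) D5725)))) (orK (nat_lit 188) (fin (add (start D5721) D7658))))))) D6364))))))))))))))))))) (orK (nat_lit 147) (fin (add (start D2105) (orK (nat_lit 167) (fin (add (start D2106) D7678))))))))
noncomputable def D5488 : OP := orK (nat_lit 131) (fin (add (start D1293) (win (nat_lit 6) (nat_lit 11) (nat_lit 6) (nat_lit 3))))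
noncomputable def D5490 : OP := orK (nat_lit 151) (fin (add (start D1372) D5488))
noncomputable def D6557 : AP := fin (add (start D3236) D5473)
noncomputable def D5780 : OP := orK (nat_lit 193) (fin (add (start D230) (orK (nat_lit 173) (fin (add (start D231) D2392)))))
noncomputable def D6564 : OP := orK (nat_lit 189) (fin (add (add (start D5712) (orK (nat_lit 172) (fin (add (start D226) D5780)))) (orK (nat_lit 188) (fin (add (start D2130) (orK (nat_lit 208) (fin (add (start D318) (orK (nat_lit 209) D6557)))))))))
noncomputable def D24246 : AP := fin (add (start D117) D16084)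
noncomputable def D6301 : AP := fin (add (start D5703) (orK (nat_lit 209) (fin (add (start D4477) D5767))))
noncomputable def D6304 : OP := orK (nat_lit 189) (fin (add (start D2130) (orK (nat_lit 187) D6301)))
noncomputable def D6298 : OP := orK (nat_lit 168) D5655
noncomputable def D5790 : OP := orK (nat_lit 187) (fin (add (start D1923) (orK (nat_lit 189) (fin (add (start D5703) D2130)))))
noncomputable def D7626 : OP := orK (nat_lit 151) (fin (add (start D5556) (orK (nat_lit 150) (fin (add (start D2025) (orK (nat_lit 168) (fin (add (start D754) (orK (nat_lit 188) (fin (add (start D117) (orK (nat_lit 189) (fin (add (start D2130) (orK (nat_lit 148) (fin (add (start D770) (orK (nat_lit 212) (fin (add (start D297) D1800))))))))))))))))))))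
noncomputable def D5991 : OP := orK (nat_lit 252) (fin (add (start D5989) D4691))
noncomputable def D7267 : OP := orK (nat_lit 250) (fin (add (start D7262) (orK (nat_lit 251) (fin (add (start D7263) D5991)))))
noncomputable def D7366 : OP := orK (nat_lit 231) (fin (add (start D5987) D7267))
noncomputable def D24629 : AP := fin (add (add (add (start D5986) (orK (nat_lit 231) (fin (add (start D5987) (orK (nat_lit 250) (fin (add (start D7262) (orK (nat_lit 251) (fin (add (start D7263) (orK (nat_lit 192) (fin (add (start D4758) D5991))))))))))))) D6001) D6028)
noncomputable def D25061 : OP := orK (nat_lit 211) D24629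
noncomputable def D1102 : OP := win (nat_lit 2) (nat_lit 10) (nat_lit 7) (nat_lit 4)
noncomputable def D1116 : OP := orK (nat_lit 174) (fin (add (start D1102) D1114))
noncomputable def D1202 : OP := win (nat_lit 2) (nat_lit 9) (nat_lit 7) (nat_lit 5)
noncomputable def D2052 : AP := fin (add (start D1202) D1116)
noncomputable def D5544 : OP := orK (nat_lit 150) D2052
noncomputable def D5813 : OP := orK (nat_lit 173) (fin (add (start D231) D5544))
noncomputable def D5815 : OP := orK (nat_lit 193) (fin (add (start D230) D5813))
noncomputable def D7608 : OP := orK (nat_lit 172) (fin (add (start D242) D5815))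
noncomputable def D3805 : OP := orK (nat_lit 248) (fin (add (start D312) D3803))
noncomputable def D3792 : OP := win (nat_lit 0) (nat_lit 6) (nat_lit 9) (nat_lit 2)
noncomputable def D3815 : OP := orK (nat_lit 187) (fin (add (add (add (start (orK (nat_lit 186) (fin (add (start D3792) D3273)))) (orK (nat_lit 228) (fin (add (add (start D3296) (orK (nat_lit 248) (fin (add (start D312) D3306)))) (orK (nat_lit 188) (fin (add (start D3315) (orK (nat_lit 248) (fin (add (start D312) D3316)))))))))) (orK (nat_lit 207) (fin (add (start D666) (orK (nat_lit 227) (fin (add (start D668) (orK (nat_lit 228) (fin (add (start D2518) D3805)))))))))) (orK (nat_lit 188) D3812)))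
noncomputable def D10984 : OP := orK (nat_lit 192) (fin (add (start D846) (orK (nat_lit 212) (fin (add (start D845) (orK (nat_lit 233) (fin (add (start D103) D107))))))))
noncomputable def D945 : OP := win (nat_lit 3) (nat_lit 7) (nat_lit 7) (nat_lit 3)
noncomputable def D6225 : OP := orK (nat_lit 232) (fin (add (start D501) D4732))
noncomputable def D11437 : OP := orK (nat_lit 230) (fin (add (start D3783) D6225))
noncomputable def D24830 : AP := fin (add (start D5987) D11437)
noncomputable def D7271 : AP := fin (add (start D3038) D7270)
noncomputable def D1888 : OP := orK (nat_lit 192) (fin (add (start D79) (orK (nat_lit 193) (fin (add (start D1597) D1884)))))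
noncomputable def D24615 : AP := fin (add (start D3038) D19756)
noncomputable def D24908 : OP := orK (nat_lit 127) (fin (add (start D24899) (orK (nat_lit 126) (fin (add (start (win (nat_lit 7) (nat_lit 6) (nat_lit 5) (nat_lit 5))) (win (nat_lit 7) (nat_lit 6) (nat_lit 6) (nat_lit 4)))))))
noncomputable def D12765 : OP := orK (nat_lit 226) (fin (add (start D12763) D12691))
noncomputable def D12777 : AP := fin (add (start D12765) D4412)
noncomputable def D24902 : OP := orK (nat_lit 227) D12777
noncomputable def D12767 : OP := orK (nat_lit 148) (fin (add (start D4408) D4407))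
noncomputable def D12768 : AP := fin (add (start D12765) D12767)
noncomputable def D24794 : OP := win (nat_lit 1) (nat_lit 6) (nat_lit 7) (nat_lit 5)
noncomputable def D24783 : OP := orK (nat_lit 146) (fin (add (start D2578) (orK (nat_lit 166) (fin (add (start D2577) (win (nat_lit 7) (nat_lit 6) (nat_lit 7) (nat_lit 0)))))))
noncomputable def D20680 : OP := win (nat_lit 5) (nat_lit 6) (nat_lit 10) (nat_lit 2)
noncomputable def D20682 : OP := orK (nat_lit 226) (fin (add (start D20680) D17155))
noncomputable def D12780 : OP := orK (nat_lit 147) (fin (add (start D12767) D4412))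
noncomputable def D24544 : OP := orK (nat_lit 193) (fin (add (start D2059) (orK (nat_lit 191) (fin (add (start D1597) (orK (nat_lit 211) D2124))))))
noncomputable def D6739 : OP := orK (nat_lit 231) (fin (add (start D49) D5311))
noncomputable def D6388 : OP := win (nat_lit 0) (nat_lit 5) (nat_lit 6) (nat_lit 0)
noncomputable def D10766 : AP := fin (add (start D8996) D668)
noncomputable def D10767 : OP := orK (nat_lit 207) D10766
noncomputable def D24414 : OP := orK (nat_lit 206) (fin (add (start D13983) D663))
noncomputable def D10755 : OP := win (nat_lit 1) (nat_lit 7) (nat_lit 8) (nat_lit 3)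
noncomputable def D24426 : OP := orK (nat_lit 207) (fin (add (add (start (orK (nat_lit 227) (fin (add (start D668) (orK (nat_lit 247) (fin (add (start D10755) D5071))))))) (orK (nat_lit 229) (fin (add (start D2451) D7191)))) D24414))
noncomputable def D24430 : AP := fin (add (add (add (start D10754) (orK (nat_lit 207) (fin (add (add (start D24414) (orK (nat_lit 227) D10766)) (orK (nat_lit 229) (fin (add (start D1912) D2451))))))) D24426) (orK (nat_lit 227) (fin (add (start D10767) D7379))))
noncomputable def D25007 : AP := fin (add (add (add (add (add (start D6624) (orK (nat_lit 168) (fin (add (add (add (start (orK (nat_lit 188) (fin (add (start D117) (orK (nat_lit 208) D24430))))) (orK (nat_lit 187) (fin (add (start D2108) (orK (nat_lit 167) (fin (add (start D2107) (orK (nat_lit 207) (fin (add (add (start D24783) (orK (nat_lit 227) (fin (add (add (start (orK (nat_lit 226) (fin (add (start D12691) D20680)))) (orK (nat_lit 228) (fin (add (start D3281) (orK (nat_lit 211) (fin (add (start D7546) (orK (nat_lit 229) (fin (add (start D3457) D1911)))))))))) D17825)))) (orK (nat_lit 147) (fin (add (start D2106) (orK (nat_lit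 208) (fin (add (start D9067) (orK (nat_lit 230) (fin (add (start D2449) (orK (nat_lit 206) (fin (add (start D2454) D24794)))))))))))))))))))))) (orK (nat_lit 148) (fin (add (start D770) (orK (nat_lit 149) (fin (add (start D771) (orK (nat_lit 188) (fin (add (start D24809) (orK (nat_lit 128) (fin (add (add (start (orK (nat_lit 109) (fin (add (start D2295) (orK (nat_lit 108) (fin (add (start D5634) D906))))))) (orK (nat_lit 129) (fin (add (start D6461) (orK (nat_lit 127) (fin (add (start D2229) (orK (nat_lit 126) (fin (add (start D6388) D7449)))))))))) (orK (nat_lit 108) (fin (add (start D906) D5636)))))))))))))))) D6436)))) (orK (nat_lit 192) (fin (add (add (add (start D6612) (orK (nat_lit 191) (fin (add (start D357) (orK (nat_lit 211) (fin (add (start D79) (orK (nat_lit 231) D24830)))))))) D24544) (orK (nat_lit 211) (fin (add (add (start D24837) (orK (nat_lit 208) (fin (add (add (start D6739) D3939) D1068)))) (orK (nat_lit 172) (fin (add (start D240) (orK (nat_lit 173) (fin (add (start D235) (orK (nat_lit 149) (fin (add (start D2392) (orK (nat_lit 208) (fin (add (add (start (orK (nat_lit 188) (fin (add (start D451)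 (orK (nat_lit 228) (fin (add (start D319) D104))))))) D24531) D24529))))))))))))))))))) (orK (nat_lit 192) (fin (add (add (start D6614) D24544) (orK (nat_lit 193) (fin (add (start D2059) (orK (nat_lit 211) (fin (add (start D1884) (orK (nat_lit 187) (fin (add (add (add (start (orK (nat_lit 188) (fin (add (start D1889) D1923)))) (orK (nat_lit 208) (fin (add (start D667) (orK (nat_lit 231) (fin (add (start D49) D24859))))))) (orK (nat_lit 207) (fin (add (add (start (orK (nat_lit 208) (fin (add (start D666) D13987)))) (orK (nat_lit 227) (fin (add (add (add (start (orK (nat_lit 208) D670)) (orK (nat_lit 167) (fin (add (start D17825) D12780)))) (orK (nat_lit 228) (fin (add (start D7546) (orK (nat_lit 248) (fin (add (start D3803) (orK (nat_lit 268) (fin (add (start D17139) (win (nat_lit 7) (nat_lit 7) (nat_lit 10) (nat_lit 0)))))))))))) D20682)))) (orK (nat_lit 167) (fin (add (add (add (add (start (orK (nat_lit 168) (fin (add (start D2107) (orK (nat_lit 147) (fin (add (start D2106) (orK (nat_lit 148) (fin (add (start D2629) D4408)))))))))) (orK (nat_lit 168) (fin (add (start D2107) (orK (nat_lit 227) (fin (add (start D4417)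 (orK (nat_lit 246) (fin (add (start D12770) (orK (nat_lit 247) (fin (add (start D10077) D4422))))))))))))) (orK (nat_lit 168) (fin (add (start D2107) D24783)))) (orK (nat_lit 147) (fin (add (add (start (orK (nat_lit 127) (fin (add (start (orK (nat_lit 206) (fin (add (start (win (nat_lit 1) (nat_lit 6) (nat_lit 6) (nat_lit 4))) D24794)))) D24899)))) D24902) D24908)))) (orK (nat_lit 147) (fin (add (add (start (orK (nat_lit 227) D12768)) D24902) D24908)))))))))) (orK (nat_lit 168) (fin (add (start D2108) (orK (nat_lit 147) (fin (add (start D2105) (orK (nat_lit 167) (fin (add (start D2106) D2107)))))))))))))))))))))) (orK (nat_lit 172) (fin (add (add (start D2398) (orK (nat_lit 192) (fin (add (start D240) (orK (nat_lit 152) (fin (add (start D281) (orK (nat_lit 211) (fin (add (add (start (orK (nat_lit 191) (fin (add (start D2726) D1257)))) (orK (nat_lit 231) (fin (add (start D2727) (orK (nat_lit 232) D24615))))) (orK (nat_lit 191) (fin (add (start D2726) D79))))))))))))) D5511)))) (orK (nat_lit 191) (fin (add (add (start (orK (nat_lit 168) D6628)) (orK (nat_lit 211) (fin (add (start D1888) D7366)))) (orK (nat_lit 231)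 (fin (add (add (add (add (start (orK (nat_lit 211) D24957)) (orK (nat_lit 232) (fin (add (add (add (start (orK (nat_lit 208) (fin (add (start D3629) (orK (nat_lit 230) D3654))))) (orK (nat_lit 233) (fin (add (start D5283) (orK (nat_lit 211) D7269))))) (orK (nat_lit 230) D3656)) (orK (nat_lit 211) D7271))))) (orK (nat_lit 211) D24830)) (orK (nat_lit 208) (fin (add (add (start D7210) (orK (nat_lit 168) (fin (add (add (add (start D16218) (orK (nat_lit 188) (fin (add (start D117) D4298)))) D6436) (orK (nat_lit 148) (fin (add (start D770) D7328))))))) (orK (nat_lit 207) (fin (add (start D2459) (orK (nat_lit 187) (fin (add (start D666) (orK (nat_lit 168) (fin (add (start D2108) (orK (nat_lit 148) (fin (add (start D770) (orK (nat_lit 227) (fin (add (start D945) D668))))))))))))))))))) (orK (nat_lit 211) (fin (add (start D5987) (orK (nat_lit 230) (fin (add (start D3783) (orK (nat_lit 208) (fin (add (start D3035) (orK (nat_lit 188) (fin (add (start D451) (orK (nat_lit 228) (fin (add (start D104) (orK (nat_lit 168) (fin (add (start D2538) (orK (nat_lit 148) D24989))))))))))))))))))))))))))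
noncomputable def D22609 : OP := orK (nat_lit 188) (fin (add (start (orK (nat_lit 171) (fin (add (start D2130) D13089)))) D4479))
noncomputable def D24730 : OP := orK (nat_lit 168) (fin (add (add (add (start D13061) (orK (nat_lit 188) (fin (add (add (start D4875) (orK (nat_lit 171) (fin (add (start D2130) D24724)))) D4479)))) D13075) D22609))
noncomputable def D24722 : OP := orK (nat_lit 188) (fin (add (add (start D4479) D3988) (orK (nat_lit 211) (fin (add (start D1891) (orK (nat_lit 171) (fin (add (start D2130) (orK (nat_lit 208) (fin (add (start D8627) (orK (nat_lit 231) (fin (add (start D49) D24712))))))))))))))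
noncomputable def D24327 : OP := orK (nat_lit 70) (fin (add (start (win (nat_lit 7) (nat_lit 10) (nat_lit 2) (nat_lit 5))) (win (nat_lit 7) (nat_lit 10) (nat_lit 3) (nat_lit 4))))
noncomputable def D1820 : OP := orK (nat_lit 112) (fin (add (start D1557) D1556))
noncomputable def D24345 : OP := orK (nat_lit 111) (fin (add (add (add (start D1820) (orK (nat_lit 91) (fin (add (start D6678) (orK (nat_lit 132) (fin (add (start D1566) (orK (nat_lit 71) (fin (add (start (win (nat_lit 6) (nat_lit 11) (nat_lit 3) (nat_lit 5))) (orK (nat_lit 52) (fin (add (start (win (nat_lit 3) (nat_lit 11) (nat_lit 2) (nat_lit 4))) D24327))))))))))))) (orK (nat_lit 91) (fin (add (start D6678) (orK (nat_lit 72) (fin (add (start D6679) (orK (nat_lit 71) (fin (add (start D6680) (orK (nat_lit 152) (fin (add (start D6681) D24327))))))))))))) D6723))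
noncomputable def D1569 : OP := win (nat_lit 4) (nat_lit 11) (nat_lit 5) (nat_lit 5)
noncomputable def D1568 : OP := win (nat_lit 4) (nat_lit 10) (nat_lit 5) (nat_lit 4)
noncomputable def D24685 : OP := orK (nat_lit 114) (fin (add (start D1568) D1569))
noncomputable def D24298 : OP := win (nat_lit 0) (nat_lit 9) (nat_lit 6) (nat_lit 0)
noncomputable def D1567 : OP := win (nat_lit 0) (nat_lit 10) (nat_lit 6) (nat_lit 5)
noncomputable def D24520 : OP := orK (nat_lit 229) (fin (add (add (start D24510) D7552) (orK (nat_lit 230) (fin (add (start D4009) (orK (nat_lit 211) (fin (add (start D15796) (orK (nat_lit 191) (fin (add (start D3782) D24512)))))))))))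
noncomputable def D5982 : OP := orK (nat_lit 151) D5981
noncomputable def D24576 : AP := fin (add (start D79) D5982)
noncomputable def D4556 : OP := win (nat_lit 2) (nat_lit 11) (nat_lit 11) (nat_lit 0)
noncomputable def D3177 : OP := win (nat_lit 6) (nat_lit 12) (nat_lit 9) (nat_lit 5)
noncomputable def D3692 : OP := win (nat_lit 7) (nat_lit 11) (nat_lit 10) (nat_lit 0)
noncomputable def D21274 : OP := orK (nat_lit 273) (fin (add (start D2971) (orK (nat_lit 272) (fin (add (start D2972) D3692)))))
noncomputable def D2970 : OP := win (nat_lit 1) (nat_lit 11) (nat_lit 10) (nat_lit 5)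
noncomputable def D2969 : OP := win (nat_lit 1) (nat_lit 11) (nat_lit 9) (nat_lit 4)
noncomputable def D24592 : OP := orK (nat_lit 231) (fin (add (start D3038) (orK (nat_lit 252) (fin (add (add (start (orK (nat_lit 271) (fin (add (start D2969) (orK (nat_lit 272) (fin (add (start D2970) D3692))))))) D21274) (orK (nat_lit 251) (fin (add (start D2979) (orK (nat_lit 253) (fin (add (start D3177) (orK (nat_lit 254) (fin (add (start (win (nat_lit 2) (nat_lit 10) (nat_lit 11) (nat_lit 5))) D4556))))))))))))))
noncomputable def D24612 : OP := orK (nat_lit 172) (fin (add (start D1178) (orK (nat_lit 153) (fin (add (start D3873) D232)))))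
noncomputable def D6167 : OP := orK (nat_lit 172) (fin (add (start D5988) D2921))
noncomputable def D2697 : OP := win (nat_lit 7) (nat_lit 11) (nat_lit 8) (nat_lit 0)
noncomputable def D2859 : AP := fin (add (start D2858) D2697)
noncomputable def D1991 : OP := win (nat_lit 1) (nat_lit 11) (nat_lit 4) (nat_lit 4)
noncomputable def D1961 : OP := win (nat_lit 7) (nat_lit 11) (nat_lit 6) (nat_lit 5)
noncomputable def D7440 : OP := orK (nat_lit 148) (fin (add (start D770) (orK (nat_lit 172) (fin (add (start D240) (orK (nat_lit 209) (fin (add (start D5644) (orK (nat_lit 207) (fin (add (start D2831) (orK (nat_lit 231) (fin (add (start D2459) (orK (nat_lit 211) (fin (add (start D49) D7428)))))))))))))))))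
noncomputable def D7396 : OP := orK (nat_lit 147) (fin (add (start D2105) (orK (nat_lit 167) (fin (add (start D2106) D7392)))))
noncomputable def D7391 : OP := orK (nat_lit 168) (fin (add (start D117) (orK (nat_lit 148) (fin (add (start D770) (orK (nat_lit 128) (fin (add (start D5640) (orK (nat_lit 209) (fin (add (start D5643) D7383)))))))))))
noncomputable def D6229 : OP := orK (nat_lit 230) (fin (add (start D3783) (orK (nat_lit 209) (fin (add (start D79) D6225)))))
noncomputable def D7364 : OP := orK (nat_lit 231) (fin (add (start D5987) (orK (nat_lit 230) (fin (add (start D3783) (orK (nat_lit 252) (fin (add (start D5989) (orK (nat_lit 251) (fin (add (start D4691) (orK (nat_lit 271) (fin (add (start (win (nat_lit 3) (nat_lit 11) (nat_lit 9) (nat_lit 4))) D4221))))))))))))))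
noncomputable def D7630 : OP := orK (nat_lit 191) (fin (add (add (start D2063) D6477) (orK (nat_lit 211) (fin (add (add (add (start D5986) D6015) D6001) D7626)))))
noncomputable def D2118 : OP := orK (nat_lit 152) (fin (add (start D280) (orK (nat_lit 172) (fin (add (start D281) D244)))))
noncomputable def D6297 : OP := orK (nat_lit 168) (fin (add (add (start D5629) D2118) D2114))
noncomputable def D24704 : AP := fin (add (add (add (add (add (add (start D5662) D6297) (orK (nat_lit 151) (fin (add (add (add (start D6598) D4902) D6609) D6627)))) D7630) (orK (nat_lit 192) (fin (add (add (start D6614) (orK (nat_lit 193) (fin (add (start D2059) (orK (nat_lit 191) (fin (add (start D1597) (orK (nat_lit 211) (fin (add (add (start D2125) D7364) (orK (nat_lit 231) (fin (add (start D5987) D6229))))))))))))) (orK (nat_lit 188) (fin (add (add (start D7376) D7391) (orK (nat_lit 168) (fin (add (start D117) (orK (nat_lit 208) (fin (add (add (add (start D7396) (orK (nat_lit 209) D24430)) (orK (nat_lit 209) (fin (add (add (add (start (orK (nat_lit 193) (fin (add (start D2059) (orK (nat_lit 211) (fin (add (start D1884) D6743)))))))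 D24426) (orK (nat_lit 172) (fin (add (start D240) (orK (nat_lit 153) (fin (add (start D232) (orK (nat_lit 173) (fin (add (start D233) (orK (nat_lit 232) (fin (add (start (win (nat_lit 3) (nat_lit 12) (nat_lit 7) (nat_lit 1))) (orK (nat_lit 231) D10817)))))))))))))) (orK (nat_lit 228) (fin (add (add (start (orK (nat_lit 227) D7378)) (orK (nat_lit 167) (fin (add (start D2435) (orK (nat_lit 172) (fin (add (start D240) (orK (nat_lit 153) (fin (add (start D232) (orK (nat_lit 173) (fin (add (start D233) (orK (nat_lit 212) (fin (add (start D1655) (orK (nat_lit 229) (fin (add (start D7838) D1913))))))))))))))))))) D4296))))))) D7440))))))))))))) (orK (nat_lit 189) (fin (add (add (add (start D4885) (orK (nat_lit 188) (fin (add (start D2130) (orK (nat_lit 187) (fin (add (start D5703) (orK (nat_lit 209) (fin (add (add (start D4477) (orK (nat_lit 229) (fin (add (start D5744) (orK (nat_lit 248) (fin (add (start D7553) (orK (nat_lit 249) (fin (add (start D4016) (orK (nat_lit 230) (fin (add (start D4009) (orK (nat_lit 269) (fin (add (start D4089) D1900)))))))))))))))) (orK (nat_lit 229) (fin (add (start D5744) D24484)))))))))))))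 (orK (nat_lit 209) (fin (add (add (add (add (start (orK (nat_lit 150) (fin (add (start D1922) (orK (nat_lit 211) (fin (add (start D3737) (orK (nat_lit 191) (fin (add (start D1312) (orK (nat_lit 151) (fin (add (start D5556) (orK (nat_lit 152) (fin (add (start D1795) D758)))))))))))))))) D24520) D24522) (orK (nat_lit 211) (fin (add (add (add (start D3737) (orK (nat_lit 191) (fin (add (start D5982) D1888)))) D24526) D24533)))) D24537)))) (orK (nat_lit 209) (fin (add (add (add (start (orK (nat_lit 192) (fin (add (add (add (add (add (start D24544) (orK (nat_lit 172) (fin (add (start D240) (orK (nat_lit 152) (fin (add (start D281) (orK (nat_lit 212) (fin (add (start (orK (nat_lit 231) (fin (add (start D3871) (orK (nat_lit 232) (fin (add (start D3857) (orK (nat_lit 233) (fin (add (start D5283) D2699)))))))))) (orK (nat_lit 132) (fin (add (add (add (start D1164) (orK (nat_lit 113) (fin (add (start D1149) (orK (nat_lit 112) (fin (add (start D1150) (orK (nat_lit 151) (fin (add (start D1272) D1961)))))))))) (orK (nat_lit 113) (fin (add (start D1149) (orK (nat_lit 112) (fin (add (start D1150) (orK (nat_lit 92) (fin (add (start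 D1991) (orK (nat_lit 91) (fin (add (start (win (nat_lit 7) (nat_lit 11) (nat_lit 3) (nat_lit 5))) (win (nat_lit 7) (nat_lit 11) (nat_lit 4) (nat_lit 4))))))))))))))) D1158))))))))))))) (orK (nat_lit 211) (fin (add (add (start (orK (nat_lit 191) D24576)) (orK (nat_lit 212) (fin (add (start D845) (orK (nat_lit 232) (fin (add (start D411) D24592))))))) (orK (nat_lit 212) (fin (add (start D845) (orK (nat_lit 232) (fin (add (start D411) (orK (nat_lit 191) D2859))))))))))) (orK (nat_lit 211) (fin (add (add (add (start (orK (nat_lit 191) (fin (add (start D79) (orK (nat_lit 151) D6513))))) (orK (nat_lit 191) (fin (add (start D79) (orK (nat_lit 231) (fin (add (start D5987) D6167))))))) (orK (nat_lit 232) (fin (add (add (start (orK (nat_lit 212) (fin (add (start D411) D24612)))) (orK (nat_lit 231) D24615)) (orK (nat_lit 212) (fin (add (start D24612) D24592))))))) (orK (nat_lit 191) D24629))))) D24651) (orK (nat_lit 193) (fin (add (start D2059) (orK (nat_lit 191) (fin (add (start D1597) (orK (nat_lit 211) D24576))))))))))) D24537) D24520) D24522))))))) (orK (nat_lit 151) (fin (add (add (add (start D6627) D6631) D6635) (orK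 (nat_lit 191) (fin (add (add (start D6542) D6639) (orK (nat_lit 131) (fin (add (add (add (add (start D4909) (orK (nat_lit 130) (fin (add (start D6017) (orK (nat_lit 132) (fin (add (start D1566) (orK (nat_lit 212) (fin (add (start D6016) (orK (nat_lit 133) (fin (add (add (start (orK (nat_lit 153) (fin (add (start D1567) (orK (nat_lit 152) (fin (add (start D24298) D3595))))))) (orK (nat_lit 134) (fin (add (start (orK (nat_lit 154) (fin (add (start (win (nat_lit 0) (nat_lit 10) (nat_lit 6) (nat_lit 4))) (win (nat_lit 0) (nat_lit 11) (nat_lit 6) (nat_lit 5)))))) D24685)))) (orK (nat_lit 134) (fin (add (start D1570) D24685)))))))))))))))) D24345) D6701) D6729))))))))))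
noncomputable def D24307 : AP := fin (add (start (win (nat_lit 5) (nat_lit 9) (nat_lit 6) (nat_lit 5))) D1700)
noncomputable def D7120 : OP := orK (nat_lit 212) (fin (add (start D1800) (orK (nat_lit 209) (fin (add (start D450) (orK (nat_lit 228) (fin (add (start D105) (orK (nat_lit 208) (fin (add (start D2538) D104)))))))))))
noncomputable def D24276 : OP := orK (nat_lit 172) (fin (add (add (start D239) D6282) D1292))
noncomputable def D7173 : OP := orK (nat_lit 189) (fin (add (add (start D5707) D5774) (orK (nat_lit 209) (fin (add (add (add (start (orK (nat_lit 149) (fin (add (start D5473) (orK (nat_lit 150) (fin (add (start D5708) (orK (nat_lit 172) (fin (add (start D874) (orK (nat_lit 192) (fin (add (start D240) (orK (nat_lit 191) (fin (add (start D357) (orK (nat_lit 208) (fin (add (start D3236) D647))))))))))))))))))) D5766) D5767) D5772)))))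
noncomputable def D8371 : OP := orK (nat_lit 152) (fin (add (add (add (start (orK (nat_lit 172) (fin (add (start D281) (orK (nat_lit 192) (fin (add (start D240) (orK (nat_lit 191) (fin (add (start D357) D1284)))))))))) (orK (nat_lit 151) (fin (add (start D1033) D6607)))) (orK (nat_lit 153) (fin (add (start D3594) (orK (nat_lit 151) D3613))))) D6293))
noncomputable def D6396 : OP := win (nat_lit 7) (nat_lit 8) (nat_lit 5) (nat_lit 3)
noncomputable def D6390 : AP := fin (add (start D6388) (win (nat_lit 0) (nat_lit 6) (nat_lit 6) (nat_lit 3)))
noncomputable def D6391 : OP := orK (nat_lit 126) D6390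
noncomputable def D6392 : AP := fin (add (start D977) D6391)
noncomputable def D6393 : OP := orK (nat_lit 127) D6392
noncomputable def D6381 : OP := orK (nat_lit 131) (fin (add (start D902) (orK (nat_lit 111) (fin (add (start D1531) D1831)))))
noncomputable def D998 : OP := win (nat_lit 2) (nat_lit 8) (nat_lit 6) (nat_lit 4)
noncomputable def D6358 : OP := win (nat_lit 1) (nat_lit 8) (nat_lit 5) (nat_lit 4)
noncomputable def D6351 : OP := win (nat_lit 6) (nat_lit 8) (nat_lit 5) (nat_lit 3)
noncomputable def D6353 : OP := orK (nat_lit 108) (fin (add (start D906) D6351))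
noncomputable def D1229 : OP := win (nat_lit 3) (nat_lit 11) (nat_lit 6) (nat_lit 3)
noncomputable def D6324 : OP := orK (nat_lit 211) (fin (add (start D1911) (orK (nat_lit 191) (fin (add (start D1257) (orK (nat_lit 132) (fin (add (start D1145) D1229))))))))
noncomputable def D6336 : OP := orK (nat_lit 172) (fin (add (add (start D5509) D5840) (orK (nat_lit 152) (fin (add (start D281) (orK (nat_lit 189) (fin (add (start D226) (orK (nat_lit 209) (fin (add (start D5473) (orK (nat_lit 228) (fin (add (start D5955) (orK (nat_lit 229) (fin (add (start D3065) D6324)))))))))))))))))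
noncomputable def D6406 : OP := orK (nat_lit 149) (fin (add (add (start D6336) D5718) (orK (nat_lit 148) (fin (add (add (start D5677) (orK (nat_lit 189) (fin (add (add (start D5720) (orK (nat_lit 128) (fin (add (add (start D6353) (orK (nat_lit 150) (fin (add (add (add (start (orK (nat_lit 129) (fin (add (add (start (orK (nat_lit 188) (fin (add (start D5721) (orK (nat_lit 109) (fin (add (start D6358) D1529))))))) D6364) (orK (nat_lit 130) (fin (add (start D875) (orK (nat_lit 127) (fin (add (start D976) (orK (nat_lit 188) (fin (add (start D5721) (orK (nat_lit 107) (fin (add (start (win (nat_lit 2) (nat_lit 6) (nat_lit 5) (nat_lit 5))) (win (nat_lit 7) (nat_lit 7) (nat_lit 5) (nat_lit 1)))))))))))))))))) (orK (nat_lit 110) (fin (add (start D5472) (orK (nat_lit 151) (fin (add (start (orK (nat_lit 152) (fin (add (start D998) D1033)))) D6381))))))) (orK (nat_lit 151) (fin (add (start D905) D1028)))) D6393)))) (orK (nat_lit 108) (fin (add (start D906) D6396))))))) D5712)))) D5716)))))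
noncomputable def D6347 : AP := fin (add (start D276) (orK (nat_lit 189) (fin (add (start D226) (orK (nat_lit 209) (fin (add (start D5473) (orK (nat_lit 228) (fin (add (start D5955) (orK (nat_lit 229) (fin (add (start D3065) (orK (nat_lit 152) (fin (add (start D281) D6324))))))))))))))))
noncomputable def D6316 : OP := orK (nat_lit 168) (fin (add (start D117) D6314))
noncomputable def D6310 : OP := orK (nat_lit 172) (fin (add (start D242) D6308))
noncomputable def D6318 : OP := orK (nat_lit 188) (fin (add (add (add (add (start D5790) D6298) D6304) D6310) D6316))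
noncomputable def D6459 : AP := fin (add (add (add (add (add (add (add (add (start D5743) D6273) D6295) D6297) D6318) (orK (nat_lit 149) (fin (add (add (add (start D5702) D6336) (orK (nat_lit 172) D6347)) D5974)))) D5658) D6406) D6458)
noncomputable def D5838 : OP := orK (nat_lit 172) (fin (add (start D239) D5836))
noncomputable def D5832 : OP := orK (nat_lit 188) (fin (add (add (start D5790) (orK (nat_lit 172) (fin (add (start D242) D239)))) (orK (nat_lit 168) (fin (add (start D117) D5629)))))
noncomputable def D1389 : AP := fin (add (start D1202) D1388)
noncomputable def D5977 : AP := fin (add (add (add (add (add (add (start D5623) (orK (nat_lit 189) (fin (add (add (start D5707) D5774) (orK (nat_lit 149) (fin (add (add (start (orK (nat_lit 148) (fin (add (start D771) D5720)))) D5712) (orK (nat_lit 172) (fin (add (start D276) D5780)))))))))) (orK (nat_lit 188) (fin (add (add (add (start D5790) (orK (nat_lit 172) (fin (add (start D242) (orK (nat_lit 193) (fin (add (start D230) (orK (nat_lit 173) (fin (add (start D231) (orK (nat_lit 150) (fin (add (start D1202) D235))))))))))))) (orK (nat_lit 168) (fin (add (start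 D117) (orK (nat_lit 151) (fin (add (start D119) (orK (nat_lit 167) (fin (add (start D2818) (orK (nat_lit 146) (fin (add (start D2578) (orK (nat_lit 166) (fin (add (start D2577) (orK (nat_lit 165) (fin (add (start D5799) D2608))))))))))))))))))) (orK (nat_lit 168) (fin (add (start D117) (orK (nat_lit 172) (fin (add (add (add (start D283) D239) D5815) (orK (nat_lit 151) (fin (add (start D119) (orK (nat_lit 150) (fin (add (start D754) (orK (nat_lit 173) D1389))))))))))))))))) D5832) D5838) D5976) D5658)
noncomputable def D7324 : OP := orK (nat_lit 189) D7323
noncomputable def D8439 : OP := orK (nat_lit 191) (fin (add (start D374) (orK (nat_lit 211) (fin (add (start D5556) (orK (nat_lit 232) (fin (add (start D7096) (orK (nat_lit 231) (fin (add (start D4732) (orK (nat_lit 148) (fin (add (start D770) (orK (nat_lit 209) (fin (add (start D3038) D7324)))))))))))))))))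
noncomputable def D8408 : AP := fin (add (start D5879) (orK (nat_lit 145) (fin (add (start (win (nat_lit 4) (nat_lit 4) (nat_lit 6) (nat_lit 0))) (win (nat_lit 5) (nat_lit 5) (nat_lit 6) (nat_lit 3))))))
noncomputable def D1758 : OP := win (nat_lit 4) (nat_lit 9) (nat_lit 5) (nat_lit 5)
noncomputable def D7112 : OP := orK (nat_lit 172) (fin (add (add (start D2221) D1292) D6308))
noncomputable def D8446 : AP := fin (add (add (add (add (add (add (add (start D5623) (orK (nat_lit 148) (fin (add (add (add (add (start D5668) D6582) (orK (nat_lit 168) (fin (add (start D770) (orK (nat_lit 191) (fin (add (start D374) (orK (nat_lit 189) (fin (add (add (start (orK (nat_lit 188) (fin (add (start D2130) D8340)))) D6588) (orK (nat_lit 172) (fin (add (start D226) (orK (nat_lit 211) (fin (add (add (add (start D6583) D5986) D7366) (orK (nat_lit 150) (fin (add (start D1312) (orK (nat_lit 130) (fin (add (start D875) D1311)))))))))))))))))))))) D6538) D5679)))) D8371) D6406) D7112) D6624) (orK (nat_lit 149) (fin (add (add (add (start D5702) D5842) D5844) (orK (nat_lit 189) (fin (add (add (add (start D5712) (orK (nat_lit 129) (fin (add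 (add (add (add (start D5852) (orK (nat_lit 208) (fin (add (start D5748) (orK (nat_lit 128) (fin (add (start D5725) (orK (nat_lit 147) (fin (add (add (add (start (orK (nat_lit 148) D5665)) (orK (nat_lit 150) (fin (add (start D5252) D5878)))) (orK (nat_lit 127) (fin (add (add (add (start (orK (nat_lit 130) (fin (add (start D7459) (orK (nat_lit 151) (fin (add (start (win (nat_lit 0) (nat_lit 7) (nat_lit 6) (nat_lit 4))) (orK (nat_lit 131) (fin (add (start (win (nat_lit 0) (nat_lit 8) (nat_lit 6) (nat_lit 5))) (orK (nat_lit 112) (fin (add (start (win (nat_lit 4) (nat_lit 8) (nat_lit 5) (nat_lit 4))) (orK (nat_lit 132) (fin (add (start (win (nat_lit 3) (nat_lit 11) (nat_lit 5) (nat_lit 0))) D1758)))))))))))))))) (orK (nat_lit 126) (fin (add (start D7449) (orK (nat_lit 106) (fin (add (start D7474) (orK (nat_lit 146) (fin (add (start D7480) (orK (nat_lit 86) (fin (add (start (win (nat_lit 6) (nat_lit 6) (nat_lit 3) (nat_lit 0))) (win (nat_lit 6) (nat_lit 6) (nat_lit 4) (nat_lit 5))))))))))))))) (orK (nat_lit 150) D5877)) (orK (nat_lit 146) D8408))))) (orK (nat_lit 146) (fin (add (start (win (nat_lit 0) (nat_lit 6) (nat_lit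 7) (nat_lit 2))) (orK (nat_lit 127) D8408)))))))))))))) D5924) D5938) D5950)))) D5961) D5972))))))) (orK (nat_lit 151) (fin (add (add (add (start D6627) (orK (nat_lit 168) (fin (add (start D119) D8439)))) (orK (nat_lit 168) (fin (add (add (start D6546) D6633) D8439)))) D6733))))
noncomputable def D7150 : OP := orK (nat_lit 168) (fin (add (add (start D2114) (orK (nat_lit 188) (fin (add (start D117) (orK (nat_lit 191) (fin (add (start D374) (orK (nat_lit 151) (fin (add (start D119) (orK (nat_lit 211) (fin (add (start D5556) D7120))))))))))))) (orK (nat_lit 151) D7147)))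
noncomputable def D7154 : AP := fin (add (add (add (add (add (add (start D5662) D7112) D7150) D5838) D6554) (orK (nat_lit 172) (fin (add (add (start D239) D5697) (orK (nat_lit 149) D6347))))) D6318)
noncomputable def D24102 : OP := orK (nat_lit 171) D7154
noncomputable def D6260 : OP := orK (nat_lit 151) (fin (add (start D5556) (orK (nat_lit 212) (fin (add (start D1800) (orK (nat_lit 131) (fin (add (start D6016) D6020))))))))
noncomputable def D5995 : OP := orK (nat_lit 172) (fin (add (start D5988) (orK (nat_lit 251) (fin (add (start D4767) D5991)))))
noncomputable def D6480 : AP := fin (add (start D5556) (orK (nat_lit 152) (fin (add (start D1795) D1033))))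
noncomputable def D6550 : OP := orK (nat_lit 151) (fin (add (add (start (orK (nat_lit 211) D6480)) D6542) (orK (nat_lit 168) (fin (add (start D119) D6546)))))
noncomputable def D8479 : OP := orK (nat_lit 151) (fin (add (add (add (start D6627) D6631) D6635) (orK (nat_lit 191) (fin (add (add (start D6542) (orK (nat_lit 211) (fin (add (start D5556) (orK (nat_lit 132) (fin (add (start D8004) (orK (nat_lit 131) (fin (add (start D1566) (orK (nat_lit 212) (fin (add (start D6016) D1800))))))))))))) D6731)))))
noncomputable def D8480 : AP := fin (add (add (add (add (start D5681) D5662) D6273) D6626) D8479)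
noncomputable def D11065 : OP := win (nat_lit 3) (nat_lit 9) (nat_lit 7) (nat_lit 2)
noncomputable def D12692 : AP := fin (add (start D12691) D4417)
noncomputable def D7181 : AP := fin (add (start D1912) (orK (nat_lit 189) D7179))
noncomputable def D7174 : OP := win (nat_lit 1) (nat_lit 8) (nat_lit 6) (nat_lit 3)
noncomputable def D7178 : OP := orK (nat_lit 149) (fin (add (start D375) (orK (nat_lit 129) (fin (add (start D6461) D7174)))))
noncomputable def D24207 : OP := orK (nat_lit 186) (fin (add (start D2644) (win (nat_lit 4) (nat_lit 6) (nat_lit 8) (nat_lit 3))))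
noncomputable def D24221 : OP := orK (nat_lit 171) (fin (add (add (start D773) D24215) (orK (nat_lit 148) (fin (add (start D770) (orK (nat_lit 151) (fin (add (start D119) D6633))))))))
noncomputable def D10841 : AP := fin (add (start D7202) D375)
noncomputable def D24165 : OP := orK (nat_lit 208) D10841
noncomputable def D23011 : OP := win (nat_lit 3) (nat_lit 8) (nat_lit 7) (nat_lit 1)
noncomputable def D24097 : OP := orK (nat_lit 147) (fin (add (add (add (start D24060) (orK (nat_lit 167) (fin (add (start D2106) (orK (nat_lit 187) (fin (add (start D2107) (orK (nat_lit 188) (fin (add (start D4290) D17211)))))))))) (orK (nat_lit 188) (fin (add (add (start D16210) (orK (nat_lit 208) (fin (add (add (start D24072) (orK (nat_lit 228) (fin (add (start D4622) (orK (nat_lit 247) (fin (add (start D7183) (orK (nat_lit 248) (fin (add (start D3746) (orK (nat_lit 149) (fin (add (start D4620) D7404))))))))))))) (orK (nat_lit 148) (fin (add (start D4621) (orK (nat_lit 149) (fin (add (start D931) (orK (nat_lit 228) (fin (add (start D4620) D7408))))))))))))) (orK (nat_lit 148) (fin (add (start D2629) (orK (nat_lit 208) D24089))))))))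 D24095))
noncomputable def D25837 : AP := fin (add (add (add (add (add (add (add (add (add (add (add (add (add (add (add (add (add (add (start (orK (nat_lit 168) (fin (add (add (add (add (start D12883) D24097) (orK (nat_lit 171) (fin (add (add (start D2620) D2822) D5674)))) (orK (nat_lit 188) (fin (add (add (add (start (orK (nat_lit 187) (fin (add (start D4290) D24207)))) (orK (nat_lit 149) (fin (add (add (add (start (orK (nat_lit 228) (fin (add (start D23011) D24221)))) (orK (nat_lit 129) (fin (add (start D6461) (orK (nat_lit 208) (fin (add (start D7174) D375))))))) (orK (nat_lit 129) (fin (add (start D6461) D24165)))) (orK (nat_lit 109) (fin (add (start D2295) D24221))))))) (orK (nat_lit 187) (fin (add (add (start D24207) (orK (nat_lit 208) (fin (add (add (start D7178) (orK (nat_lit 209) (fin (add (start D3315) (orK (nat_lit 229) D7181))))) D7206)))) (orK (nat_lit 186) (fin (add (start D2644) (orK (nat_lit 208) (fin (add (start (orK (nat_lit 209) (fin (add (start D3273) D3315)))) D7206)))))))))) (orK (nat_lit 171) D24246))))) (orK (nat_lit 167) (fin (add (add (add (start D12936) D7678) D6410) (orK (nat_lit 147)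 (fin (add (start D2106) (orK (nat_lit 187) (fin (add (start D2107) (orK (nat_lit 150) (fin (add (start D882) (orK (nat_lit 208) (fin (add (add (start (orK (nat_lit 188) D10764)) (orK (nat_lit 207) (fin (add (start D9067) (orK (nat_lit 226) (fin (add (start D12763) (orK (nat_lit 227) D12692)))))))) (orK (nat_lit 188) (fin (add (start D5134) (orK (nat_lit 209) (fin (add (start D3315) (orK (nat_lit 229) (fin (add (start D11065) D1912)))))))))))))))))))))))))))) (orK (nat_lit 171) D8480)) (orK (nat_lit 171) (fin (add (add (add (add (start D7150) D24276) D5681) (orK (nat_lit 191) (fin (add (add (start D2063) D6550) (orK (nat_lit 211) (fin (add (add (add (start D5986) (orK (nat_lit 231) (fin (add (start D5987) (orK (nat_lit 230) (fin (add (start D3783) D5995))))))) D6001) D6260))))))) D6273)))) D24102) (orK (nat_lit 171) D8446)) (orK (nat_lit 171) D5977)) (orK (nat_lit 171) D6459)) (orK (nat_lit 171) (fin (add (add (add (add (add (start D5662) D8371) D6295) D7173) D24276) (orK (nat_lit 151) (fin (add (add (add (start D6627) (orK (nat_lit 168) (fin (add (start D119) (orK (nat_lit 191) (fin (add (start D374) (orK (nat_lit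 211) (fin (add (start D5556) (orK (nat_lit 188) (fin (add (start D117) D7120))))))))))))) (orK (nat_lit 191) (fin (add (add (start D6542) (orK (nat_lit 168) (fin (add (start D374) D2820)))) D24295)))) (orK (nat_lit 191) (fin (add (add (start D6542) D6639) (orK (nat_lit 131) (fin (add (add (add (add (start D4909) (orK (nat_lit 130) (fin (add (start D6017) (orK (nat_lit 132) (fin (add (start D1566) (orK (nat_lit 192) (fin (add (start D1559) (orK (nat_lit 153) (fin (add (add (start (orK (nat_lit 152) (fin (add (start D24298) (win (nat_lit 2) (nat_lit 10) (nat_lit 6) (nat_lit 0)))))) (orK (nat_lit 133) (fin (add (start D1567) (orK (nat_lit 150) D24307))))) (orK (nat_lit 150) (fin (add (start D1869) (orK (nat_lit 133) D24307))))))))))))))))) D24345) D6701) D6729))))))))))))) (orK (nat_lit 171) D24704)) (orK (nat_lit 209) (fin (add (add (add (add (add (add (add (add (start D24706) (orK (nat_lit 189) (fin (add (add (add (start D5766) D24710) D24722) D24730)))) D24750) D24751) (orK (nat_lit 189) (fin (add (add (start D24722) D8317) D24757)))) (orK (nat_lit 189) (fin (add (add (add (start D5767) D24730) D24760) (orK (nat_lit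 168) (fin (add (add (start (orK (nat_lit 188) (fin (add (add (start D4875) (orK (nat_lit 171) (fin (add (start D2130) D24766)))) D4479)))) D24771) D22609))))))) (orK (nat_lit 171) D25007)) (orK (nat_lit 189) (fin (add (add (add (start D5772) D24537) (orK (nat_lit 208) (fin (add (add (start (orK (nat_lit 188) (fin (add (add (start D3978) (orK (nat_lit 149) (fin (add (start D318) (orK (nat_lit 211) (fin (add (start D1891) (orK (nat_lit 171) (fin (add (start D2130) (orK (nat_lit 148) (fin (add (start D5243) D5716))))))))))))) D3988)))) (orK (nat_lit 187) (fin (add (add (start (orK (nat_lit 211) (fin (add (start D667) D10984)))) D3289) (orK (nat_lit 186) (fin (add (start D3273) (orK (nat_lit 188) (fin (add (start D3274) (orK (nat_lit 168) D10801))))))))))) D25029)))) (orK (nat_lit 208) (fin (add (add (add (start D25032) D25034) D3815) (orK (nat_lit 188) (fin (add (add (start D3978) (orK (nat_lit 149) (fin (add (start D318) (orK (nat_lit 211) (fin (add (start D1891) (orK (nat_lit 150) (fin (add (start D5708) (orK (nat_lit 231) (fin (add (start D49) (orK (nat_lit 191) (fin (add (start D342) D25035)))))))))))))))) D3988))))))))))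 (orK (nat_lit 189) (fin (add (add (add (start D5758) D24710) D5767) D5772))))))) (orK (nat_lit 171) (fin (add (add (add (add (add (add (add (start D5681) (orK (nat_lit 188) (fin (add (add (start D7608) (orK (nat_lit 187) (fin (add (start D1923) (orK (nat_lit 189) D6301))))) (orK (nat_lit 191) (fin (add (add (start (orK (nat_lit 168) (fin (add (start D374) D117)))) D25061) (orK (nat_lit 211) (fin (add (add (add (start D5986) (orK (nat_lit 187) (fin (add (start D1923) D7366)))) D6001) (orK (nat_lit 151) (fin (add (start D5556) (orK (nat_lit 168) (fin (add (start D117) D6526)))))))))))))))) (orK (nat_lit 148) (fin (add (add (add (start (orK (nat_lit 172) (fin (add (start D2215) (orK (nat_lit 192) (fin (add (start D240) (orK (nat_lit 191) (fin (add (start D357) D25061)))))))))) (orK (nat_lit 168) (fin (add (start D770) (orK (nat_lit 191) (fin (add (start D374) (orK (nat_lit 211) (fin (add (add (add (start D6583) D5986) D7366) D6586)))))))))) D6538) D5679)))) D5743) (orK (nat_lit 191) (fin (add (add (add (start D2063) D25061) (orK (nat_lit 168) (fin (add (start D374) (orK (nat_lit 147) (fin (add (start D2105) (orK (nat_lit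 167) (fin (add (start D2106) (orK (nat_lit 150) (fin (add (start D882) D2110))))))))))))) (orK (nat_lit 211) (fin (add (add (add (start D5986) D7366) D6001) D7626))))))) (orK (nat_lit 188) (fin (add (add (add (add (start D5790) D6298) D6304) (orK (nat_lit 172) (fin (add (start D242) D2221)))) (orK (nat_lit 168) D24246))))) (orK (nat_lit 149) (fin (add (add (add (start D5702) D6564) (orK (nat_lit 172) (fin (add (start D276) (orK (nat_lit 189) (fin (add (start D226) (orK (nat_lit 209) (fin (add (start D5473) (orK (nat_lit 228) (fin (add (start D5955) (orK (nat_lit 229) (fin (add (start D3065) (orK (nat_lit 192) (fin (add (start D240) (orK (nat_lit 212) (fin (add (start D7838) D5490)))))))))))))))))))))) D7519)))) D7684)))) (orK (nat_lit 171) (fin (add (add (add (add (add (start D5623) D6554) D6295) D7521) D5662) (orK (nat_lit 151) (fin (add (add (add (start D6627) (orK (nat_lit 168) (fin (add (start D119) (orK (nat_lit 191) (fin (add (start D374) D5656))))))) (orK (nat_lit 191) (fin (add (add (start D6542) (orK (nat_lit 192) (fin (add (start D357) D4911)))) D24295)))) D6733))))))) (orK (nat_lit 209) D25397)) (orK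 (nat_lit 209) (fin (add (add (add (add (add (add (add (add (start D24706) (orK (nat_lit 189) (fin (add (add (start D25404) D25441) D24537)))) D24750) (orK (nat_lit 189) (fin (add (add (start D25441) D25449) D25504)))) (orK (nat_lit 189) (fin (add (add (add (start D25449) D5766) D5767) D5772)))) (orK (nat_lit 189) (fin (add (add (add (start D5767) D24760) (orK (nat_lit 188) (fin (add (add (start D4479) D18693) D18689)))) D25520)))) (orK (nat_lit 208) (fin (add (add (add (add (add (add (start D16123) D25162) (orK (nat_lit 211) (fin (add (start D3354) (orK (nat_lit 228) (fin (add (start D104) (orK (nat_lit 188) (fin (add (start D451) D2541)))))))))) D9262) (orK (nat_lit 231) (fin (add (add (add (add (start D10818) D7210) (orK (nat_lit 230) D3769)) (orK (nat_lit 211) (fin (add (start D49) (orK (nat_lit 192) (fin (add (start D846) (orK (nat_lit 212) (fin (add (start D845) (orK (nat_lit 228) (fin (add (start D105) (orK (nat_lit 168) (fin (add (add (add (start (orK (nat_lit 188) (fin (add (start D451) D2538)))) (orK (nat_lit 187) (fin (add (start D667) (orK (nat_lit 186) (fin (add (start D3273) D2645))))))) (orK (nat_lit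 167) (fin (add (add (start D13064) (orK (nat_lit 149) (fin (add (start (win (nat_lit 3) (nat_lit 8) (nat_lit 7) (nat_lit 2))) D6468)))) D12946)))) (orK (nat_lit 167) (fin (add (add (start D12946) (orK (nat_lit 187) (fin (add (start D2107) (orK (nat_lit 147) (fin (add (start D2106) D5135))))))) D12948))))))))))))))))))) (orK (nat_lit 187) (fin (add (add (start D24859) (orK (nat_lit 188) (fin (add (start D3315) (orK (nat_lit 186) (fin (add (start D3274) (orK (nat_lit 168) (fin (add (start D2645) (orK (nat_lit 228) D2540))))))))))) (orK (nat_lit 211) (fin (add (start D667) (orK (nat_lit 230) (fin (add (start D3035) (orK (nat_lit 191) (fin (add (start D342) (orK (nat_lit 251) (fin (add (add (start D25567) D18939) (orK (nat_lit 250) (fin (add (start D7263) (orK (nat_lit 252) (fin (add (start D4691) D12249))))))))))))))))))))))))) D19222) D25264)))) (orK (nat_lit 189) (fin (add (add (add (start D5772) D24537) D25520) D25504)))) (orK (nat_lit 189) (fin (add (add (add (start D5758) D25404) D5767) D5772))))))) (orK (nat_lit 209) D25831)) (orK (nat_lit 171) D8466)) (orK (nat_lit 171) D6736)) (orK (nat_lit 171) D8482)) (orK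 (nat_lit 171) D8484))
noncomputable def D21435 : OP := orK (nat_lit 150) (fin (add (add (start D174) D203) D705))
noncomputable def D22668 : AP := fin (add (add (start D188) D21628) D207)
noncomputable def D9750 : OP := orK (nat_lit 171) (fin (add (start D117) D773))
noncomputable def D23842 : AP := fin (add (add (start D13) D2723) D22481)
noncomputable def D23961 : OP := orK (nat_lit 230) D23842
noncomputable def D9134 : OP := orK (nat_lit 251) (fin (add (add (start (orK (nat_lit 190) D686)) (orK (nat_lit 270) (fin (add (start D6178) (orK (nat_lit 271) (fin (add (start D4755) D9121))))))) (orK (nat_lit 250) (fin (add (start D7263) (orK (nat_lit 171) (fin (add (start D7262) (orK (nat_lit 170) (fin (add (start D5987) (win (nat_lit 7) (nat_lit 10) (nat_lit 8) (nat_lit 4)))))))))))))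
noncomputable def D9140 : OP := orK (nat_lit 191) (fin (add (start D342) (orK (nat_lit 231) (fin (add (start D49) (orK (nat_lit 228) (fin (add (start D104) D9134))))))))
noncomputable def D9141 : AP := fin (add (start D451) D9140)
noncomputable def D9142 : OP := orK (nat_lit 188) D9141
noncomputable def D9144 : OP := orK (nat_lit 211) (fin (add (add (add (start D3935) D3354) D2517) D9142))
noncomputable def D9117 : OP := orK (nat_lit 211) D9116
noncomputable def D9087 : OP := orK (nat_lit 231) (fin (add (start D2459) (orK (nat_lit 211) (fin (add (start D49) D9055)))))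
noncomputable def D9097 : OP := orK (nat_lit 190) (fin (add (start D655) D414))
noncomputable def D9101 : OP := orK (nat_lit 186) (fin (add (start D653) (orK (nat_lit 206) (fin (add (start D654) D9097)))))
noncomputable def D9109 : OP := orK (nat_lit 187) (fin (add (add (add (start D3279) (orK (nat_lit 211) (fin (add (start D667) D6743)))) (orK (nat_lit 207) (fin (add (start D666) D9093)))) D3325))
noncomputable def D9089 : OP := orK (nat_lit 190) D9088
noncomputable def D9103 : OP := orK (nat_lit 207) (fin (add (add (start D9101) D4432) D9089))
noncomputable def D9146 : OP := orK (nat_lit 208) (fin (add (add (add (add (start D9103) D9109) (orK (nat_lit 207) (fin (add (add (start D2465) D9101) D9087)))) D9117) D9144))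
noncomputable def D22482 : AP := fin (add (add (start D606) D22481) D155)
noncomputable def D22483 : OP := orK (nat_lit 230) D22482
noncomputable def D12871 : OP := orK (nat_lit 191) (fin (add (start D374) D121))
noncomputable def D12873 : OP := orK (nat_lit 171) (fin (add (add (start D12871) D12865) D6271))
noncomputable def D23872 : OP := orK (nat_lit 167) (fin (add (start D2603) D2582))
noncomputable def D18311 : OP := orK (nat_lit 153) (fin (add (start D232) (orK (nat_lit 173) (fin (add (start D233) D10469)))))
noncomputable def D23560 : OP := orK (nat_lit 152) (fin (add (start D281) D19842))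
noncomputable def D18305 : OP := orK (nat_lit 193) (fin (add (start D230) (orK (nat_lit 173) (fin (add (start D231) D10469)))))
noncomputable def D23990 : OP := orK (nat_lit 151) (fin (add (start D118) D4902))
noncomputable def D23936 : OP := orK (nat_lit 188) (fin (add (start D371) D23934))
noncomputable def D20435 : OP := orK (nat_lit 209) D15129
noncomputable def D20406 : OP := orK (nat_lit 209) D649
noncomputable def D20405 : OP := orK (nat_lit 209) D15094
noncomputable def D23946 : OP := orK (nat_lit 192) (fin (add (start D64) (orK (nat_lit 208) (fin (add (add (add (start D20405) D20406) (orK (nat_lit 189) (fin (add (add (start (orK (nat_lit 172) (fin (add (start D66) (orK (nat_lit 188) (fin (add (start D65) D371))))))) D23936) (orK (nat_lit 172) (fin (add (start D66) (orK (nat_lit 149) (fin (add (start D277) D2914)))))))))) D20435)))))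
noncomputable def D6465 : OP := orK (nat_lit 188) (fin (add (start D117) (orK (nat_lit 129) (fin (add (start D6461) D936)))))
noncomputable def D6467 : OP := orK (nat_lit 148) (fin (add (start D770) D6465))
noncomputable def D11797 : OP := orK (nat_lit 189) (fin (add (start D2685) D227))
noncomputable def D364 : OP := orK (nat_lit 168) (fin (add (start D37) D121))
noncomputable def D23771 : AP := fin (add (add (start D13) (orK (nat_lit 171) (fin (add (start D14) D22481)))) D2723)
noncomputable def D3770 : OP := orK (nat_lit 231) D3769
noncomputable def D3834 : OP := orK (nat_lit 231) D3833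
noncomputable def D3931 : OP := orK (nat_lit 207) (fin (add (add (start D3927) D3929) D675))
noncomputable def D4655 : OP := orK (nat_lit 208) (fin (add (add (add (start D3931) (orK (nat_lit 232) (fin (add (add (add (start D4617) D4618) D4619) (orK (nat_lit 211) (fin (add (add (start D3352) D3937) (orK (nat_lit 188) (fin (add (start D451) (orK (nat_lit 228) (fin (add (start D104) (orK (nat_lit 168) (fin (add (start D4628) (orK (nat_lit 191) (fin (add (start D342) (orK (nat_lit 249) (fin (add (start D4629) (orK (nat_lit 248) (fin (add (start D4630) (orK (nat_lit 267) (fin (add (start D2527) (orK (nat_lit 268) (fin (add (start D2528) (orK (nat_lit 250) (fin (add (start D3027) D4631)))))))))))))))))))))))))))))))))) D3834) D3770))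
noncomputable def D5088 : OP := orK (nat_lit 167) (fin (add (start D3280) (orK (nat_lit 248) (fin (add (start D3301) D5080)))))
noncomputable def D4397 : OP := orK (nat_lit 251) (fin (add (start D4059) (orK (nat_lit 248) (fin (add (start D3847) (orK (nat_lit 268) (fin (add (start D4070) (orK (nat_lit 267) (fin (add (start D2528) D4071)))))))))))
noncomputable def D4186 : AP := fin (add (start D4140) D3456)
noncomputable def D4187 : OP := orK (nat_lit 227) D4186
noncomputable def D12595 : OP := orK (nat_lit 270) (fin (add (start D4218) D7030))
noncomputable def D14184 : OP := orK (nat_lit 270) D14183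
noncomputable def D23801 : OP := orK (nat_lit 250) (fin (add (add (start D14184) D12595) (orK (nat_lit 229) (fin (add (start D9712) (orK (nat_lit 228) (fin (add (add (start D4187) (orK (nat_lit 208) (fin (add (add (start D9679) (orK (nat_lit 231) (fin (add (start D3565) D4397)))) (orK (nat_lit 207) (fin (add (start D2448) (orK (nat_lit 187) (fin (add (start D666) D5088)))))))))) (orK (nat_lit 227) (fin (add (start D3456) (orK (nat_lit 207) (fin (add (start D5156) (orK (nat_lit 208) (fin (add (start D2449) D4606)))))))))))))))))
noncomputable def D23667 : OP := orK (nat_lit 189) D3727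
noncomputable def D23728 : OP := orK (nat_lit 190) (fin (add (start D223) D22481))
noncomputable def D23768 : OP := orK (nat_lit 190) (fin (add (start D223) D2723))
noncomputable def D23663 : OP := orK (nat_lit 190) D2361
noncomputable def D4064 : OP := orK (nat_lit 251) (fin (add (start D4059) (orK (nat_lit 227) (fin (add (start D4060) D3456)))))
noncomputable def D3671 : OP := win (nat_lit 0) (nat_lit 9) (nat_lit 11) (nat_lit 5)
noncomputable def D3852 : OP := orK (nat_lit 228) (fin (add (start D3672) D3850))
noncomputable def D3854 : OP := orK (nat_lit 252) (fin (add (start D3671) D3852))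
noncomputable def D23698 : OP := orK (nat_lit 232) (fin (add (start D501) (orK (nat_lit 229) (fin (add (add (add (start (orK (nat_lit 252) (fin (add (start D3671) (orK (nat_lit 228) (fin (add (start D3672) D4473))))))) D3854) (orK (nat_lit 248) (fin (add (start D3848) (orK (nat_lit 228) (fin (add (start D3847) D4473))))))) (orK (nat_lit 249) (fin (add (start D3659) (orK (nat_lit 269) (fin (add (start D4089) (orK (nat_lit 252) (fin (add (start D3671) (orK (nat_lit 268) (fin (add (start D1899) (orK (nat_lit 270) (fin (add (start D4103) (orK (nat_lit 271) (fin (add (start D7046) (orK (nat_lit 292) (fin (add (start D4254) (orK (nat_lit 272) (fin (add (start D4255) (win (nat_lit 7) (nat_lit 11) (nat_lit 10) (nat_lit 5)))))))))))))))))))))))))))))))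
noncomputable def D13085 : OP := orK (nat_lit 191) (fin (add (start D374) (orK (nat_lit 167) (fin (add (start D12859) D3542)))))
noncomputable def D8983 : OP := win (nat_lit 4) (nat_lit 7) (nat_lit 8) (nat_lit 3)
noncomputable def D23754 : AP := fin (add (start D5703) D8983)
noncomputable def D23743 : OP := orK (nat_lit 189) (fin (add (start D226) (win (nat_lit 5) (nat_lit 9) (nat_lit 8) (nat_lit 4))))
noncomputable def D3911 : OP := win (nat_lit 4) (nat_lit 8) (nat_lit 10) (nat_lit 1)
noncomputable def D3913 : OP := orK (nat_lit 228) (fin (add (start D3911) D104))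
noncomputable def D12125 : OP := win (nat_lit 5) (nat_lit 7) (nat_lit 12) (nat_lit 1)
noncomputable def D24104 : AP := fin (add (add (add (add (add (add (add (add (add (add (add (start (orK (nat_lit 230) (fin (add (add (add (start (orK (nat_lit 190) D23664)) (orK (nat_lit 190) D22482)) (orK (nat_lit 209) (fin (add (add (start D23667) (orK (nat_lit 208) (fin (add (add (add (start D3770) D4008) (orK (nat_lit 189) (fin (add (start D3722) (orK (nat_lit 211) (fin (add (start D3354) D18787))))))) D3327)))) (orK (nat_lit 231) (fin (add (add (add (start D23698) D3909) D3910) (orK (nat_lit 208) (fin (add (start D3035) (orK (nat_lit 211) (fin (add (add (start D3787) (orK (nat_lit 228) (fin (add (start D104) (orK (nat_lit 229) (fin (add (start D517) (orK (nat_lit 251) (fin (add (start D4059) (orK (nat_lit 188) (fin (add (start D451) (orK (nat_lit 248) (fin (add (start D3847) (orK (nat_lit 268) (fin (add (start D4070) (orK (nat_lit 267) (fin (add (start D2528) (orK (nat_lit 249) (fin (add (start D12125) D4630))))))))))))))))))))))))) (orK (nat_lit 192) (fin (add (start D846) (orK (nat_lit 212) (fin (add (start D845) D3913)))))))))))))))))))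 D23728)))) (orK (nat_lit 171) (fin (add (add (add (start (orK (nat_lit 172) (fin (add (add (start (orK (nat_lit 193) (fin (add (start D230) (orK (nat_lit 173) (fin (add (start D231) D23743))))))) (orK (nat_lit 153) (fin (add (start D232) (orK (nat_lit 173) (fin (add (start D233) D23743))))))) D1292)))) D7112) (orK (nat_lit 188) (fin (add (add (add (start (orK (nat_lit 187) (fin (add (start D1923) (orK (nat_lit 189) D23754))))) D6310) (orK (nat_lit 189) (fin (add (start D2130) (orK (nat_lit 187) D23754))))) D6316)))) (orK (nat_lit 168) (fin (add (add (start D13085) D5656) (orK (nat_lit 191) (fin (add (start D374) (orK (nat_lit 167) (fin (add (start D12859) D2110))))))))))))) (orK (nat_lit 230) (fin (add (add (add (add (start D23663) D23768) D23728) (orK (nat_lit 190) D23771)) (orK (nat_lit 209) (fin (add (add (add (start D23667) (orK (nat_lit 208) (fin (add (add (start D3770) (orK (nat_lit 189) (fin (add (start D3722) (orK (nat_lit 188) (fin (add (start (orK (nat_lit 211) (fin (add (start D1891) D8627)))) D3988))))))) D4008)))) D23801) (orK (nat_lit 231) (fin (add (add (add (start D23698) D3909) D3910) (orK (nat_lit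 208) (fin (add (start D3035) (orK (nat_lit 228) (fin (add (add (add (start D2524) (orK (nat_lit 188) (fin (add (add (start (orK (nat_lit 187) (fin (add (start D3315) (orK (nat_lit 168) (fin (add (start D2538) D4290))))))) (orK (nat_lit 187) (fin (add (start D3315) (orK (nat_lit 248) (fin (add (start D3316) D3749))))))) D2541)))) (orK (nat_lit 229) (fin (add (start D4064) (orK (nat_lit 248) (fin (add (start D3847) (orK (nat_lit 268) (fin (add (start D4070) (orK (nat_lit 269) (fin (add (start D2530) (orK (nat_lit 188) (fin (add (start D2529) D15839)))))))))))))))) (orK (nat_lit 211) (fin (add (start D104) (orK (nat_lit 188) (fin (add (start D451) (orK (nat_lit 168) (fin (add (start D2538) D23825))))))))))))))))))))))))) (orK (nat_lit 230) (fin (add (add (add (add (start D23663) D23768) D23728) (orK (nat_lit 190) D23842)) (orK (nat_lit 209) (fin (add (add (add (add (start D23667) D15730) D23801) D4655) (orK (nat_lit 208) (fin (add (add (start D3770) (orK (nat_lit 189) (fin (add (start D3722) (orK (nat_lit 250) (fin (add (start D3724) (orK (nat_lit 228) (fin (add (add (start D9948) (orK (nat_lit 211) (fin (add (start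 D104) D3781)))) (orK (nat_lit 227) (fin (add (start D2518) (orK (nat_lit 248) (fin (add (start D312) (orK (nat_lit 249) (fin (add (start D6932) (orK (nat_lit 247) (fin (add (start D4193) (orK (nat_lit 267) (fin (add (start D327) D11247))))))))))))))))))))))))) D4008)))))))))) (orK (nat_lit 190) (fin (add (add (add (start D6) (orK (nat_lit 230) D23771)) D2574) (orK (nat_lit 149) (fin (add (add (start D4) (orK (nat_lit 168) (fin (add (add (add (start D2575) (orK (nat_lit 171) (fin (add (start D773) D12871)))) D23872) (orK (nat_lit 167) (fin (add (add (add (start D2582) (orK (nat_lit 166) (fin (add (start D2576) D2610)))) (orK (nat_lit 147) (fin (add (start D2106) (orK (nat_lit 171) (fin (add (start D2105) (orK (nat_lit 152) (fin (add (start D280) (orK (nat_lit 172) (fin (add (start D281) (orK (nat_lit 193) (fin (add (start D230) (orK (nat_lit 173) (fin (add (start D231) D2370))))))))))))))))))) D2614))))))) (orK (nat_lit 129) (fin (add (start D1) (orK (nat_lit 171) (fin (add (add (add (start D5718) (orK (nat_lit 191) (fin (add (add (start D5242) (orK (nat_lit 192) (fin (add (start D64) (orK (nat_lit 151) (fin (add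 (start D118) (orK (nat_lit 152) (fin (add (start D3599) (orK (nat_lit 211) (fin (add (start D1795) (orK (nat_lit 232) (fin (add (start D7096) (orK (nat_lit 231) (fin (add (start D4732) D48))))))))))))))))))) D364)))) D5844) (orK (nat_lit 148) (fin (add (add (start D5716) (orK (nat_lit 151) (fin (add (add (start D220) D3593) (orK (nat_lit 131) (fin (add (start D217) (orK (nat_lit 152) (fin (add (start D1033) (orK (nat_lit 130) (fin (add (start D6692) D5916))))))))))))) (orK (nat_lit 147) (fin (add (start D759) (orK (nat_lit 131) (fin (add (start (orK (nat_lit 151) D219)) (orK (nat_lit 130) D5917))))))))))))))))))))))) (orK (nat_lit 190) (fin (add (add (add (start D6) D2812) D2574) (orK (nat_lit 191) (fin (add (add (add (start D23946) D92) D96) (orK (nat_lit 168) (fin (add (start D37) (orK (nat_lit 171) (fin (add (start D121) (orK (nat_lit 188) (fin (add (start D117) (orK (nat_lit 189) (fin (add (start D3428) (orK (nat_lit 211) (fin (add (start D54) D22001)))))))))))))))))))))) (orK (nat_lit 190) (fin (add (add (add (start D2812) D23961) D23975) D22483)))) (orK (nat_lit 190) (fin (add (add (add (start D6) D2812) D2574)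 (orK (nat_lit 191) (fin (add (add (add (start (orK (nat_lit 149) (fin (add (add (start D4) (orK (nat_lit 171) (fin (add (add (start (orK (nat_lit 172) (fin (add (start D276) D11797)))) (orK (nat_lit 151) (fin (add (start D118) (orK (nat_lit 168) (fin (add (start D119) D781))))))) D5718)))) (orK (nat_lit 171) (fin (add (add (add (start D5718) D23990) (orK (nat_lit 172) (fin (add (start D276) D18311)))) (orK (nat_lit 151) (fin (add (start D118) (orK (nat_lit 168) (fin (add (start D119) D6467))))))))))))) D23946) (orK (nat_lit 192) (fin (add (start D64) (orK (nat_lit 189) (fin (add (start D10232) (orK (nat_lit 208) (fin (add (start D14311) D23936)))))))))) (orK (nat_lit 171) (fin (add (add (start (orK (nat_lit 192) (fin (add (start D357) D64)))) D23990) (orK (nat_lit 131) (fin (add (start D372) (orK (nat_lit 172) (fin (add (add (start D18305) (orK (nat_lit 192) (fin (add (start D240) D23560)))) D18311)))))))))))))))) (orK (nat_lit 190) (fin (add (add (add (start D6) D2812) D2574) (orK (nat_lit 168) (fin (add (add (add (start (orK (nat_lit 149) (fin (add (add (start D4) (orK (nat_lit 171) (fin (add (add (start D773)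 D2118) (orK (nat_lit 188) (fin (add (start D117) (orK (nat_lit 148) (fin (add (start D770) (orK (nat_lit 208) (fin (add (start D375) (orK (nat_lit 209) (fin (add (start D5644) (orK (nat_lit 207) (fin (add (start D2831) (orK (nat_lit 189) (fin (add (start D413) D3429)))))))))))))))))))))) (orK (nat_lit 129) (fin (add (start D1) (orK (nat_lit 148) (fin (add (add (start D2631) D2633) (orK (nat_lit 146) (fin (add (start (win (nat_lit 0) (nat_lit 6) (nat_lit 7) (nat_lit 1))) (orK (nat_lit 188) (fin (add (start D936) (orK (nat_lit 128) (fin (add (start (orK (nat_lit 108) (fin (add (start D906) (orK (nat_lit 187) (fin (add (start D2634) D2228))))))) (orK (nat_lit 127) (fin (add (start D2229) (orK (nat_lit 126) (fin (add (start D6388) D7480))))))))))))))))))))))))) D3014) D2600) D23872))))))) (orK (nat_lit 190) (fin (add (add (add (start (orK (nat_lit 230) (fin (add (start D223) D539)))) D3012) (orK (nat_lit 168) (fin (add (add (add (start D2600) (orK (nat_lit 167) (fin (add (start D2603) D6410)))) D12873) D24097)))) D22483)))) D24102) (orK (nat_lit 190) D3017))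
noncomputable def D23551 : OP := orK (nat_lit 131) (fin (add (start D168) (orK (nat_lit 130) (fin (add (start D167) D3485)))))
noncomputable def D14523 : OP := orK (nat_lit 209) D3216
noncomputable def D23490 : OP := orK (nat_lit 209) (fin (add (add (start D701) D2473) D9146))
noncomputable def D21629 : AP := fin (add (start D80) D21628)
noncomputable def D21630 : OP := orK (nat_lit 209) D21629
noncomputable def D21631 : AP := fin (add (add (start D174) D21630) D705)
noncomputable def D2860 : OP := orK (nat_lit 171) D2859
noncomputable def D2861 : AP := fin (add (start D411) D2860)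
noncomputable def D2862 : OP := orK (nat_lit 232) D2861
noncomputable def D21441 : OP := orK (nat_lit 229) (fin (add (start D464) D8137))
noncomputable def D11842 : OP := orK (nat_lit 229) D463
noncomputable def D844 : OP := orK (nat_lit 189) (fin (add (start D439) D61))
noncomputable def D3681 : OP := win (nat_lit 1) (nat_lit 11) (nat_lit 8) (nat_lit 0)
noncomputable def D19363 : AP := fin (add (start D49) D19362)
noncomputable def D19330 : OP := orK (nat_lit 232) D7271
noncomputable def D19196 : OP := orK (nat_lit 188) (fin (add (start D53) (orK (nat_lit 168) (fin (add (start D11978) (orK (nat_lit 191) (fin (add (start D373) D11933))))))))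
noncomputable def D23056 : AP := fin (add (start D1529) (orK (nat_lit 169) (fin (add (start D984) (orK (nat_lit 188) (fin (add (start D6358) (orK (nat_lit 189) (fin (add (start D5721) D5848))))))))))
noncomputable def D16982 : OP := win (nat_lit 2) (nat_lit 6) (nat_lit 6) (nat_lit 4)
noncomputable def D16981 : OP := win (nat_lit 2) (nat_lit 5) (nat_lit 6) (nat_lit 5)
noncomputable def D16984 : OP := orK (nat_lit 126) (fin (add (start D16981) D16982))
noncomputable def D22706 : OP := orK (nat_lit 146) (fin (add (start D22704) D16984))
noncomputable def D23461 : OP := orK (nat_lit 146) (fin (add (start D22704) (orK (nat_lit 125) (fin (add (start D23453) (orK (nat_lit 145) (fin (add (start D23454) (win (nat_lit 4) (nat_lit 5) (nat_lit 6) (nat_lit 4))))))))))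
noncomputable def D999 : OP := win (nat_lit 4) (nat_lit 8) (nat_lit 6) (nat_lit 4)
noncomputable def D5854 : OP := win (nat_lit 2) (nat_lit 7) (nat_lit 6) (nat_lit 3)
noncomputable def D22896 : OP := win (nat_lit 0) (nat_lit 8) (nat_lit 5) (nat_lit 0)
noncomputable def D22522 : OP := win (nat_lit 5) (nat_lit 8) (nat_lit 5) (nat_lit 0)
noncomputable def D23081 : OP := win (nat_lit 5) (nat_lit 7) (nat_lit 5) (nat_lit 3)
noncomputable def D884 : OP := orK (nat_lit 167) D883
noncomputable def D22881 : OP := win (nat_lit 1) (nat_lit 8) (nat_lit 5) (nat_lit 5)
noncomputable def D22883 : OP := orK (nat_lit 168) (fin (add (start D22881) D884))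
noncomputable def D22884 : AP := fin (add (start D984) D22883)
noncomputable def D22886 : AP := fin (add (start D1529) (orK (nat_lit 169) D22884))
noncomputable def D22293 : OP := win (nat_lit 1) (nat_lit 7) (nat_lit 4) (nat_lit 0)
noncomputable def D22853 : OP := win (nat_lit 5) (nat_lit 7) (nat_lit 5) (nat_lit 0)
noncomputable def D23248 : OP := win (nat_lit 1) (nat_lit 7) (nat_lit 5) (nat_lit 5)
noncomputable def D16966 : OP := win (nat_lit 5) (nat_lit 6) (nat_lit 7) (nat_lit 3)
noncomputable def D23316 : OP := orK (nat_lit 166) (fin (add (start D16966) (orK (nat_lit 168) (fin (add (start D925) D924)))))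
noncomputable def D22633 : OP := orK (nat_lit 107) (fin (add (start (win (nat_lit 6) (nat_lit 7) (nat_lit 4) (nat_lit 0))) D22631))
noncomputable def D16974 : OP := win (nat_lit 2) (nat_lit 6) (nat_lit 6) (nat_lit 3)
noncomputable def D1002 : OP := orK (nat_lit 132) (fin (add (start D999) D1000))
noncomputable def D1004 : OP := orK (nat_lit 152) (fin (add (start D998) D1002))
noncomputable def D1006 : OP := orK (nat_lit 128) (fin (add (start D905) D1004))
noncomputable def D1843 : OP := orK (nat_lit 128) (fin (add (start D905) D998))
noncomputable def D22100 : OP := orK (nat_lit 126) (fin (add (start D16982) (orK (nat_lit 146) (fin (add (start D16981) D16999)))))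
noncomputable def D23264 : OP := orK (nat_lit 147) (fin (add (start D8309) D22100))
noncomputable def D868 : OP := win (nat_lit 0) (nat_lit 8) (nat_lit 7) (nat_lit 3)
noncomputable def D898 : OP := orK (nat_lit 172) (fin (add (start D868) D874))
noncomputable def D899 : AP := fin (add (start D561) D898)
noncomputable def D22729 : OP := orK (nat_lit 171) D899
noncomputable def D894 : OP := orK (nat_lit 172) (fin (add (start D869) D874))
noncomputable def D895 : AP := fin (add (start D561) D894)
noncomputable def D22728 : OP := orK (nat_lit 171) D895
noncomputable def D22708 : OP := orK (nat_lit 146) (fin (add (start D22704) D16999))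
noncomputable def D22714 : OP := orK (nat_lit 147) (fin (add (add (start D22706) D22708) (orK (nat_lit 127) (fin (add (start D566) (orK (nat_lit 151) (fin (add (start D565) D570))))))))
noncomputable def D23276 : OP := orK (nat_lit 171) (fin (add (add (start D894) D898) (orK (nat_lit 151) (fin (add (start D6381) (orK (nat_lit 168) (fin (add (start D577) (orK (nat_lit 169) (fin (add (start D119) D6465)))))))))))
noncomputable def D22635 : OP := orK (nat_lit 127) (fin (add (start D566) D22633))
noncomputable def D981 : OP := win (nat_lit 7) (nat_lit 8) (nat_lit 6) (nat_lit 0)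
noncomputable def D1812 : OP := win (nat_lit 5) (nat_lit 9) (nat_lit 7) (nat_lit 5)
noncomputable def D22808 : OP := orK (nat_lit 147) (fin (add (start D8309) D22708))
noncomputable def D22854 : OP := win (nat_lit 3) (nat_lit 8) (nat_lit 4) (nat_lit 0)
noncomputable def D23220 : OP := orK (nat_lit 89) (fin (add (start D22854) (orK (nat_lit 69) (fin (add (start (win (nat_lit 1) (nat_lit 8) (nat_lit 2) (nat_lit 0))) (win (nat_lit 3) (nat_lit 8) (nat_lit 3) (nat_lit 3)))))))
noncomputable def D22304 : OP := win (nat_lit 7) (nat_lit 7) (nat_lit 3) (nat_lit 5)
noncomputable def D23073 : OP := win (nat_lit 0) (nat_lit 6) (nat_lit 4) (nat_lit 0)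
noncomputable def D22250 : OP := win (nat_lit 3) (nat_lit 8) (nat_lit 3) (nat_lit 5)
noncomputable def D23223 : OP := win (nat_lit 6) (nat_lit 8) (nat_lit 4) (nat_lit 5)
noncomputable def D22870 : OP := orK (nat_lit 169) (fin (add (start D906) (orK (nat_lit 189) (fin (add (start D6351) D981)))))
noncomputable def D926 : OP := win (nat_lit 4) (nat_lit 6) (nat_lit 7) (nat_lit 3)
noncomputable def D928 : OP := orK (nat_lit 166) (fin (add (start D925) D926))
noncomputable def D23194 : OP := win (nat_lit 5) (nat_lit 6) (nat_lit 5) (nat_lit 4)
noncomputable def D23197 : OP := win (nat_lit 5) (nat_lit 5) (nat_lit 5) (nat_lit 5)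
noncomputable def D23195 : OP := win (nat_lit 2) (nat_lit 6) (nat_lit 4) (nat_lit 4)
noncomputable def D23196 : OP := win (nat_lit 2) (nat_lit 5) (nat_lit 4) (nat_lit 5)
noncomputable def D23231 : OP := orK (nat_lit 86) (fin (add (start D23196) D23195))
noncomputable def D22545 : OP := orK (nat_lit 127) (fin (add (start (win (nat_lit 5) (nat_lit 6) (nat_lit 5) (nat_lit 5))) (win (nat_lit 5) (nat_lit 7) (nat_lit 5) (nat_lit 4))))
noncomputable def D22888 : OP := win (nat_lit 4) (nat_lit 8) (nat_lit 4) (nat_lit 5)
noncomputable def D22913 : OP := orK (nat_lit 91) (fin (add (start (win (nat_lit 4) (nat_lit 7) (nat_lit 4) (nat_lit 4))) D22888))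
noncomputable def D22916 : AP := fin (add (start D22913) D22545)
noncomputable def D1762 : OP := win (nat_lit 4) (nat_lit 9) (nat_lit 4) (nat_lit 5)
noncomputable def D22923 : OP := orK (nat_lit 92) (fin (add (start (win (nat_lit 4) (nat_lit 8) (nat_lit 4) (nat_lit 4))) D1762))
noncomputable def D22530 : OP := win (nat_lit 0) (nat_lit 9) (nat_lit 5) (nat_lit 5)
noncomputable def D22532 : OP := orK (nat_lit 132) (fin (add (start (win (nat_lit 0) (nat_lit 8) (nat_lit 5) (nat_lit 4))) D22530))
noncomputable def D23118 : OP := orK (nat_lit 112) (fin (add (start D22532) D22923))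
noncomputable def D1769 : OP := win (nat_lit 5) (nat_lit 7) (nat_lit 5) (nat_lit 5)
noncomputable def D1771 : OP := win (nat_lit 2) (nat_lit 7) (nat_lit 4) (nat_lit 5)
noncomputable def D22860 : OP := win (nat_lit 5) (nat_lit 6) (nat_lit 5) (nat_lit 3)
noncomputable def D22920 : OP := orK (nat_lit 88) (fin (add (start D1771) (win (nat_lit 2) (nat_lit 8) (nat_lit 4) (nat_lit 4))))
noncomputable def D22928 : AP := fin (add (start D22532) D22920)
noncomputable def D22539 : OP := win (nat_lit 2) (nat_lit 7) (nat_lit 4) (nat_lit 4)
noncomputable def D22538 : OP := win (nat_lit 2) (nat_lit 6) (nat_lit 4) (nat_lit 5)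
noncomputable def D22541 : OP := orK (nat_lit 87) (fin (add (start D22538) D22539))
noncomputable def D22915 : OP := orK (nat_lit 107) (fin (add (start D22541) D22913))
noncomputable def D23119 : AP := fin (add (add (start D22915) (orK (nat_lit 112) D22928)) D23118)
noncomputable def D23182 : OP := orK (nat_lit 87) (fin (add (start (win (nat_lit 2) (nat_lit 7) (nat_lit 4) (nat_lit 0))) (orK (nat_lit 86) (fin (add (start (win (nat_lit 0) (nat_lit 5) (nat_lit 4) (nat_lit 0))) (win (nat_lit 2) (nat_lit 6) (nat_lit 4) (nat_lit 3)))))))
noncomputable def D1772 : OP := win (nat_lit 6) (nat_lit 8) (nat_lit 2) (nat_lit 0)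
noncomputable def D23157 : OP := orK (nat_lit 68) (fin (add (start D1772) (win (nat_lit 6) (nat_lit 8) (nat_lit 3) (nat_lit 3))))
noncomputable def D23109 : OP := orK (nat_lit 88) (fin (add (start D1771) (win (nat_lit 6) (nat_lit 8) (nat_lit 3) (nat_lit 0))))
noncomputable def D23171 : OP := win (nat_lit 0) (nat_lit 6) (nat_lit 6) (nat_lit 1)
noncomputable def D23154 : OP := win (nat_lit 7) (nat_lit 8) (nat_lit 4) (nat_lit 0)
noncomputable def D22977 : OP := win (nat_lit 7) (nat_lit 8) (nat_lit 5) (nat_lit 0)
noncomputable def D23168 : OP := orK (nat_lit 169) (fin (add (start D22977) (orK (nat_lit 168) (fin (add (start D22881) (orK (nat_lit 167) (fin (add (start D881) (orK (nat_lit 187) (fin (add (start (win (nat_lit 1) (nat_lit 7) (nat_lit 5) (nat_lit 2))) D2107)))))))))))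
noncomputable def D22979 : OP := orK (nat_lit 127) (fin (add (start D976) D22853))
noncomputable def D22983 : OP := orK (nat_lit 108) (fin (add (start D5845) (orK (nat_lit 128) (fin (add (start D22977) D22979)))))
noncomputable def D22985 : OP := orK (nat_lit 129) (fin (add (start D984) D22983))
noncomputable def D7243 : OP := orK (nat_lit 211) (fin (add (start D1891) D1312))
noncomputable def D2276 : OP := orK (nat_lit 167) (fin (add (start D881) D2110))
noncomputable def D2323 : OP := orK (nat_lit 192) (fin (add (start D240) (orK (nat_lit 168) (fin (add (start D241) D2276)))))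
noncomputable def D23010 : OP := orK (nat_lit 192) (fin (add (start D241) (orK (nat_lit 172) (fin (add (start D240) D874)))))
noncomputable def D23068 : AP := fin (add (start D984) (orK (nat_lit 168) (fin (add (start D22881) (orK (nat_lit 167) (fin (add (start D881) (orK (nat_lit 147) (fin (add (start D2106) (orK (nat_lit 171) (fin (add (start D5252) D23010)))))))))))))
noncomputable def D22917 : OP := orK (nat_lit 107) D22916
noncomputable def D22942 : OP := orK (nat_lit 93) (fin (add (start (win (nat_lit 4) (nat_lit 9) (nat_lit 4) (nat_lit 4))) (win (nat_lit 4) (nat_lit 10) (nat_lit 4) (nat_lit 5))))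
noncomputable def D22931 : OP := win (nat_lit 0) (nat_lit 10) (nat_lit 5) (nat_lit 5)
noncomputable def D22930 : OP := win (nat_lit 0) (nat_lit 9) (nat_lit 5) (nat_lit 4)
noncomputable def D22533 : OP := win (nat_lit 5) (nat_lit 8) (nat_lit 5) (nat_lit 4)
noncomputable def D22855 : OP := win (nat_lit 6) (nat_lit 9) (nat_lit 4) (nat_lit 2)
noncomputable def D23267 : AP := fin (add (add (add (add (start (orK (nat_lit 129) (fin (add (start D1529) (orK (nat_lit 169) D23068))))) (orK (nat_lit 111) (fin (add (add (add (add (start (orK (nat_lit 89) (fin (add (start D22855) (orK (nat_lit 88) (fin (add (start (win (nat_lit 2) (nat_lit 8) (nat_lit 4) (nat_lit 0))) (orK (nat_lit 87) (fin (add (start D23073) (win (nat_lit 0) (nat_lit 7) (nat_lit 4) (nat_lit 3)))))))))))) (orK (nat_lit 129) (fin (add (start D1529) (orK (nat_lit 128) (fin (add (start D22522) (orK (nat_lit 127) (fin (add (start D976) D23081)))))))))) (orK (nat_lit 128) (fin (add (add (start (orK (nat_lit 127) (fin (add (start D23081) (orK (nat_lit 129) (fin (add (start (win (nat_lit 4) (nat_lit 6) (nat_lit 5) (nat_lit 0))) D22522))))))) (orK (nat_lit 112) (fin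 (add (start D22533) (orK (nat_lit 133) (fin (add (start D22930) (orK (nat_lit 113) (fin (add (start D22931) D22942)))))))))) (orK (nat_lit 108) (fin (add (start D1769) (orK (nat_lit 87) (fin (add (start D22539) (orK (nat_lit 107) (fin (add (start D22538) D22913))))))))))))) (orK (nat_lit 129) (fin (add (start D1529) (orK (nat_lit 108) (fin (add (add (start (orK (nat_lit 128) (fin (add (start D1769) D23109)))) D22915) D22917))))))) (orK (nat_lit 108) D23119))))) (orK (nat_lit 169) (fin (add (add (start (orK (nat_lit 129) D23068)) (orK (nat_lit 171) (fin (add (add (start D5201) (orK (nat_lit 172) (fin (add (start D874) D2323)))) (orK (nat_lit 168) (fin (add (add (start (orK (nat_lit 147) (fin (add (start D5252) (orK (nat_lit 167) (fin (add (start D2106) D881))))))) D2276) (orK (nat_lit 148) (fin (add (start D561) (orK (nat_lit 191) (fin (add (start D374) (orK (nat_lit 188) (fin (add (start D117) (orK (nat_lit 208) (fin (add (start D375) (orK (nat_lit 209) (fin (add (start D5644) (orK (nat_lit 207) (fin (add (start D2831) (orK (nat_lit 189) (fin (add (start D3429) D7243)))))))))))))))))))))))))))) D22985)))) (orK (nat_lit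 129) (fin (add (start D1529) (orK (nat_lit 108) (fin (add (add (add (start (orK (nat_lit 88) (fin (add (start D23154) D23157)))) (orK (nat_lit 128) (fin (add (add (start D22979) (orK (nat_lit 111) (fin (add (start D22522) D23168)))) (orK (nat_lit 126) (fin (add (start D23171) D23168))))))) (orK (nat_lit 88) (fin (add (start D23154) D23182)))) (orK (nat_lit 126) (fin (add (add (add (start (orK (nat_lit 127) (fin (add (start (win (nat_lit 0) (nat_lit 6) (nat_lit 6) (nat_lit 2))) D22860)))) (orK (nat_lit 128) (fin (add (start D23171) (orK (nat_lit 111) (fin (add (start D22522) D23109))))))) (orK (nat_lit 88) (fin (add (start D23157) D23182)))) (orK (nat_lit 107) (fin (add (start D23194) (orK (nat_lit 86) (fin (add (start D23195) (orK (nat_lit 106) (fin (add (start D23196) D23197))))))))))))))))))) (orK (nat_lit 148) (fin (add (add (start D22728) (orK (nat_lit 108) (fin (add (add (add (add (start (orK (nat_lit 111) D23119)) (orK (nat_lit 128) (fin (add (start (orK (nat_lit 127) (fin (add (start D22853) (orK (nat_lit 126) (fin (add (start D6388) D22860))))))) D23220)))) (orK (nat_lit 111) (fin (add (start (orK (nat_lit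 88) (fin (add (start D1771) (orK (nat_lit 128) (fin (add (start D1769) D23223))))))) D23118)))) (orK (nat_lit 107) (fin (add (add (start (orK (nat_lit 106) (fin (add (start D23231) (orK (nat_lit 90) (fin (add (start (win (nat_lit 4) (nat_lit 6) (nat_lit 4) (nat_lit 4))) (win (nat_lit 4) (nat_lit 7) (nat_lit 4) (nat_lit 5))))))))) (orK (nat_lit 111) D22916)) (orK (nat_lit 106) (fin (add (start D23231) (orK (nat_lit 126) (fin (add (start D23197) D23194)))))))))) (orK (nat_lit 128) (fin (add (add (add (start (orK (nat_lit 168) (fin (add (start D5634) (orK (nat_lit 167) (fin (add (start D23248) D928))))))) D22870) (orK (nat_lit 88) (fin (add (start D23223) (orK (nat_lit 89) (fin (add (start D22250) (orK (nat_lit 87) (fin (add (start D23073) D22304)))))))))) D23220))))))) D23264))))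
noncomputable def D23027 : OP := orK (nat_lit 171) (fin (add (add (start D23010) (orK (nat_lit 191) (fin (add (start D374) (orK (nat_lit 188) (fin (add (start D117) (orK (nat_lit 211) (fin (add (start D1312) (orK (nat_lit 212) (fin (add (start D1800) (orK (nat_lit 209) (fin (add (start D450) (orK (nat_lit 228) (fin (add (start D23011) D105))))))))))))))))))) (orK (nat_lit 172) (fin (add (start D874) D244)))))
noncomputable def D22956 : OP := win (nat_lit 1) (nat_lit 11) (nat_lit 4) (nat_lit 5)
noncomputable def D22934 : OP := win (nat_lit 2) (nat_lit 9) (nat_lit 4) (nat_lit 4)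
noncomputable def D22823 : OP := win (nat_lit 2) (nat_lit 8) (nat_lit 4) (nat_lit 5)
noncomputable def D22936 : OP := orK (nat_lit 89) (fin (add (start D22823) D22934))
noncomputable def D22547 : OP := orK (nat_lit 107) (fin (add (start D22541) D22545))
noncomputable def D1532 : OP := win (nat_lit 6) (nat_lit 11) (nat_lit 5) (nat_lit 5)
noncomputable def D1753 : OP := win (nat_lit 0) (nat_lit 8) (nat_lit 5) (nat_lit 5)
noncomputable def D22804 : OP := orK (nat_lit 147) (fin (add (start D8309) D22706))
noncomputable def D937 : OP := win (nat_lit 1) (nat_lit 8) (nat_lit 4) (nat_lit 0)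
noncomputable def D938 : OP := win (nat_lit 3) (nat_lit 8) (nat_lit 5) (nat_lit 3)
noncomputable def D940 : OP := orK (nat_lit 109) (fin (add (start D937) D938))
noncomputable def D942 : OP := orK (nat_lit 129) (fin (add (start D936) D940))
noncomputable def D935 : OP := orK (nat_lit 208) (fin (add (start D931) (orK (nat_lit 169) (fin (add (start D375) D117)))))
noncomputable def D2237 : OP := orK (nat_lit 188) (fin (add (add (start D935) D942) (orK (nat_lit 187) (fin (add (start D943) (orK (nat_lit 128) (fin (add (start D2228) (orK (nat_lit 127) (fin (add (start D977) D2229)))))))))))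
noncomputable def D954 : OP := orK (nat_lit 188) (fin (add (add (start D935) D942) (orK (nat_lit 187) (fin (add (start D943) (orK (nat_lit 207) (fin (add (start D944) (orK (nat_lit 227) (fin (add (start D945) D946)))))))))))
noncomputable def D930 : OP := orK (nat_lit 167) (fin (add (start D924) D928))
noncomputable def D900 : OP := orK (nat_lit 148) D899
noncomputable def D896 : OP := orK (nat_lit 148) D895
noncomputable def D22758 : OP := win (nat_lit 1) (nat_lit 12) (nat_lit 3) (nat_lit 0)
noncomputable def D1240 : OP := win (nat_lit 3) (nat_lit 12) (nat_lit 5) (nat_lit 0)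
noncomputable def D7771 : OP := win (nat_lit 4) (nat_lit 9) (nat_lit 6) (nat_lit 2)
noncomputable def D1228 : OP := win (nat_lit 1) (nat_lit 11) (nat_lit 6) (nat_lit 3)
noncomputable def D1260 : AP := fin (add (start D1145) (orK (nat_lit 211) (fin (add (start D1228) D1257))))
noncomputable def D1261 : OP := orK (nat_lit 191) D1260
noncomputable def D22749 : OP := orK (nat_lit 112) (fin (add (start D1273) (orK (nat_lit 151) (fin (add (start D1272) D1000)))))
noncomputable def D1127 : OP := win (nat_lit 0) (nat_lit 9) (nat_lit 8) (nat_lit 0)
noncomputable def D1208 : AP := fin (add (start (win (nat_lit 5) (nat_lit 10) (nat_lit 7) (nat_lit 3))) D1140)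
noncomputable def D1138 : OP := win (nat_lit 4) (nat_lit 9) (nat_lit 7) (nat_lit 0)
noncomputable def D1210 : AP := fin (add (start D1138) (orK (nat_lit 154) D1208))
noncomputable def D1211 : OP := orK (nat_lit 153) D1210
noncomputable def D23483 : AP := fin (add (add (add (add (add (add (add (add (add (start (orK (nat_lit 171) (fin (add (add (add (start (orK (nat_lit 172) (fin (add (start D874) (orK (nat_lit 152) (fin (add (add (add (start D1211) (orK (nat_lit 169) (fin (add (start D281) (orK (nat_lit 189) (fin (add (start D226) (orK (nat_lit 192) (fin (add (start D240) (orK (nat_lit 209) (fin (add (start D1922) (orK (nat_lit 208) (fin (add (start D3236) (orK (nat_lit 211) (fin (add (start D846) (orK (nat_lit 231) (fin (add (start D49) D2727)))))))))))))))))))))) (orK (nat_lit 132) (fin (add (add (add (start D22749) D1261) (orK (nat_lit 133) (fin (add (start D7771) (orK (nat_lit 192) (fin (add (start D1974) (orK (nat_lit 193) (fin (add (start D1127) (orK (nat_lit 191) (fin (add (start D1146) D1597))))))))))))) (orK (nat_lit 133) (fin (add (start D7771) (orK (nat_lit 113) (fin (add (start D1240) (orK (nat_lit 93)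 (fin (add (start D22758) (win (nat_lit 3) (nat_lit 12) (nat_lit 4) (nat_lit 3))))))))))))))) (orK (nat_lit 132) (fin (add (add (start D22749) D1261) (orK (nat_lit 133) (fin (add (start D7771) (orK (nat_lit 113) (fin (add (start D1240) (orK (nat_lit 93) (fin (add (start D22758) (win (nat_lit 1) (nat_lit 12) (nat_lit 4) (nat_lit 3))))))))))))))))))))) D896) D900) (orK (nat_lit 148) (fin (add (start D561) (orK (nat_lit 151) (fin (add (start D6381) (orK (nat_lit 128) (fin (add (start D905) (orK (nat_lit 152) (fin (add (start D998) (orK (nat_lit 153) (fin (add (start D1812) D1237))))))))))))))))))) (orK (nat_lit 148) (fin (add (add (add (start D22714) (orK (nat_lit 171) (fin (add (add (start D894) D898) (orK (nat_lit 168) (fin (add (add (add (start D930) D954) D2237) (orK (nat_lit 151) (fin (add (start D577) (orK (nat_lit 128) (fin (add (start D905) (orK (nat_lit 129) (fin (add (start D5859) (orK (nat_lit 109) (fin (add (start D937) (win (nat_lit 3) (nat_lit 8) (nat_lit 5) (nat_lit 0))))))))))))))))))))) D22729) D22804)))) (orK (nat_lit 148) (fin (add (add (add (add (start D22804) D22808) (orK (nat_lit 147) (fin (add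 (start D8309) (orK (nat_lit 127) (fin (add (start D566) (orK (nat_lit 151) (fin (add (start D565) (orK (nat_lit 131) (fin (add (start D902) D570))))))))))))) (orK (nat_lit 128) (fin (add (add (add (start D6393) (orK (nat_lit 151) (fin (add (add (add (start D1004) (orK (nat_lit 152) (fin (add (start D998) D580)))) (orK (nat_lit 132) (fin (add (start D999) (orK (nat_lit 152) (fin (add (start D1000) D580))))))) (orK (nat_lit 131) (fin (add (start D902) (orK (nat_lit 111) (fin (add (start D1531) (orK (nat_lit 168) (fin (add (start D577) (orK (nat_lit 171) (fin (add (start D1831) (orK (nat_lit 112) (fin (add (start D1557) (orK (nat_lit 109) (fin (add (start D22533) (orK (nat_lit 89) (fin (add (start D22823) (win (nat_lit 3) (nat_lit 8) (nat_lit 4) (nat_lit 3))))))))))))))))))))))))))) (orK (nat_lit 151) (fin (add (start D905) (orK (nat_lit 131) (fin (add (start D902) (orK (nat_lit 168) (fin (add (start D577) (orK (nat_lit 169) (fin (add (start D755) D909))))))))))))) (orK (nat_lit 108) (fin (add (add (start (orK (nat_lit 127) (fin (add (add (start D6391) (orK (nat_lit 109) (fin (add (start D22853) (orK (nat_lit 89) (fin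 (add (start D22854) D22855))))))) (orK (nat_lit 126) (fin (add (start D6388) (orK (nat_lit 109) (fin (add (start D22860) D22853)))))))))) D22870) (orK (nat_lit 169) (fin (add (start D906) (orK (nat_lit 189) (fin (add (start D6396) D981))))))))))))) D22714)))) (orK (nat_lit 109) (fin (add (add (add (add (start (orK (nat_lit 129) D22886)) (orK (nat_lit 111) (fin (add (add (add (add (start (orK (nat_lit 108) (fin (add (start (orK (nat_lit 91) (fin (add (start D22888) (orK (nat_lit 131) (fin (add (start D1753) (win (nat_lit 1) (nat_lit 10) (nat_lit 4) (nat_lit 3))))))))) D22547)))) (orK (nat_lit 131) (fin (add (start (orK (nat_lit 132) (fin (add (start D22896) (orK (nat_lit 133) (fin (add (start (win (nat_lit 0) (nat_lit 9) (nat_lit 5) (nat_lit 3))) (win (nat_lit 2) (nat_lit 10) (nat_lit 5) (nat_lit 0))))))))) (orK (nat_lit 151) (fin (add (start D1531) (orK (nat_lit 171) (fin (add (start D1831) (orK (nat_lit 172) (fin (add (start D874) D1532))))))))))))) (orK (nat_lit 108) (fin (add (add (start D22917) D22547) (orK (nat_lit 112) (fin (add (start D22920) D22923))))))) (orK (nat_lit 112) (fin (add (add (start (orK (nat_lit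 108) D22928)) (orK (nat_lit 113) (fin (add (start (orK (nat_lit 133) (fin (add (start D22930) D22931)))) D22942)))) (orK (nat_lit 113) (fin (add (start D22936) D22942))))))) (orK (nat_lit 112) (fin (add (add (start (orK (nat_lit 133) (fin (add (start D22930) (orK (nat_lit 113) (fin (add (start D22931) D22936))))))) (orK (nat_lit 132) (fin (add (start D22530) (orK (nat_lit 92) (fin (add (start D1762) (orK (nat_lit 151) (fin (add (start (orK (nat_lit 131) (fin (add (start D1531) (win (nat_lit 1) (nat_lit 11) (nat_lit 3) (nat_lit 0)))))) (orK (nat_lit 152) (fin (add (start D22956) (orK (nat_lit 173) (fin (add (start D7931) (win (nat_lit 6) (nat_lit 12) (nat_lit 4) (nat_lit 4)))))))))))))))))) (orK (nat_lit 89) (fin (add (start D22823) (orK (nat_lit 113) (fin (add (start D22934) D22942))))))))))))) (orK (nat_lit 169) (fin (add (add (start (orK (nat_lit 129) D22884)) D22985) (orK (nat_lit 151) (fin (add (add (start D757) (orK (nat_lit 152) (fin (add (start D758) (orK (nat_lit 132) (fin (add (start D1000) (orK (nat_lit 111) (fin (add (add (start (orK (nat_lit 131) (fin (add (start D22896) D1531)))) (orK (nat_lit 131)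 (fin (add (start D22896) (orK (nat_lit 172) (fin (add (start D576) (win (nat_lit 7) (nat_lit 11) (nat_lit 5) (nat_lit 0))))))))) (orK (nat_lit 112) (fin (add (start (orK (nat_lit 172) (fin (add (start D576) D1151)))) (orK (nat_lit 92) (fin (add (start D22956) D1762)))))))))))))))) (orK (nat_lit 168) (fin (add (start D754) D23027)))))))))) (orK (nat_lit 169) (fin (add (add (start (orK (nat_lit 129) (fin (add (start D1529) D22883)))) (orK (nat_lit 129) (fin (add (start D1529) D22983)))) (orK (nat_lit 168) (fin (add (add (start D884) (orK (nat_lit 151) (fin (add (start D755) D23027)))) (orK (nat_lit 167) (fin (add (start D881) (orK (nat_lit 187) (fin (add (start D2107) (orK (nat_lit 171) (fin (add (start D2108) D23010)))))))))))))))) (orK (nat_lit 129) D23056))))) (orK (nat_lit 109) D23267)) (orK (nat_lit 148) (fin (add (add (add (start D22808) D23276) D22729) (orK (nat_lit 167) (fin (add (add (start (orK (nat_lit 151) (fin (add (start D568) (orK (nat_lit 132) (fin (add (start D999) (orK (nat_lit 152) (fin (add (start D1000) (orK (nat_lit 173) (fin (add (start D7931) (orK (nat_lit 153) (fin (add (start D1591) D1812))))))))))))))))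 (orK (nat_lit 147) (fin (add (start D567) (orK (nat_lit 169) (fin (add (start D759) (orK (nat_lit 129) (fin (add (start D1852) (orK (nat_lit 189) (fin (add (add (start (orK (nat_lit 128) (fin (add (start D5725) D981)))) (orK (nat_lit 208) (fin (add (start D5748) (orK (nat_lit 209) (fin (add (start D3236) D1922))))))) (orK (nat_lit 187) (fin (add (start (orK (nat_lit 188) (fin (add (start D5721) D5703)))) (orK (nat_lit 128) (fin (add (start D23300) D5725))))))))))))))))))) D23316))))))) (orK (nat_lit 148) (fin (add (add (add (start (orK (nat_lit 147) (fin (add (add (start D22706) D22708) (orK (nat_lit 167) (fin (add (start D567) (orK (nat_lit 168) (fin (add (start D924) D22635)))))))))) D23276) D22728) D22729)))) (orK (nat_lit 148) (fin (add (add (add (start D22714) (orK (nat_lit 171) (fin (add (add (start D894) D898) (orK (nat_lit 151) (fin (add (start D6381) (orK (nat_lit 168) (fin (add (start D577) (orK (nat_lit 169) (fin (add (start D119) (orK (nat_lit 128) (fin (add (start D905) (orK (nat_lit 188) (fin (add (start D117) D909))))))))))))))))))) D22728) D22729)))) (orK (nat_lit 148) (fin (add (add (add (start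 D22729) D23264) (orK (nat_lit 151) (fin (add (add (start (orK (nat_lit 171) (fin (add (start D562) D6381)))) (orK (nat_lit 172) (fin (add (start D575) (orK (nat_lit 152) (fin (add (start D576) D1843))))))) D1006)))) (orK (nat_lit 127) (fin (add (add (add (start (orK (nat_lit 126) (fin (add (start D16974) (orK (nat_lit 128) D6390))))) (orK (nat_lit 147) (fin (add (start D566) (orK (nat_lit 167) (fin (add (start D567) (orK (nat_lit 168) (fin (add (start D924) D22633)))))))))) (orK (nat_lit 167) (fin (add (add (add (start (orK (nat_lit 151) (fin (add (start D565) D568)))) D23316) (orK (nat_lit 166) (fin (add (start D16966) (orK (nat_lit 168) (fin (add (start D925) (orK (nat_lit 128) (fin (add (add (start (orK (nat_lit 188) (fin (add (start D2229) (orK (nat_lit 187) (fin (add (start D2639) D2228))))))) (orK (nat_lit 188) (fin (add (start D2229) (orK (nat_lit 129) (fin (add (start D5641) D936))))))) (orK (nat_lit 108) (fin (add (start D23248) (orK (nat_lit 109) (fin (add (start D5634) D22853)))))))))))))))) (orK (nat_lit 147) (fin (add (start D567) (orK (nat_lit 128) (fin (add (start D977) (orK (nat_lit 108) (fin (add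 (start D22293) (win (nat_lit 3) (nat_lit 7) (nat_lit 5) (nat_lit 0))))))))))))))) (orK (nat_lit 128) D6392)))))))) (orK (nat_lit 129) (fin (add (add (add (start (orK (nat_lit 109) D22886)) (orK (nat_lit 128) (fin (add (add (start (orK (nat_lit 127) (fin (add (start D976) (orK (nat_lit 151) (fin (add (start D5854) D5859))))))) (orK (nat_lit 127) (fin (add (start D976) (orK (nat_lit 109) (fin (add (start D1529) (orK (nat_lit 111) (fin (add (start D23081) D22522)))))))))) (orK (nat_lit 109) (fin (add (start D1529) (orK (nat_lit 151) (fin (add (start D5859) (orK (nat_lit 111) (fin (add (start D22522) (orK (nat_lit 131) (fin (add (start D1531) (orK (nat_lit 132) (fin (add (start D22896) D1823))))))))))))))))))) (orK (nat_lit 151) (fin (add (add (add (start (orK (nat_lit 152) (fin (add (start D1247) D8574)))) (orK (nat_lit 128) (fin (add (start D5859) (orK (nat_lit 127) (fin (add (start D976) D5854))))))) (orK (nat_lit 152) (fin (add (add (start D8574) D8580) (orK (nat_lit 132) (fin (add (start D1000) (orK (nat_lit 148) (fin (add (start D999) D580)))))))))) (orK (nat_lit 148) (fin (add (add (add (add (start D574) (orK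 (nat_lit 128) (fin (add (start D905) (orK (nat_lit 168) (fin (add (start D577) (orK (nat_lit 188) (fin (add (start D936) (orK (nat_lit 189) (fin (add (start D5630) (orK (nat_lit 187) (fin (add (start D2228) (orK (nat_lit 169) (fin (add (start D5703) D980))))))))))))))))))) (orK (nat_lit 132) (fin (add (start D999) (orK (nat_lit 147) (fin (add (add (add (start D761) (orK (nat_lit 146) (fin (add (start D22704) (orK (nat_lit 128) (fin (add (start D905) (win (nat_lit 4) (nat_lit 5) (nat_lit 6) (nat_lit 0))))))))) D23461) D22706))))))) (orK (nat_lit 167) (fin (add (start D568) (orK (nat_lit 147) (fin (add (start D567) D23461))))))) (orK (nat_lit 131) (fin (add (start D902) (orK (nat_lit 167) (fin (add (start D568) (orK (nat_lit 147) (fin (add (start D567) D22706)))))))))))))))) (orK (nat_lit 109) D23056)))))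
noncomputable def D22685 : OP := orK (nat_lit 169) (fin (add (start D2145) (orK (nat_lit 171) (fin (add (start D1317) D5623)))))
noncomputable def D1752 : OP := win (nat_lit 0) (nat_lit 7) (nat_lit 5) (nat_lit 0)
noncomputable def D1754 : AP := fin (add (start D1752) D1753)
noncomputable def D22553 : OP := orK (nat_lit 109) (fin (add (start D1751) (orK (nat_lit 111) (fin (add (start D1750) (orK (nat_lit 108) (fin (add (add (start (orK (nat_lit 112) (fin (add (start D22532) (orK (nat_lit 128) (fin (add (start D1769) D22533))))))) (orK (nat_lit 131) D1754)) D22547))))))))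
noncomputable def D1743 : OP := win (nat_lit 6) (nat_lit 10) (nat_lit 4) (nat_lit 4)
noncomputable def D1319 : OP := win (nat_lit 3) (nat_lit 10) (nat_lit 3) (nat_lit 5)
noncomputable def D1318 : OP := win (nat_lit 3) (nat_lit 10) (nat_lit 4) (nat_lit 4)
noncomputable def D22681 : OP := orK (nat_lit 91) (fin (add (start D1318) (orK (nat_lit 90) (fin (add (start D1319) (orK (nat_lit 171) (fin (add (start D1743) D1317))))))))
noncomputable def D22509 : OP := win (nat_lit 1) (nat_lit 9) (nat_lit 4) (nat_lit 4)
noncomputable def D22513 : OP := orK (nat_lit 90) (fin (add (start D22509) (orK (nat_lit 91) (fin (add (start D1319) D1318)))))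
noncomputable def D22515 : OP := orK (nat_lit 169) (fin (add (start D2145) D22513))
noncomputable def D1323 : OP := orK (nat_lit 89) (fin (add (start (win (nat_lit 7) (nat_lit 9) (nat_lit 3) (nat_lit 5))) (win (nat_lit 7) (nat_lit 9) (nat_lit 4) (nat_lit 4))))
noncomputable def D1749 : OP := orK (nat_lit 90) (fin (add (start D1743) D1323))
noncomputable def D22694 : OP := orK (nat_lit 171) (fin (add (start D1317) D1749))
noncomputable def D22557 : OP := orK (nat_lit 169) (fin (add (start D2145) (orK (nat_lit 90) (fin (add (start D22509) D1323)))))
noncomputable def D22558 : AP := fin (add (add (start D22515) D22553) D22557)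
noncomputable def D1314 : OP := orK (nat_lit 211) D1313
noncomputable def D1315 : AP := fin (add (start D960) D1314)
noncomputable def D1316 : OP := orK (nat_lit 191) D1315
noncomputable def D2281 : OP := win (nat_lit 3) (nat_lit 9) (nat_lit 6) (nat_lit 1)
noncomputable def D132 : OP := win (nat_lit 4) (nat_lit 8) (nat_lit 7) (nat_lit 3)
noncomputable def D16164 : AP := fin (add (start D132) D758)
noncomputable def D16167 : OP := orK (nat_lit 151) (fin (add (start D754) (orK (nat_lit 152) D16164)))
noncomputable def D22572 : OP := orK (nat_lit 146) (fin (add (start D2578) (orK (nat_lit 166) (fin (add (start D2577) D7240)))))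
noncomputable def D22599 : OP := orK (nat_lit 168) (fin (add (add (add (start (orK (nat_lit 167) (fin (add (add (start D22572) D7676) D2592)))) D16167) (orK (nat_lit 167) (fin (add (start D882) D22572)))) (orK (nat_lit 152) (fin (add (add (add (start (orK (nat_lit 151) (fin (add (start D132) D133)))) (orK (nat_lit 151) D16164)) (orK (nat_lit 171) (fin (add (add (start (orK (nat_lit 192) (fin (add (start D241) (orK (nat_lit 172) (fin (add (start D240) D281))))))) (orK (nat_lit 191) (fin (add (start D374) (orK (nat_lit 148) (fin (add (start D770) (orK (nat_lit 188) (fin (add (start D117) (orK (nat_lit 208) D7327))))))))))) (orK (nat_lit 148) (fin (add (start D770) (orK (nat_lit 172) (fin (add (start D2215) D281)))))))))) (orK (nat_lit 151) D12876))))))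
noncomputable def D2850 : AP := fin (add (start D80) D207)
noncomputable def D11064 : OP := win (nat_lit 1) (nat_lit 9) (nat_lit 7) (nat_lit 2)
noncomputable def D19976 : AP := fin (add (add (start D705) D590) D207)
noncomputable def D11202 : AP := fin (add (start D195) D186)
noncomputable def D739 : OP := orK (nat_lit 230) D738
noncomputable def D5447 : AP := fin (add (add (start D539) D2958) D751)
noncomputable def D5448 : OP := orK (nat_lit 230) D5447
noncomputable def D19977 : OP := orK (nat_lit 150) D19976
noncomputable def D25845 : AP := fin (add (add (add (add (add (add (add (add (add (add (add (add (add (add (add (add (start (orK (nat_lit 190) (fin (add (add (add (start D19977) D5448) D5458) D22483)))) (orK (nat_lit 190) D22486)) (orK (nat_lit 190) (fin (add (add (add (add (add (add (add (add (start D600) D22483) D209) D644) D19323) D646) D22465) D733) D739)))) (orK (nat_lit 190) D22494)) (orK (nat_lit 190) (fin (add (add (add (add (start D165) D8489) D3382) D2964) D22501)))) (orK (nat_lit 150) (fin (add (add (add (add (add (add (start (orK (nat_lit 130) (fin (add (add (start (orK (nat_lit 190) (fin (add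 (start (orK (nat_lit 209) (fin (add (start D166) D80)))) D195)))) (orK (nat_lit 110) D22558)) (orK (nat_lit 190) D11202))))) (orK (nat_lit 190) D19976)) (orK (nat_lit 190) D8593)) (orK (nat_lit 190) (fin (add (add (add (start D594) D21630) D1058) D795)))) (orK (nat_lit 190) D21631)) (orK (nat_lit 209) (fin (add (add (add (add (add (start (orK (nat_lit 190) D198)) (orK (nat_lit 229) (fin (add (start D11064) (orK (nat_lit 169) (fin (add (start D11065) D22599))))))) (orK (nat_lit 190) D2850)) (orK (nat_lit 169) (fin (add (add (add (start (orK (nat_lit 189) D5771)) D22599) (orK (nat_lit 168) (fin (add (add (start D16167) (orK (nat_lit 189) (fin (add (start D1922) (orK (nat_lit 130) (fin (add (start D875) D22609))))))) (orK (nat_lit 229) (fin (add (start D11065) (orK (nat_lit 167) (fin (add (start D882) D6410)))))))))) (orK (nat_lit 130) (fin (add (add (add (start (orK (nat_lit 189) D5769)) (orK (nat_lit 149) (fin (add (start D2281) (orK (nat_lit 168) (fin (add (add (start D884) (orK (nat_lit 152) (fin (add (start (win (nat_lit 5) (nat_lit 8) (nat_lit 7) (nat_lit 1))) (orK (nat_lit 171) (fin (add (start (orK (nat_lit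 172) (fin (add (start D874) D281)))) (orK (nat_lit 148) (fin (add (start D561) D6465)))))))))) (orK (nat_lit 167) (fin (add (start D881) (orK (nat_lit 147) (fin (add (start D2106) (orK (nat_lit 148) (fin (add (start D8309) D22635)))))))))))))))) (orK (nat_lit 110) (fin (add (start D2145) (orK (nat_lit 91) (fin (add (start D1318) (orK (nat_lit 90) (fin (add (start D1319) (orK (nat_lit 151) (fin (add (start (win (nat_lit 6) (nat_lit 10) (nat_lit 4) (nat_lit 5))) D1323))))))))))))) (orK (nat_lit 171) (fin (add (add (start D5623) D1316) (orK (nat_lit 110) (fin (add (start D1317) D22513))))))))))))) (orK (nat_lit 190) D189)) (orK (nat_lit 190) D22668))))) (orK (nat_lit 110) (fin (add (add (add (add (add (start (orK (nat_lit 130) D22558)) (orK (nat_lit 130) (fin (add (add (start D22694) D22557) D22685)))) (orK (nat_lit 130) (fin (add (add (start D22681) D22553) D22694)))) (orK (nat_lit 130) (fin (add (add (start D22515) D22685) D22681)))) (orK (nat_lit 130) (fin (add (start D22553) D22685)))) (orK (nat_lit 149) D23483)))))))) (orK (nat_lit 190) (fin (add (add (add (add (add (add (start D209) D11210) D2765) D23490) D2789)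 D2805) (orK (nat_lit 211) (fin (add (add (add (start D406) D23492) (orK (nat_lit 231) (fin (add (add (start D404) (orK (nat_lit 209) (fin (add (add (start D5309) D19330) (orK (nat_lit 189) (fin (add (add (start D11997) (orK (nat_lit 229) (fin (add (start D58) (orK (nat_lit 212) (fin (add (start D59) (orK (nat_lit 192) (fin (add (start D845) (orK (nat_lit 172) (fin (add (start D3858) D23495))))))))))))) (orK (nat_lit 229) (fin (add (start D58) D19196)))))))))) (orK (nat_lit 251) (fin (add (start D402) (orK (nat_lit 209) (fin (add (add (add (start D19330) (orK (nat_lit 208) D19363)) (orK (nat_lit 232) (fin (add (add (start D7270) (orK (nat_lit 212) (fin (add (start (orK (nat_lit 192) (fin (add (start D3681) D845)))) D844)))) (orK (nat_lit 233) (fin (add (start D7268) (orK (nat_lit 249) (fin (add (start D11842) (orK (nat_lit 250) (fin (add (start D8919) (win (nat_lit 4) (nat_lit 9) (nat_lit 11) (nat_lit 3))))))))))))))) D21441)))))))))) (orK (nat_lit 209) (fin (add (add (start (orK (nat_lit 188) (fin (add (add (start (orK (nat_lit 212) (fin (add (start D450) (orK (nat_lit 192) (fin (add (start D845) (orK (nat_lit 191)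 (fin (add (start D79) D2862)))))))))) D455) (orK (nat_lit 189) D11954))))) D23540) D466)))))))))) (orK (nat_lit 190) (fin (add (add (add (add (add (add (add (start D22483) (orK (nat_lit 150) D21631)) D23490) D19322) D3564) (orK (nat_lit 171) (fin (add (add (add (start D222) D3577) D2369) (orK (nat_lit 189) (fin (add (add (add (start (orK (nat_lit 150) (fin (add (add (start D14523) D23551) (orK (nat_lit 209) (fin (add (start D80) (orK (nat_lit 172) (fin (add (start D227) (orK (nat_lit 192) (fin (add (add (start (orK (nat_lit 191) D14299)) (orK (nat_lit 169) (fin (add (start D240) (orK (nat_lit 151) (fin (add (start D22) D1028))))))) (orK (nat_lit 131) (fin (add (start D168) (orK (nat_lit 191) (fin (add (start D3405) (orK (nat_lit 169) (fin (add (start D357) D23560)))))))))))))))))))))) D295) (orK (nat_lit 150) (fin (add (add (start D14523) D23551) (orK (nat_lit 131) (fin (add (start D168) (orK (nat_lit 209) (fin (add (start D80) (orK (nat_lit 188) (fin (add (start D269) (orK (nat_lit 191) (fin (add (add (start D9914) (orK (nat_lit 168) (fin (add (start D373) (orK (nat_lit 192) (fin (add (start (win (nat_lit 0) (nat_lit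 8) (nat_lit 8) (nat_lit 1))) D678))))))) (orK (nat_lit 168) (fin (add (start D373) (orK (nat_lit 208) (fin (add (start D50) (orK (nat_lit 148) (fin (add (start D3429) (orK (nat_lit 147) (fin (add (start (win (nat_lit 2) (nat_lit 7) (nat_lit 7) (nat_lit 2))) D4621)))))))))))))))))))))))))))) D395))))))) D23621) D23659)))) (orK (nat_lit 169) D24104)) (orK (nat_lit 190) (fin (add (add (add (add (add (add (add (add (start D753) D22491) D24140) (orK (nat_lit 209) (fin (add (add (start D3387) D2473) D9146)))) (orK (nat_lit 169) (fin (add (add (add (start D6) D23961) (orK (nat_lit 230) (fin (add (start D223) (orK (nat_lit 249) (fin (add (start D7) (orK (nat_lit 250) (fin (add (start D8) (orK (nat_lit 191) (fin (add (start D615) D151))))))))))))) (orK (nat_lit 168) (fin (add (add (add (start D2594) (orK (nat_lit 191) (fin (add (add (start D90) D94) (orK (nat_lit 149) (fin (add (add (start D4) (orK (nat_lit 148) (fin (add (start D2631) (orK (nat_lit 209) (fin (add (add (start (orK (nat_lit 189) (fin (add (start D5243) D7129)))) (orK (nat_lit 208) (fin (add (start D50) (orK (nat_lit 188) D24153))))) (orK (nat_lit 208) (fin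 (add (start D50) (orK (nat_lit 189) (fin (add (start D3236) D5243))))))))))))) (orK (nat_lit 129) (fin (add (start D1) (orK (nat_lit 188) (fin (add (add (start D24165) D9750) (orK (nat_lit 208) (fin (add (start D375) (orK (nat_lit 209) (fin (add (start D50) D24167))))))))))))))))))) D2599) D2600))))))) D3272) D5221) (orK (nat_lit 209) (fin (add (add (add (start D466) D701) (orK (nat_lit 150) (fin (add (start D80) (orK (nat_lit 211) (fin (add (start D45) (orK (nat_lit 130) (fin (add (start D193) (orK (nat_lit 111) (fin (add (start D5222) D186))))))))))))) (orK (nat_lit 150) D22668))))) D5326)))) (orK (nat_lit 190) (fin (add (add (add (add (start D24198) D21433) D19960) D21435) D22465)))) (orK (nat_lit 169) D25837)) (orK (nat_lit 190) (fin (add (add (add (add (add (start D192) D24198) D19322) D556) D19323) D596)))) D8492) D799) (orK (nat_lit 190) (fin (add (add (add (add (add (add (add (start D21433) D747) D8490) D23621) D24140) D644) D556) D3093)))) (orK (nat_lit 190) (fin (add (add (add (add (add (add (add (start D11210) D8594) D23659) D5326) D733) D19960) D5458) D3093))))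
noncomputable def D25846 : OP := orK (nat_lit 170) D25845
noncomputable def D5175 : OP := orK (nat_lit 228) (fin (add (add (add (start (orK (nat_lit 211) (fin (add (start D516) (orK (nat_lit 212) D5008))))) D5162) D5107) (orK (nat_lit 212) (fin (add (add (add (start (orK (nat_lit 211) D5008)) (orK (nat_lit 211) D5095)) (orK (nat_lit 231) (fin (add (start D5154) (orK (nat_lit 208) (fin (add (start D515) (orK (nat_lit 232) (fin (add (start D514) D3677)))))))))) (orK (nat_lit 211) D5146))))))
noncomputable def D20101 : OP := orK (nat_lit 229) (fin (add (start D20) D5175))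
noncomputable def D20304 : AP := fin (add (start D745) D20101)
noncomputable def D10830 : OP := orK (nat_lit 150) (fin (add (start D22) (orK (nat_lit 149) (fin (add (start D175) (orK (nat_lit 169) (fin (add (start D0) D757))))))))
noncomputable def D16801 : OP := orK (nat_lit 151) (fin (add (add (add (start D5451) D10830) (orK (nat_lit 169) (fin (add (add (add (start (orK (nat_lit 230) (fin (add (start D23) D223)))) (orK (nat_lit 171) (fin (add (start D216) D3581)))) D36) (orK (nat_lit 149) (fin (add (add (start D34) (orK (nat_lit 168) (fin (add (add (start D3579) (orK (nat_lit 152) (fin (add (start D132) (win (nat_lit 5) (nat_lit 8) (nat_lit 7) (nat_lit 2)))))) (orK (nat_lit 191) (fin (add (start D37) (orK (nat_lit 171) D4897)))))))) D2667))))))) D5454))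
noncomputable def D17348 : OP := orK (nat_lit 193) (fin (add (add (start D17328) (orK (nat_lit 213) (fin (add (start D14302) (orK (nat_lit 189) (fin (add (start D14301) D14306))))))) D17346))
noncomputable def D21410 : OP := orK (nat_lit 192) (fin (add (add (add (start D20404) D17348) (orK (nat_lit 209) (fin (add (add (start D15095) D10240) D15130)))) D20439))
noncomputable def D15932 : OP := orK (nat_lit 250) (fin (add (start D615) (orK (nat_lit 271) (fin (add (start D627) (orK (nat_lit 270) (fin (add (start D628) (orK (nat_lit 289) (fin (add (start D7021) D10256)))))))))))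
noncomputable def D11811 : OP := orK (nat_lit 152) (fin (add (start D3871) D11809))
noncomputable def D17735 : OP := orK (nat_lit 192) (fin (add (add (add (add (start D14310) (orK (nat_lit 212) (fin (add (start D2688) (orK (nat_lit 172) (fin (add (start D66) (orK (nat_lit 232) (fin (add (start D2697) (orK (nat_lit 231) (fin (add (start D3857) D11811))))))))))))) D17717) (orK (nat_lit 213) (fin (add (start D14301) (orK (nat_lit 193) (fin (add (start D14302) D17346))))))) (orK (nat_lit 213) (fin (add (start D14301) (orK (nat_lit 193) (fin (add (start D14302) (orK (nat_lit 194) (fin (add (start D17324) (orK (nat_lit 195) (fin (add (start D17709) (orK (nat_lit 175) (fin (add (start (win (nat_lit 4) (nat_lit 11) (nat_lit 8) (nat_lit 4))) (win (nat_lit 4) (nat_lit 12) (nat_lit 8) (nat_lit 5)))))))))))))))))))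
noncomputable def D22381 : OP := orK (nat_lit 167) (fin (add (start D11518) (orK (nat_lit 187) (fin (add (start D9066) D14337)))))
noncomputable def D14966 : OP := orK (nat_lit 250) (fin (add (add (add (start D717) D10258) D14504) (orK (nat_lit 251) (fin (add (start D149) D14657)))))
noncomputable def D10464 : OP := orK (nat_lit 151) (fin (add (start D118) D216))
noncomputable def D20167 : OP := orK (nat_lit 191) (fin (add (add (add (start (orK (nat_lit 192) (fin (add (start D678) (orK (nat_lit 171) (fin (add (start D10464) D20155))))))) D2871) D20165) D2715))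
noncomputable def D20233 : OP := orK (nat_lit 209) (fin (add (add (add (start D3453) D20167) D2473) D466))
noncomputable def D21771 : AP := fin (add (start D277) (orK (nat_lit 209) (fin (add (start D5708) (orK (nat_lit 228) (fin (add (start D5955) (orK (nat_lit 229) (fin (add (start D3065) D10703))))))))))
noncomputable def D17373 : OP := win (nat_lit 4) (nat_lit 5) (nat_lit 8) (nat_lit 4)
noncomputable def D9371 : OP := win (nat_lit 2) (nat_lit 4) (nat_lit 8) (nat_lit 5)
noncomputable def D9370 : OP := win (nat_lit 2) (nat_lit 5) (nat_lit 8) (nat_lit 4)
noncomputable def D9375 : OP := orK (nat_lit 205) (fin (add (start (win (nat_lit 5) (nat_lit 4) (nat_lit 9) (nat_lit 5))) (win (nat_lit 5) (nat_lit 5) (nat_lit 9) (nat_lit 4))))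
noncomputable def D17383 : OP := orK (nat_lit 187) (fin (add (add (add (start D13047) (orK (nat_lit 186) (fin (add (start D9369) (orK (nat_lit 168) (fin (add (start D373) (orK (nat_lit 185) (fin (add (start (win (nat_lit 4) (nat_lit 5) (nat_lit 8) (nat_lit 5))) (orK (nat_lit 164) (fin (add (start (win (nat_lit 2) (nat_lit 4) (nat_lit 8) (nat_lit 4))) D9375))))))))))))) (orK (nat_lit 186) (fin (add (start D9369) (orK (nat_lit 165) (fin (add (start D9370) (orK (nat_lit 185) (fin (add (start D9371) (orK (nat_lit 169) (fin (add (start D17373) D9375))))))))))))) D14332))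
noncomputable def D11578 : OP := orK (nat_lit 167) (fin (add (start D3540) D11576))
noncomputable def D14906 : OP := orK (nat_lit 168) (fin (add (start D3062) D11578))
noncomputable def D16884 : OP := orK (nat_lit 173) (fin (add (start (win (nat_lit 0) (nat_lit 9) (nat_lit 7) (nat_lit 3))) D1388))
noncomputable def D1699 : OP := win (nat_lit 4) (nat_lit 9) (nat_lit 6) (nat_lit 3)
noncomputable def D21688 : OP := orK (nat_lit 147) (fin (add (start D761) D570))
noncomputable def D21693 : OP := orK (nat_lit 148) (fin (add (start (orK (nat_lit 131) (fin (add (start D902) (orK (nat_lit 171) (fin (add (start D562) D218))))))) D21688))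
noncomputable def D21723 : OP := orK (nat_lit 167) (fin (add (start D3540) (win (nat_lit 5) (nat_lit 7) (nat_lit 7) (nat_lit 3))))
noncomputable def D21725 : OP := orK (nat_lit 168) (fin (add (start D755) D21723))
noncomputable def D21748 : OP := orK (nat_lit 151) (fin (add (add (add (start D21725) (orK (nat_lit 152) (fin (add (start D8572) D8580)))) D21693) (orK (nat_lit 131) (fin (add (add (start (orK (nat_lit 171) (fin (add (start D218) (orK (nat_lit 148) (fin (add (start D562) D902))))))) (orK (nat_lit 132) (fin (add (start D1823) (orK (nat_lit 133) (fin (add (start D1699) D1824))))))) (orK (nat_lit 171) (fin (add (start D218) (orK (nat_lit 111) (fin (add (start (orK (nat_lit 172) (fin (add (start D1532) D16884)))) (orK (nat_lit 91) (fin (add (start D6721) D6709))))))))))))))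
noncomputable def D16620 : OP := orK (nat_lit 208) (fin (add (start D3236) D416))
noncomputable def D21668 : OP := orK (nat_lit 209) (fin (add (start D5708) D16620))
noncomputable def D21669 : AP := fin (add (start D277) D21668)
noncomputable def D22249 : OP := win (nat_lit 1) (nat_lit 7) (nat_lit 4) (nat_lit 4)
noncomputable def D22309 : OP := orK (nat_lit 88) (fin (add (start D22249) (orK (nat_lit 87) (fin (add (start D22304) (win (nat_lit 7) (nat_lit 7) (nat_lit 4) (nat_lit 4)))))))
noncomputable def D22268 : AP := fin (add (start D4621) D7392)
noncomputable def D22303 : OP := orK (nat_lit 147) (fin (add (start D22293) (orK (nat_lit 208) D22268)))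
noncomputable def D1770 : OP := win (nat_lit 4) (nat_lit 8) (nat_lit 5) (nat_lit 5)
noncomputable def D21945 : OP := orK (nat_lit 166) (fin (add (start D7241) (orK (nat_lit 149) (fin (add (start D16966) D924)))))
noncomputable def D21839 : OP := win (nat_lit 6) (nat_lit 9) (nat_lit 6) (nat_lit 2)
noncomputable def D22255 : OP := orK (nat_lit 88) (fin (add (start D22249) (orK (nat_lit 89) (fin (add (start D22250) (win (nat_lit 3) (nat_lit 8) (nat_lit 4) (nat_lit 4)))))))
noncomputable def D22237 : OP := orK (nat_lit 208) (fin (add (start D16335) (orK (nat_lit 227) (fin (add (start D7377) (orK (nat_lit 228) (fin (add (start D4032) (orK (nat_lit 248) (fin (add (start D311) D7404)))))))))))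
noncomputable def D22238 : OP := win (nat_lit 6) (nat_lit 8) (nat_lit 5) (nat_lit 4)
noncomputable def D21901 : OP := orK (nat_lit 167) D21900
noncomputable def D21842 : AP := fin (add (start D5859) (orK (nat_lit 127) (fin (add (start D976) D5853))))
noncomputable def D22188 : OP := orK (nat_lit 209) (fin (add (start D5708) D8612))
noncomputable def D21788 : OP := orK (nat_lit 213) (fin (add (start D14301) (orK (nat_lit 193) (fin (add (start D14302) D14616)))))
noncomputable def D21792 : OP := orK (nat_lit 172) (fin (add (start D65) (orK (nat_lit 192) (fin (add (start D66) D21788)))))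
noncomputable def D16890 : OP := orK (nat_lit 172) (fin (add (start D575) D576))
noncomputable def D22013 : OP := orK (nat_lit 152) (fin (add (start D16890) D1002))
noncomputable def D17003 : OP := orK (nat_lit 146) (fin (add (start D16984) D16999))
noncomputable def D16993 : OP := orK (nat_lit 131) (fin (add (start D16991) D902))
noncomputable def D21685 : AP := fin (add (start D16993) D570)
noncomputable def D16988 : OP := orK (nat_lit 130) (fin (add (start (win (nat_lit 4) (nat_lit 6) (nat_lit 6) (nat_lit 4))) (win (nat_lit 4) (nat_lit 7) (nat_lit 6) (nat_lit 5))))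
noncomputable def D16970 : OP := orK (nat_lit 167) (fin (add (start D924) (orK (nat_lit 166) (fin (add (start D7241) D16966)))))
noncomputable def D18806 : OP := win (nat_lit 6) (nat_lit 8) (nat_lit 7) (nat_lit 3)
noncomputable def D21950 : AP := fin (add (start D3429) (orK (nat_lit 229) (fin (add (start D18806) D4012))))
noncomputable def D21951 : OP := orK (nat_lit 209) D21950
noncomputable def D308 : OP := orK (nat_lit 206) (fin (add (start D305) (win (nat_lit 4) (nat_lit 6) (nat_lit 9) (nat_lit 3))))
noncomputable def D16994 : AP := fin (add (start D761) D16993)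
noncomputable def D17005 : OP := orK (nat_lit 147) (fin (add (add (start (orK (nat_lit 151) D16994)) (orK (nat_lit 146) (fin (add (start D16988) D16999)))) D17003))
noncomputable def D3239 : AP := fin (add (start D3236) D3238)
noncomputable def D7299 : OP := orK (nat_lit 228) (fin (add (start D5955) (orK (nat_lit 229) (fin (add (start D3065) D1911)))))
noncomputable def D22082 : AP := fin (add (start D5708) (orK (nat_lit 128) (fin (add (start D5962) (orK (nat_lit 211) (fin (add (add (start D11997) D7299) (orK (nat_lit 187) (fin (add (start D3061) (orK (nat_lit 208) D3239)))))))))))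
noncomputable def D16978 : OP := orK (nat_lit 127) (fin (add (start D977) (orK (nat_lit 126) (fin (add (start D6388) D16974)))))
noncomputable def D18585 : OP := win (nat_lit 0) (nat_lit 6) (nat_lit 8) (nat_lit 1)
noncomputable def D22070 : OP := orK (nat_lit 168) D21950
noncomputable def D8781 : OP := win (nat_lit 2) (nat_lit 8) (nat_lit 9) (nat_lit 1)
noncomputable def D21754 : OP := orK (nat_lit 148) (fin (add (start D5243) (orK (nat_lit 168) (fin (add (start D7129) (orK (nat_lit 167) (fin (add (start D3540) D924))))))))
noncomputable def D22018 : OP := orK (nat_lit 227) (fin (add (start D668) (orK (nat_lit 247) D13733)))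
noncomputable def D16891 : AP := fin (add (start D16890) D1843)
noncomputable def D21676 : OP := orK (nat_lit 147) D16994
noncomputable def D21686 : OP := orK (nat_lit 147) D21685
noncomputable def D21868 : OP := orK (nat_lit 169) (fin (add (start D277) (orK (nat_lit 148) (fin (add (add (start (orK (nat_lit 168) (fin (add (start D577) (orK (nat_lit 128) (fin (add (start D905) D980))))))) D21676) D21686)))))
noncomputable def D21834 : OP := orK (nat_lit 148) (fin (add (add (start D21676) (orK (nat_lit 152) (fin (add (start D1002) D580)))) D21688))
noncomputable def D21860 : OP := orK (nat_lit 169) (fin (add (start D277) D21725))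
noncomputable def D21845 : OP := orK (nat_lit 129) (fin (add (start D21839) (orK (nat_lit 128) D21842)))
noncomputable def D22171 : AP := fin (add (add (add (add (add (start (orK (nat_lit 151) (fin (add (add (add (add (start D21845) D21860) D21834) D21868) (orK (nat_lit 148) (fin (add (add (start D21676) (orK (nat_lit 152) D16891)) D22013))))))) (orK (nat_lit 169) (fin (add (start D277) (orK (nat_lit 209) (fin (add (start D5708) (orK (nat_lit 208) (fin (add (start D3236) (orK (nat_lit 207) (fin (add (start D413) (orK (nat_lit 187) (fin (add (start D666) (orK (nat_lit 188) (fin (add (start D9201) D22018))))))))))))))))))) (orK (nat_lit 209) (fin (add (add (add (add (start (orK (nat_lit 169) (fin (add (start D5708) (orK (nat_lit 208) (fin (add (start D3236) (orK (nat_lit 207) (fin (add (start D413) (orK (nat_lit 187) (fin (add (start D666) (orK (nat_lit 188) (fin (add (start D9201) (orK (nat_lit 167) (fin (add (start D9066) D22018))))))))))))))))))) (orK (nat_lit 169) (fin (add (start D5708) D21754)))) (orK (nat_lit 188) (fin (add (add (start D9203) (orK (nat_lit 148) (fin (add (add (start (orK (nat_lit 229) (fin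 (add (add (start D11974) (orK (nat_lit 168) (fin (add (start D18806) D11589)))) (orK (nat_lit 211) (fin (add (start D1891) (orK (nat_lit 249) (fin (add (start D462) (orK (nat_lit 248) (fin (add (start D4016) (orK (nat_lit 228) (fin (add (start D4590) D8133)))))))))))))))) (orK (nat_lit 128) (fin (add (start (win (nat_lit 7) (nat_lit 8) (nat_lit 6) (nat_lit 2))) D16978)))) D22070)))) D17837)))) (orK (nat_lit 169) D22082)) (orK (nat_lit 188) (fin (add (add (start D9203) (orK (nat_lit 212) (fin (add (start D8781) (orK (nat_lit 148) (fin (add (start D22070) (orK (nat_lit 131) (fin (add (start (orK (nat_lit 151) (fin (add (start D902) (orK (nat_lit 172) (fin (add (start D575) (orK (nat_lit 152) (fin (add (start D576) (win (nat_lit 7) (nat_lit 11) (nat_lit 6) (nat_lit 1)))))))))))) (orK (nat_lit 147) (fin (add (start D16991) D22100))))))))))))) D17837))))))) (orK (nat_lit 188) (fin (add (add (start D14352) (orK (nat_lit 169) (fin (add (start D277) (orK (nat_lit 208) (fin (add (add (start (orK (nat_lit 228) (fin (add (start (win (nat_lit 1) (nat_lit 8) (nat_lit 7) (nat_lit 3))) D317)))) D354) (orK (nat_lit 148) (fin (add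 (add (add (start (orK (nat_lit 128) (fin (add (start D981) D6353)))) (orK (nat_lit 207) (fin (add (start D308) (orK (nat_lit 168) (fin (add (start D2831) (orK (nat_lit 166) (fin (add (start D18585) (orK (nat_lit 147) (fin (add (start D4621) (orK (nat_lit 146) (fin (add (start D11178) D16996)))))))))))))))) (orK (nat_lit 128) (fin (add (start D981) D16978)))) (orK (nat_lit 128) (fin (add (start D16978) D6353))))))))))))) D22140)))) (orK (nat_lit 169) (fin (add (start D277) (orK (nat_lit 209) D22082))))) (orK (nat_lit 188) (fin (add (add (start D14352) (orK (nat_lit 148) (fin (add (add (add (add (start D17005) (orK (nat_lit 168) (fin (add (add (add (start (orK (nat_lit 208) (fin (add (start D931) (orK (nat_lit 207) (fin (add (start D2831) D308))))))) D21951) (orK (nat_lit 128) (fin (add (start D5630) (orK (nat_lit 129) (fin (add (start D5641) (orK (nat_lit 127) (fin (add (start D976) D2229)))))))))) D942)))) (orK (nat_lit 168) (fin (add (start (orK (nat_lit 208) (fin (add (start D931) (orK (nat_lit 209) D8847))))) D16970)))) (orK (nat_lit 147) (fin (add (add (start (orK (nat_lit 146) (fin (add (start D16984) D16988))))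 (orK (nat_lit 151) D21685)) D17003)))) (orK (nat_lit 151) (fin (add (start D21688) D22013))))))) D22140))))
noncomputable def D21780 : OP := orK (nat_lit 211) (fin (add (add (start D301) D303) (orK (nat_lit 191) (fin (add (start D11962) D15238)))))
noncomputable def D9071 : OP := orK (nat_lit 167) (fin (add (start D9066) D9069))
noncomputable def D11592 : AP := fin (add (start D3429) (orK (nat_lit 229) (fin (add (start D11589) D4012))))
noncomputable def D21776 : OP := orK (nat_lit 187) (fin (add (start D9201) D14334))
noncomputable def D21849 : OP := orK (nat_lit 171) (fin (add (start D1800) D2025))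
noncomputable def D16894 : OP := orK (nat_lit 173) (fin (add (start D7931) D1591))
noncomputable def D16898 : OP := orK (nat_lit 153) (fin (add (start D16894) D8576))
noncomputable def D1248 : OP := win (nat_lit 2) (nat_lit 9) (nat_lit 6) (nat_lit 4)
noncomputable def D2346 : OP := orK (nat_lit 129) (fin (add (start D1247) D1248))
noncomputable def D16896 : OP := orK (nat_lit 153) (fin (add (start D16894) D2346))
noncomputable def D16912 : AP := fin (add (start D1843) D1002)
noncomputable def D16915 : OP := orK (nat_lit 152) (fin (add (add (start (orK (nat_lit 148) D16912)) D16896) D16898))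
noncomputable def D11505 : AP := fin (add (start D118) D1800)
noncomputable def D21826 : OP := orK (nat_lit 171) D11505
noncomputable def D21691 : OP := orK (nat_lit 148) (fin (add (add (start D21686) D21688) (orK (nat_lit 152) D16912)))
noncomputable def D21756 : OP := orK (nat_lit 209) (fin (add (start D16620) D21754))
noncomputable def D16900 : OP := orK (nat_lit 153) (fin (add (start D2346) D8576))
noncomputable def D16902 : OP := orK (nat_lit 152) (fin (add (add (start (orK (nat_lit 148) D16891)) D16898) D16900))
noncomputable def D11565 : OP := orK (nat_lit 212) (fin (add (start D57) D1800))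
noncomputable def D16886 : OP := orK (nat_lit 172) (fin (add (start D1234) D16884))
noncomputable def D22417 : AP := fin (add (add (add (add (add (add (add (add (add (add (add (start (orK (nat_lit 149) (fin (add (add (add (add (start (orK (nat_lit 169) D21669)) (orK (nat_lit 151) (fin (add (add (add (add (start (orK (nat_lit 171) (fin (add (start D16886) (orK (nat_lit 191) (fin (add (start D118) (orK (nat_lit 211) (fin (add (start D2025) D11565)))))))))) D21691) D21693) D16902) (orK (nat_lit 152) (fin (add (add (add (start (orK (nat_lit 173) (fin (add (start D7931) (orK (nat_lit 153) (fin (add (start D1591) D2346))))))) D8580) (orK (nat_lit 129) (fin (add (start D1247) (orK (nat_lit 153) (fin (add (start D1248) D8576))))))) (orK (nat_lit 132) (fin (add (start D1000) (orK (nat_lit 129) (fin (add (start D1247) (orK (nat_lit 172) (fin (add (start D576) (orK (nat_lit 191) (fin (add (start (orK (nat_lit 171) (fin (add (start D118) D1145)))) (orK (nat_lit 192) (fin (add (start D1146) (orK (nat_lit 213) (fin (add (start D14301) (win (nat_lit 6) (nat_lit 12) (nat_lit 6) (nat_lit 4))))))))))))))))))))))))))) (orK (nat_lit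 169) (fin (add (add (add (start D21668) D21748) D21756) (orK (nat_lit 209) (fin (add (start D5708) (orK (nat_lit 208) (fin (add (start D3236) D21754)))))))))) (orK (nat_lit 169) (fin (add (start D277) D21756)))) (orK (nat_lit 169) D21771))))) (orK (nat_lit 188) (fin (add (add (add (start D21776) D21780) D14353) (orK (nat_lit 207) (fin (add (add (start (orK (nat_lit 191) (fin (add (start D14335) D21792)))) (orK (nat_lit 187) (fin (add (start D8665) (orK (nat_lit 209) (fin (add (start D1890) (orK (nat_lit 229) (fin (add (add (start D11974) (orK (nat_lit 169) (fin (add (start D11911) (orK (nat_lit 228) (fin (add (start D3065) (orK (nat_lit 227) (fin (add (start D3456) (orK (nat_lit 168) (fin (add (start D946) D3044))))))))))))) (orK (nat_lit 249) (fin (add (start D462) (orK (nat_lit 248) (fin (add (start D4016) (orK (nat_lit 169) (fin (add (start D7553) D11911))))))))))))))))))) (orK (nat_lit 206) (fin (add (start D21781) (orK (nat_lit 208) (fin (add (start D305) D304))))))))))))) (orK (nat_lit 211) (fin (add (add (add (start (orK (nat_lit 212) (fin (add (start D57) (orK (nat_lit 191) (fin (add (add (add (start D21825)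 (orK (nat_lit 151) (fin (add (add (start D21826) (orK (nat_lit 149) (fin (add (add (add (start D21834) (orK (nat_lit 169) (fin (add (start D277) (orK (nat_lit 168) (fin (add (start D3062) D21723))))))) D21845) D21691)))) D21849)))) (orK (nat_lit 192) (fin (add (start D15228) (orK (nat_lit 169) (fin (add (start D10232) (orK (nat_lit 209) (fin (add (start D79) D11911)))))))))) (orK (nat_lit 151) (fin (add (add (start D21826) (orK (nat_lit 149) (fin (add (add (add (add (start D21845) D21860) D21834) D21868) D16915)))) D21849)))))))))) D426) D428) (orK (nat_lit 188) (fin (add (start D53) (orK (nat_lit 191) (fin (add (start D11962) (orK (nat_lit 168) (fin (add (start D373) (orK (nat_lit 192) (fin (add (start D11925) (orK (nat_lit 209) D20220))))))))))))))))) (orK (nat_lit 188) (fin (add (add (add (add (start D21888) D21776) (orK (nat_lit 187) (fin (add (start D9201) (orK (nat_lit 167) (fin (add (start D9066) (orK (nat_lit 191) (fin (add (start D11518) (orK (nat_lit 171) (fin (add (start D3428) D14337))))))))))))) (orK (nat_lit 168) (fin (add (add (add (start D21901) (orK (nat_lit 191) (fin (add (add (add (start D21903)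 (orK (nat_lit 192) (fin (add (start D11925) D14313)))) (orK (nat_lit 172) (fin (add (start D65) (orK (nat_lit 192) (fin (add (start D66) D14313))))))) (orK (nat_lit 171) (fin (add (start D3428) (orK (nat_lit 151) (fin (add (start D118) (orK (nat_lit 208) (fin (add (start D371) (orK (nat_lit 211) (fin (add (start D2025) (orK (nat_lit 152) (fin (add (start D1795) (orK (nat_lit 149) (fin (add (start D578) (orK (nat_lit 129) (fin (add (start D1247) D7202))))))))))))))))))))))))) (orK (nat_lit 191) (fin (add (start D373) (orK (nat_lit 171) (fin (add (start D3428) (orK (nat_lit 208) (fin (add (start D371) (orK (nat_lit 209) (fin (add (start D9912) D8848))))))))))))) (orK (nat_lit 148) (fin (add (add (start (orK (nat_lit 167) (fin (add (add (start D21899) (orK (nat_lit 149) (fin (add (start D924) (orK (nat_lit 129) (fin (add (start D936) D21839))))))) D21945)))) D21951) (orK (nat_lit 209) D11592)))))))) D14343)))) (orK (nat_lit 188) (fin (add (add (add (start (orK (nat_lit 187) (fin (add (add (start D14332) D14334) (orK (nat_lit 207) (fin (add (start D8665) (orK (nat_lit 208) (fin (add (start D304) D9071)))))))))) D21780)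 D14352) D14353)))) (orK (nat_lit 188) (fin (add (add (add (start D14343) (orK (nat_lit 211) (fin (add (add (start D301) D303) (orK (nat_lit 191) (fin (add (start D11962) D15242))))))) D14352) D14353)))) D22011) (orK (nat_lit 149) D22171)) (orK (nat_lit 188) (fin (add (add (add (start D14343) (orK (nat_lit 211) (fin (add (add (start D301) D303) (orK (nat_lit 191) (fin (add (start D11962) D15250))))))) D14352) D14353)))) (orK (nat_lit 188) (fin (add (add (add (start D21888) (orK (nat_lit 211) (fin (add (add (start D301) D303) (orK (nat_lit 191) (fin (add (start D11962) D21978))))))) D14353) (orK (nat_lit 168) (fin (add (add (start D21901) (orK (nat_lit 191) (fin (add (add (add (start D21903) (orK (nat_lit 192) (fin (add (start D11925) D21788)))) D21792) (orK (nat_lit 171) (fin (add (start D3428) (orK (nat_lit 151) (fin (add (start D118) (orK (nat_lit 149) (fin (add (add (add (start (orK (nat_lit 169) (fin (add (start D755) D277)))) (orK (nat_lit 169) (fin (add (start D755) D22188)))) (orK (nat_lit 169) (fin (add (start D277) D22188)))) (orK (nat_lit 128) (fin (add (add (start (orK (nat_lit 148) (fin (add (start D905)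 D5630)))) (orK (nat_lit 148) (fin (add (start D5630) (orK (nat_lit 129) (fin (add (start D5859) D5641))))))) (orK (nat_lit 129) D21842))))))))))))))))) (orK (nat_lit 187) (fin (add (add (start D14332) D14334) (orK (nat_lit 167) (fin (add (start D9066) D17237))))))))))))) (orK (nat_lit 188) (fin (add (add (add (start D14353) D22140) (orK (nat_lit 168) (fin (add (add (add (start D21901) (orK (nat_lit 191) (fin (add (add (start (orK (nat_lit 212) (fin (add (start D2689) (orK (nat_lit 192) (fin (add (start D2688) D11925))))))) D11964) D21903)))) (orK (nat_lit 191) (fin (add (start D373) D11964)))) (orK (nat_lit 167) (fin (add (add (start D21899) (orK (nat_lit 148) (fin (add (add (add (start (orK (nat_lit 127) (fin (add (add (start (orK (nat_lit 107) (fin (add (start (win (nat_lit 6) (nat_lit 7) (nat_lit 5) (nat_lit 2))) (win (nat_lit 7) (nat_lit 7) (nat_lit 5) (nat_lit 3)))))) D22237) (orK (nat_lit 128) (fin (add (start D2229) (orK (nat_lit 109) (fin (add (start D5633) (orK (nat_lit 108) (fin (add (start D5634) D22238))))))))))))) (orK (nat_lit 151) (fin (add (start (win (nat_lit 5) (nat_lit 7) (nat_lit 7) (nat_lit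 2))) (orK (nat_lit 128) (fin (add (add (add (start (orK (nat_lit 108) (fin (add (start D22238) D5636)))) (orK (nat_lit 108) (fin (add (start D22238) D22255)))) (orK (nat_lit 127) (fin (add (start D2229) D22237)))) (orK (nat_lit 107) (fin (add (start D2650) (orK (nat_lit 108) (fin (add (start D2651) D22255))))))))))))) (orK (nat_lit 149) (fin (add (start D924) (orK (nat_lit 208) (fin (add (start D931) (orK (nat_lit 147) D22268)))))))) (orK (nat_lit 149) (fin (add (start D924) (orK (nat_lit 129) (fin (add (start D21839) D940)))))))))) (orK (nat_lit 148) (fin (add (add (add (start D21945) (orK (nat_lit 149) (fin (add (start D924) D942)))) (orK (nat_lit 166) (fin (add (start D7241) (orK (nat_lit 128) (fin (add (add (add (add (start D5640) (orK (nat_lit 127) (fin (add (start D2229) (orK (nat_lit 129) (fin (add (start D5641) (orK (nat_lit 130) (fin (add (start D6438) (orK (nat_lit 111) (fin (add (start (win (nat_lit 4) (nat_lit 7) (nat_lit 5) (nat_lit 4))) (orK (nat_lit 131) (fin (add (start D1770) (win (nat_lit 5) (nat_lit 7) (nat_lit 6) (nat_lit 5)))))))))))))))))) (orK (nat_lit 108) (fin (add (add (start D5636) D22303)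 D22309)))) (orK (nat_lit 109) (fin (add (start D5633) (orK (nat_lit 108) (fin (add (start D5634) D22303))))))) (orK (nat_lit 109) (fin (add (start D5633) (orK (nat_lit 108) (fin (add (start D5634) D22309))))))))))))) (orK (nat_lit 166) (fin (add (start D7241) (orK (nat_lit 147) (fin (add (start (win (nat_lit 5) (nat_lit 6) (nat_lit 7) (nat_lit 1))) D18616)))))))))))))))) D22366)))) (orK (nat_lit 169) (fin (add (add (add (start (orK (nat_lit 149) D21669)) (orK (nat_lit 149) (fin (add (start D277) D21748)))) (orK (nat_lit 191) (fin (add (add (add (start D20245) D14906) (orK (nat_lit 192) (fin (add (add (start D14300) D14310) (orK (nat_lit 172) (fin (add (start D66) (orK (nat_lit 188) (fin (add (start D65) D14313)))))))))) (orK (nat_lit 188) (fin (add (add (add (add (start D22381) (orK (nat_lit 168) (fin (add (start D373) (orK (nat_lit 208) (fin (add (start D371) (orK (nat_lit 228) (fin (add (start D317) (orK (nat_lit 229) (fin (add (start D1913) (orK (nat_lit 227) (fin (add (start D4032) (orK (nat_lit 209) (fin (add (start D3456) D1912))))))))))))))))))) D17383) (orK (nat_lit 207) (fin (add (start D14335) (orK (nat_lit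 187) (fin (add (start D8665) (orK (nat_lit 186) (fin (add (start D9369) (orK (nat_lit 165) (fin (add (start D9370) (orK (nat_lit 185) (fin (add (start D9371) D17373)))))))))))))))) (orK (nat_lit 171) (fin (add (start D3428) (orK (nat_lit 207) (fin (add (start D14335) (orK (nat_lit 187) (fin (add (start D8665) D14332)))))))))))))))) (orK (nat_lit 149) D21771)))))
noncomputable def D11670 : OP := orK (nat_lit 172) (fin (add (start D66) (orK (nat_lit 171) (fin (add (start D2685) D11633)))))
noncomputable def D11674 : OP := orK (nat_lit 189) (fin (add (start D2688) (orK (nat_lit 169) (fin (add (start D10232) D11670)))))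
noncomputable def D3875 : OP := orK (nat_lit 153) (fin (add (start D3872) D3873))
noncomputable def D3878 : AP := fin (add (start D3857) (orK (nat_lit 152) (fin (add (start D3871) D3875))))
noncomputable def D19141 : OP := orK (nat_lit 151) (fin (add (start D1961) (win (nat_lit 7) (nat_lit 11) (nat_lit 7) (nat_lit 4))))
noncomputable def D19826 : OP := orK (nat_lit 172) (fin (add (add (start (orK (nat_lit 173) (fin (add (start D1179) D2902)))) (orK (nat_lit 231) (fin (add (start D3857) (orK (nat_lit 152) (fin (add (start D3871) D19141))))))) (orK (nat_lit 231) D3878)))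
noncomputable def D11660 : OP := win (nat_lit 7) (nat_lit 11) (nat_lit 7) (nat_lit 3)
noncomputable def D11662 : OP := orK (nat_lit 151) (fin (add (start D118) D11660))
noncomputable def D11664 : OP := orK (nat_lit 171) (fin (add (start D2697) D11662))
noncomputable def D2974 : OP := orK (nat_lit 273) (fin (add (start D2971) D2972))
noncomputable def D2978 : OP := orK (nat_lit 271) (fin (add (start D2969) (orK (nat_lit 272) (fin (add (start D2970) D2974)))))
noncomputable def D19098 : OP := win (nat_lit 7) (nat_lit 11) (nat_lit 9) (nat_lit 4)
noncomputable def D2965 : OP := win (nat_lit 7) (nat_lit 11) (nat_lit 8) (nat_lit 5)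
noncomputable def D20474 : OP := orK (nat_lit 232) (fin (add (add (add (start (orK (nat_lit 252) (fin (add (start D2965) (orK (nat_lit 271) (fin (add (start D2969) (orK (nat_lit 272) (fin (add (start D2970) D19098)))))))))) (orK (nat_lit 252) (fin (add (add (start (orK (nat_lit 273) (fin (add (start D2971) (orK (nat_lit 272) (fin (add (start D2972) D19098))))))) D2978) (orK (nat_lit 251) (fin (add (start D2979) (orK (nat_lit 172) (fin (add (start D2980) (orK (nat_lit 153) (fin (add (start D3873) (orK (nat_lit 152) (fin (add (start D3872) (orK (nat_lit 132) (fin (add (start D1146) D1164))))))))))))))))))) D11664) D19826))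
noncomputable def D11649 : OP := orK (nat_lit 213) (fin (add (start D2855) (orK (nat_lit 214) (fin (add (start (win (nat_lit 2) (nat_lit 10) (nat_lit 9) (nat_lit 3))) (win (nat_lit 2) (nat_lit 11) (nat_lit 9) (nat_lit 0)))))))
noncomputable def D21423 : OP := orK (nat_lit 212) (fin (add (add (start D11649) D20474) D11674))
noncomputable def D20171 : OP := orK (nat_lit 208) (fin (add (add (add (start D3327) D682) D684) D2562))
noncomputable def D21572 : OP := orK (nat_lit 191) (fin (add (start D10232) D64))
noncomputable def D12101 : AP := fin (add (start D240) D227)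
noncomputable def D20103 : OP := orK (nat_lit 230) (fin (add (add (start D543) D547) D20101))
noncomputable def D3230 : OP := orK (nat_lit 130) (fin (add (start D3228) D193))
noncomputable def D3254 : OP := orK (nat_lit 187) (fin (add (start D3061) (orK (nat_lit 150) (fin (add (add (start D3230) (orK (nat_lit 209) (fin (add (start D80) (orK (nat_lit 149) (fin (add (start D175) (orK (nat_lit 151) (fin (add (start D22) (orK (nat_lit 208) (fin (add (add (start (orK (nat_lit 148) (fin (add (start D564) (orK (nat_lit 228) (fin (add (start D3231) D104))))))) (orK (nat_lit 169) D3239)) (orK (nat_lit 148) (fin (add (start D564) D3238)))))))))))))))) D470)))))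
noncomputable def D11553 : OP := win (nat_lit 2) (nat_lit 9) (nat_lit 9) (nat_lit 1)
noncomputable def D20130 : OP := orK (nat_lit 209) D15233
noncomputable def D326 : OP := win (nat_lit 3) (nat_lit 7) (nat_lit 9) (nat_lit 3)
noncomputable def D335 : OP := orK (nat_lit 228) (fin (add (add (start (orK (nat_lit 248) (fin (add (start D311) (orK (nat_lit 209) (fin (add (start D312) D104))))))) D323) (orK (nat_lit 227) (fin (add (start D324) (orK (nat_lit 247) (fin (add (start D325) (orK (nat_lit 267) (fin (add (start D326) D327)))))))))))
noncomputable def D310 : OP := orK (nat_lit 207) (fin (add (start D304) D308))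
noncomputable def D408 : OP := orK (nat_lit 150) (fin (add (start D45) D174))
noncomputable def D4846 : OP := orK (nat_lit 212) (fin (add (start D4844) D3677))
noncomputable def D19307 : OP := orK (nat_lit 228) (fin (add (add (add (start D19293) D5098) D5107) (orK (nat_lit 231) (fin (add (add (start D19081) (orK (nat_lit 252) (fin (add (start D3672) (orK (nat_lit 232) (fin (add (start D3671) D19295))))))) (orK (nat_lit 208) (fin (add (start D515) (orK (nat_lit 232) (fin (add (start D514) D4846)))))))))))
noncomputable def D17308 : OP := orK (nat_lit 250) (fin (add (start D3476) D10302))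
noncomputable def D14236 : OP := orK (nat_lit 270) (fin (add (start D616) D3105))
noncomputable def D14908 : OP := orK (nat_lit 169) (fin (add (start D14228) D14906))
noncomputable def D14415 : OP := orK (nat_lit 170) D2963
noncomputable def D15542 : OP := orK (nat_lit 170) D5447
noncomputable def D9340 : OP := orK (nat_lit 212) D440
noncomputable def D472 : OP := orK (nat_lit 150) (fin (add (start D80) D470))
noncomputable def D19834 : AP := fin (add (start D98) D11609)
noncomputable def D4268 : OP := win (nat_lit 2) (nat_lit 10) (nat_lit 11) (nat_lit 0)
noncomputable def D13842 : OP := orK (nat_lit 227) (fin (add (start D11237) (orK (nat_lit 247) (fin (add (start D4193) D11250)))))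
noncomputable def D20370 : OP := orK (nat_lit 248) (fin (add (add (start D10326) D13842) (orK (nat_lit 228) (fin (add (start D9443) (orK (nat_lit 252) (fin (add (start D9444) (orK (nat_lit 273) (fin (add (start D10314) (orK (nat_lit 253) (fin (add (start D10315) (orK (nat_lit 231) (fin (add (start D4268) D10324)))))))))))))))))
noncomputable def D20382 : OP := orK (nat_lit 251) (fin (add (start D149) (orK (nat_lit 249) (fin (add (start D8) D20370)))))
noncomputable def D20442 : OP := orK (nat_lit 230) D14658
noncomputable def D14073 : OP := orK (nat_lit 211) D2905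
noncomputable def D20414 : OP := orK (nat_lit 168) (fin (add (start D11925) (orK (nat_lit 188) (fin (add (start D373) D371)))))
noncomputable def D20410 : OP := orK (nat_lit 212) (fin (add (start D2688) (orK (nat_lit 188) (fin (add (start D2689) D371)))))
noncomputable def D20402 : OP := orK (nat_lit 230) (fin (add (start D615) D10302))
noncomputable def D11221 : AP := fin (add (start D7263) D402)
noncomputable def D11442 : OP := orK (nat_lit 251) D11221
noncomputable def D20482 : OP := orK (nat_lit 231) (fin (add (start D49) D11442))
noncomputable def D20480 : OP := orK (nat_lit 192) (fin (add (start D678) (orK (nat_lit 212) (fin (add (add (start D11649) D20474) (orK (nat_lit 189) (fin (add (start D2688) D16628))))))))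
noncomputable def D6933 : AP := fin (add (start D4139) D6932)
noncomputable def D19913 : OP := orK (nat_lit 227) D6933
noncomputable def D19917 : OP := orK (nat_lit 248) (fin (add (start D4016) (orK (nat_lit 228) (fin (add (start D4590) D19913)))))
noncomputable def D11595 : OP := orK (nat_lit 168) (fin (add (start D373) (orK (nat_lit 148) D11592)))
noncomputable def D8523 : OP := orK (nat_lit 152) (fin (add (start D2726) (orK (nat_lit 231) (fin (add (start D2732) D2921)))))
noncomputable def D2067 : OP := win (nat_lit 0) (nat_lit 12) (nat_lit 8) (nat_lit 5)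
noncomputable def D2066 : OP := win (nat_lit 0) (nat_lit 11) (nat_lit 8) (nat_lit 4)
noncomputable def D3150 : OP := win (nat_lit 7) (nat_lit 11) (nat_lit 10) (nat_lit 4)
noncomputable def D3149 : OP := win (nat_lit 1) (nat_lit 11) (nat_lit 11) (nat_lit 5)
noncomputable def D3148 : OP := win (nat_lit 1) (nat_lit 11) (nat_lit 10) (nat_lit 4)
noncomputable def D3154 : OP := orK (nat_lit 291) (fin (add (start D3148) (orK (nat_lit 292) (fin (add (start D3149) D3150)))))
noncomputable def D19410 : OP := orK (nat_lit 251) (fin (add (start D2980) D2979))
noncomputable def D19918 : AP := fin (add (start D4095) D19917)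
noncomputable def D20636 : OP := orK (nat_lit 229) D19918
noncomputable def D20522 : AP := fin (add (start D4095) D9205)
noncomputable def D20635 : OP := orK (nat_lit 229) D20522
noncomputable def D20524 : AP := fin (add (start D462) (orK (nat_lit 189) D20522))
noncomputable def D20525 : OP := orK (nat_lit 229) D20524
noncomputable def D20630 : OP := orK (nat_lit 226) (fin (add (start D9427) (orK (nat_lit 246) (fin (add (start D9426) D15351)))))
noncomputable def D9421 : OP := orK (nat_lit 265) (fin (add (start (win (nat_lit 5) (nat_lit 4) (nat_lit 12) (nat_lit 5))) (win (nat_lit 5) (nat_lit 5) (nat_lit 12) (nat_lit 4))))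
noncomputable def D20610 : OP := orK (nat_lit 269) (fin (add (start D9450) (orK (nat_lit 245) (fin (add (start D20606) D9421)))))
noncomputable def D20632 : OP := orK (nat_lit 247) (fin (add (add (add (add (start D20600) (orK (nat_lit 246) (fin (add (add (start D15351) (orK (nat_lit 269) (fin (add (start D9450) (orK (nat_lit 268) (fin (add (start D19016) (orK (nat_lit 251) D9458)))))))) D20610)))) (orK (nat_lit 226) (fin (add (start D9427) (orK (nat_lit 246) (fin (add (start D9426) D20610))))))) (orK (nat_lit 227) (fin (add (start D4193) (orK (nat_lit 251) (fin (add (start D11237) (orK (nat_lit 268) (fin (add (start D9319) (orK (nat_lit 269) (fin (add (start D9457) (orK (nat_lit 246) (fin (add (start D19016) D9450)))))))))))))))) D20630))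
noncomputable def D20527 : OP := orK (nat_lit 231) (fin (add (start D10324) D14358))
noncomputable def D20528 : AP := fin (add (start D4370) D20527)
noncomputable def D20529 : OP := orK (nat_lit 271) D20528
noncomputable def D20595 : AP := fin (add (start D20529) D13842)
noncomputable def D20596 : OP := orK (nat_lit 251) D20595
noncomputable def D12428 : OP := win (nat_lit 2) (nat_lit 9) (nat_lit 12) (nat_lit 0)
noncomputable def D12429 : AP := fin (add (start (win (nat_lit 2) (nat_lit 8) (nat_lit 12) (nat_lit 3))) D12428)
noncomputable def D12430 : OP := orK (nat_lit 272) D12429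
noncomputable def D20578 : OP := orK (nat_lit 270) (fin (add (start D4337) D12430))
noncomputable def D20576 : OP := orK (nat_lit 251) D20528
noncomputable def D20586 : OP := orK (nat_lit 271) (fin (add (add (start D20576) D20578) (orK (nat_lit 247) (fin (add (start D11234) (orK (nat_lit 227) (fin (add (start D4193) (orK (nat_lit 251) (fin (add (start D11237) D20527)))))))))))
noncomputable def D20594 : OP := orK (nat_lit 271) (fin (add (add (start D20576) D20578) (orK (nat_lit 247) (fin (add (start D11234) (orK (nat_lit 267) (fin (add (start D11247) (orK (nat_lit 251) (fin (add (start D11248) D20527)))))))))))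
noncomputable def D21063 : OP := win (nat_lit 7) (nat_lit 7) (nat_lit 11) (nat_lit 0)
noncomputable def D20569 : OP := orK (nat_lit 270) (fin (add (start D10085) (orK (nat_lit 246) (fin (add (start D10084) D15351)))))
noncomputable def D20549 : OP := orK (nat_lit 270) (fin (add (start D10085) (orK (nat_lit 246) (fin (add (start D10084) D15355)))))
noncomputable def D18956 : OP := orK (nat_lit 192) (fin (add (start D4758) D678))
noncomputable def D21182 : AP := fin (add (start D7263) D18956)
noncomputable def D21070 : OP := win (nat_lit 1) (nat_lit 7) (nat_lit 11) (nat_lit 4)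
noncomputable def D11244 : OP := orK (nat_lit 268) (fin (add (start D9319) D11242))
noncomputable def D20533 : OP := orK (nat_lit 272) (fin (add (start D4360) (orK (nat_lit 252) (fin (add (start D4361) D11244)))))
noncomputable def D19662 : OP := orK (nat_lit 248) (fin (add (start D4016) (orK (nat_lit 169) (fin (add (start D7553) D4160)))))
noncomputable def D20519 : AP := fin (add (start D462) (orK (nat_lit 189) (fin (add (start D4095) D19662))))
noncomputable def D21359 : AP := fin (add (add (add (add (start (orK (nat_lit 229) D20519)) (orK (nat_lit 248) (fin (add (add (add (add (add (start (orK (nat_lit 251) (fin (add (add (add (start D20529) D20533) (orK (nat_lit 268) (fin (add (start D9319) (orK (nat_lit 231) (fin (add (start D10324) (orK (nat_lit 191) (fin (add (add (start (orK (nat_lit 211) D21182)) (orK (nat_lit 269) (fin (add (start D9457) (orK (nat_lit 228) (fin (add (start D9443) (orK (nat_lit 288) (fin (add (add (start (orK (nat_lit 307) (fin (add (start D21070) (orK (nat_lit 308) (fin (add (start D21071) D21184))))))) (orK (nat_lit 308) (fin (add (start D21184) D21190)))) (orK (nat_lit 287) (fin (add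 (start D20771) (orK (nat_lit 286) (fin (add (start D19008) (orK (nat_lit 289) (fin (add (start (win (nat_lit 4) (nat_lit 6) (nat_lit 13) (nat_lit 5))) D20775))))))))))))))))))) (orK (nat_lit 252) (fin (add (start D11242) (orK (nat_lit 272) (fin (add (start D4361) (win (nat_lit 6) (nat_lit 11) (nat_lit 9) (nat_lit 1)))))))))))))))))) (orK (nat_lit 231) (fin (add (start D10324) (orK (nat_lit 268) (fin (add (start D9319) (orK (nat_lit 211) (fin (add (start D402) (orK (nat_lit 191) D21182)))))))))))))) (orK (nat_lit 247) (fin (add (add (add (start D20549) D20569) D20630) (orK (nat_lit 227) (fin (add (start D4193) (orK (nat_lit 267) (fin (add (start D11247) (orK (nat_lit 270) (fin (add (start D10085) (orK (nat_lit 268) (fin (add (start (orK (nat_lit 287) (fin (add (start (orK (nat_lit 286) (fin (add (start D12741) (win (nat_lit 5) (nat_lit 6) (nat_lit 13) (nat_lit 1)))))) (orK (nat_lit 307) (fin (add (start (win (nat_lit 3) (nat_lit 7) (nat_lit 11) (nat_lit 5))) D19053))))))) (orK (nat_lit 288) (fin (add (start D21238) D21063))))))))))))))))))) D20594) D20586) D20596) D20632)))) D20525) (orK (nat_lit 189) (fin (add (add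 (add (start D20635) D20636) (orK (nat_lit 211) (fin (add (add (start D11997) (orK (nat_lit 212) (fin (add (start D57) (orK (nat_lit 192) (fin (add (start D845) (orK (nat_lit 172) (fin (add (add (add (start (orK (nat_lit 152) (fin (add (add (start (orK (nat_lit 132) (fin (add (start D1159) D11807)))) D21256) (orK (nat_lit 153) (fin (add (start D3872) (orK (nat_lit 232) (fin (add (start D3873) D19141)))))))))) (orK (nat_lit 232) (fin (add (add (start (orK (nat_lit 252) (fin (add (add (add (start D19410) D2978) (orK (nat_lit 273) (fin (add (start D2971) (orK (nat_lit 272) (fin (add (start D2972) D3154))))))) (orK (nat_lit 231) (fin (add (start D3857) D21274))))))) (orK (nat_lit 171) (fin (add (start D1178) (orK (nat_lit 173) (fin (add (start D1179) (orK (nat_lit 191) (fin (add (start D10469) D2697)))))))))) (orK (nat_lit 231) (fin (add (start D3857) (orK (nat_lit 171) (fin (add (start D1178) (orK (nat_lit 173) (fin (add (start D1179) (orK (nat_lit 174) (fin (add (start D3522) (orK (nat_lit 195) (fin (add (start D2066) (orK (nat_lit 175) (fin (add (start D2067) (orK (nat_lit 155) (fin (add (start (win (nat_lit 4) (nat_lit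 11) (nat_lit 7) (nat_lit 4))) (win (nat_lit 4) (nat_lit 12) (nat_lit 7) (nat_lit 5))))))))))))))))))))))))))) D5390) (orK (nat_lit 231) (fin (add (start D3858) (orK (nat_lit 251) (fin (add (start (win (nat_lit 3) (nat_lit 11) (nat_lit 8) (nat_lit 3))) D5386)))))))))))))))) (orK (nat_lit 191) (fin (add (add (add (start (orK (nat_lit 188) (fin (add (start D53) D11929)))) (orK (nat_lit 188) (fin (add (start D53) D11933)))) (orK (nat_lit 192) (fin (add (start D678) (orK (nat_lit 169) (fin (add (start D10232) (orK (nat_lit 172) (fin (add (start D66) D8523)))))))))) (orK (nat_lit 171) (fin (add (add (start D18065) (orK (nat_lit 151) (fin (add (start D118) (orK (nat_lit 152) (fin (add (start D1795) (orK (nat_lit 231) (fin (add (start D6601) D11442)))))))))) (orK (nat_lit 151) (fin (add (start D118) (orK (nat_lit 150) (fin (add (start D2025) (orK (nat_lit 188) (fin (add (start D53) (orK (nat_lit 168) (fin (add (start D373) (orK (nat_lit 152) (fin (add (start D1795) (orK (nat_lit 149) (fin (add (start D578) (orK (nat_lit 128) (fin (add (start D998) D8621))))))))))))))))))))))))))))))) (orK (nat_lit 188) (fin (add (start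 D9203) (orK (nat_lit 191) (fin (add (start D11933) D11595)))))))))) (orK (nat_lit 229) (fin (add (start D462) (orK (nat_lit 189) (fin (add (start D9205) D19917)))))))
noncomputable def D10685 : OP := win (nat_lit 2) (nat_lit 7) (nat_lit 11) (nat_lit 3)
noncomputable def D10687 : OP := orK (nat_lit 227) (fin (add (start D4139) D10685))
noncomputable def D11240 : AP := fin (add (start D11236) D11239)
noncomputable def D11241 : OP := orK (nat_lit 247) D11240
noncomputable def D11254 : OP := orK (nat_lit 248) (fin (add (add (start D11241) (orK (nat_lit 252) (fin (add (start D4363) D11244)))) D11252))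
noncomputable def D11227 : OP := win (nat_lit 3) (nat_lit 9) (nat_lit 9) (nat_lit 2)
noncomputable def D11233 : OP := orK (nat_lit 269) (fin (add (start D11227) (orK (nat_lit 268) (fin (add (start D9457) D11229)))))
noncomputable def D19727 : OP := orK (nat_lit 251) (fin (add (add (start (orK (nat_lit 231) (fin (add (start D7263) D4758)))) (orK (nat_lit 249) (fin (add (add (add (start D11233) D11254) (orK (nat_lit 229) (fin (add (start D462) (orK (nat_lit 228) (fin (add (start D1911) D10687))))))) D11266)))) (orK (nat_lit 231) D8758)))
noncomputable def D20757 : AP := fin (add (add (start D9205) (orK (nat_lit 248) (fin (add (start D4016) (orK (nat_lit 228) (fin (add (start D4590) (orK (nat_lit 227) (fin (add (start D3456) (orK (nat_lit 251) (fin (add (start (win (nat_lit 2) (nat_lit 7) (nat_lit 11) (nat_lit 1))) D7548))))))))))))) D10709)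
noncomputable def D20762 : AP := fin (add (start D462) (orK (nat_lit 189) D20757))
noncomputable def D16064 : OP := win (nat_lit 6) (nat_lit 11) (nat_lit 8) (nat_lit 0)
noncomputable def D11222 : OP := orK (nat_lit 231) D11221
noncomputable def D10689 : OP := orK (nat_lit 228) (fin (add (start D9682) D10687))
noncomputable def D21003 : OP := orK (nat_lit 231) (fin (add (start D49) (orK (nat_lit 191) (fin (add (start D342) D11442)))))
noncomputable def D4198 : AP := fin (add (start D325) D3746)
noncomputable def D4199 : OP := orK (nat_lit 188) D4198
noncomputable def D20703 : OP := win (nat_lit 2) (nat_lit 6) (nat_lit 11) (nat_lit 1)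
noncomputable def D21038 : OP := win (nat_lit 7) (nat_lit 7) (nat_lit 11) (nat_lit 4)
noncomputable def D21065 : OP := orK (nat_lit 247) (fin (add (start D21063) D4199))
noncomputable def D20773 : OP := orK (nat_lit 287) (fin (add (start D20770) D20771))
noncomputable def D9440 : OP := orK (nat_lit 289) (fin (add (start D9395) D8113))
noncomputable def D9467 : OP := orK (nat_lit 269) (fin (add (start D4371) D9440))
noncomputable def D20671 : OP := orK (nat_lit 226) (fin (add (start D20668) (win (nat_lit 2) (nat_lit 6) (nat_lit 11) (nat_lit 3))))
noncomputable def D20842 : AP := fin (add (start D6932) D20671)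
noncomputable def D20843 : OP := orK (nat_lit 249) D20842
noncomputable def D21020 : OP := orK (nat_lit 188) (fin (add (start D2527) (orK (nat_lit 167) (fin (add (start D5047) (orK (nat_lit 168) (fin (add (start D2435) (orK (nat_lit 149) (fin (add (start D4620) (orK (nat_lit 148) (fin (add (start D931) D5644))))))))))))))
noncomputable def D21042 : OP := orK (nat_lit 309) (fin (add (start D21036) (orK (nat_lit 308) (fin (add (start D21037) D21038)))))
noncomputable def D20550 : AP := fin (add (start D9405) D327)
noncomputable def D11006 : OP := orK (nat_lit 249) (fin (add (start D462) D3355))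
noncomputable def D20968 : OP := orK (nat_lit 188) (fin (add (start D1897) (orK (nat_lit 187) (fin (add (start D1890) (orK (nat_lit 167) (fin (add (start D9066) (win (nat_lit 7) (nat_lit 7) (nat_lit 8) (nat_lit 2))))))))))
noncomputable def D20945 : OP := win (nat_lit 0) (nat_lit 6) (nat_lit 11) (nat_lit 1)
noncomputable def D10208 : OP := orK (nat_lit 246) (fin (add (start D9426) D9412))
noncomputable def D16047 : OP := win (nat_lit 3) (nat_lit 8) (nat_lit 10) (nat_lit 1)
noncomputable def D12183 : AP := fin (add (start D4169) (orK (nat_lit 288) (fin (add (start D12179) D12180))))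
noncomputable def D13130 : OP := orK (nat_lit 268) D12183
noncomputable def D20864 : AP := fin (add (start D4095) (orK (nat_lit 188) (fin (add (start D1897) (orK (nat_lit 187) (fin (add (start D1890) (orK (nat_lit 207) (fin (add (start D8665) (orK (nat_lit 191) (fin (add (start D2872) D11933)))))))))))))
noncomputable def D8911 : OP := orK (nat_lit 266) (fin (add (start D8908) (win (nat_lit 4) (nat_lit 6) (nat_lit 12) (nat_lit 3))))
noncomputable def D8913 : OP := orK (nat_lit 267) (fin (add (start D4631) D8911))
noncomputable def D16479 : AP := fin (add (add (add (add (start D11233) (orK (nat_lit 229) (fin (add (start D462) D10689)))) D11254) (orK (nat_lit 229) (fin (add (start D462) (orK (nat_lit 248) (fin (add (add (start (orK (nat_lit 228) (fin (add (start D9443) D14112)))) D11264) D11241))))))) D11266)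
noncomputable def D20521 : OP := orK (nat_lit 251) D16479
noncomputable def D12608 : AP := fin (add (start D9405) D11247)
noncomputable def D10100 : OP := win (nat_lit 6) (nat_lit 9) (nat_lit 9) (nat_lit 2)
noncomputable def D11269 : OP := win (nat_lit 7) (nat_lit 10) (nat_lit 9) (nat_lit 2)
noncomputable def D20782 : AP := fin (add (start D11227) D4371)
noncomputable def D20788 : OP := orK (nat_lit 269) D20782
noncomputable def D9392 : OP := orK (nat_lit 169) (fin (add (start D3307) D9390))
noncomputable def D9394 : OP := orK (nat_lit 189) (fin (add (start D312) D9392))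
noncomputable def D20809 : OP := orK (nat_lit 248) (fin (add (add (add (start D9394) (orK (nat_lit 268) (fin (add (add (start (orK (nat_lit 288) (fin (add (start D20773) D20777)))) (orK (nat_lit 288) (fin (add (start D10049) D20773)))) (orK (nat_lit 269) (fin (add (start D2530) (orK (nat_lit 249) D20782)))))))) D3312) (orK (nat_lit 189) (fin (add (add (start D9392) (orK (nat_lit 249) (fin (add (add (add (start D20788) D16650) (orK (nat_lit 188) (fin (add (start D4630) (orK (nat_lit 247) (fin (add (start D3746) (orK (nat_lit 271) (fin (add (start D11234) (orK (nat_lit 251) (fin (add (start D4370) (orK (nat_lit 211) (fin (add (start D1891) D11269)))))))))))))))) (orK (nat_lit 270) (fin (add (start D10100) (orK (nat_lit 247) (fin (add (start D10085) (orK (nat_lit 267) D12608))))))))))) D3310)))))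
noncomputable def D12778 : OP := orK (nat_lit 147) D12777
noncomputable def D12769 : OP := orK (nat_lit 147) D12768
noncomputable def D12782 : OP := orK (nat_lit 167) (fin (add (add (start (orK (nat_lit 247) D12775)) D12778) D12780))
noncomputable def D12791 : OP := orK (nat_lit 148) (fin (add (start D944) D945))
noncomputable def D12760 : OP := orK (nat_lit 166) (fin (add (start (win (nat_lit 7) (nat_lit 6) (nat_lit 8) (nat_lit 0))) (orK (nat_lit 146) (fin (add (start (win (nat_lit 6) (nat_lit 6) (nat_lit 6) (nat_lit 0))) (win (nat_lit 6) (nat_lit 6) (nat_lit 7) (nat_lit 3)))))))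
noncomputable def D12762 : OP := orK (nat_lit 186) (fin (add (start D3792) D12760))
noncomputable def D13795 : OP := win (nat_lit 2) (nat_lit 6) (nat_lit 9) (nat_lit 2)
noncomputable def D13797 : OP := orK (nat_lit 186) (fin (add (start D3792) D13795))
noncomputable def D4181 : OP := win (nat_lit 3) (nat_lit 8) (nat_lit 9) (nat_lit 2)
noncomputable def D20553 : OP := orK (nat_lit 187) (fin (add (start D666) D4420))
noncomputable def D20764 : AP := fin (add (add (add (add (start D20521) D20525) (orK (nat_lit 248) (fin (add (add (add (add (add (start (orK (nat_lit 251) (fin (add (add (start D20529) D20533) (orK (nat_lit 268) (fin (add (start D9319) (orK (nat_lit 228) (fin (add (start D9443) (orK (nat_lit 208) (fin (add (start D3297) (orK (nat_lit 231) (fin (add (start D10324) (orK (nat_lit 269) (fin (add (start D9457) D4371))))))))))))))))))) (orK (nat_lit 247) (fin (add (add (start D20549) (orK (nat_lit 227) (fin (add (start D4193) (orK (nat_lit 267) (fin (add (start D11247) (orK (nat_lit 208) (fin (add (add (start (orK (nat_lit 228) D20550)) (orK (nat_lit 207) (fin (add (start D20553) (orK (nat_lit 228) (fin (add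 (start D327) D2518))))))) (orK (nat_lit 207) (fin (add (start D13747) D20553))))))))))))) D20569)))) D20586) D20594) D20596) D20632)))) (orK (nat_lit 189) (fin (add (add (add (start D20635) D20636) (orK (nat_lit 187) (fin (add (add (add (start (orK (nat_lit 188) D9202)) (orK (nat_lit 188) (fin (add (start D9201) (orK (nat_lit 207) (fin (add (start D8665) (orK (nat_lit 167) (fin (add (start D9066) (orK (nat_lit 227) (fin (add (start (orK (nat_lit 208) (fin (add (start D668) D9069)))) (orK (nat_lit 168) (fin (add (start D4417) D946)))))))))))))))) (orK (nat_lit 208) (fin (add (start D3238) (orK (nat_lit 248) (fin (add (add (add (start (orK (nat_lit 228) (fin (add (start D312) (orK (nat_lit 227) (fin (add (start D6932) D2518))))))) (orK (nat_lit 268) (fin (add (start D4181) D13895)))) (orK (nat_lit 271) (fin (add (start D20576) (orK (nat_lit 247) (fin (add (start D11234) D20630))))))) (orK (nat_lit 228) (fin (add (start D312) (orK (nat_lit 227) (fin (add (start D2518) D20671))))))))))))) (orK (nat_lit 207) (fin (add (add (add (start D13797) (orK (nat_lit 227) (fin (add (add (add (add (start D20682) (orK (nat_lit 167)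 (fin (add (add (start (orK (nat_lit 247) (fin (add (start D12774) D4422)))) (orK (nat_lit 147) (fin (add (start (orK (nat_lit 228) (fin (add (start (win (nat_lit 6) (nat_lit 7) (nat_lit 7) (nat_lit 4))) D3281)))) D4412)))) D12780)))) (orK (nat_lit 247) (fin (add (add (start (orK (nat_lit 267) (fin (add (start D12731) D20696)))) (orK (nat_lit 226) (fin (add (start D20680) (orK (nat_lit 248) (fin (add (start D20703) D4420))))))) D17132)))) D12782) (orK (nat_lit 226) (fin (add (start D20680) (orK (nat_lit 167) (fin (add (start D12691) (orK (nat_lit 147) (fin (add (start D12763) D12767))))))))))))) (orK (nat_lit 227) (fin (add (add (add (start (orK (nat_lit 208) (fin (add (start D666) D668)))) D20682) D17150) (orK (nat_lit 186) (fin (add (start D13795) D12760))))))) (orK (nat_lit 227) (fin (add (add (add (add (start D12762) (orK (nat_lit 188) (fin (add (start D1890) (orK (nat_lit 168) (fin (add (start D946) D12791))))))) D12782) D17150) (orK (nat_lit 188) (fin (add (start D1890) (orK (nat_lit 167) (fin (add (add (start (orK (nat_lit 168) (fin (add (start D4417) (orK (nat_lit 166) (fin (add (start D7241) D9950)))))))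 D12769) D12778)))))))))))))))) (orK (nat_lit 229) D20757))))) (orK (nat_lit 229) D20762))
noncomputable def D9584 : OP := win (nat_lit 0) (nat_lit 4) (nat_lit 10) (nat_lit 0)
noncomputable def D21367 : AP := fin (add (add (add (add (add (add (add (add (add (add (start D20171) (orK (nat_lit 191) (fin (add (add (add (start D20480) D2871) (orK (nat_lit 208) (fin (add (start D50) (orK (nat_lit 211) (fin (add (start D20482) D13446))))))) D2715)))) (orK (nat_lit 208) (fin (add (add (add (start (orK (nat_lit 207) (fin (add (add (add (start D659) D675) (orK (nat_lit 227) (fin (add (start D668) (orK (nat_lit 211) (fin (add (start D669) (orK (nat_lit 231) (fin (add (start D49) (orK (nat_lit 188) (fin (add (start D451) (orK (nat_lit 189) (fin (add (start D1891) D413)))))))))))))))) (orK (nat_lit 206) (fin (add (start D655) (orK (nat_lit 185) (fin (add (start D3952) (orK (nat_lit 227) (fin (add (start D668) (orK (nat_lit 205) (fin (add (start D3953) (orK (nat_lit 228) (fin (add (start D9584) D2518))))))))))))))))))) D682) D684) (orK (nat_lit 191) (fin (add (add (start D680) (orK (nat_lit 211) (fin (add (start D20482) D693))))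 D697))))))) (orK (nat_lit 249) D20764)) (orK (nat_lit 208) (fin (add (add (add (start (orK (nat_lit 228) (fin (add (add (start D20809) (orK (nat_lit 227) (fin (add (add (start D2522) (orK (nat_lit 188) (fin (add (add (add (start (orK (nat_lit 248) (fin (add (add (start D2526) (orK (nat_lit 267) (fin (add (start D2527) (orK (nat_lit 268) (fin (add (start D2528) (orK (nat_lit 288) (fin (add (start D10049) (win (nat_lit 7) (nat_lit 7) (nat_lit 10) (nat_lit 5)))))))))))) (orK (nat_lit 247) (fin (add (start D3746) (orK (nat_lit 189) (fin (add (start D311) (orK (nat_lit 249) (fin (add (start D4630) (orK (nat_lit 250) (fin (add (start D6932) (orK (nat_lit 270) (fin (add (start D10085) D10100))))))))))))))))))) D20819) (orK (nat_lit 247) (fin (add (start D325) (orK (nat_lit 267) (fin (add (start D2546) D326))))))) (orK (nat_lit 168) (fin (add (start (orK (nat_lit 148) (fin (add (start D7377) D4624)))) (orK (nat_lit 169) (fin (add (start D2538) (orK (nat_lit 248) (fin (add (start D2537) D7404))))))))))))) D3294)))) D3296)))) D682) (orK (nat_lit 192) (fin (add (add (add (start D3328) D3329) (orK (nat_lit 228) (fin (add (add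 (add (start (orK (nat_lit 211) (fin (add (start D104) D9654)))) (orK (nat_lit 248) (fin (add (add (start D9394) (orK (nat_lit 227) (fin (add (add (start D2522) (orK (nat_lit 249) (fin (add (start D6932) D20788)))) D20843)))) D3312)))) D20809) (orK (nat_lit 211) (fin (add (start D104) D20223))))))) D3337)))) D3385)))) (orK (nat_lit 249) (fin (add (add (add (add (start D20521) (orK (nat_lit 229) (fin (add (start D462) (orK (nat_lit 189) D20864))))) (orK (nat_lit 208) (fin (add (add (start D3385) (orK (nat_lit 248) (fin (add (add (add (add (start D16648) (orK (nat_lit 268) (fin (add (add (start (orK (nat_lit 228) (fin (add (start D3297) (orK (nat_lit 267) (fin (add (start D2528) D4631))))))) D8913) (orK (nat_lit 228) (fin (add (start D3297) (orK (nat_lit 269) (fin (add (start D4371) D2530)))))))))) (orK (nat_lit 228) (fin (add (add (start (orK (nat_lit 188) (fin (add (start D4630) (orK (nat_lit 247) (fin (add (start D3746) (orK (nat_lit 227) (fin (add (start D325) D4193)))))))))) (orK (nat_lit 268) (fin (add (start D3297) (orK (nat_lit 267) (fin (add (start D2528) D8911))))))) D3312)))) (orK (nat_lit 247) (fin (add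 (add (start (orK (nat_lit 251) D11240)) (orK (nat_lit 246) (fin (add (start D16643) D15351)))) D15357)))) (orK (nat_lit 228) (fin (add (start D3312) (orK (nat_lit 227) D20842)))))))) D17791)))) (orK (nat_lit 189) (fin (add (add (start (orK (nat_lit 229) D20864)) (orK (nat_lit 191) (fin (add (add (start D9914) (orK (nat_lit 192) (fin (add (start D678) (orK (nat_lit 168) (fin (add (start D11925) (orK (nat_lit 188) (fin (add (start D373) (orK (nat_lit 187) (fin (add (start D1890) D68))))))))))))) (orK (nat_lit 188) (fin (add (add (start D13049) D16632) (orK (nat_lit 168) (fin (add (start D373) (orK (nat_lit 208) (fin (add (start D50) (orK (nat_lit 171) (fin (add (start D3428) (orK (nat_lit 148) (fin (add (start D3429) (orK (nat_lit 149) (fin (add (start D931) (orK (nat_lit 169) (fin (add (start D3236) (orK (nat_lit 151) (fin (add (start D118) (orK (nat_lit 150) (fin (add (start D5708) D755))))))))))))))))))))))))))))))) D20636)))) (orK (nat_lit 229) (fin (add (start D462) (orK (nat_lit 248) (fin (add (add (add (start D13130) (orK (nat_lit 268) (fin (add (start D4169) D13895)))) (orK (nat_lit 228) (fin (add (add (start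 D19913) (orK (nat_lit 268) (fin (add (start D4070) D13895)))) (orK (nat_lit 288) (fin (add (start D16047) (orK (nat_lit 247) (fin (add (add (start (orK (nat_lit 226) (fin (add (start D20945) D10208)))) (orK (nat_lit 246) (fin (add (start D9412) D15351)))) (orK (nat_lit 227) (fin (add (start D4139) (orK (nat_lit 267) (fin (add (start D11247) (orK (nat_lit 287) (fin (add (start D9407) D12745))))))))))))))))))) (orK (nat_lit 228) (fin (add (add (start D19913) (orK (nat_lit 189) (fin (add (start D4590) (orK (nat_lit 251) (fin (add (start D9682) D20968))))))) (orK (nat_lit 226) (fin (add (start D20945) (orK (nat_lit 189) (fin (add (start D4590) D20968))))))))))))))))))) (orK (nat_lit 208) (fin (add (add (add (start D20989) D682) D684) (orK (nat_lit 191) (fin (add (add (start D680) (orK (nat_lit 211) (fin (add (start D20482) D10414)))) D697))))))) (orK (nat_lit 208) (fin (add (add (add (start D682) D16123) (orK (nat_lit 228) (fin (add (add (add (start D2524) (orK (nat_lit 211) (fin (add (start (orK (nat_lit 229) (fin (add (start D1911) (orK (nat_lit 188) (fin (add (start D451) D11006))))))) D21003)))) (orK (nat_lit 227)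 (fin (add (add (start D2522) (orK (nat_lit 248) (fin (add (add (add (start (orK (nat_lit 267) (fin (add (add (start (orK (nat_lit 247) D20550)) D21010) D21020)))) (orK (nat_lit 249) (fin (add (start D6932) (orK (nat_lit 269) (fin (add (start D11227) D9440))))))) (orK (nat_lit 249) (fin (add (start D6932) (orK (nat_lit 188) (fin (add (start D4630) (orK (nat_lit 247) D4198)))))))) (orK (nat_lit 251) (fin (add (start (win (nat_lit 2) (nat_lit 7) (nat_lit 11) (nat_lit 2))) (orK (nat_lit 268) (fin (add (add (add (start (orK (nat_lit 287) (fin (add (start D20770) (orK (nat_lit 288) (fin (add (start D20771) D10049))))))) (orK (nat_lit 288) (fin (add (start D10049) D21042)))) (orK (nat_lit 287) (fin (add (start D20770) (orK (nat_lit 288) (fin (add (start D20771) D21042))))))) (orK (nat_lit 267) (fin (add (start D2528) D21020))))))))))))) (orK (nat_lit 248) (fin (add (add (add (start D20843) (orK (nat_lit 249) (fin (add (start D6932) D9467)))) (orK (nat_lit 226) (fin (add (start D2519) (orK (nat_lit 268) (fin (add (add (add (add (start D21062) (orK (nat_lit 288) (fin (add (add (start D21065) D20773) (orK (nat_lit 308) (fin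 (add (start D21038) (orK (nat_lit 307) (fin (add (start D21070) D21071)))))))))) (orK (nat_lit 289) (fin (add (start D20774) (orK (nat_lit 288) (fin (add (start D20775) D21065))))))) (orK (nat_lit 289) (fin (add (start D20774) (orK (nat_lit 288) (fin (add (start D20775) (orK (nat_lit 307) (fin (add (start D21070) (orK (nat_lit 308) (fin (add (start D21071) D21038))))))))))))) (orK (nat_lit 267) (fin (add (start D2528) (orK (nat_lit 247) (fin (add (start D9405) (orK (nat_lit 269) (fin (add (start D2530) (orK (nat_lit 245) (fin (add (start (win (nat_lit 0) (nat_lit 5) (nat_lit 12) (nat_lit 1))) (orK (nat_lit 270) (fin (add (start D12665) D4125)))))))))))))))))))))) (orK (nat_lit 226) (fin (add (start D2519) (orK (nat_lit 247) (fin (add (start D20703) D4199))))))))))))) (orK (nat_lit 211) (fin (add (start D104) D21003))))))) D17791)))) (orK (nat_lit 191) (fin (add (add (add (start (orK (nat_lit 229) (fin (add (add (add (add (start (orK (nat_lit 249) D20519)) (orK (nat_lit 249) D20524)) (orK (nat_lit 249) (fin (add (start D462) (orK (nat_lit 251) (fin (add (add (add (start D10689) (orK (nat_lit 228) (fin (add (start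 D9682) (orK (nat_lit 211) (fin (add (start D1911) D11222))))))) (orK (nat_lit 231) (fin (add (add (add (start (orK (nat_lit 211) D11221)) (orK (nat_lit 248) (fin (add (start D10324) (orK (nat_lit 271) (fin (add (start D4370) (orK (nat_lit 247) (fin (add (start D11234) (orK (nat_lit 226) (fin (add (start D9427) D11250))))))))))))) (orK (nat_lit 248) (fin (add (start D10324) (orK (nat_lit 271) (fin (add (start D4370) D14358))))))) (orK (nat_lit 211) (fin (add (start D7263) (orK (nat_lit 232) (fin (add (start D8919) (orK (nat_lit 252) (fin (add (start D16064) D4691))))))))))))) (orK (nat_lit 248) D20595)))))))) (orK (nat_lit 211) (fin (add (add (start (orK (nat_lit 212) (fin (add (start D59) D100)))) (orK (nat_lit 231) (fin (add (start D11442) (orK (nat_lit 232) (fin (add (start D3038) (orK (nat_lit 171) (fin (add (start D4732) D19766)))))))))) (orK (nat_lit 231) (fin (add (start D11442) (orK (nat_lit 208) (fin (add (start D49) (orK (nat_lit 188) (fin (add (start D451) (orK (nat_lit 228) (fin (add (start D104) D2439)))))))))))))))) (orK (nat_lit 249) D20762))))) (orK (nat_lit 192) (fin (add (start D678) (orK (nat_lit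 211) (fin (add (start D79) D19727))))))) D20480) (orK (nat_lit 192) (fin (add (start D678) (orK (nat_lit 189) (fin (add (start D3405) (orK (nat_lit 168) (fin (add (start D11925) (orK (nat_lit 188) (fin (add (start D373) D68)))))))))))))))) (orK (nat_lit 249) D21359)) (orK (nat_lit 191) (fin (add (add (add (start D20480) D2871) (orK (nat_lit 208) (fin (add (start D50) (orK (nat_lit 211) (fin (add (start D20482) D17952))))))) D2715))))
noncomputable def D21430 : AP := fin (add (add (add (add (add (add (add (start (orK (nat_lit 230) D20357)) (orK (nat_lit 230) (fin (add (add (add (start D622) D634) D719) (orK (nat_lit 251) (fin (add (start D149) (orK (nat_lit 249) (fin (add (start D8) (orK (nat_lit 171) (fin (add (start D15) D20370))))))))))))) (orK (nat_lit 230) (fin (add (add (start D20382) D14508) D14504)))) (orK (nat_lit 189) (fin (add (add (add (start (orK (nat_lit 230) (fin (add (start D3476) D14974)))) (orK (nat_lit 188) (fin (add (add (add (start D14343) (orK (nat_lit 211) (fin (add (add (start D301) D303) (orK (nat_lit 191) (fin (add (start (orK (nat_lit 171) (fin (add (start D3428) (orK (nat_lit 230) D10611)))))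 D15242))))))) D14352) D14353)))) (orK (nat_lit 230) D14440)) D15256)))) (orK (nat_lit 191) (fin (add (add (add (start D20402) (orK (nat_lit 192) (fin (add (add (add (start D20404) D17348) (orK (nat_lit 208) (fin (add (add (add (start D20405) D20406) (orK (nat_lit 189) (fin (add (add (start D20410) D20414) (orK (nat_lit 212) (fin (add (start D2688) (orK (nat_lit 172) (fin (add (start D66) (orK (nat_lit 169) (fin (add (start D10232) (orK (nat_lit 152) (fin (add (add (start D14073) (orK (nat_lit 232) (fin (add (start (orK (nat_lit 231) (fin (add (start D3871) D3857)))) D19141)))) (orK (nat_lit 132) (fin (add (start D11807) D1164))))))))))))))))))) D20435)))) D20439)))) D20442) (orK (nat_lit 230) D20443))))) (orK (nat_lit 209) D21367)) (orK (nat_lit 191) (fin (add (add (add (start D20402) (orK (nat_lit 192) (fin (add (add (add (start D20404) D17348) (orK (nat_lit 208) (fin (add (add (add (start D20405) D20406) (orK (nat_lit 189) (fin (add (add (start D20410) D20414) (orK (nat_lit 172) (fin (add (start D66) (orK (nat_lit 212) (fin (add (start D2688) (orK (nat_lit 152) (fin (add (add (start D14073) (orK (nat_lit 133)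 (fin (add (start D5600) (orK (nat_lit 132) (fin (add (start D1974) D1164))))))) (orK (nat_lit 151) (fin (add (start D1961) (orK (nat_lit 211) (fin (add (start D1160) (orK (nat_lit 169) (fin (add (start D10232) (orK (nat_lit 171) (fin (add (start D1800) (orK (nat_lit 149) (fin (add (start D277) (orK (nat_lit 150) (fin (add (start D1234) D2025))))))))))))))))))))))))))))))) D20435)))) D20439)))) D20442) (orK (nat_lit 230) (fin (add (start D615) (orK (nat_lit 269) (fin (add (start D613) (orK (nat_lit 270) (fin (add (start D614) (orK (nat_lit 291) (fin (add (start D7023) D10256)))))))))))))))) (orK (nat_lit 191) (fin (add (add (add (start D21410) (orK (nat_lit 230) (fin (add (start D615) D20382)))) (orK (nat_lit 192) (fin (add (add (add (start D20404) D17348) (orK (nat_lit 209) (fin (add (add (start D15095) (orK (nat_lit 189) (fin (add (start D10234) (orK (nat_lit 212) (fin (add (start D2688) (orK (nat_lit 211) D19834)))))))) D15130)))) D20439)))) (orK (nat_lit 192) (fin (add (add (add (start D20404) D17348) (orK (nat_lit 209) (fin (add (add (start D15095) D21423) D15130)))) D20439)))))))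
noncomputable def D16973 : OP := win (nat_lit 6) (nat_lit 8) (nat_lit 6) (nat_lit 2)
noncomputable def D3227 : OP := orK (nat_lit 209) (fin (add (start D3217) (orK (nat_lit 212) (fin (add (start D57) (orK (nat_lit 192) (fin (add (start D845) (orK (nat_lit 208) (fin (add (start D846) D3219)))))))))))
noncomputable def D848 : OP := orK (nat_lit 208) (fin (add (start D846) D107))
noncomputable def D850 : OP := orK (nat_lit 192) (fin (add (start D845) D848))
noncomputable def D842 : OP := orK (nat_lit 189) (fin (add (start D57) D840))
noncomputable def D1373 : OP := win (nat_lit 4) (nat_lit 10) (nat_lit 9) (nat_lit 3)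
noncomputable def D1500 : AP := fin (add (start D823) (orK (nat_lit 194) (fin (add (start D1373) D1497))))
noncomputable def D1433 : OP := win (nat_lit 0) (nat_lit 12) (nat_lit 10) (nat_lit 5)
noncomputable def D1432 : OP := win (nat_lit 0) (nat_lit 11) (nat_lit 10) (nat_lit 4)
noncomputable def D6128 : AP := fin (add (start D49) D107)
noncomputable def D805 : OP := orK (nat_lit 189) (fin (add (start D57) D803))
noncomputable def D19309 : OP := orK (nat_lit 229) (fin (add (start D20) D19307))
noncomputable def D20017 : OP := orK (nat_lit 230) (fin (add (add (start D606) D19309) D155))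
noncomputable def D17286 : OP := orK (nat_lit 251) (fin (add (add (add (start (orK (nat_lit 250) D17277)) D14468) D14469) (orK (nat_lit 170) (fin (add (start D148) (orK (nat_lit 249) (fin (add (start D7) (orK (nat_lit 250) (fin (add (start D8) D17272)))))))))))
noncomputable def D15018 : OP := orK (nat_lit 169) (fin (add (start D14228) (orK (nat_lit 188) (fin (add (add (add (start D14634) D14353) (orK (nat_lit 171) (fin (add (add (add (start (orK (nat_lit 170) D14873)) (orK (nat_lit 172) (fin (add (start D270) (win (nat_lit 5) (nat_lit 8) (nat_lit 8) (nat_lit 2)))))) (orK (nat_lit 191) (fin (add (start D3428) (orK (nat_lit 211) (fin (add (start D54) D3782))))))) D14491)))) (orK (nat_lit 187) (fin (add (add (start D14645) (orK (nat_lit 170) (fin (add (start D11047) (orK (nat_lit 186) (fin (add (start D14635) D11522))))))) D14341))))))))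
noncomputable def D14240 : OP := orK (nat_lit 250) (fin (add (add (start D14234) D9318) (orK (nat_lit 191) (fin (add (start D615) D14236)))))
noncomputable def D12025 : OP := orK (nat_lit 188) (fin (add (start D53) D11943))
noncomputable def D20217 : OP := orK (nat_lit 211) (fin (add (add (add (start D406) D408) D20209) (orK (nat_lit 189) (fin (add (add (add (start D3227) D426) D428) (orK (nat_lit 150) (fin (add (add (start (orK (nat_lit 209) (fin (add (start D80) D12025)))) D14523) D470))))))))
noncomputable def D2497 : OP := orK (nat_lit 171) (fin (add (add (start D2478) D2369) D2495))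
noncomputable def D3256 : OP := orK (nat_lit 189) (fin (add (add (add (start D3227) D426) D428) D3254))
noncomputable def D18347 : OP := orK (nat_lit 249) (fin (add (start D7) D8))
noncomputable def D20015 : OP := orK (nat_lit 230) (fin (add (start D14515) (orK (nat_lit 250) (fin (add (start D18347) D151)))))
noncomputable def D12543 : OP := orK (nat_lit 269) (fin (add (start D10516) (orK (nat_lit 228) (fin (add (add (start (orK (nat_lit 207) (fin (add (start D12244) D12370)))) D4069) (orK (nat_lit 208) (fin (add (start D3035) (orK (nat_lit 248) (fin (add (start D3847) D12535)))))))))))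
noncomputable def D12552 : AP := fin (add (add (start D3567) D12551) D12543)
noncomputable def D15461 : OP := win (nat_lit 0) (nat_lit 9) (nat_lit 11) (nat_lit 3)
noncomputable def D20042 : OP := orK (nat_lit 252) (fin (add (start D4222) (orK (nat_lit 253) (fin (add (start D15461) D4268)))))
noncomputable def D15474 : OP := win (nat_lit 5) (nat_lit 9) (nat_lit 9) (nat_lit 2)
noncomputable def D3863 : OP := win (nat_lit 4) (nat_lit 9) (nat_lit 9) (nat_lit 2)
noncomputable def D15480 : OP := orK (nat_lit 212) (fin (add (start D3677) (orK (nat_lit 192) (fin (add (start D3681) (orK (nat_lit 193) (fin (add (start D3863) D15474))))))))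
noncomputable def D3683 : OP := orK (nat_lit 192) (fin (add (start D3681) D2979))
noncomputable def D12235 : OP := orK (nat_lit 212) (fin (add (start D3677) D3683))
noncomputable def D12497 : OP := orK (nat_lit 228) (fin (add (start D4059) D4069))
noncomputable def D20023 : OP := orK (nat_lit 191) (fin (add (start D615) D260))
noncomputable def D15258 : OP := orK (nat_lit 189) (fin (add (add (add (start D14230) D15222) D14325) D15256))
noncomputable def D22458 : AP := fin (add (add (add (add (add (add (add (add (add (add (add (add (add (add (add (add (add (add (add (add (start (orK (nat_lit 170) (fin (add (add (add (add (start D747) D19977) D209) D19322) (orK (nat_lit 171) (fin (add (add (start D222) (orK (nat_lit 230) (fin (add (add (add (start D254) D2960) D547) (orK (nat_lit 249) (fin (add (start D7) (orK (nat_lit 169) (fin (add (start D223) D19991)))))))))) (orK (nat_lit 151) (fin (add (start D2367) (orK (nat_lit 169) (fin (add (add (add (start D4902) (orK (nat_lit 149) (fin (add (start D4) D5718)))) (orK (nat_lit 149) (fin (add (start D4) D5844)))) (orK (nat_lit 168) (fin (add (start D119) D19981))))))))))))))))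 (orK (nat_lit 170) (fin (add (add (add (add (start D19977) D3272) D20015) D20017) D5458)))) (orK (nat_lit 230) (fin (add (add (add (add (add (add (start D15224) (orK (nat_lit 229) (fin (add (start D19307) D14761)))) D14653) D15258) (orK (nat_lit 251) (fin (add (add (add (start (orK (nat_lit 250) (fin (add (start D149) (orK (nat_lit 249) (fin (add (start D8) (orK (nat_lit 170) (fin (add (start D7) D20023)))))))))) D14468) D14469) (orK (nat_lit 170) (fin (add (start D148) (orK (nat_lit 249) (fin (add (start D7) (orK (nat_lit 250) (fin (add (start D8) D20023))))))))))))) D14520) (orK (nat_lit 231) (fin (add (add (add (start D14412) (orK (nat_lit 170) D3263)) (orK (nat_lit 209) (fin (add (add (add (start (orK (nat_lit 251) (fin (add (add (start D14370) (orK (nat_lit 229) (fin (add (add (add (start D20042) D12497) (orK (nat_lit 249) (fin (add (start D462) (orK (nat_lit 232) (fin (add (start D3659) (orK (nat_lit 252) (fin (add (start D3671) D12235)))))))))) D12551)))) (orK (nat_lit 229) (fin (add (add (start (orK (nat_lit 228) (fin (add (start D4059) D4473)))) (orK (nat_lit 249) (fin (add (start D462) (orK (nat_lit 232)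 (fin (add (start D3659) D15480))))))) D20042))))))) (orK (nat_lit 229) D12552)) D20065) D20067)))) (orK (nat_lit 229) (fin (add (add (start (orK (nat_lit 228) (fin (add (add (start D519) D5160) (orK (nat_lit 212) (fin (add (start D4844) (orK (nat_lit 232) (fin (add (start D3677) D3850)))))))))) D14868) (orK (nat_lit 208) (fin (add (add (start (orK (nat_lit 232) (fin (add (start D514) (orK (nat_lit 212) (fin (add (start D3677) (orK (nat_lit 211) (fin (add (start D3034) (orK (nat_lit 252) (fin (add (start D3671) (orK (nat_lit 191) (fin (add (start D16064) D2966)))))))))))))))) D521) D20091))))))))))))) (orK (nat_lit 170) (fin (add (add (add (add (add (start D600) D20103) D20015) D19960) D2964) (orK (nat_lit 211) (fin (add (add (add (start D406) D408) (orK (nat_lit 189) (fin (add (add (add (start D20119) D426) D428) (orK (nat_lit 188) (fin (add (start D53) (orK (nat_lit 172) (fin (add (add (add (start D20120) D20121) (orK (nat_lit 191) (fin (add (add (start (orK (nat_lit 208) (fin (add (start D371) (orK (nat_lit 209) (fin (add (start D342) D8535))))))) (orK (nat_lit 208) (fin (add (start D371) (orK (nat_lit 231) (fin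 (add (start D48) D20130))))))) (orK (nat_lit 192) (fin (add (start D66) (orK (nat_lit 193) (fin (add (start D824) D3173)))))))))) D20141)))))))))) D3256))))))) (orK (nat_lit 170) (fin (add (add (add (add (add (start D19960) D11210) D19977) (orK (nat_lit 209) (fin (add (add (add (start D14581) D20167) D2473) D466)))) (orK (nat_lit 209) (fin (add (add (start D20171) (orK (nat_lit 191) (fin (add (add (add (start D10242) D2871) (orK (nat_lit 207) (fin (add (start D2872) (orK (nat_lit 150) (fin (add (add (start D2854) (orK (nat_lit 211) (fin (add (start D45) (orK (nat_lit 149) (fin (add (start D175) (orK (nat_lit 230) (fin (add (start D176) (orK (nat_lit 250) D3028))))))))))) D188))))))) D2715)))) D2473)))) D739)))) (orK (nat_lit 170) (fin (add (add (add (add (start D20103) D8596) D646) D2497) D20217)))) (orK (nat_lit 170) (fin (add (add (add (add (add (add (add (start D20017) D20231) D20233) D19322) D3564) D646) D3513) D20217)))) (orK (nat_lit 230) (fin (add (add (add (add (add (start (orK (nat_lit 189) (fin (add (add (add (start D14230) D14240) D14244) D15018)))) D15157) D20257) (orK (nat_lit 189) (fin (add (add (add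 (start D14230) (orK (nat_lit 250) (fin (add (add (add (start D14234) D14974) D634) (orK (nat_lit 249) (fin (add (start D8) (orK (nat_lit 251) (fin (add (start D149) (orK (nat_lit 229) (fin (add (add (start D9684) (orK (nat_lit 252) (fin (add (start D4352) (orK (nat_lit 272) (fin (add (start D4361) (orK (nat_lit 248) (fin (add (add (start D10326) (orK (nat_lit 247) (fin (add (start D4017) D20260)))) (orK (nat_lit 211) (fin (add (start D20260) (orK (nat_lit 231) (fin (add (start D10324) D3691)))))))))))))))) D20285))))))))))))) D20301) D15256)))) D17286) (orK (nat_lit 170) D20304))))) (orK (nat_lit 170) (fin (add (add (add (add (add (add (add (add (start D600) D20017) D209) D644) D19322) D646) (orK (nat_lit 211) (fin (add (add (add (start D406) D408) (orK (nat_lit 212) (fin (add (add (add (start D805) (orK (nat_lit 231) (fin (add (add (start D404) (orK (nat_lit 209) (fin (add (add (start (orK (nat_lit 208) D6128)) (orK (nat_lit 193) (fin (add (start D442) (orK (nat_lit 213) (fin (add (start D443) (orK (nat_lit 214) (fin (add (start D808) (orK (nat_lit 235) (fin (add (start D1432) (orK (nat_lit 215) (fin (add (start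 D1433) (win (nat_lit 5) (nat_lit 11) (nat_lit 10) (nat_lit 4)))))))))))))))))) D850)))) (orK (nat_lit 251) (fin (add (start D402) (orK (nat_lit 192) (fin (add (start (orK (nat_lit 172) (fin (add (start D3858) D5385)))) (orK (nat_lit 193) D1500))))))))))) D842) (orK (nat_lit 209) (fin (add (add (start D844) D850) D457))))))) (orK (nat_lit 189) (fin (add (add (add (start D3227) D426) D428) (orK (nat_lit 209) (fin (add (add (start D3217) D16636) (orK (nat_lit 188) (fin (add (start D53) (orK (nat_lit 150) (fin (add (start D3215) (orK (nat_lit 151) (fin (add (start D22) (orK (nat_lit 149) (fin (add (start D175) (orK (nat_lit 191) (fin (add (start D14817) (orK (nat_lit 148) (fin (add (start D564) (orK (nat_lit 128) (fin (add (start D905) D16973))))))))))))))))))))))))))))))) D733) D739)))) (orK (nat_lit 250) D21430)) (orK (nat_lit 170) (fin (add (add (add (add (start D19960) D20103) D21433) D21435) (orK (nat_lit 211) (fin (add (add (add (start D406) (orK (nat_lit 189) (fin (add (add (add (start D20119) D426) D428) (orK (nat_lit 188) (fin (add (start D53) D15252))))))) D408) (orK (nat_lit 209) (fin (add (add (start D21441)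 D472) (orK (nat_lit 189) (fin (add (start D9340) (orK (nat_lit 150) (fin (add (start D3215) (orK (nat_lit 149) (fin (add (start D175) (orK (nat_lit 151) (fin (add (start D22) (orK (nat_lit 169) (fin (add (start D757) D16620))))))))))))))))))))))))) (orK (nat_lit 230) (fin (add (add (add (add (start D15542) D14425) D14415) (orK (nat_lit 191) (fin (add (add (add (start D10250) (orK (nat_lit 189) (fin (add (add (start D14908) (orK (nat_lit 250) (fin (add (add (start D14236) D10302) (orK (nat_lit 209) (fin (add (start D9914) D21474))))))) D17308)))) D17318) (orK (nat_lit 192) (fin (add (add (add (start D20404) D21490) (orK (nat_lit 209) (fin (add (add (start D15095) (orK (nat_lit 189) (fin (add (start D10518) (orK (nat_lit 212) (fin (add (start D2688) (orK (nat_lit 211) (fin (add (start D98) (orK (nat_lit 171) (fin (add (start D3782) (orK (nat_lit 229) (fin (add (start D59) (orK (nat_lit 249) (fin (add (start D462) (orK (nat_lit 248) (fin (add (start D4016) (orK (nat_lit 232) (fin (add (start D21491) D2697))))))))))))))))))))))))) D15130)))) D20439))))))) (orK (nat_lit 229) (fin (add (add (start D14868) D19307) D19971)))))))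 (orK (nat_lit 170) (fin (add (add (add (start D600) D16801) D20103) (orK (nat_lit 211) (fin (add (add (add (start D406) D408) (orK (nat_lit 189) (fin (add (add (add (start (orK (nat_lit 212) (fin (add (start D57) (orK (nat_lit 209) (fin (add (start D61) (orK (nat_lit 192) (fin (add (start D845) (orK (nat_lit 191) (fin (add (start D79) (orK (nat_lit 231) (fin (add (start D48) (orK (nat_lit 169) (fin (add (start D10232) (orK (nat_lit 172) (fin (add (start D3858) (orK (nat_lit 149) (fin (add (start D277) (orK (nat_lit 148) (fin (add (start (win (nat_lit 2) (nat_lit 8) (nat_lit 7) (nat_lit 1))) D5243)))))))))))))))))))))))))))) D426) D428) (orK (nat_lit 188) (fin (add (start D53) (orK (nat_lit 208) (fin (add (add (add (start D310) D335) (orK (nat_lit 231) (fin (add (start D404) D20130)))) (orK (nat_lit 191) (fin (add (start D371) (orK (nat_lit 168) (fin (add (start D373) (orK (nat_lit 169) (fin (add (start D3062) D377))))))))))))))))))) (orK (nat_lit 189) (fin (add (add (add (start (orK (nat_lit 213) (fin (add (start D11553) (orK (nat_lit 150) (fin (add (add (start D3230) (orK (nat_lit 209) (fin (add (start D80) (orK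 (nat_lit 149) (fin (add (start D175) (orK (nat_lit 151) (fin (add (start D22) (orK (nat_lit 169) (fin (add (start D757) D8313))))))))))))) D470))))))) D426) D428) D3254)))))))))) (orK (nat_lit 170) (fin (add (add (add (add (add (start D192) D20103) D19322) D19323) D556) D596)))) D17744) D17396) (orK (nat_lit 170) (fin (add (add (add (add (add (add (add (add (start D2964) D21433) D3093) D3513) D8567) (orK (nat_lit 211) (fin (add (add (add (start D5278) (orK (nat_lit 189) (fin (add (add (start (orK (nat_lit 212) (fin (add (start D57) (orK (nat_lit 169) (fin (add (add (start (orK (nat_lit 149) (fin (add (start D277) D0)))) (orK (nat_lit 230) (fin (add (start D3024) (orK (nat_lit 231) (fin (add (start D157) (orK (nat_lit 192) (fin (add (add (start D21572) (orK (nat_lit 172) (fin (add (start D3858) (orK (nat_lit 171) D12101))))) (orK (nat_lit 191) (fin (add (start D10232) (orK (nat_lit 172) (fin (add (start D3858) D66)))))))))))))))) (orK (nat_lit 192) (fin (add (add (start D21572) (orK (nat_lit 149) (fin (add (start D277) (orK (nat_lit 172) (fin (add (start (orK (nat_lit 171) (fin (add (start D240) D276)))) D5390)))))))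 (orK (nat_lit 191) (fin (add (start D10232) D11609))))))))))))) D426) D5432)))) D2416) D406)))) D644) D556) D8490)))) (orK (nat_lit 150) (fin (add (add (add (add (add (start (orK (nat_lit 170) D21631)) (orK (nat_lit 170) D8593)) (orK (nat_lit 209) (fin (add (add (add (add (start (orK (nat_lit 170) D198)) D20171) (orK (nat_lit 170) D189)) (orK (nat_lit 170) D2850)) (orK (nat_lit 211) (fin (add (add (start D21626) (orK (nat_lit 170) D206)) (orK (nat_lit 170) D14566)))))))) (orK (nat_lit 170) D19976)) (orK (nat_lit 209) (fin (add (add (add (start (orK (nat_lit 170) (fin (add (start D80) D590)))) (orK (nat_lit 170) D21629)) D20171) (orK (nat_lit 191) (fin (add (add (add (start (orK (nat_lit 192) (fin (add (start D678) D21423)))) D2871) (orK (nat_lit 208) (fin (add (start D50) (orK (nat_lit 211) (fin (add (start (orK (nat_lit 231) (fin (add (start D49) (win (nat_lit 6) (nat_lit 10) (nat_lit 7) (nat_lit 1)))))) D17952))))))) D2715))))))) (orK (nat_lit 189) D22417))))) (orK (nat_lit 170) (fin (add (add (add (add (add (add (add (add (start D8594) D8596) D5326) D20233) D8489) D19960) D733) D5458) D3093)))) (orK (nat_lit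 230) (fin (add (add (add (add (add (add (add (add (start (orK (nat_lit 191) (fin (add (add (start (orK (nat_lit 189) (fin (add (start D14319) D14244)))) D10443) D21410)))) (orK (nat_lit 191) (fin (add (add (start D14966) D10443) (orK (nat_lit 171) (fin (add (start (orK (nat_lit 189) (fin (add (add (add (start D14904) D14935) (orK (nat_lit 188) (fin (add (add (start D11517) D22381) D22432)))) D17735)))) D10441))))))) D22446) D15224) D15307) (orK (nat_lit 191) (fin (add (add (add (start D10250) (orK (nat_lit 189) (fin (add (add (start D14319) (orK (nat_lit 250) (fin (add (start D3476) D717)))) D14230)))) D15932) D21410)))) D15541) D15872) D14475)))) (orK (nat_lit 170) (fin (add (add (add (add (add (start D600) D16801) D209) (orK (nat_lit 230) D20304)) D19960) (orK (nat_lit 150) (fin (add (add (add (start D174) (orK (nat_lit 149) (fin (add (start D175) (orK (nat_lit 151) (fin (add (start D22) (orK (nat_lit 211) (fin (add (start D45) D1052)))))))))) D199) D705)))))))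
noncomputable def D22459 : OP := orK (nat_lit 190) D22458
noncomputable def D10292 : OP := orK (nat_lit 169) (fin (add (start D223) (orK (nat_lit 168) (fin (add (start D37) (orK (nat_lit 148) (fin (add (start D770) D10286))))))))
noncomputable def D10281 : OP := orK (nat_lit 229) D9695
noncomputable def D10306 : OP := orK (nat_lit 230) (fin (add (add (add (start (orK (nat_lit 170) (fin (add (add (start D10281) (orK (nat_lit 151) (fin (add (start D23) (orK (nat_lit 150) (fin (add (start D22) D2854))))))) (orK (nat_lit 171) (fin (add (start D14) (orK (nat_lit 229) (fin (add (start D20) D10292)))))))))) (orK (nat_lit 250) (fin (add (add (start D10302) D10258) D9279)))) D10262) D10250))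
noncomputable def D4354 : OP := orK (nat_lit 168) (fin (add (start D1912) D4212))
noncomputable def D13514 : OP := orK (nat_lit 190) (fin (add (add (add (start (orK (nat_lit 229) (fin (add (add (start (orK (nat_lit 249) (fin (add (start D462) (orK (nat_lit 207) (fin (add (add (start D2423) (orK (nat_lit 187) (fin (add (start D666) (orK (nat_lit 188) (fin (add (start D3315) D4354))))))) (orK (nat_lit 206) (fin (add (start D2421) D3925)))))))))) D13508) D10150)))) D682) D684) (orK (nat_lit 191) (fin (add (add (start D680) D10306) D697)))))
noncomputable def D10760 : AP := fin (add (start D946) D668)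
noncomputable def D10769 : OP := orK (nat_lit 227) (fin (add (start D4032) D10767))
noncomputable def D10810 : OP := orK (nat_lit 187) (fin (add (add (start D3346) (orK (nat_lit 168) (fin (add (add (add (start (orK (nat_lit 148) (fin (add (start D5644) (orK (nat_lit 207) (fin (add (start D944) D2831))))))) D10754) (orK (nat_lit 227) (fin (add (add (add (start (orK (nat_lit 247) (fin (add (start D10755) D10756)))) (orK (nat_lit 228) D4295)) (orK (nat_lit 207) D10760)) D9636)))) (orK (nat_lit 167) (fin (add (add (start D10765) (orK (nat_lit 228) (fin (add (start D4027) D10769)))) (orK (nat_lit 127) (fin (add (start (win (nat_lit 6) (nat_lit 7) (nat_lit 6) (nat_lit 1))) (orK (nat_lit 207) (fin (add (start (orK (nat_lit 227) D10760)) (orK (nat_lit 148) (fin (add (start D944) (orK (nat_lit 149) (fin (add (start D931) (orK (nat_lit 166) (fin (add (start D925) (orK (nat_lit 150) (fin (add (start D926) D924))))))))))))))))))))))))) (orK (nat_lit 186) (fin (add (start D3274) (orK (nat_lit 168) (fin (add (add (add (start D10754) (orK (nat_lit 228) (fin (add (start D9521) D4296)))) D10800) (orK (nat_lit 169) (fin (add (start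 (orK (nat_lit 170) D10801)) D7206)))))))))))
noncomputable def D10965 : AP := fin (add (start D22) D44)
noncomputable def D10966 : OP := orK (nat_lit 150) D10965
noncomputable def D10988 : OP := orK (nat_lit 188) (fin (add (add (add (start D3348) (orK (nat_lit 211) (fin (add (add (start D9115) D1919) (orK (nat_lit 191) (fin (add (start D342) (orK (nat_lit 190) (fin (add (start D50) (orK (nat_lit 230) (fin (add (add (start D10612) (orK (nat_lit 250) (fin (add (start D3027) (orK (nat_lit 249) (fin (add (start D8) (orK (nat_lit 170) (fin (add (start D7) (orK (nat_lit 150) (fin (add (start D44) D178))))))))))))) (orK (nat_lit 170) (fin (add (start (orK (nat_lit 229) (fin (add (start D20) (orK (nat_lit 168) (fin (add (start D1912) (orK (nat_lit 169) (fin (add (start D37) D223)))))))))) (orK (nat_lit 151) (fin (add (start D10964) D10966))))))))))))))))))) (orK (nat_lit 211) (fin (add (start D451) D10984)))) D10810))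
noncomputable def D13641 : OP := orK (nat_lit 229) (fin (add (start D2421) (orK (nat_lit 205) (fin (add (start D3362) (orK (nat_lit 185) (fin (add (start D3953) D3952))))))))
noncomputable def D13655 : OP := orK (nat_lit 207) (fin (add (add (add (start D9089) (orK (nat_lit 226) (fin (add (start D661) (orK (nat_lit 206) (fin (add (start D660) D13641))))))) (orK (nat_lit 190) (fin (add (start D414) (orK (nat_lit 206) (fin (add (start D655) D13641))))))) (orK (nat_lit 191) (fin (add (start D8836) (orK (nat_lit 211) D13650))))))
noncomputable def D11069 : OP := orK (nat_lit 170) (fin (add (start D4290) (orK (nat_lit 150) (fin (add (start D11064) D11065)))))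
noncomputable def D11077 : OP := orK (nat_lit 168) (fin (add (start D1912) (orK (nat_lit 187) (fin (add (start (orK (nat_lit 228) (fin (add (start D9521) (orK (nat_lit 169) (fin (add (start D2538) D11069))))))) D3346)))))
noncomputable def D9188 : OP := orK (nat_lit 170) (fin (add (start D460) D2407))
noncomputable def D13232 : OP := orK (nat_lit 190) (fin (add (add (start D9188) D2425) D9198))
noncomputable def D13382 : OP := orK (nat_lit 249) (fin (add (add (start (orK (nat_lit 269) (fin (add (start D13373) D4123)))) D13232) (orK (nat_lit 269) (fin (add (start D4123) (orK (nat_lit 289) (fin (add (start D6893) (win (nat_lit 7) (nat_lit 8) (nat_lit 10) (nat_lit 4))))))))))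
noncomputable def D13472 : OP := orK (nat_lit 229) (fin (add (add (add (start D13382) D9703) D4306) D11077))
noncomputable def D4660 : OP := win (nat_lit 5) (nat_lit 9) (nat_lit 10) (nat_lit 4)
noncomputable def D4662 : OP := orK (nat_lit 229) (fin (add (start D59) D4660))
noncomputable def D13464 : OP := orK (nat_lit 233) (fin (add (start D103) (orK (nat_lit 213) (fin (add (start D102) D4662)))))
noncomputable def D7953 : OP := orK (nat_lit 212) (fin (add (start D450) (orK (nat_lit 233) (fin (add (start D103) (orK (nat_lit 213) (fin (add (start D102) (orK (nat_lit 194) (fin (add (start D813) D4662)))))))))))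
noncomputable def D13474 : OP := orK (nat_lit 188) (fin (add (add (add (start D9049) (orK (nat_lit 211) (fin (add (add (add (start D2515) D7953) (orK (nat_lit 191) (fin (add (start D342) (orK (nat_lit 190) (fin (add (start D50) (orK (nat_lit 171) (fin (add (start D11338) D13454)))))))))) (orK (nat_lit 192) (fin (add (start D846) (orK (nat_lit 212) (fin (add (start D845) D13464)))))))))) D3348) D13472))
noncomputable def D13657 : OP := orK (nat_lit 208) (fin (add (add (add (add (add (add (start D9103) D2562) D13474) D13655) D10988) D2511) D13514))
noncomputable def D9053 : OP := orK (nat_lit 232) (fin (add (start D412) (orK (nat_lit 212) (fin (add (start D411) D450)))))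
noncomputable def D13536 : OP := orK (nat_lit 188) (fin (add (add (add (start D9049) (orK (nat_lit 211) (fin (add (add (start D9053) (orK (nat_lit 191) (fin (add (start D342) (orK (nat_lit 190) (fin (add (start D50) D10408))))))) D2515)))) D3348) (orK (nat_lit 187) (fin (add (add (start D3323) (orK (nat_lit 207) (fin (add (start D9065) (orK (nat_lit 190) (fin (add (start D414) (orK (nat_lit 189) (fin (add (start D413) (orK (nat_lit 167) (fin (add (start D9066) D12033))))))))))))) D3346)))))

end Vale.Agent.Lib.P062.CR
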