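import Vale.Agent.Lib.P062.CR.C0

namespace Vale.Agent.Lib.P062.CR
open Vale.Agent.Lib.P062.Core
set_option maxRecDepth 100000
set_option linter.all false

noncomputable def D13428 : OP := orK (nat_lit 207) (fin (add (start D666) (orK (nat_lit 206) (fin (add (start D655) D3368)))))
noncomputable def D10143 : OP := orK (nat_lit 212) (fin (add (start D450) D59))
noncomputable def D10144 : AP := fin (add (start D451) D10143)
noncomputable def D13452 : OP := orK (nat_lit 190) (fin (add (add (add (start (orK (nat_lit 229) (fin (add (add (start D10229) (orK (nat_lit 211) (fin (add (add (add (start (orK (nat_lit 232) (fin (add (start D412) (orK (nat_lit 212) (fin (add (start D411) D59))))))) (orK (nat_lit 188) D10144)) (orK (nat_lit 187) (fin (add (start D667) (orK (nat_lit 231) (fin (add (start D49) D13428))))))) D3935)))) (orK (nat_lit 249) (fin (add (start D462) D3350))))))) D682) D684) D13450))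
noncomputable def D9545 : OP := orK (nat_lit 228) (fin (add (start D9521) (orK (nat_lit 227) (fin (add (start D4032) (orK (nat_lit 148) (fin (add (start D7377) D9539))))))))
noncomputable def D9549 : OP := orK (nat_lit 187) (fin (add (add (start D3323) (orK (nat_lit 168) (fin (add (add (start (orK (nat_lit 148) (fin (add (start D5644) (orK (nat_lit 128) (fin (add (start D2228) D5643))))))) (orK (nat_lit 228) (fin (add (add (start D9521) (orK (nat_lit 247) (fin (add (start D7183) (orK (nat_lit 248) (fin (add (start D3746) D5046))))))) (orK (nat_lit 167) (fin (add (start D2435) (orK (nat_lit 169) (fin (add (start D2538) (orK (nat_lit 170) (fin (add (start D4290) (orK (nat_lit 190) (fin (add (start D2603) (orK (nat_lit 150) (fin (add (start D80) D882))))))))))))))))))) D9545)))) D3346))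
noncomputable def D9515 : OP := orK (nat_lit 228) (fin (add (add (start D2545) (orK (nat_lit 227) (fin (add (start D2518) (orK (nat_lit 168) (fin (add (start D4032) (orK (nat_lit 148) (fin (add (start D7377) D5644)))))))))) (orK (nat_lit 211) (fin (add (start D104) D9053)))))
noncomputable def D9551 : OP := orK (nat_lit 188) (fin (add (add (add (start D9049) D9515) D3348) D9549))
noncomputable def D3191 : OP := orK (nat_lit 191) (fin (add (start D342) D107))
noncomputable def D10872 : OP := orK (nat_lit 168) (fin (add (add (start D2539) D4296) D10769))
noncomputable def D10949 : OP := orK (nat_lit 188) (fin (add (add (add (start D3348) (orK (nat_lit 228) (fin (add (add (add (start D2524) (orK (nat_lit 229) (fin (add (start D1915) (orK (nat_lit 211) (fin (add (start D1911) (orK (nat_lit 191) (fin (add (start D342) (orK (nat_lit 190) (fin (add (start D50) (orK (nat_lit 231) (fin (add (start D49) (orK (nat_lit 170) (fin (add (start D460) D48))))))))))))))))))) D10872) D3296)))) (orK (nat_lit 211) (fin (add (start D451) (orK (nat_lit 232) (fin (add (start D412) (orK (nat_lit 212) (fin (add (start D411) D3191)))))))))) D10810))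
noncomputable def D10741 : OP := orK (nat_lit 190) D10740
noncomputable def D13615 : OP := orK (nat_lit 206) (fin (add (start D655) D13613))
noncomputable def D8724 : OP := win (nat_lit 4) (nat_lit 6) (nat_lit 9) (nat_lit 5)
noncomputable def D13621 : OP := orK (nat_lit 208) (fin (add (add (add (add (add (add (add (add (start D3327) D2562) (orK (nat_lit 207) (fin (add (add (add (start (orK (nat_lit 227) (fin (add (start D668) (orK (nat_lit 211) (fin (add (start D669) D3354))))))) (orK (nat_lit 226) (fin (add (start D661) (orK (nat_lit 206) (fin (add (start D660) (orK (nat_lit 185) (fin (add (start D3952) (orK (nat_lit 205) (fin (add (start D3953) (orK (nat_lit 189) (fin (add (start D3771) D8724)))))))))))))))) (orK (nat_lit 191) (fin (add (start D8836) (orK (nat_lit 211) (fin (add (start D342) D3939))))))) (orK (nat_lit 190) (fin (add (start D414) D13615))))))) D10741) D10949) D9551) D13452) D13536) D9103))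
noncomputable def D9762 : OP := orK (nat_lit 169) (fin (add (start D9712) D223))
noncomputable def D9766 : OP := orK (nat_lit 171) (fin (add (start D14) (orK (nat_lit 250) (fin (add (start D15) D9762)))))
noncomputable def D9768 : OP := orK (nat_lit 230) (fin (add (start D9760) D9766))
noncomputable def D9770 : OP := orK (nat_lit 229) (fin (add (add (start D2420) D464) D9768))
noncomputable def D9281 : OP := orK (nat_lit 250) (fin (add (add (start D9275) D634) D9279))
noncomputable def D9748 : OP := orK (nat_lit 230) (fin (add (add (start D9281) D3834) (orK (nat_lit 207) (fin (add (start D2449) D659)))))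
noncomputable def D9743 : OP := orK (nat_lit 207) (fin (add (start D414) D9258))
noncomputable def D13518 : OP := orK (nat_lit 190) (fin (add (add (add (start D3385) D9743) D9748) (orK (nat_lit 170) (fin (add (add (add (start D11195) D9770) D2473) D466)))))
noncomputable def D11098 : OP := orK (nat_lit 231) (fin (add (start D49) D9134))
noncomputable def D11101 : AP := fin (add (add (start D3935) (orK (nat_lit 191) (fin (add (start D342) D11098)))) D2517)
noncomputable def D13297 : OP := orK (nat_lit 211) D11101
noncomputable def D9321 : OP := orK (nat_lit 251) (fin (add (start D9319) D149))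
noncomputable def D9313 : AP := fin (add (start D8918) D149)
noncomputable def D9314 : OP := orK (nat_lit 251) D9313
noncomputable def D9312 : OP := orK (nat_lit 269) (fin (add (add (add (start (orK (nat_lit 270) (fin (add (start D614) D9302)))) D9307) (orK (nat_lit 249) D8898)) (orK (nat_lit 190) (fin (add (start D613) D719)))))
noncomputable def D9290 : OP := orK (nat_lit 270) (fin (add (start D4218) (orK (nat_lit 211) (fin (add (start D3104) D9286)))))
noncomputable def D9333 : OP := orK (nat_lit 250) (fin (add (add (add (start D9290) D9293) D9312) (orK (nat_lit 190) (fin (add (add (start D9314) D9318) (orK (nat_lit 189) (fin (add (start D3476) (orK (nat_lit 249) (fin (add (start D8) (orK (nat_lit 248) (fin (add (start D4359) (orK (nat_lit 268) (fin (add (start D8907) D9321)))))))))))))))))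
noncomputable def D9335 : OP := orK (nat_lit 231) (fin (add (add (start D3832) D3768) D9333))
noncomputable def D9283 : OP := orK (nat_lit 207) (fin (add (start D414) D3927))
noncomputable def D9337 : OP := orK (nat_lit 230) (fin (add (add (start (orK (nat_lit 190) (fin (add (add (start D9281) D9283) D684)))) D9335) D3770))
noncomputable def D8712 : OP := win (nat_lit 2) (nat_lit 9) (nat_lit 9) (nat_lit 4)
noncomputable def D8718 : OP := orK (nat_lit 213) (fin (add (start D8712) D445))
noncomputable def D10035 : AP := fin (add (start D439) D8718)
noncomputable def D10036 : OP := orK (nat_lit 189) D10035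
noncomputable def D10040 : OP := orK (nat_lit 232) (fin (add (start D412) (orK (nat_lit 212) (fin (add (start D411) D10036)))))
noncomputable def D11091 : OP := orK (nat_lit 211) (fin (add (add (add (start D10040) (orK (nat_lit 231) (fin (add (start D49) (orK (nat_lit 207) (fin (add (start D2459) D4006))))))) D2509) (orK (nat_lit 187) (fin (add (start D667) (orK (nat_lit 207) (fin (add (start D666) D9260))))))))
noncomputable def D9267 : AP := fin (add (add (start D6739) D3354) D2517)
noncomputable def D9268 : OP := orK (nat_lit 211) D9267
noncomputable def D9575 : OP := orK (nat_lit 187) (fin (add (start D666) (orK (nat_lit 211) (fin (add (start D667) D9055)))))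
noncomputable def D9249 : OP := orK (nat_lit 187) (fin (add (start D667) (orK (nat_lit 207) (fin (add (start D666) D9055)))))
noncomputable def D10822 : OP := orK (nat_lit 231) (fin (add (add (add (start (orK (nat_lit 211) (fin (add (start D49) D9249)))) D10818) D7210) (orK (nat_lit 207) (fin (add (start D2459) D9575)))))
noncomputable def D650 : OP := orK (nat_lit 192) D649
noncomputable def D9846 : OP := orK (nat_lit 211) (fin (add (start D3104) D9844))
noncomputable def D9848 : OP := orK (nat_lit 270) (fin (add (add (start D9837) D9841) D9846))
noncomputable def D13205 : OP := orK (nat_lit 230) (fin (add (add (add (start (orK (nat_lit 190) (fin (add (start D682) D9281)))) (orK (nat_lit 231) (fin (add (add (start D3832) D3768) (orK (nat_lit 250) (fin (add (add (start D9293) D9848) (orK (nat_lit 190) (fin (add (start D9314) (orK (nat_lit 191) (fin (add (start D615) D650))))))))))))) D3834) D3770))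
noncomputable def D13538 : OP := orK (nat_lit 208) (fin (add (add (add (add (add (add (add (add (start D13205) D13514) D10822) D9268) D11091) D9337) D13297) D13518) D13536))
noncomputable def D9578 : AP := fin (add (start D2449) (orK (nat_lit 206) (fin (add (start D2454) D9097))))
noncomputable def D9579 : OP := orK (nat_lit 230) D9578
noncomputable def D9581 : OP := orK (nat_lit 207) (fin (add (add (start D9258) D9575) D9579))
noncomputable def D9686 : OP := orK (nat_lit 251) (fin (add (start D149) D9684))
noncomputable def D6848 : OP := win (nat_lit 4) (nat_lit 7) (nat_lit 11) (nat_lit 3)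
noncomputable def D13162 : OP := orK (nat_lit 247) (fin (add (start D4017) D6848))
noncomputable def D13160 : OP := orK (nat_lit 189) (fin (add (start D4016) (orK (nat_lit 186) (fin (add (start D6869) (orK (nat_lit 191) (fin (add (start D9912) (orK (nat_lit 171) (fin (add (start D3428) D13152)))))))))))
noncomputable def D13138 : OP := win (nat_lit 1) (nat_lit 7) (nat_lit 9) (nat_lit 2)
noncomputable def D13149 : OP := orK (nat_lit 247) (fin (add (add (start (orK (nat_lit 228) D13132)) (orK (nat_lit 230) (fin (add (start D4017) (orK (nat_lit 231) (fin (add (start D3565) D6848))))))) (orK (nat_lit 267) (fin (add (start D13138) (orK (nat_lit 266) (fin (add (start (win (nat_lit 5) (nat_lit 6) (nat_lit 12) (nat_lit 0))) (orK (nat_lit 265) (fin (add (start (win (nat_lit 4) (nat_lit 4) (nat_lit 12) (nat_lit 0))) (win (nat_lit 4) (nat_lit 5) (nat_lit 12) (nat_lit 3)))))))))))))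
noncomputable def D13174 : OP := orK (nat_lit 248) (fin (add (add (add (start D13130) D13149) D13160) (orK (nat_lit 230) (fin (add (add (start (orK (nat_lit 231) (fin (add (start D3565) D13162)))) (orK (nat_lit 250) (fin (add (start (orK (nat_lit 189) (fin (add (start D4119) D4095)))) D9686)))) (orK (nat_lit 247) (fin (add (start D4017) (orK (nat_lit 228) (fin (add (start D3746) D13166)))))))))))
noncomputable def D9651 : OP := orK (nat_lit 207) (fin (add (start D4432) D9579))
noncomputable def D9553 : OP := orK (nat_lit 228) (fin (add (start D2545) D3296))
noncomputable def D10030 : OP := orK (nat_lit 207) (fin (add (add (start D9260) D9089) D9087))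
noncomputable def D9059 : OP := orK (nat_lit 231) (fin (add (start D49) (orK (nat_lit 207) (fin (add (start D2459) D9055)))))
noncomputable def D9250 : AP := fin (add (add (add (start D6739) D9059) D9249) D9142)
noncomputable def D10933 : OP := orK (nat_lit 211) D9250
noncomputable def D13193 : OP := orK (nat_lit 208) (fin (add (add (add (add (add (start D10933) D10030) (orK (nat_lit 188) (fin (add (add (start D9049) D9553) D10810)))) D9651) (orK (nat_lit 188) (fin (add (add (add (start D9049) D2554) (orK (nat_lit 229) (fin (add (add (add (start (orK (nat_lit 249) (fin (add (start D4015) (orK (nat_lit 190) (fin (add (add (start D9188) D13174) D9198))))))) D9703) D4306) (orK (nat_lit 168) (fin (add (start D1912) (orK (nat_lit 228) (fin (add (start D4034) (orK (nat_lit 169) (fin (add (start D2538) (orK (nat_lit 248) (fin (add (start D9613) D5049)))))))))))))))) (orK (nat_lit 211) D9141))))) D9581))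
noncomputable def D13030 : AP := fin (add (start D3215) D25)
noncomputable def D16737 : AP := fin (add (start D3215) D175)
noncomputable def D16922 : OP := orK (nat_lit 170) D16737
noncomputable def D16738 : OP := orK (nat_lit 150) D16737
noncomputable def D13031 : OP := orK (nat_lit 150) D13030
noncomputable def D16841 : OP := orK (nat_lit 250) (fin (add (start D3724) (orK (nat_lit 251) (fin (add (start D149) (orK (nat_lit 231) (fin (add (start D8918) D16835))))))))
noncomputable def D16918 : AP := fin (add (start D3215) D22)
noncomputable def D16875 : OP := win (nat_lit 1) (nat_lit 10) (nat_lit 6) (nat_lit 2)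
noncomputable def D1684 : OP := orK (nat_lit 132) (fin (add (start D1145) D1000))
noncomputable def D11586 : OP := orK (nat_lit 250) (fin (add (start D615) D3724))
noncomputable def D16847 : OP := orK (nat_lit 187) (fin (add (start D1890) D14641))
noncomputable def D13053 : OP := orK (nat_lit 171) (fin (add (start D10441) (orK (nat_lit 188) (fin (add (start D3428) D13049)))))
noncomputable def D17018 : AP := fin (add (add (add (add (add (add (start D16726) (orK (nat_lit 230) (fin (add (add (start D10996) (orK (nat_lit 250) (fin (add (start D3724) (orK (nat_lit 171) (fin (add (start D15) (orK (nat_lit 170) (fin (add (start D14) (orK (nat_lit 150) (fin (add (start D3215) D151))))))))))))) (orK (nat_lit 149) (fin (add (start D3766) (orK (nat_lit 170) (fin (add (start D16738) (orK (nat_lit 171) (fin (add (start D14) D295))))))))))))) (orK (nat_lit 191) (fin (add (start D9914) (orK (nat_lit 230) (fin (add (add (start D11586) D13053) D16841))))))) (orK (nat_lit 191) (fin (add (add (start D9914) (orK (nat_lit 192) (fin (add (start D678) (orK (nat_lit 168) (fin (add (start D11925) (orK (nat_lit 188) (fin (add (start D373) D16847))))))))))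 (orK (nat_lit 208) (fin (add (start D50) (orK (nat_lit 169) (fin (add (start D16639) (orK (nat_lit 188) (fin (add (add (start D13049) D16847) (orK (nat_lit 168) (fin (add (start D373) (orK (nat_lit 171) (fin (add (start D3428) (orK (nat_lit 151) (fin (add (start D118) (orK (nat_lit 170) D16854))))))))))))))))))))))) (orK (nat_lit 208) (fin (add (add (start D416) (orK (nat_lit 230) (fin (add (add (start D10996) (orK (nat_lit 191) (fin (add (start D9912) D11586)))) (orK (nat_lit 149) (fin (add (start D3766) (orK (nat_lit 191) (fin (add (start D9912) (orK (nat_lit 151) (fin (add (add (add (start (orK (nat_lit 171) D10440)) (orK (nat_lit 170) (fin (add (start D23) D16738)))) (orK (nat_lit 150) (fin (add (add (add (add (start (orK (nat_lit 171) (fin (add (start D118) D16886)))) D16902) (orK (nat_lit 171) (fin (add (start D118) (orK (nat_lit 152) (fin (add (add (start (orK (nat_lit 172) (fin (add (start D576) D1684)))) D16896) D16900))))))) (orK (nat_lit 131) (fin (add (start D16875) (orK (nat_lit 132) D1827))))) D16915)))) (orK (nat_lit 150) (fin (add (add (add (start (orK (nat_lit 170) D16918)) (orK (nat_lit 170) (fin (add (start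 D22) D175)))) D16922) D16915)))))))))))))))) (orK (nat_lit 207) (fin (add (start D413) D16706))))))) (orK (nat_lit 191) (fin (add (add (start D9914) (orK (nat_lit 192) D16937)) (orK (nat_lit 230) (fin (add (start D16841) D16722))))))) (orK (nat_lit 230) (fin (add (add (start D10996) (orK (nat_lit 250) (fin (add (start D3724) (orK (nat_lit 251) (fin (add (start D149) (orK (nat_lit 170) (fin (add (start D148) D13031)))))))))) (orK (nat_lit 208) (fin (add (start D14398) (orK (nat_lit 149) (fin (add (start D3766) (orK (nat_lit 188) (fin (add (add (start (orK (nat_lit 187) (fin (add (start D1890) (orK (nat_lit 170) (fin (add (start D11047) D16738))))))) (orK (nat_lit 187) (fin (add (start D1890) (orK (nat_lit 167) (fin (add (start D9066) (orK (nat_lit 147) (fin (add (start D5134) (orK (nat_lit 228) (fin (add (start D16953) D4027))))))))))))) (orK (nat_lit 150) (fin (add (add (add (start D16922) (orK (nat_lit 170) D13030)) (orK (nat_lit 170) (fin (add (start D175) D25)))) (orK (nat_lit 148) (fin (add (add (add (start (orK (nat_lit 168) D10351)) (orK (nat_lit 168) (fin (add (start D931) D16970)))) (orK (nat_lit 128) (fin (add (start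 D16973) D16978)))) D17005)))))))))))))))))))
noncomputable def D17019 : OP := orK (nat_lit 189) D17018
noncomputable def D9021 : AP := fin (add (start D14) D3404)
noncomputable def D9933 : OP := orK (nat_lit 171) D9021
noncomputable def D16815 : OP := orK (nat_lit 170) (fin (add (start D460) (orK (nat_lit 230) (fin (add (start D3569) (orK (nat_lit 169) (fin (add (start D223) (orK (nat_lit 189) (fin (add (start D4009) (orK (nat_lit 228) (fin (add (start D3065) D9933))))))))))))))
noncomputable def D16577 : OP := orK (nat_lit 169) (fin (add (start D7554) D16575))
noncomputable def D16550 : OP := win (nat_lit 0) (nat_lit 7) (nat_lit 11) (nat_lit 3)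
noncomputable def D16559 : AP := fin (add (start D10685) D9682)
noncomputable def D16560 : OP := orK (nat_lit 251) D16559
noncomputable def D16562 : OP := orK (nat_lit 227) (fin (add (start D4139) D16560))
noncomputable def D10711 : OP := orK (nat_lit 189) (fin (add (start D4095) D10709))
noncomputable def D10692 : OP := win (nat_lit 2) (nat_lit 10) (nat_lit 12) (nat_lit 0)
noncomputable def D10578 : OP := win (nat_lit 6) (nat_lit 10) (nat_lit 9) (nat_lit 2)
noncomputable def D10698 : OP := orK (nat_lit 271) (fin (add (start D10578) (orK (nat_lit 272) (fin (add (start D10690) (orK (nat_lit 273) (fin (add (start (win (nat_lit 2) (nat_lit 9) (nat_lit 12) (nat_lit 3))) D10692))))))))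
noncomputable def D19912 : OP := orK (nat_lit 251) (fin (add (add (start (orK (nat_lit 228) (fin (add (start D9682) (orK (nat_lit 227) (fin (add (start D4139) D16550))))))) D10698) D10689))
noncomputable def D10680 : OP := orK (nat_lit 270) (fin (add (start D10674) (orK (nat_lit 290) (fin (add (start (win (nat_lit 7) (nat_lit 9) (nat_lit 10) (nat_lit 3))) D10676)))))
noncomputable def D16805 : OP := orK (nat_lit 170) (fin (add (add (add (start D2473) D16801) (orK (nat_lit 230) (fin (add (add (start (orK (nat_lit 229) (fin (add (start D20) D3569)))) D155) D606)))) D10856))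
noncomputable def D14058 : OP := orK (nat_lit 170) (fin (add (start D460) (orK (nat_lit 230) (fin (add (start D3569) D9766)))))
noncomputable def D10571 : OP := orK (nat_lit 248) (fin (add (start D4590) D4016))
noncomputable def D11689 : AP := fin (add (start D615) D6936)
noncomputable def D12174 : OP := orK (nat_lit 191) (fin (add (start D615) D2715))
noncomputable def D16591 : OP := orK (nat_lit 207) (fin (add (add (start D659) D665) D4432))
noncomputable def D16612 : OP := orK (nat_lit 208) (fin (add (add (add (start D3385) D9743) D16591) (orK (nat_lit 229) (fin (add (add (add (start (orK (nat_lit 249) (fin (add (start D462) (orK (nat_lit 188) (fin (add (add (start D3344) (orK (nat_lit 248) (fin (add (add (add (start D13130) D13149) D13160) (orK (nat_lit 187) (fin (add (start D3323) (orK (nat_lit 228) (fin (add (start D3316) D16592)))))))))) D4354))))))) D10150) D10229) (orK (nat_lit 191) (fin (add (start D697) (orK (nat_lit 170) (fin (add (start D460) (orK (nat_lit 230) (fin (add (start D9760) D2675))))))))))))))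
noncomputable def D11212 : OP := orK (nat_lit 170) (fin (add (add (add (start D11195) D11210) D2473) D466))
noncomputable def D11726 : AP := fin (add (start D3065) D11725)
noncomputable def D16781 : OP := orK (nat_lit 229) (fin (add (add (start D2420) D464) (orK (nat_lit 230) (fin (add (start D3569) (orK (nat_lit 169) (fin (add (start D223) (orK (nat_lit 189) (fin (add (start D4009) (orK (nat_lit 228) D11726))))))))))))
noncomputable def D16783 : OP := orK (nat_lit 170) (fin (add (add (add (start (orK (nat_lit 150) (fin (add (add (start D172) D3099) D188)))) D16781) D2473) D466))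
noncomputable def D13109 : OP := orK (nat_lit 151) (fin (add (start D23) (orK (nat_lit 150) (fin (add (start D22) D178)))))
noncomputable def D16759 : AP := fin (add (start D157) D13109)
noncomputable def D14145 : OP := orK (nat_lit 270) (fin (add (add (add (start D630) D12079) (orK (nat_lit 290) (fin (add (start D7061) (orK (nat_lit 309) (fin (add (start D12406) (orK (nat_lit 310) (fin (add (start D12407) (orK (nat_lit 231) D14127))))))))))) (orK (nat_lit 290) (fin (add (start D7061) (orK (nat_lit 309) (fin (add (start D12406) (orK (nat_lit 310) (fin (add (start D12407) (orK (nat_lit 251) (fin (add (start (win (nat_lit 3) (nat_lit 10) (nat_lit 11) (nat_lit 5))) D149))))))))))))))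
noncomputable def D11643 : OP := orK (nat_lit 192) (fin (add (start D678) (orK (nat_lit 189) (fin (add (start D10234) D11639)))))
noncomputable def D10272 : OP := orK (nat_lit 170) (fin (add (start D157) (orK (nat_lit 171) (fin (add (start D14) (orK (nat_lit 149) (fin (add (start D176) (orK (nat_lit 150) (fin (add (start D175) (orK (nat_lit 130) (fin (add (start D166) D960))))))))))))))
noncomputable def D16770 : OP := orK (nat_lit 191) (fin (add (add (add (start D2715) (orK (nat_lit 208) (fin (add (start D50) (orK (nat_lit 230) (fin (add (add (add (start D10262) D10443) (orK (nat_lit 189) (fin (add (add (start D10996) (orK (nat_lit 250) (fin (add (start D3724) (orK (nat_lit 251) (fin (add (start D149) (orK (nat_lit 170) (fin (add (start D148) D3217)))))))))) (orK (nat_lit 149) (fin (add (start D3766) (orK (nat_lit 170) (fin (add (start (orK (nat_lit 231) (fin (add (start D157) D3832)))) D16738)))))))))) (orK (nat_lit 231) (fin (add (start D3832) D10272)))))))))) D11643) (orK (nat_lit 193) (fin (add (start D3390) (orK (nat_lit 230) (fin (add (add (add (start D10443) (orK (nat_lit 250) (fin (add (start D615) D14145)))) (orK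 (nat_lit 208) (fin (add (start D50) (orK (nat_lit 231) (fin (add (start D3832) D13021))))))) (orK (nat_lit 208) (fin (add (add (start (orK (nat_lit 207) (fin (add (start D2449) D414)))) (orK (nat_lit 231) (fin (add (start D3832) (orK (nat_lit 170) D16759))))) D9283)))))))))))
noncomputable def D19146 : OP := orK (nat_lit 152) (fin (add (start D3875) D19141))
noncomputable def D2983 : OP := orK (nat_lit 171) (fin (add (start D1178) (win (nat_lit 7) (nat_lit 11) (nat_lit 8) (nat_lit 4))))
noncomputable def D19416 : OP := orK (nat_lit 232) (fin (add (start D411) (orK (nat_lit 172) (fin (add (add (start D6042) (orK (nat_lit 252) (fin (add (start D19410) D2983)))) D19146)))))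
noncomputable def D6821 : OP := orK (nat_lit 233) (fin (add (start D103) (orK (nat_lit 213) (fin (add (start D102) D4660)))))
noncomputable def D11187 : OP := orK (nat_lit 168) (fin (add (add (start (orK (nat_lit 167) (fin (add (start D2603) (orK (nat_lit 189) D11174))))) (orK (nat_lit 148) (fin (add (start D10615) D11183)))) D2600))
noncomputable def D9615 : OP := orK (nat_lit 248) (fin (add (start D9613) D3847))
noncomputable def D12053 : OP := orK (nat_lit 171) (fin (add (add (start D222) D250) (orK (nat_lit 230) (fin (add (start D14) (orK (nat_lit 228) (fin (add (start D516) D9615))))))))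
noncomputable def D11787 : OP := orK (nat_lit 229) D2419
noncomputable def D11786 : OP := orK (nat_lit 229) D2408
noncomputable def D11905 : OP := orK (nat_lit 170) (fin (add (add (add (start D556) (orK (nat_lit 249) (fin (add (add (add (start D11786) D11787) (orK (nat_lit 230) (fin (add (add (start D537) D545) (orK (nat_lit 171) (fin (add (start D14) (orK (nat_lit 169) (fin (add (start D223) (orK (nat_lit 231) (fin (add (start D157) (orK (nat_lit 172) (fin (add (start D229) (orK (nat_lit 192) (fin (add (start D240) (orK (nat_lit 152) (fin (add (start D281) (orK (nat_lit 212) (fin (add (start D3871) (orK (nat_lit 233) (fin (add (start D9147) D2016)))))))))))))))))))))))))))) D11842)))) D2473) D466))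
noncomputable def D11881 : OP := orK (nat_lit 230) (fin (add (add (start D606) (orK (nat_lit 229) (fin (add (start D20) D10388)))) D155))
noncomputable def D11883 : OP := orK (nat_lit 170) (fin (add (add (add (start D2473) D215) D11881) D5336))
noncomputable def D11650 : OP := orK (nat_lit 211) D2861
noncomputable def D11631 : OP := orK (nat_lit 192) (fin (add (start D678) (orK (nat_lit 189) (fin (add (start D10234) (orK (nat_lit 212) (fin (add (start D2688) (orK (nat_lit 211) (fin (add (start D98) (orK (nat_lit 232) (fin (add (start D411) (orK (nat_lit 229) (fin (add (start D59) D2860)))))))))))))))))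
noncomputable def D11619 : OP := orK (nat_lit 192) (fin (add (start D678) (orK (nat_lit 189) (fin (add (start D10234) (orK (nat_lit 212) (fin (add (start D2688) (orK (nat_lit 211) (fin (add (start D98) (orK (nat_lit 232) (fin (add (start D411) D11609))))))))))))))
noncomputable def D2698 : OP := win (nat_lit 0) (nat_lit 9) (nat_lit 10) (nat_lit 2)
noncomputable def D11441 : OP := orK (nat_lit 252) (fin (add (start D5989) (orK (nat_lit 251) (fin (add (start D4691) D402)))))
noncomputable def D11444 : OP := orK (nat_lit 250) (fin (add (start D7262) D11442))
noncomputable def D11599 : OP := orK (nat_lit 189) (fin (add (add (add (start D11552) (orK (nat_lit 211) (fin (add (add (start D56) (orK (nat_lit 171) (fin (add (add (start D11338) (orK (nat_lit 213) (fin (add (start D11553) (orK (nat_lit 231) (fin (add (add (start D11444) D11441) (orK (nat_lit 230) (fin (add (start D3783) (orK (nat_lit 232) (fin (add (start D4732) (orK (nat_lit 233) (fin (add (start D7268) D507)))))))))))))))) (orK (nat_lit 151) (fin (add (start D118) D11565))))))) (orK (nat_lit 188) (fin (add (start D53) D11532))))))) (orK (nat_lit 230) (fin (add (start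 (orK (nat_lit 169) (fin (add (start D3722) (orK (nat_lit 168) (fin (add (start D11578) (orK (nat_lit 229) (fin (add (start D3044) D11540)))))))))) D11586)))) (orK (nat_lit 188) (fin (add (start D9203) D11595)))))
noncomputable def D11321 : OP := win (nat_lit 6) (nat_lit 11) (nat_lit 9) (nat_lit 2)
noncomputable def D16482 : OP := orK (nat_lit 272) (fin (add (start D4361) D11321))
noncomputable def D16484 : OP := orK (nat_lit 252) (fin (add (start D9445) D16482))
noncomputable def D16486 : OP := orK (nat_lit 269) (fin (add (start D11227) D16484))
noncomputable def D19704 : OP := win (nat_lit 1) (nat_lit 9) (nat_lit 9) (nat_lit 2)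
noncomputable def D11280 : OP := orK (nat_lit 272) (fin (add (start D10690) (orK (nat_lit 273) (fin (add (start (win (nat_lit 0) (nat_lit 9) (nat_lit 12) (nat_lit 3))) D10692)))))
noncomputable def D16497 : OP := orK (nat_lit 269) (fin (add (start D11227) D16495))
noncomputable def D16501 : OP := orK (nat_lit 249) (fin (add (add (add (start D16486) (orK (nat_lit 271) (fin (add (start D11269) (orK (nat_lit 248) (fin (add (start D4370) D13842))))))) D16497) (orK (nat_lit 271) (fin (add (start D11269) D11280)))))
noncomputable def D10906 : OP := win (nat_lit 4) (nat_lit 9) (nat_lit 11) (nat_lit 5)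
noncomputable def D11294 : OP := orK (nat_lit 229) (fin (add (start D10311) D462))
noncomputable def D16480 : OP := orK (nat_lit 249) D16479
noncomputable def D11220 : OP := orK (nat_lit 230) D3028
noncomputable def D6242 : OP := orK (nat_lit 232) (fin (add (start D411) D2697))
noncomputable def D11335 : AP := fin (add (start D101) D4662)
noncomputable def D16466 : OP := orK (nat_lit 212) (fin (add (add (start D2876) (orK (nat_lit 232) (fin (add (start D411) (orK (nat_lit 229) (fin (add (start D59) (orK (nat_lit 252) (fin (add (start D2966) (orK (nat_lit 251) (fin (add (start D2979) (orK (nat_lit 172) (fin (add (start D2980) (orK (nat_lit 152) (fin (add (start D2726) D3875))))))))))))))))))) (orK (nat_lit 213) D11335)))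
noncomputable def D19878 : AP := fin (add (add (add (add (add (add (add (start (orK (nat_lit 192) (fin (add (start D678) (orK (nat_lit 211) (fin (add (add (add (add (add (start D16466) (orK (nat_lit 171) (fin (add (add (start D11338) (orK (nat_lit 230) (fin (add (start D2673) (orK (nat_lit 212) (fin (add (start D10368) D6242))))))) (orK (nat_lit 151) (fin (add (start D118) (orK (nat_lit 152) (fin (add (start D1795) (orK (nat_lit 212) (fin (add (start D1800) (orK (nat_lit 213) (fin (add (start D101) (orK (nat_lit 233) (fin (add (start D102) (win (nat_lit 6) (nat_lit 12) (nat_lit 7) (nat_lit 1))))))))))))))))))))) (orK (nat_lit 250) (fin (add (add (start D11220) (orK (nat_lit 251) (fin (add (add (add (start D11222) D16480) D16501) (orK (nat_lit 231) (fin (add (start D7263) (orK (nat_lit 252) (fin (add (start D4691) (orK (nat_lit 249) (fin (add (start D11294) (orK (nat_lit 232) (fin (add (start D8919) D10906)))))))))))))))) (orK (nat_lit 251) (fin (add (add (add (start (orK (nat_lit 271) (fin (add (start D10578) D11269)))) D16501) (orK (nat_lit 249) (fin (add (add (start (orK (nat_lit 230) (fin (add (start D8) D149)))) D16497)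 (orK (nat_lit 271) (fin (add (start D10578) D11280))))))) (orK (nat_lit 249) (fin (add (add (add (start (orK (nat_lit 269) (fin (add (start D19704) D11227)))) (orK (nat_lit 269) (fin (add (start D19704) D16484)))) D16486) (orK (nat_lit 248) (fin (add (add (start (orK (nat_lit 252) (fin (add (start D16482) D11260)))) (orK (nat_lit 247) (fin (add (start (orK (nat_lit 231) (fin (add (start D11419) D10324)))) D11250)))) D11252))))))))))))) (orK (nat_lit 171) (fin (add (add (start D11338) (orK (nat_lit 250) (fin (add (start D13150) D19727)))) D19740)))) (orK (nat_lit 231) (fin (add (add (start D8759) (orK (nat_lit 232) (fin (add (start D7270) (orK (nat_lit 171) (fin (add (start D4732) D17506))))))) (orK (nat_lit 251) (fin (add (start D402) (orK (nat_lit 252) (fin (add (start D4691) (orK (nat_lit 232) (fin (add (start D16064) D7270))))))))))))) D19780))))))) D11599) D11607) (orK (nat_lit 192) (fin (add (start D678) (orK (nat_lit 212) (fin (add (add (start D11649) (orK (nat_lit 171) (fin (add (add (start (orK (nat_lit 232) (fin (add (start D2697) (orK (nat_lit 233) (fin (add (start D2698) (orK (nat_lit 230) (fin (add (start D4719)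 D2673)))))))))) (orK (nat_lit 151) (fin (add (start D118) (orK (nat_lit 232) (fin (add (start D11660) D2697))))))) D19243)))) D11674))))))) D11619) D11631) D11643) (orK (nat_lit 192) (fin (add (start D678) (orK (nat_lit 212) (fin (add (add (add (start D11649) D11674) (orK (nat_lit 232) (fin (add (add (add (start D11650) (orK (nat_lit 211) (fin (add (start D411) (orK (nat_lit 252) (fin (add (start D2966) (orK (nat_lit 251) (fin (add (start D2979) (orK (nat_lit 172) (fin (add (start D2980) (orK (nat_lit 152) (fin (add (start D2726) (orK (nat_lit 214) (fin (add (start (win (nat_lit 2) (nat_lit 10) (nat_lit 9) (nat_lit 1))) D3875))))))))))))))))))) D11664) D19826)))) (orK (nat_lit 171) (fin (add (add (start (orK (nat_lit 232) (fin (add (start D2697) (orK (nat_lit 211) (fin (add (start D411) (orK (nat_lit 189) D19834)))))))) (orK (nat_lit 172) (fin (add (add (start D15096) (orK (nat_lit 174) (fin (add (start D19840) D19853)))) (orK (nat_lit 151) (fin (add (start D118) (orK (nat_lit 189) (fin (add (start D2685) (orK (nat_lit 169) (fin (add (start D10232) (orK (nat_lit 149) (fin (add (start D277) (orK (nat_lit 148) (fin (add (start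 (win (nat_lit 0) (nat_lit 8) (nat_lit 7) (nat_lit 2))) D5243))))))))))))))))))) (orK (nat_lit 151) (fin (add (start D118) (orK (nat_lit 232) (fin (add (start (win (nat_lit 6) (nat_lit 11) (nat_lit 7) (nat_lit 3))) D2697))))))))))))))))
noncomputable def D19198 : OP := orK (nat_lit 211) (fin (add (start D17805) D19196))
noncomputable def D15591 : OP := orK (nat_lit 211) (fin (add (start D439) D59))
noncomputable def D15592 : AP := fin (add (start D501) D3677)
noncomputable def D15651 : OP := orK (nat_lit 232) D15592
noncomputable def D19180 : OP := orK (nat_lit 169) (fin (add (start D9207) D11917))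
noncomputable def D11871 : OP := orK (nat_lit 231) (fin (add (add (start D2414) D404) D5307))
noncomputable def D11869 : OP := orK (nat_lit 251) (fin (add (add (add (start D11701) D11702) D11703) (orK (nat_lit 230) (fin (add (add (start (orK (nat_lit 228) (fin (add (start D516) (orK (nat_lit 169) (fin (add (start D223) (orK (nat_lit 189) D11726)))))))) (orK (nat_lit 250) (fin (add (start D149) D11857)))) (orK (nat_lit 228) (fin (add (start D516) (orK (nat_lit 169) (fin (add (start D223) (orK (nat_lit 189) (fin (add (start D3065) D4009))))))))))))))
noncomputable def D11875 : OP := orK (nat_lit 229) (fin (add (add (start D2420) D464) (orK (nat_lit 211) (fin (add (add (add (start D3455) D3461) D11869) D11871)))))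
noncomputable def D11197 : OP := orK (nat_lit 150) (fin (add (add (start D197) D10424) D188))
noncomputable def D11200 : AP := fin (add (start D25) D159)
noncomputable def D11207 : OP := orK (nat_lit 150) (fin (add (add (start (orK (nat_lit 230) D11200)) (orK (nat_lit 130) D11202)) (orK (nat_lit 130) (fin (add (start D170) D186)))))
noncomputable def D11209 : OP := orK (nat_lit 170) (fin (add (add (add (add (add (start D11195) D10185) D11197) D747) D11207) D8490))
noncomputable def D19002 : OP := orK (nat_lit 170) (fin (add (add (start D11881) D10185) D466))
noncomputable def D11136 : OP := win (nat_lit 1) (nat_lit 10) (nat_lit 6) (nat_lit 4)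
noncomputable def D11140 : OP := orK (nat_lit 131) (fin (add (start D11136) (orK (nat_lit 132) (fin (add (start D1566) D8004)))))
noncomputable def D11167 : OP := orK (nat_lit 171) (fin (add (add (add (start (orK (nat_lit 151) (fin (add (add (start D11140) (orK (nat_lit 152) (fin (add (start D1795) (orK (nat_lit 231) (fin (add (start D6601) (orK (nat_lit 150) (fin (add (start D2025) (win (nat_lit 7) (nat_lit 10) (nat_lit 7) (nat_lit 4)))))))))))) (orK (nat_lit 131) (fin (add (start D11136) D6020))))))) (orK (nat_lit 230) (fin (add (add (start D5984) (orK (nat_lit 250) (fin (add (start D8831) D3027)))) (orK (nat_lit 231) (fin (add (start D6225) (orK (nat_lit 172) (fin (add (start D5988) (orK (nat_lit 251) (fin (add (start D4767) (orK (nat_lit 170) (fin (add (start D5152) D5987)))))))))))))))) D5986) (orK (nat_lit 151) (fin (add (start D5556) D11140)))))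
noncomputable def D8686 : OP := win (nat_lit 6) (nat_lit 9) (nat_lit 6) (nat_lit 4)
noncomputable def D8701 : OP := orK (nat_lit 130) (fin (add (start D5750) (orK (nat_lit 129) (fin (add (start D5749) D8686)))))
noncomputable def D8691 : OP := win (nat_lit 3) (nat_lit 9) (nat_lit 7) (nat_lit 4)
noncomputable def D8877 : OP := orK (nat_lit 129) (fin (add (start D8686) D5964))
noncomputable def D11124 : OP := orK (nat_lit 149) (fin (add (add (start D8701) D8877) (orK (nat_lit 150) (fin (add (start D5708) (orK (nat_lit 229) (fin (add (start D8691) D10703))))))))
noncomputable def D3067 : OP := orK (nat_lit 228) (fin (add (start D3065) D516))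
noncomputable def D5746 : AP := fin (add (start D5744) (orK (nat_lit 230) D4010))
noncomputable def D6839 : OP := orK (nat_lit 169) D5746
noncomputable def D9229 : OP := orK (nat_lit 249) (fin (add (add (start D9224) D6843) (orK (nat_lit 170) (fin (add (start (win (nat_lit 3) (nat_lit 9) (nat_lit 8) (nat_lit 4))) D6839)))))
noncomputable def D10031 : AP := fin (add (add (add (start D3354) D3939) D2560) D9140)
noncomputable def D8711 : OP := orK (nat_lit 188) D8710
noncomputable def D9196 : OP := orK (nat_lit 269) (fin (add (add (start D6897) (orK (nat_lit 268) (fin (add (start D1899) (orK (nat_lit 189) (fin (add (start D1898) D4105))))))) D6907))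
noncomputable def D9190 : OP := orK (nat_lit 190) (fin (add (start D462) D9188))
noncomputable def D9243 : OP := orK (nat_lit 229) (fin (add (add (add (start D3461) (orK (nat_lit 249) (fin (add (add (add (start D9190) D9196) D9200) (orK (nat_lit 190) (fin (add (add (start D9188) D9213) D9198))))))) (orK (nat_lit 189) (fin (add (add (start D9229) (orK (nat_lit 212) (fin (add (start D439) D6821)))) D8711)))) (orK (nat_lit 212) (fin (add (start D59) (orK (nat_lit 233) (fin (add (start D103) (orK (nat_lit 213) (fin (add (start D102) (orK (nat_lit 189) (fin (add (start D439) D8712))))))))))))))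
noncomputable def D8738 : OP := orK (nat_lit 250) (fin (add (start D8601) D3724))
noncomputable def D10642 : OP := orK (nat_lit 186) (fin (add (start D653) (orK (nat_lit 206) (fin (add (start D654) D8724)))))
noncomputable def D10673 : OP := orK (nat_lit 228) (fin (add (add (add (start D2524) (orK (nat_lit 189) (fin (add (add (start D10362) (orK (nat_lit 207) (fin (add (add (start D10642) D9258) (orK (nat_lit 231) (fin (add (start D2459) (orK (nat_lit 211) (fin (add (start D49) (orK (nat_lit 212) (fin (add (start D105) D8718))))))))))))) (orK (nat_lit 268) (fin (add (start (win (nat_lit 3) (nat_lit 8) (nat_lit 9) (nat_lit 1))) (orK (nat_lit 169) (fin (add (start D3307) (orK (nat_lit 230) (fin (add (start D8738) D3770))))))))))))) (orK (nat_lit 227) (fin (add (add (start D2522) (orK (nat_lit 207) (fin (add (start D4606) (orK (nat_lit 230) (fin (add (start D2449) (orK (nat_lit 229) (fin (add (start D2448) (orK (nat_lit 250) (fin (add (start D4140) (orK (nat_lit 247) (fin (add (start D4043) D4121)))))))))))))))) D3294)))) D3296))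
noncomputable def D11040 : OP := orK (nat_lit 205) (fin (add (start D3362) D9585))
noncomputable def D11044 : OP := orK (nat_lit 186) (fin (add (start D653) (orK (nat_lit 206) (fin (add (start D654) D11040)))))
noncomputable def D4663 : AP := fin (add (start D443) D4662)
noncomputable def D4666 : OP := orK (nat_lit 193) (fin (add (start D442) (orK (nat_lit 213) D4663)))
noncomputable def D6805 : OP := orK (nat_lit 212) (fin (add (start D450) (orK (nat_lit 193) (fin (add (start D442) (orK (nat_lit 213) (fin (add (start D443) (orK (nat_lit 234) (fin (add (start D806) D4662)))))))))))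
noncomputable def D11022 : OP := orK (nat_lit 169) (fin (add (start D223) (orK (nat_lit 171) (fin (add (start D14) (orK (nat_lit 189) (fin (add (start D2130) D4009))))))))
noncomputable def D11081 : OP := orK (nat_lit 188) (fin (add (add (add (start D9049) (orK (nat_lit 211) (fin (add (add (add (start D9053) (orK (nat_lit 231) (fin (add (start D49) (orK (nat_lit 230) (fin (add (start D3035) (orK (nat_lit 190) (fin (add (add (start D8757) (orK (nat_lit 189) (fin (add (add (start D10996) (orK (nat_lit 250) (fin (add (start D3724) (orK (nat_lit 249) (fin (add (start D8) (orK (nat_lit 248) (fin (add (start D4359) (orK (nat_lit 229) (fin (add (start D4016) D1897))))))))))))) (orK (nat_lit 169) (fin (add (start D3722) (orK (nat_lit 228) (fin (add (start D317) (orK (nat_lit 251) (fin (add (start D402) (orK (nat_lit 229) (fin (add (start D4059) D11006)))))))))))))))) (orK (nat_lit 170) (fin (add (start D400) (orK (nat_lit 229) (fin (add (start D20) D11022)))))))))))))))) D6805) (orK (nat_lit 232) (fin (add (start D412) (orK (nat_lit 212) (fin (add (start D411) D4666)))))))))) D3348) (orK (nat_lit 229) (fin (add (add (add (start (orK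 (nat_lit 269) (fin (add (start D4217) (orK (nat_lit 207) (fin (add (add (start D2451) D11044) (orK (nat_lit 230) (fin (add (start D2449) (orK (nat_lit 187) (fin (add (start D666) (orK (nat_lit 189) (fin (add (start D4011) (orK (nat_lit 167) (fin (add (start D9069) (orK (nat_lit 190) (fin (add (start D9066) (orK (nat_lit 170) (fin (add (start D460) D11047))))))))))))))))))))))))) D9703) D4306) D11077)))))
noncomputable def D11093 : OP := orK (nat_lit 208) (fin (add (add (add (add (add (add (add (start D9109) D3941) D9262) D11081) (orK (nat_lit 211) (fin (add (add (start D6743) D10040) (orK (nat_lit 228) (fin (add (start D104) (orK (nat_lit 212) (fin (add (start D105) D10036)))))))))) D10673) D11091) D2511))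
noncomputable def D10468 : OP := orK (nat_lit 169) (fin (add (start D357) (orK (nat_lit 230) (fin (add (start D2673) D223)))))
noncomputable def D12503 : OP := orK (nat_lit 192) (fin (add (start D678) (orK (nat_lit 169) (fin (add (start D357) D223)))))
noncomputable def D13946 : OP := orK (nat_lit 111) (fin (add (start D5222) (orK (nat_lit 110) (fin (add (start D1750) (orK (nat_lit 191) (fin (add (start D3391) D2852))))))))
noncomputable def D13956 : OP := orK (nat_lit 129) (fin (add (start D184) (orK (nat_lit 130) (fin (add (start D183) D13946)))))
noncomputable def D2684 : OP := orK (nat_lit 230) D2674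
noncomputable def D13940 : OP := orK (nat_lit 191) (fin (add (start D2852) (orK (nat_lit 171) (fin (add (start D960) D2684)))))
noncomputable def D13958 : OP := orK (nat_lit 150) (fin (add (add (add (add (start D560) (orK (nat_lit 151) (fin (add (start D22) (orK (nat_lit 171) (fin (add (start D216) (orK (nat_lit 149) (fin (add (start D175) D1026)))))))))) (orK (nat_lit 130) (fin (add (add (start D170) D13940) D13946)))) (orK (nat_lit 129) (fin (add (start D184) (orK (nat_lit 130) (fin (add (start D183) D13940))))))) D13956))
noncomputable def D18436 : AP := fin (add (start D931) D577)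
noncomputable def D7736 : AP := fin (add (start D5556) D2025)
noncomputable def D18427 : OP := orK (nat_lit 170) D10965
noncomputable def D18407 : AP := fin (add (start D49) (orK (nat_lit 170) D2415))
noncomputable def D18341 : AP := fin (add (start D157) D3910)
noncomputable def D12478 : OP := orK (nat_lit 271) (fin (add (start D627) (orK (nat_lit 270) (fin (add (start D628) D4122)))))
noncomputable def D18563 : AP := fin (add (add (add (add (add (add (add (start D17793) D11883) D16805) D17520) (orK (nat_lit 170) (fin (add (add (add (start D2473) D16801) (orK (nat_lit 191) (fin (add (add (add (start D2871) (orK (nat_lit 171) (fin (add (add (start D10464) (orK (nat_lit 230) (fin (add (start D2673) (orK (nat_lit 229) (fin (add (start D20) (orK (nat_lit 208) (fin (add (start D50) D10292)))))))))) (orK (nat_lit 151) (fin (add (start D118) (orK (nat_lit 208) (fin (add (start D50) (orK (nat_lit 169) (fin (add (add (start D17054) (orK (nat_lit 152) (fin (add (start D3599) (orK (nat_lit 211) (fin (add (start D1795) (orK (nat_lit 228) (fin (add (start D104) (orK (nat_lit 212) (fin (add (start D105) D1800))))))))))))) (orK (nat_lit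 168) (fin (add (start D37) D16218)))))))))))))))) (orK (nat_lit 171) (fin (add (start D10464) (orK (nat_lit 169) (fin (add (add (start D5242) (orK (nat_lit 172) (fin (add (add (start D18305) (orK (nat_lit 192) (fin (add (start D240) D1286)))) D18311)))) (orK (nat_lit 168) (fin (add (start D37) (orK (nat_lit 148) (fin (add (start D770) (orK (nat_lit 172) (fin (add (start D2215) D18311)))))))))))))))) (orK (nat_lit 192) (fin (add (start D678) (orK (nat_lit 208) (fin (add (start D50) (orK (nat_lit 169) (fin (add (add (start D8506) (orK (nat_lit 230) (fin (add (start D223) D2675)))) (orK (nat_lit 149) (fin (add (start D0) (orK (nat_lit 168) (fin (add (start D37) D12889))))))))))))))))))) D5336)))) (orK (nat_lit 170) (fin (add (add (add (start D2473) (orK (nat_lit 231) (fin (add (add (start D610) (orK (nat_lit 230) D18341)) (orK (nat_lit 230) D16759))))) (orK (nat_lit 230) (fin (add (add (start (orK (nat_lit 171) (fin (add (start D14) (orK (nat_lit 149) (fin (add (start D176) (orK (nat_lit 250) (fin (add (add (add (start D18347) D634) (orK (nat_lit 271) (fin (add (start D627) (orK (nat_lit 270) (fin (add (start D628) D9837)))))))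 (orK (nat_lit 229) (fin (add (start D20) D12478))))))))))))) (orK (nat_lit 231) D18341)) (orK (nat_lit 169) (fin (add (start D223) (orK (nat_lit 171) (fin (add (start D14) (orK (nat_lit 231) (fin (add (add (add (start (orK (nat_lit 229) (fin (add (start D20) D10386)))) (orK (nat_lit 208) (fin (add (start D3035) (orK (nat_lit 229) (fin (add (start D20) D3565))))))) D3910) (orK (nat_lit 208) (fin (add (start D3035) (orK (nat_lit 188) (fin (add (add (add (start (orK (nat_lit 187) (fin (add (start D3315) D1923)))) (orK (nat_lit 229) (fin (add (start D20) (orK (nat_lit 211) (fin (add (start D451) D5183))))))) (orK (nat_lit 249) (fin (add (start D7) (orK (nat_lit 269) (fin (add (start D14678) (orK (nat_lit 228) (fin (add (start D5110) (orK (nat_lit 227) (fin (add (start D2518) (orK (nat_lit 168) (fin (add (start D4032) (orK (nat_lit 147) (fin (add (start D2105) D4622))))))))))))))))))) (orK (nat_lit 229) (fin (add (start D20) (orK (nat_lit 168) (fin (add (start D117) D1912))))))))))))))))))))))))) D10856)))) (orK (nat_lit 208) (fin (add (add (add (start D682) (orK (nat_lit 231) (fin (add (add (start (orK (nat_lit 230) (fin (add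 (start D3035) D13021)))) (orK (nat_lit 211) D18407)) (orK (nat_lit 211) (fin (add (start D49) D1068))))))) (orK (nat_lit 211) (fin (add (add (start D3354) (orK (nat_lit 231) D18407)) (orK (nat_lit 228) (fin (add (start D104) (orK (nat_lit 188) (fin (add (start D451) (orK (nat_lit 191) (fin (add (start D342) (orK (nat_lit 151) (fin (add (add (start (orK (nat_lit 171) D11337)) (orK (nat_lit 168) (fin (add (add (add (add (add (start D18418) (orK (nat_lit 169) (fin (add (start D2538) (orK (nat_lit 170) (fin (add (start D37) D10966))))))) (orK (nat_lit 167) (fin (add (start D2435) (orK (nat_lit 170) (fin (add (start D17870) D10966))))))) (orK (nat_lit 149) (fin (add (start D4620) (orK (nat_lit 148) (fin (add (start D931) (orK (nat_lit 127) (fin (add (start D16335) (orK (nat_lit 150) (fin (add (start D565) D18427))))))))))))) (orK (nat_lit 148) (fin (add (add (start (orK (nat_lit 150) (fin (add (start (orK (nat_lit 149) D18436)) D18427)))) D18448) D4624)))) (orK (nat_lit 149) (fin (add (start D4620) (orK (nat_lit 148) (fin (add (start D931) (orK (nat_lit 167) (fin (add (start (win (nat_lit 5) (nat_lit 7) (nat_lit 7) (nat_lit 1)))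 D2435))))))))))))) (orK (nat_lit 150) (fin (add (add (add (start (orK (nat_lit 171) D7736)) (orK (nat_lit 149) (fin (add (add (start (orK (nat_lit 152) (fin (add (start (orK (nat_lit 171) D5557)) (orK (nat_lit 129) (fin (add (start D1247) (win (nat_lit 7) (nat_lit 9) (nat_lit 6) (nat_lit 2))))))))) (orK (nat_lit 168) (fin (add (start D4620) (orK (nat_lit 148) D18436))))) (orK (nat_lit 230) (fin (add (start D10964) (orK (nat_lit 169) (fin (add (start D319) D10543)))))))))) (orK (nat_lit 170) (fin (add (start D44) (orK (nat_lit 149) (fin (add (start D175) (orK (nat_lit 169) (fin (add (start D319) D0)))))))))) (orK (nat_lit 130) (fin (add (start (win (nat_lit 6) (nat_lit 10) (nat_lit 6) (nat_lit 2))) (win (nat_lit 7) (nat_lit 10) (nat_lit 6) (nat_lit 2)))))))))))))))))))))))) D17791)))) (orK (nat_lit 170) (fin (add (add (add (start D2473) D13958) (orK (nat_lit 229) (fin (add (add (start D2420) (orK (nat_lit 228) (fin (add (add (start (orK (nat_lit 227) (fin (add (start D3456) (orK (nat_lit 230) (fin (add (add (start (orK (nat_lit 251) (fin (add (start D4060) D148)))) (orK (nat_lit 171) (fin (add (start D14) (orK (nat_lit 191)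 (fin (add (start D2673) (orK (nat_lit 247) (fin (add (start D4043) D12503)))))))))) (orK (nat_lit 247) (fin (add (start D4043) (orK (nat_lit 231) (fin (add (start D4065) D157))))))))))))) (orK (nat_lit 211) (fin (add (start D1911) (orK (nat_lit 191) (fin (add (add (start D14817) (orK (nat_lit 192) (fin (add (start D678) (orK (nat_lit 171) (fin (add (start D10468) (orK (nat_lit 151) (fin (add (start D118) (orK (nat_lit 152) (fin (add (start D1795) (orK (nat_lit 231) (fin (add (start D6601) D48)))))))))))))))) (orK (nat_lit 208) (fin (add (start D50) (orK (nat_lit 188) (fin (add (start D451) (orK (nat_lit 168) (fin (add (start D1912) (orK (nat_lit 167) (fin (add (start D17870) D2435))))))))))))))))))) D7550)))) (orK (nat_lit 249) (fin (add (start D462) (orK (nat_lit 208) (fin (add (add (start D682) (orK (nat_lit 188) (fin (add (add (start D3344) (orK (nat_lit 211) (fin (add (start D451) D2427)))) (orK (nat_lit 187) (fin (add (start D3315) (orK (nat_lit 168) (fin (add (start D1912) D18548)))))))))) D3374)))))))))) D5336))))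
noncomputable def D18564 : OP := orK (nat_lit 190) D18563
noncomputable def D9647 : OP := orK (nat_lit 207) (fin (add (start D668) D9258))
noncomputable def D8819 : AP := fin (add (start (win (nat_lit 5) (nat_lit 9) (nat_lit 9) (nat_lit 3))) D3173)
noncomputable def D8820 : OP := orK (nat_lit 193) D8819
noncomputable def D2856 : AP := fin (add (start D2855) D101)
noncomputable def D19536 : OP := orK (nat_lit 249) (fin (add (start D4095) D9224))
noncomputable def D19532 : OP := orK (nat_lit 270) (fin (add (start (win (nat_lit 3) (nat_lit 10) (nat_lit 9) (nat_lit 2))) (win (nat_lit 6) (nat_lit 9) (nat_lit 9) (nat_lit 3))))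
noncomputable def D8127 : OP := orK (nat_lit 149) (fin (add (start D5955) D5473))
noncomputable def D18099 : OP := orK (nat_lit 169) (fin (add (start D3065) D8127))
noncomputable def D19490 : OP := orK (nat_lit 190) D10409
noncomputable def D10621 : OP := orK (nat_lit 169) (fin (add (start D223) (orK (nat_lit 168) (fin (add (start D37) (orK (nat_lit 148) (fin (add (start D770) D10615))))))))
noncomputable def D12576 : OP := win (nat_lit 0) (nat_lit 8) (nat_lit 12) (nat_lit 3)
noncomputable def D8821 : AP := fin (add (start D79) D8820)
noncomputable def D14371 : OP := win (nat_lit 1) (nat_lit 10) (nat_lit 9) (nat_lit 0)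
noncomputable def D19426 : OP := orK (nat_lit 191) (fin (add (start D4691) D18956))
noncomputable def D10194 : OP := win (nat_lit 0) (nat_lit 8) (nat_lit 11) (nat_lit 2)
noncomputable def D10195 : OP := win (nat_lit 2) (nat_lit 8) (nat_lit 11) (nat_lit 2)
noncomputable def D6921 : OP := orK (nat_lit 232) (fin (add (start D501) D3659))
noncomputable def D6833 : OP := orK (nat_lit 193) (fin (add (start D442) (orK (nat_lit 213) (fin (add (start D443) D4660)))))
noncomputable def D18139 : OP := orK (nat_lit 191) (fin (add (add (start D11167) D4746) (orK (nat_lit 231) (fin (add (add (start D9134) D5287) (orK (nat_lit 208) (fin (add (start D49) (orK (nat_lit 190) (fin (add (start D50) D10406)))))))))))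
noncomputable def D4668 : OP := orK (nat_lit 212) (fin (add (add (start D4659) D449) D4666))
noncomputable def D10226 : OP := orK (nat_lit 208) (fin (add (add (add (start D9059) D6743) D9115) D9140))
noncomputable def D19589 : AP := fin (add (add (add (add (add (add (add (start D10226) D4668) D18139) (orK (nat_lit 208) (fin (add (add (start D3939) (orK (nat_lit 231) (fin (add (start D49) (orK (nat_lit 207) (fin (add (start D2459) D9101))))))) (orK (nat_lit 227) (fin (add (start D669) (orK (nat_lit 207) (fin (add (start D668) D9101)))))))))) (orK (nat_lit 229) (fin (add (add (add (start D3461) (orK (nat_lit 212) (fin (add (add (start D6821) (orK (nat_lit 192) (fin (add (start D845) D19416)))) D6833)))) (orK (nat_lit 249) (fin (add (add (add (start D9190) D9196) D9200) (orK (nat_lit 190) (fin (add (add (start D9188) (orK (nat_lit 228) (fin (add (add (start D3459) (orK (nat_lit 251) (fin (add (add (add (add (start (orK (nat_lit 231) (fin (add (start D402) (orK (nat_lit 252) (fin (add (start D10195) D19426))))))) (orK (nat_lit 250) (fin (add (start D9682) (orK (nat_lit 230) D3030))))) (orK (nat_lit 231) (fin (add (start D402)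 (orK (nat_lit 230) (fin (add (start D4059) D6921))))))) (orK (nat_lit 271) (fin (add (start D11269) (orK (nat_lit 250) (fin (add (start D10578) (orK (nat_lit 248) (fin (add (start D4370) (orK (nat_lit 247) (fin (add (start D11234) D14112))))))))))))) (orK (nat_lit 252) (fin (add (start D10195) (orK (nat_lit 231) (fin (add (start D10194) D19426)))))))))) (orK (nat_lit 227) (fin (add (start D3456) (orK (nat_lit 250) (fin (add (add (start D16560) (orK (nat_lit 189) (fin (add (start D4095) D10571)))) (orK (nat_lit 251) (fin (add (start D9682) (orK (nat_lit 270) (fin (add (start D10674) (orK (nat_lit 231) (fin (add (start D14371) D402))))))))))))))))))) D9198))))))) (orK (nat_lit 212) (fin (add (start D59) (orK (nat_lit 233) (fin (add (start D103) (orK (nat_lit 213) (fin (add (start D102) (orK (nat_lit 190) D10728)))))))))))))) (orK (nat_lit 192) (fin (add (add (add (start (orK (nat_lit 212) (fin (add (start D845) D4659)))) (orK (nat_lit 208) (fin (add (start D846) D3939)))) (orK (nat_lit 193) (fin (add (start D1884) (orK (nat_lit 191) D8819))))) (orK (nat_lit 191) D8821))))) (orK (nat_lit 191) (fin (add (add (add (start (orK (nat_lit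 229) (fin (add (add (start (orK (nat_lit 212) (fin (add (add (add (start D6821) (orK (nat_lit 213) (fin (add (start D4660) D19490)))) (orK (nat_lit 232) (fin (add (start D411) (orK (nat_lit 171) (fin (add (start D2858) (orK (nat_lit 190) (fin (add (add (add (start (orK (nat_lit 170) (fin (add (start D460) (orK (nat_lit 230) (fin (add (start D20) D2673))))))) (orK (nat_lit 250) (fin (add (start D13150) (orK (nat_lit 249) (fin (add (start D462) (orK (nat_lit 270) (fin (add (start D10674) (orK (nat_lit 272) (fin (add (start (win (nat_lit 7) (nat_lit 11) (nat_lit 9) (nat_lit 1))) (orK (nat_lit 271) (fin (add (start D12428) (orK (nat_lit 248) (fin (add (start D4337) D12576))))))))))))))))))) D10229) (orK (nat_lit 170) (fin (add (start D460) (orK (nat_lit 230) (fin (add (start D2673) D10621)))))))))))))))) (orK (nat_lit 233) (fin (add (start D103) (orK (nat_lit 213) (fin (add (start D102) D19490)))))))))) (orK (nat_lit 228) (fin (add (add (start D3459) (orK (nat_lit 189) (fin (add (add (add (start D18099) (orK (nat_lit 250) (fin (add (add (start D19532) (orK (nat_lit 230) (fin (add (start D4119) D15391)))) D19536)))) (orK (nat_lit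 250) (fin (add (add (add (start D19532) D19536) (orK (nat_lit 230) D19539)) (orK (nat_lit 268) (fin (add (start (orK (nat_lit 190) (fin (add (add (start D11907) (orK (nat_lit 249) (fin (add (start D462) (orK (nat_lit 251) (fin (add (start D9682) (orK (nat_lit 230) (fin (add (start D615) D149)))))))))) (orK (nat_lit 150) (fin (add (start D10151) (orK (nat_lit 171) (fin (add (start D13150) D11960)))))))))) (orK (nat_lit 248) D13789)))))))) (orK (nat_lit 248) (fin (add (start D4590) (orK (nat_lit 268) (fin (add (start D4180) D13788)))))))))) D8133)))) D8137)))) D4746) (orK (nat_lit 208) D9114)) (orK (nat_lit 192) (fin (add (add (start D4744) (orK (nat_lit 212) (fin (add (start D2862) (orK (nat_lit 229) (fin (add (start D59) (orK (nat_lit 213) (fin (add (start D4660) (orK (nat_lit 190) D2856))))))))))) D8820))))))) (orK (nat_lit 208) (fin (add (add (add (start D9115) (orK (nat_lit 227) (fin (add (start D669) D9647)))) (orK (nat_lit 191) (fin (add (start D342) (orK (nat_lit 207) (fin (add (start D8836) D9258))))))) D2560))))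
noncomputable def D10434 : OP := orK (nat_lit 229) (fin (add (add (start D2420) D464) (orK (nat_lit 230) (fin (add (start D3569) (orK (nat_lit 169) (fin (add (start D223) (orK (nat_lit 189) (fin (add (start D4009) D4475)))))))))))
noncomputable def D13973 : OP := orK (nat_lit 171) (fin (add (add (start D10464) (orK (nat_lit 230) (fin (add (start D2673) (orK (nat_lit 229) (fin (add (start D20) D10621))))))) (orK (nat_lit 151) (fin (add (start D118) (orK (nat_lit 172) (fin (add (start (orK (nat_lit 173) (fin (add (start D2370) D10469)))) (orK (nat_lit 152) (fin (add (start (orK (nat_lit 132) (fin (add (start D1145) (win (nat_lit 3) (nat_lit 11) (nat_lit 6) (nat_lit 0)))))) (orK (nat_lit 169) D1034))))))))))))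
noncomputable def D13981 : OP := orK (nat_lit 170) (fin (add (add (start D13958) (orK (nat_lit 191) (fin (add (add (add (start (orK (nat_lit 193) (fin (add (start D3390) D13973)))) D2871) (orK (nat_lit 207) (fin (add (start D2872) D13973)))) D2715)))) D466))
noncomputable def D10278 : OP := orK (nat_lit 230) (fin (add (add (add (start D10250) D10260) D10262) (orK (nat_lit 208) (fin (add (start D50) (orK (nat_lit 231) (fin (add (start D3768) D10272))))))))
noncomputable def D10280 : OP := orK (nat_lit 191) (fin (add (add (add (start D10242) D2871) D10278) D2715))
noncomputable def D3741 : OP := orK (nat_lit 232) (fin (add (start D411) (orK (nat_lit 208) (fin (add (start D412) D2513)))))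
noncomputable def D10199 : OP := orK (nat_lit 251) (fin (add (start D402) (orK (nat_lit 252) (fin (add (start D10194) D10195)))))
noncomputable def D10231 : OP := orK (nat_lit 229) (fin (add (add (start (orK (nat_lit 208) (fin (add (add (start (orK (nat_lit 228) (fin (add (add (start D10193) (orK (nat_lit 249) (fin (add (start D462) (orK (nat_lit 211) (fin (add (start D1911) (orK (nat_lit 231) (fin (add (start D49) D10199)))))))))) (orK (nat_lit 226) (fin (add (start D10206) (orK (nat_lit 248) (fin (add (start D5030) (orK (nat_lit 249) (fin (add (start D462) (orK (nat_lit 188) (fin (add (start D3355) (orK (nat_lit 247) (fin (add (start D3746) D10208))))))))))))))))))) D2453) (orK (nat_lit 191) (fin (add (start D50) D650))))))) (orK (nat_lit 211) (fin (add (add (add (start D3461) (orK (nat_lit 212) (fin (add (add (start D6821) D3741) D6833)))) D10226) D8137)))) D10229))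
noncomputable def D18221 : OP := orK (nat_lit 207) (fin (add (add (start D9260) D9089) (orK (nat_lit 190) (fin (add (start D414) (orK (nat_lit 170) (fin (add (add (start (orK (nat_lit 230) (fin (add (start D18032) D13109)))) (orK (nat_lit 249) (fin (add (add (add (start D11786) D11787) (orK (nat_lit 230) (fin (add (start D18032) D545)))) D11842)))) D466))))))))
noncomputable def D10032 : OP := orK (nat_lit 211) D10031
noncomputable def D18223 : OP := orK (nat_lit 208) (fin (add (add (add (start D3327) D10032) D18221) D9581))
noncomputable def D9774 : OP := orK (nat_lit 190) (fin (add (add (add (start D3385) D9743) D9748) (orK (nat_lit 170) (fin (add (add (add (start (orK (nat_lit 169) (fin (add (add (add (start D6) D3087) D36) (orK (nat_lit 149) (fin (add (add (start D4) (orK (nat_lit 168) (fin (add (start D2817) (orK (nat_lit 188) (fin (add (start D375) D9750))))))) D34))))))) D9770) D2473) D466)))))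
noncomputable def D9244 : AP := fin (add (add (start D2517) D9115) D2501)
noncomputable def D9571 : OP := orK (nat_lit 211) D9244
noncomputable def D7992 : AP := fin (add (add (start D6739) D2501) D6743)
noncomputable def D9271 : OP := orK (nat_lit 211) D7992
noncomputable def D9776 : OP := orK (nat_lit 208) (fin (add (add (add (add (add (start D9117) D9581) D9271) D9571) D9144) D9774))
noncomputable def D9385 : OP := orK (nat_lit 189) (fin (add (start D311) (orK (nat_lit 187) (fin (add (start D3316) (orK (nat_lit 186) (fin (add (start D9369) (orK (nat_lit 165) (fin (add (start D9370) (orK (nat_lit 185) (fin (add (start D9371) D9375))))))))))))))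
noncomputable def D9483 : OP := orK (nat_lit 248) (fin (add (add (add (start D9394) (orK (nat_lit 249) (fin (add (add (add (start (orK (nat_lit 247) (fin (add (start D9411) (orK (nat_lit 246) (fin (add (add (start D9415) (orK (nat_lit 225) (fin (add (start (win (nat_lit 2) (nat_lit 5) (nat_lit 11) (nat_lit 4))) (orK (nat_lit 245) (fin (add (start (win (nat_lit 2) (nat_lit 4) (nat_lit 11) (nat_lit 5))) D9421))))))) (orK (nat_lit 226) (fin (add (start D9426) (orK (nat_lit 250) (fin (add (start D9427) (orK (nat_lit 230) (fin (add (start D9428) D4094)))))))))))))))) (orK (nat_lit 269) (fin (add (add (start D9440) D9442) (orK (nat_lit 250) (fin (add (start (orK (nat_lit 230) (fin (add (start D8893) (orK (nat_lit 247) (fin (add (start D4094) (orK (nat_lit 246) (fin (add (start D9450) D9428)))))))))) (orK (nat_lit 251) (fin (add (start D9443) D9459)))))))))) D9467) (orK (nat_lit 269) D9468))))) D3312) (orK (nat_lit 188) (fin (add (start D9385) (orK (nat_lit 247) (fin (add (start D3746) (orK (nat_lit 168) (fin (add (start D7183) D7404)))))))))))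
noncomputable def D9649 : OP := orK (nat_lit 227) (fin (add (add (start (orK (nat_lit 211) (fin (add (start D669) (orK (nat_lit 187) (fin (add (start D667) (orK (nat_lit 207) (fin (add (start D666) (orK (nat_lit 230) (fin (add (start D2449) D9055))))))))))))) D9645) D9647))
noncomputable def D9610 : OP := orK (nat_lit 192) (fin (add (start D846) (orK (nat_lit 212) (fin (add (start D845) (orK (nat_lit 213) (fin (add (start D9604) D4660))))))))
noncomputable def D9601 : OP := orK (nat_lit 230) (fin (add (start D2449) D9281))
noncomputable def D9678 : OP := orK (nat_lit 208) (fin (add (add (add (add (add (add (add (start D9571) D9581) (orK (nat_lit 228) (fin (add (add (add (start D2524) (orK (nat_lit 188) (fin (add (start D2545) D3348)))) (orK (nat_lit 227) (fin (add (add (start D2522) (orK (nat_lit 207) (fin (add (start D4606) (orK (nat_lit 230) (fin (add (start D2449) (orK (nat_lit 206) (fin (add (start D2454) (orK (nat_lit 205) (fin (add (start D9584) (orK (nat_lit 188) (fin (add (start D9585) (orK (nat_lit 168) (fin (add (start D8996) D4032))))))))))))))))))) D3294)))) D3296)))) (orK (nat_lit 190) (fin (add (add (start (orK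 (nat_lit 207) (fin (add (add (start D665) D9260) D9601)))) D682) (orK (nat_lit 170) (fin (add (add (start D215) (orK (nat_lit 229) (fin (add (add (start D2420) D464) (orK (nat_lit 211) (fin (add (add (start D2427) D9610) (orK (nat_lit 191) (fin (add (start D342) (orK (nat_lit 228) (fin (add (start D104) (orK (nat_lit 231) (fin (add (start D48) (orK (nat_lit 230) (fin (add (start (orK (nat_lit 250) (fin (add (start D4671) D3027)))) (orK (nat_lit 169) (fin (add (start D223) D9615)))))))))))))))))))))) D466))))))) D9649) D9651) (orK (nat_lit 228) (fin (add (add (add (start D2524) (orK (nat_lit 211) (fin (add (add (start D9656) (orK (nat_lit 188) (fin (add (start D451) D2545)))) D2517)))) D9483) D9662)))) (orK (nat_lit 187) (fin (add (add (start (orK (nat_lit 211) (fin (add (start D667) (orK (nat_lit 191) (fin (add (start D342) (orK (nat_lit 207) (fin (add (start D8836) (orK (nat_lit 230) D9665))))))))))) (orK (nat_lit 207) (fin (add (start D666) D9089)))) D3325)))))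
noncomputable def D8822 : OP := orK (nat_lit 192) D8821
noncomputable def D8747 : AP := fin (add (start D3722) D8738)
noncomputable def D8748 : OP := orK (nat_lit 230) D8747
noncomputable def D8782 : OP := win (nat_lit 3) (nat_lit 10) (nat_lit 7) (nat_lit 2)
noncomputable def D9022 : OP := orK (nat_lit 190) D9021
noncomputable def D9026 : OP := orK (nat_lit 171) (fin (add (add (start D9022) (orK (nat_lit 151) (fin (add (start D8782) D6627)))) D4805))
noncomputable def D8980 : OP := orK (nat_lit 130) (fin (add (start D875) (win (nat_lit 1) (nat_lit 9) (nat_lit 6) (nat_lit 3))))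
noncomputable def D8982 : OP := orK (nat_lit 150) (fin (add (start D1922) D8980))
noncomputable def D18121 : OP := orK (nat_lit 169) (fin (add (add (add (start D11124) (orK (nat_lit 230) (fin (add (add (start D3726) D8738) (orK (nat_lit 170) (fin (add (add (add (start D8982) (orK (nat_lit 171) (fin (add (add (start D9022) (orK (nat_lit 151) (fin (add (start D8782) (orK (nat_lit 168) (fin (add (start D119) (orK (nat_lit 148) (fin (add (start D770) D7129)))))))))) D4805)))) (orK (nat_lit 229) (fin (add (start D5744) (orK (nat_lit 228) (fin (add (start D3065) D4879))))))) D9026))))))) D5767) D8748))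
noncomputable def D18177 : OP := orK (nat_lit 211) (fin (add (add (add (add (add (start (orK (nat_lit 189) (fin (add (add (start (orK (nat_lit 229) (fin (add (add (start D9229) (orK (nat_lit 228) (fin (add (start D1911) D18099)))) (orK (nat_lit 212) (fin (add (start D59) (orK (nat_lit 190) (fin (add (start D57) D11907)))))))))) D3737) D18121)))) D18139) (orK (nat_lit 208) D9267)) (orK (nat_lit 189) (fin (add (add (add (start D8711) (orK (nat_lit 212) (fin (add (add (start D8718) (orK (nat_lit 229) (fin (add (start D59) D9229)))) D4666)))) (orK (nat_lit 212) (fin (add (start D439) (orK (nat_lit 193) (fin (add (start D442) (orK (nat_lit 213) (fin (add (start D443) (orK (nat_lit 232) (fin (add (start D411) D4662))))))))))))) D18121)))) (orK (nat_lit 191) (fin (add (add (add (start D8822) (orK (nat_lit 208) (fin (add (start D342) D6739)))) (orK (nat_lit 208) (fin (add (add (start (orK (nat_lit 187) (fin (add (start D667) (orK (nat_lit 207) (fin (add (start D666) D8836))))))) D6739) D11098)))) D11167)))) (orK (nat_lit 188) (fin (add (add (add (start D18168) (orK (nat_lit 212) (fin (add (start D450) D3741)))) (orK (nat_lit 208)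 (fin (add (start D451) D3354)))) D18173)))))
noncomputable def D9489 : OP := orK (nat_lit 190) (fin (add (start D414) D671))
noncomputable def D3658 : OP := win (nat_lit 1) (nat_lit 9) (nat_lit 8) (nat_lit 1)
noncomputable def D8742 : OP := orK (nat_lit 170) (fin (add (start D5744) (orK (nat_lit 249) (fin (add (start D3658) D4160)))))
noncomputable def D8780 : OP := orK (nat_lit 169) D8747
noncomputable def D9339 : OP := orK (nat_lit 206) (fin (add (start D2454) D8724))
noncomputable def D9570 : OP := orK (nat_lit 208) (fin (add (add (add (add (add (add (start D9337) D9262) (orK (nat_lit 230) (fin (add (add (add (start (orK (nat_lit 189) (fin (add (add (add (start (orK (nat_lit 270) (fin (add (start D3744) (orK (nat_lit 207) (fin (add (add (start D9339) (orK (nat_lit 190) (fin (add (start D414) (orK (nat_lit 227) (fin (add (start D668) (orK (nat_lit 211) (fin (add (start D669) D9340)))))))))) D3929))))))) D3728) D8780) (orK (nat_lit 169) (fin (add (start D3722) (orK (nat_lit 229) (fin (add (start D4475) D8742)))))))))) D9335) D3834) D3770)))) (orK (nat_lit 228) (fin (add (add (add (start D2524) (orK (nat_lit 188) (fin (add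 (add (start D2545) (orK (nat_lit 211) (fin (add (start D451) (orK (nat_lit 232) (fin (add (start D412) (orK (nat_lit 212) (fin (add (start D411) D105)))))))))) (orK (nat_lit 248) (fin (add (start D9385) D2536))))))) D9483) (orK (nat_lit 211) (fin (add (start D104) D3935))))))) (orK (nat_lit 187) (fin (add (add (add (start D3279) (orK (nat_lit 211) (fin (add (start D667) (orK (nat_lit 231) (fin (add (start D49) (orK (nat_lit 207) (fin (add (start D2459) D9489)))))))))) (orK (nat_lit 207) (fin (add (start D666) (orK (nat_lit 231) (fin (add (start D2459) (orK (nat_lit 211) (fin (add (start D49) D9489)))))))))) D3325)))) D9551) (orK (nat_lit 188) (fin (add (add (add (start D9049) D9553) D3348) (orK (nat_lit 187) (fin (add (add (start D3323) (orK (nat_lit 207) (fin (add (start D9065) (orK (nat_lit 190) (fin (add (start D414) (orK (nat_lit 206) (fin (add (start D655) (orK (nat_lit 229) (fin (add (start D2421) (orK (nat_lit 205) (fin (add (start D3362) D9554)))))))))))))))) D3346))))))))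
noncomputable def D9266 : OP := orK (nat_lit 211) (fin (add (add (start D6743) D3354) D2560))
noncomputable def D9270 : OP := orK (nat_lit 208) (fin (add (add (add (start D2562) D9266) D9268) D9262))
noncomputable def D19957 : AP := fin (add (add (add (add (add (add (add (add (add (add (add (add (add (add (add (add (add (start D9146) D9270) D9570) D18177) D9678) D9776) D18223) (orK (nat_lit 190) (fin (add (add (add (add (add (add (add (start D10231) D11883) D10280) D13981) D13919) D16783) D10420) (orK (nat_lit 170) (fin (add (add (add (start D556) D10434) D2473) D466))))))) (orK (nat_lit 211) D19589)) D18564) D11093) (orK (nat_lit 211) (fin (add (add (add (add (add (start (orK (nat_lit 208) D10033)) D9243) (orK (nat_lit 208) D10031)) (orK (nat_lit 208) D11101)) (orK (nat_lit 189) (fin (add (add (start (orK (nat_lit 229) (fin (add (start D9229) D8137)))) D3737) (orK (nat_lit 169) (fin (add (add (add (start (orK (nat_lit 188) (fin (add (start D8709) D11112)))) (orK (nat_lit 230) (fin (add (start D3722) (orK (nat_lit 229) (fin (add (start D4009) D3067))))))) D11124) (orK (nat_lit 149) (fin (add (start D5473) D8701)))))))))) (orK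 (nat_lit 191) (fin (add (add (start (orK (nat_lit 208) (fin (add (start D342) D2556)))) (orK (nat_lit 208) (fin (add (start D2556) D11098)))) D11167))))))) (orK (nat_lit 190) (fin (add (add (add (add (add (add (add (add (add (start D19002) D11212) D11209) (orK (nat_lit 170) (fin (add (add (add (start D11197) D11875) D2473) D466)))) (orK (nat_lit 229) (fin (add (add (add (add (start (orK (nat_lit 249) (fin (add (start D462) (orK (nat_lit 170) D2408))))) (orK (nat_lit 189) (fin (add (add (add (add (start D19180) (orK (nat_lit 212) (fin (add (add (add (start (orK (nat_lit 211) D440)) (orK (nat_lit 211) D17804)) (orK (nat_lit 191) (fin (add (add (start D11819) (orK (nat_lit 230) (fin (add (start (orK (nat_lit 169) (fin (add (start D3722) (orK (nat_lit 228) (fin (add (start D3065) (orK (nat_lit 227) (fin (add (start D3456) (orK (nat_lit 231) (fin (add (start D19598) D15651))))))))))))) D11586)))) (orK (nat_lit 192) (fin (add (start D678) D11670))))))) D15591)))) (orK (nat_lit 169) (fin (add (start D5764) D10705)))) D19198) (orK (nat_lit 188) (fin (add (add (start D9203) (orK (nat_lit 212) (fin (add (start D8781) (orK (nat_lit 191)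 (fin (add (start D11819) (orK (nat_lit 171) (fin (add (start D3428) (orK (nat_lit 151) (fin (add (start D118) (orK (nat_lit 230) (fin (add (start D10439) D2673)))))))))))))))) D17767))))))) D11173) (orK (nat_lit 249) (fin (add (start D462) (orK (nat_lit 230) (fin (add (start D8934) (orK (nat_lit 228) (fin (add (add (start D4473) (orK (nat_lit 211) (fin (add (start D1911) (orK (nat_lit 231) (fin (add (start D15280) (orK (nat_lit 248) (fin (add (start D3847) (orK (nat_lit 232) (fin (add (start D3848) (orK (nat_lit 233) (fin (add (start (win (nat_lit 2) (nat_lit 9) (nat_lit 10) (nat_lit 5))) D7268)))))))))))))))) D19652)))))))))) (orK (nat_lit 249) (fin (add (start D462) (orK (nat_lit 189) (fin (add (start D9222) D19662)))))))))) (orK (nat_lit 191) D19878)) D11883) D11905) D17783) (orK (nat_lit 170) (fin (add (add (add (start D12047) (orK (nat_lit 229) (fin (add (add (start D2420) D464) (orK (nat_lit 211) (fin (add (add (add (start D3455) D3461) (orK (nat_lit 231) (fin (add (add (start D2414) D404) (orK (nat_lit 169) (fin (add (add (add (start D6) D12053) (orK (nat_lit 230) (fin (add (start D223) (orK (nat_lit 232) (fin (add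 (start D501) (orK (nat_lit 171) (fin (add (start D14) (orK (nat_lit 191) (fin (add (start D4732) D5242))))))))))))) D11187))))))) (orK (nat_lit 212) (fin (add (add (start D6821) (orK (nat_lit 192) (fin (add (start D845) (orK (nat_lit 188) (fin (add (start D450) D19416))))))) (orK (nat_lit 189) (fin (add (start D439) (orK (nat_lit 213) (fin (add (start D8712) D4660)))))))))))))))) D2473) D466))))))) (orK (nat_lit 190) (fin (add (add (add (add (add (add (add (add (add (add (start D16770) D16783) D16728) D11212) D16612) (orK (nat_lit 229) (fin (add (add (add (start (orK (nat_lit 249) (fin (add (start D462) (orK (nat_lit 250) (fin (add (add (add (start D10680) D19912) (orK (nat_lit 189) D19918)) (orK (nat_lit 228) (fin (add (add (start (orK (nat_lit 251) (fin (add (start D9682) (orK (nat_lit 230) (fin (add (start D149) D12174))))))) D16562) (orK (nat_lit 227) (fin (add (start D4139) (orK (nat_lit 189) (fin (add (add (start (orK (nat_lit 248) (fin (add (start D4016) (orK (nat_lit 191) (fin (add (start D15404) (orK (nat_lit 230) D11689)))))))) D10571) D16577)))))))))))))))) D10150) D10229) D14058)))) D16805) (orK (nat_lit 229) (fin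 (add (add (add (start (orK (nat_lit 249) (fin (add (start D462) (orK (nat_lit 250) (fin (add (add (add (start D10680) D19912) D10711) (orK (nat_lit 228) (fin (add (add (add (start (orK (nat_lit 251) (fin (add (start D9682) (orK (nat_lit 230) (fin (add (start D149) (orK (nat_lit 189) (fin (add (start D4119) D12997)))))))))) D16562) (orK (nat_lit 227) (fin (add (start D4139) (orK (nat_lit 251) (fin (add (start D16550) D9682))))))) (orK (nat_lit 227) (fin (add (start D4139) (orK (nat_lit 189) (fin (add (start (orK (nat_lit 248) (fin (add (start D4016) (orK (nat_lit 188) (fin (add (start D1897) (orK (nat_lit 187) (fin (add (start D1890) (orK (nat_lit 167) (fin (add (start D9066) (win (nat_lit 6) (nat_lit 7) (nat_lit 8) (nat_lit 2))))))))))))))) D16577)))))))))))))))) D10150) D10229) D16815)))) D17019) D17253) D17264)))) D13193) D13538) D13621) D13657)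
noncomputable def D19958 : OP := orK (nat_lit 209) D19957
noncomputable def D19281 : OP := orK (nat_lit 208) (fin (add (add (start D684) D17789) D10739))
noncomputable def D19332 : OP := orK (nat_lit 231) (fin (add (start D404) D19330))
noncomputable def D19277 : OP := orK (nat_lit 191) (fin (add (add (add (start D10404) D2871) (orK (nat_lit 170) (fin (add (add (start (orK (nat_lit 229) (fin (add (start D464) D17977)))) (orK (nat_lit 150) (fin (add (start D2755) D590)))) D466)))) D2715))
noncomputable def D9793 : OP := orK (nat_lit 207) (fin (add (start D2449) (orK (nat_lit 190) D415)))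
noncomputable def D4185 : OP := orK (nat_lit 249) (fin (add (start D4016) D4138))
noncomputable def D9972 : OP := orK (nat_lit 169) (fin (add (start D3722) (orK (nat_lit 208) (fin (add (add (add (start D3834) (orK (nat_lit 248) (fin (add (add (add (start D9926) (orK (nat_lit 228) D9927)) (orK (nat_lit 229) (fin (add (add (start (orK (nat_lit 249) (fin (add (start D4016) (orK (nat_lit 170) (fin (add (start D3658) D5744))))))) D4185) (orK (nat_lit 231) (fin (add (start D3565) (orK (nat_lit 170) (fin (add (start D5744) (orK (nat_lit 190) (fin (add (start D157) D9933))))))))))))) D9943)))) D9793) (orK (nat_lit 228) (fin (add (add (start D9947) D9948) (orK (nat_lit 227) (fin (add (add (start D2522) (orK (nat_lit 207) (fin (add (add (start D9339) (orK (nat_lit 187) (fin (add (start D666) (orK (nat_lit 190) (fin (add (start D414) (orK (nat_lit 167) (fin (add (start D3280) (orK (nat_lit 166) (fin (add (start (win (nat_lit 2) (nat_lit 6) (nat_lit 8) (nat_lit 2))) D9950))))))))))))) (orK (nat_lit 206) (fin (add (start D2454) (orK (nat_lit 205) (fin (add (start D9584) D3771)))))))))) D3294)))))))))))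
noncomputable def D13003 : OP := orK (nat_lit 190) (fin (add (start D9916) (orK (nat_lit 249) (fin (add (start D8) (orK (nat_lit 229) (fin (add (start D8934) D12997))))))))
noncomputable def D13119 : OP := orK (nat_lit 189) (fin (add (add (add (start (orK (nat_lit 250) (fin (add (start D3724) D13003)))) D3728) D8780) D9972))
noncomputable def D12930 : OP := orK (nat_lit 171) (fin (add (start D2108) D2620))
noncomputable def D13077 : OP := orK (nat_lit 168) (fin (add (add (start D13061) (orK (nat_lit 167) (fin (add (add (start D13064) (orK (nat_lit 187) (fin (add (start D2107) D12930)))) D6410)))) D13075))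
noncomputable def D13041 : OP := orK (nat_lit 248) (fin (add (start D7553) D4185))
noncomputable def D8931 : OP := orK (nat_lit 248) (fin (add (start D4359) D8902))
noncomputable def D8933 : OP := orK (nat_lit 232) (fin (add (start D501) D8931))
noncomputable def D9982 : OP := orK (nat_lit 207) (fin (add (start D2449) (orK (nat_lit 186) (fin (add (start D653) (orK (nat_lit 206) (fin (add (start D654) (orK (nat_lit 189) (fin (add (start D8724) D663)))))))))))
noncomputable def D13115 : OP := orK (nat_lit 208) (fin (add (add (add (start D3834) D9982) (orK (nat_lit 189) (fin (add (add (add (start (orK (nat_lit 231) (fin (add (add (start D3832) (orK (nat_lit 190) (fin (add (add (start (orK (nat_lit 170) (fin (add (start D157) D3217)))) (orK (nat_lit 191) (fin (add (start D9912) (orK (nat_lit 250) (fin (add (start D615) (orK (nat_lit 249) (fin (add (start D8) (orK (nat_lit 248) (fin (add (start D4359) (orK (nat_lit 268) (fin (add (start D8907) D4181)))))))))))))))) D13021)))) (orK (nat_lit 190) (fin (add (add (add (start D13021) (orK (nat_lit 191) (fin (add (start D9912) (orK (nat_lit 250) (fin (add (start D615) (orK (nat_lit 249)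 (fin (add (start D8) D8933)))))))))) (orK (nat_lit 170) (fin (add (start D157) D13031)))) (orK (nat_lit 191) (fin (add (start D9912) D10443)))))))))) (orK (nat_lit 169) (fin (add (start D3722) (orK (nat_lit 229) (fin (add (start D4009) D13041))))))) (orK (nat_lit 169) (fin (add (start D3722) (orK (nat_lit 190) (fin (add (start D3024) (orK (nat_lit 191) (fin (add (start D9912) D13053)))))))))) (orK (nat_lit 169) (fin (add (add (start (orK (nat_lit 149) D6557)) (orK (nat_lit 228) (fin (add (add (start D9947) D9948) (orK (nat_lit 170) (fin (add (add (start D8982) D13077) (orK (nat_lit 171) (fin (add (add (start (orK (nat_lit 188) (fin (add (start D2130) (orK (nat_lit 187) (fin (add (start D1890) D8983))))))) (orK (nat_lit 168) (fin (add (add (start D13085) D2620) D5629)))) D13093)))))))))) (orK (nat_lit 149) (fin (add (start D5473) (orK (nat_lit 129) (fin (add (start D5748) D8686))))))))))))) (orK (nat_lit 190) (fin (add (add (start (orK (nat_lit 170) (fin (add (add (start D10281) D13109) D547)))) D9283) D3385)))))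
noncomputable def D13007 : OP := orK (nat_lit 250) (fin (add (add (add (start D9293) D12996) D9805) (orK (nat_lit 189) (fin (add (add (start D9291) D13003) D9803)))))
noncomputable def D12554 : OP := orK (nat_lit 170) D3570
noncomputable def D12650 : OP := orK (nat_lit 188) (fin (add (start D1897) (orK (nat_lit 187) (fin (add (start D1890) D8665)))))
noncomputable def D4050 : OP := orK (nat_lit 227) (fin (add (start D3456) (orK (nat_lit 247) (fin (add (start D4043) (orK (nat_lit 168) (fin (add (start (win (nat_lit 1) (nat_lit 7) (nat_lit 8) (nat_lit 1))) D3044))))))))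
noncomputable def D6744 : OP := win (nat_lit 1) (nat_lit 8) (nat_lit 7) (nat_lit 2)
noncomputable def D12848 : OP := orK (nat_lit 167) (fin (add (start D2435) (orK (nat_lit 187) (fin (add (start D4027) (orK (nat_lit 186) (fin (add (start D3274) D12842))))))))
noncomputable def D4507 : OP := orK (nat_lit 252) (fin (add (start D3671) (orK (nat_lit 228) (fin (add (start D3672) D4069)))))
noncomputable def D12465 : AP := fin (add (start D501) D4507)
noncomputable def D12466 : OP := orK (nat_lit 232) D12465
noncomputable def D10823 : AP := fin (add (start D414) D4432)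
noncomputable def D12812 : OP := orK (nat_lit 248) (fin (add (start D7553) D4016))
noncomputable def D4162 : OP := orK (nat_lit 169) (fin (add (start D3722) D4160))
noncomputable def D12642 : OP := orK (nat_lit 269) (fin (add (start D4089) (orK (nat_lit 268) (fin (add (start D1899) (orK (nat_lit 189) (fin (add (start D1898) D4162))))))))
noncomputable def D12527 : OP := orK (nat_lit 190) D12526
noncomputable def D12491 : AP := fin (add (start D460) D157)
noncomputable def D12797 : OP := orK (nat_lit 187) (fin (add (add (add (start D12762) D12782) (orK (nat_lit 167) (fin (add (add (start D12769) (orK (nat_lit 247) D12786)) D12780)))) (orK (nat_lit 188) (fin (add (start D1890) (orK (nat_lit 168) (fin (add (start D4012) D12791))))))))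
noncomputable def D12719 : AP := fin (add (start D3792) D12718)
noncomputable def D12239 : OP := orK (nat_lit 252) (fin (add (start D3671) (orK (nat_lit 251) (fin (add (start D4222) D12235)))))
noncomputable def D12679 : OP := orK (nat_lit 232) (fin (add (start D501) D12239))
noncomputable def D4166 : OP := orK (nat_lit 248) (fin (add (start D4020) (orK (nat_lit 189) (fin (add (start D4016) D4162)))))
noncomputable def D12677 : OP := orK (nat_lit 249) (fin (add (add (start (orK (nat_lit 269) (fin (add (start D4089) D12662)))) (orK (nat_lit 269) (fin (add (start D4089) (orK (nat_lit 268) (fin (add (start D1899) (orK (nat_lit 248) (fin (add (start D4169) (orK (nat_lit 247) (fin (add (start D4017) (orK (nat_lit 270) (fin (add (start D12665) D4103)))))))))))))))) (orK (nat_lit 231) (fin (add (start D3567) D4166)))))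
noncomputable def D9698 : OP := orK (nat_lit 190) (fin (add (start D414) D9696))
noncomputable def D12556 : OP := orK (nat_lit 190) (fin (add (add (start D9696) (orK (nat_lit 231) D12552)) D12554))
noncomputable def D12987 : AP := fin (add (add (add (add (add (add (add (start D12556) (orK (nat_lit 207) (fin (add (add (start D12636) (orK (nat_lit 249) (fin (add (add (start D12527) D12642) (orK (nat_lit 189) (fin (add (add (start (orK (nat_lit 170) (fin (add (start D3658) D12644)))) (orK (nat_lit 190) (fin (add (start D8934) D12650)))) D4162))))))) (orK (nat_lit 208) (fin (add (start D2449) D9698))))))) D12677) (orK (nat_lit 249) (fin (add (start D12527) (orK (nat_lit 231) (fin (add (add (start D6921) D4166) D12679))))))) (orK (nat_lit 231) (fin (add (add (start D3567) D12679) (orK (nat_lit 207) (fin (add (start D12244) (orK (nat_lit 170) (fin (add (add (start (orK (nat_lit 190) (fin (add (start D20) D157)))) (orK (nat_lit 189) (fin (add (start D12644) (orK (nat_lit 227) (fin (add (add (add (start D12687) (orK (nat_lit 226) (fin (add (start D12688) (orK (nat_lit 187) (fin (add (add (start (orK (nat_lit 188) (fin (add (start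 D1890) (orK (nat_lit 168) (fin (add (start D946) D4012))))))) (orK (nat_lit 246) (fin (add (start D12700) (orK (nat_lit 266) (fin (add (start D12701) (win (nat_lit 3) (nat_lit 6) (nat_lit 10) (nat_lit 0))))))))) (orK (nat_lit 168) (fin (add (start (orK (nat_lit 188) (fin (add (start D1890) D4012)))) (orK (nat_lit 167) D12692))))))))))) (orK (nat_lit 247) (fin (add (add (start (orK (nat_lit 228) (fin (add (start D5156) D4043)))) (orK (nat_lit 246) (fin (add (start D12717) (orK (nat_lit 187) (fin (add (start D10077) (orK (nat_lit 186) D12719)))))))) (orK (nat_lit 267) (fin (add (start (orK (nat_lit 186) (fin (add (start D12734) (orK (nat_lit 187) D12719))))) D12749))))))) D12797))))))) (orK (nat_lit 190) D12491))))))))))) (orK (nat_lit 249) (fin (add (add (start D12527) D12642) (orK (nat_lit 190) (fin (add (start D8934) (orK (nat_lit 207) (fin (add (add (start (orK (nat_lit 208) (fin (add (start D2448) D414)))) (orK (nat_lit 189) (fin (add (start (orK (nat_lit 169) (fin (add (start D3722) D12812)))) D12650)))) (orK (nat_lit 208) D10823))))))))))) (orK (nat_lit 231) (fin (add (add (start D3567) D12466) (orK (nat_lit 208) (fin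 (add (start D3035) (orK (nat_lit 228) (fin (add (add (add (start D4069) D4594) (orK (nat_lit 227) (fin (add (start D3456) (orK (nat_lit 252) (fin (add (start D3672) (orK (nat_lit 169) (fin (add (add (add (start (orK (nat_lit 189) D12824)) (orK (nat_lit 189) (fin (add (start D3065) (orK (nat_lit 170) (fin (add (start D5744) (orK (nat_lit 168) (fin (add (start D3044) (orK (nat_lit 190) (fin (add (start D9933) D8664))))))))))))) (orK (nat_lit 168) (fin (add (add (add (start (orK (nat_lit 188) D12840)) (orK (nat_lit 188) (fin (add (start D2538) D12848)))) (orK (nat_lit 188) (fin (add (start D1912) D12848)))) (orK (nat_lit 170) (fin (add (add (add (add (start (orK (nat_lit 190) (fin (add (start D460) D2600)))) (orK (nat_lit 171) (fin (add (add (start (orK (nat_lit 167) (fin (add (start (orK (nat_lit 191) (fin (add (start D12859) D374)))) D3542)))) D12867) D6271)))) (orK (nat_lit 190) (fin (add (start D460) D12873)))) (orK (nat_lit 150) (fin (add (start D11064) (orK (nat_lit 151) D12878))))) D12883))))))) (orK (nat_lit 149) (fin (add (start D6744) (orK (nat_lit 170) (fin (add (start (win (nat_lit 7) (nat_lit 9) (nat_lit 7) (nat_lit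 2))) (orK (nat_lit 168) (fin (add (add (start D12889) (orK (nat_lit 167) (fin (add (add (start D6468) (orK (nat_lit 166) (fin (add (start D2580) D2586)))) (orK (nat_lit 171) D6265))))) D12902))))))))))))))))))) (orK (nat_lit 251) (fin (add (start D4059) (orK (nat_lit 170) (fin (add (start D5152) (orK (nat_lit 169) (fin (add (add (add (start (orK (nat_lit 189) D12915)) (orK (nat_lit 189) (fin (add (start D5744) D4050)))) (orK (nat_lit 189) (fin (add (start D3307) D4050)))) (orK (nat_lit 168) (fin (add (add (add (add (start (orK (nat_lit 148) (fin (add (start D10286) D11183)))) (orK (nat_lit 188) (fin (add (start D1912) D4294)))) (orK (nat_lit 187) (fin (add (add (start (orK (nat_lit 186) (fin (add (start D2645) (orK (nat_lit 188) (fin (add (start D3274) D4290))))))) D12930) (orK (nat_lit 167) (fin (add (start D2107) D12936))))))) (orK (nat_lit 188) (fin (add (start D1912) (orK (nat_lit 167) (fin (add (add (start (orK (nat_lit 187) (fin (add (start D2107) (orK (nat_lit 147) (fin (add (start D2106) D5134))))))) D12946) D12948))))))) D12883)))))))))))))))))))))) (orK (nat_lit 190) (fin (add (add (start D9696) (orK (nat_lit 231)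 (fin (add (add (start D3567) (orK (nat_lit 232) (fin (add (start D501) D12968)))) (orK (nat_lit 207) (fin (add (start D12244) (orK (nat_lit 249) (fin (add (start D462) (orK (nat_lit 228) (fin (add (add (start D12370) (orK (nat_lit 251) (fin (add (start D4059) (orK (nat_lit 248) (fin (add (start D3847) (orK (nat_lit 189) (fin (add (start D4590) D12650)))))))))) D4069))))))))))))) D12554))))
noncomputable def D12988 : OP := orK (nat_lit 229) D12987
noncomputable def D9815 : OP := orK (nat_lit 189) D9802
noncomputable def D10316 : OP := win (nat_lit 4) (nat_lit 9) (nat_lit 11) (nat_lit 4)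
noncomputable def D10323 : OP := orK (nat_lit 273) (fin (add (start D10314) (orK (nat_lit 253) (fin (add (start D10315) (orK (nat_lit 233) (fin (add (start D10316) D10317))))))))
noncomputable def D12607 : OP := orK (nat_lit 171) (fin (add (start D15) (orK (nat_lit 170) D12604)))
noncomputable def D9810 : OP := orK (nat_lit 249) (fin (add (start D8) (orK (nat_lit 170) (fin (add (start D7) D223)))))
noncomputable def D9806 : OP := orK (nat_lit 189) (fin (add (start D3723) D8601))
noncomputable def D7075 : OP := orK (nat_lit 189) D7074
noncomputable def D12085 : OP := orK (nat_lit 270) (fin (add (add (start D9837) D12079) (orK (nat_lit 269) (fin (add (start D614) (orK (nat_lit 190) (fin (add (start D613) D630))))))))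
noncomputable def D12631 : OP := orK (nat_lit 250) (fin (add (add (add (start D9293) D12085) D9805) (orK (nat_lit 169) (fin (add (add (add (start D7075) D9806) (orK (nat_lit 190) (fin (add (add (start D9810) D12607) (orK (nat_lit 191) (fin (add (start D615) (orK (nat_lit 249) (fin (add (start D8) (orK (nat_lit 251) (fin (add (start D149) (orK (nat_lit 208) (fin (add (start D50) (orK (nat_lit 252) (fin (add (start D10323) (orK (nat_lit 228) (fin (add (start D9444) (orK (nat_lit 248) (fin (add (start D9443) (orK (nat_lit 267) (fin (add (start D11248) (orK (nat_lit 247) D12608))))))))))))))))))))))))))))) D9815)))))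
noncomputable def D12286 : OP := orK (nat_lit 270) (fin (add (start D628) (orK (nat_lit 269) (fin (add (start D614) (orK (nat_lit 249) (fin (add (start D8893) D4340))))))))
noncomputable def D12593 : OP := orK (nat_lit 271) (fin (add (add (add (start D12286) D12568) D12571) (orK (nat_lit 249) (fin (add (add (add (start (orK (nat_lit 190) (fin (add (start D8) D627)))) (orK (nat_lit 248) (fin (add (add (start D12575) (orK (nat_lit 272) (fin (add (start D12576) (orK (nat_lit 270) D12429))))) (orK (nat_lit 251) (fin (add (start D4370) D10326))))))) D12585) (orK (nat_lit 251) D12588))))))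
noncomputable def D12603 : OP := orK (nat_lit 250) (fin (add (add (add (start D9805) D12593) D12595) (orK (nat_lit 190) (fin (add (add (start D12174) D10254) D12599)))))
noncomputable def D12509 : OP := orK (nat_lit 170) (fin (add (start D460) (orK (nat_lit 171) (fin (add (start D14) (orK (nat_lit 191) (fin (add (start D2673) D12503))))))))
noncomputable def D12529 : OP := orK (nat_lit 249) (fin (add (start D3659) D12527))
noncomputable def D9700 : OP := orK (nat_lit 207) (fin (add (start D2448) D9698))
noncomputable def D10910 : OP := orK (nat_lit 251) (fin (add (start D149) (orK (nat_lit 252) (fin (add (start D4352) D10906)))))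
noncomputable def D12472 : OP := orK (nat_lit 270) D12471
noncomputable def D12474 : OP := orK (nat_lit 269) (fin (add (start D613) D12472))
noncomputable def D4136 : OP := win (nat_lit 2) (nat_lit 8) (nat_lit 10) (nat_lit 1)
noncomputable def D12137 : OP := orK (nat_lit 249) (fin (add (start D4138) (orK (nat_lit 228) (fin (add (add (start D4064) D4069) (orK (nat_lit 248) (fin (add (start D3847) (orK (nat_lit 251) (fin (add (start D4059) (orK (nat_lit 268) (fin (add (start D4070) (orK (nat_lit 267) (fin (add (start D2528) D12125)))))))))))))))))
noncomputable def D12470 : OP := orK (nat_lit 231) (fin (add (add (start D3567) D12466) (orK (nat_lit 208) (fin (add (start D3035) D12137)))))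
noncomputable def D12558 : OP := orK (nat_lit 229) (fin (add (add (add (add (add (start D12470) (orK (nat_lit 190) (fin (add (add (start D9696) (orK (nat_lit 250) (fin (add (add (start D12474) D12478) (orK (nat_lit 249) (fin (add (start D8) D9686))))))) (orK (nat_lit 170) (fin (add (start D460) (orK (nat_lit 171) (fin (add (start D14) (orK (nat_lit 250) (fin (add (start D15) D12478))))))))))))) (orK (nat_lit 231) (fin (add (start D3567) (orK (nat_lit 190) (fin (add (add (start (orK (nat_lit 170) D12491)) (orK (nat_lit 251) (fin (add (start D12495) D12497)))) D12509))))))) (orK (nat_lit 208) (fin (add (add (start D9679) (orK (nat_lit 190) (fin (add (add (start D9696) (orK (nat_lit 232) (fin (add (start D4136) (orK (nat_lit 250) (fin (add (add (start D12474) D12478) (orK (nat_lit 249) (fin (add (start D8) D10910)))))))))) (orK (nat_lit 170) (fin (add (start D460) D9760))))))) D9700)))) (orK (nat_lit 231) (fin (add (add (start D3567) (orK (nat_lit 232) (fin (add (start D501) D12529)))) (orK (nat_lit 190) (fin (add (start D12543) D12509))))))) D12556))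
noncomputable def D9903 : OP := orK (nat_lit 232) (fin (add (start D501) (orK (nat_lit 249) (fin (add (start D8919) (orK (nat_lit 190) (fin (add (start D8) D8918))))))))
noncomputable def D12251 : OP := orK (nat_lit 248) (fin (add (start D4359) D11244))
noncomputable def D12257 : OP := orK (nat_lit 253) (fin (add (start D4268) (orK (nat_lit 273) (fin (add (start D10315) (orK (nat_lit 249) (fin (add (start D10314) D12251))))))))
noncomputable def D12288 : OP := orK (nat_lit 253) (fin (add (start D4268) D10317))
noncomputable def D9883 : OP := orK (nat_lit 190) D9313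
noncomputable def D12384 : OP := win (nat_lit 1) (nat_lit 9) (nat_lit 13) (nat_lit 5)
noncomputable def D12383 : OP := win (nat_lit 1) (nat_lit 9) (nat_lit 12) (nat_lit 4)
noncomputable def D12386 : OP := win (nat_lit 6) (nat_lit 10) (nat_lit 13) (nat_lit 5)
noncomputable def D12385 : OP := win (nat_lit 6) (nat_lit 10) (nat_lit 12) (nat_lit 4)
noncomputable def D4312 : AP := fin (add (start D4311) D4059)
noncomputable def D4351 : OP := orK (nat_lit 228) D4312
noncomputable def D8936 : OP := orK (nat_lit 251) (fin (add (start D149) D4351))
noncomputable def D12243 : OP := orK (nat_lit 232) (fin (add (start D501) (orK (nat_lit 229) (fin (add (start (orK (nat_lit 249) (fin (add (start D3659) (orK (nat_lit 269) (fin (add (start D4089) (orK (nat_lit 270) (fin (add (start D4103) (orK (nat_lit 189) (fin (add (start D4102) D4162))))))))))))) D12239)))))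
noncomputable def D12091 : OP := orK (nat_lit 191) (fin (add (start D615) D9912))
noncomputable def D9885 : OP := orK (nat_lit 248) (fin (add (start D4370) D4359))
noncomputable def D4228 : OP := win (nat_lit 7) (nat_lit 10) (nat_lit 10) (nat_lit 2)
noncomputable def D12246 : AP := fin (add (start D12245) D4221)
noncomputable def D10332 : OP := orK (nat_lit 252) (fin (add (add (start D10313) D10323) (orK (nat_lit 228) (fin (add (start D9444) (orK (nat_lit 248) (fin (add (start D9443) D10326))))))))
noncomputable def D12208 : OP := orK (nat_lit 251) (fin (add (add (start D10332) (orK (nat_lit 190) (fin (add (start D149) (orK (nat_lit 171) (fin (add (start D15) (orK (nat_lit 170) (fin (add (start D14) D148)))))))))) (orK (nat_lit 190) (fin (add (start D149) D9316)))))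
noncomputable def D8929 : OP := orK (nat_lit 190) (fin (add (start D8) (orK (nat_lit 191) (fin (add (start D615) (orK (nat_lit 251) (fin (add (start D149) (orK (nat_lit 231) (fin (add (start D8918) D8921)))))))))))
noncomputable def D8917 : OP := orK (nat_lit 248) (fin (add (add (start D8901) D8906) (orK (nat_lit 268) (fin (add (start D8907) D8913)))))
noncomputable def D12225 : OP := orK (nat_lit 250) (fin (add (add (add (start D9293) D12085) D9805) (orK (nat_lit 189) (fin (add (add (start D9291) (orK (nat_lit 249) (fin (add (add (add (start D8899) D8917) D8929) D12208)))) D9803)))))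
noncomputable def D12219 : OP := orK (nat_lit 250) (fin (add (add (add (add (start (orK (nat_lit 270) (fin (add (start D4218) D9837)))) (orK (nat_lit 270) (fin (add (start D4218) D12079)))) (orK (nat_lit 249) (fin (add (add (start (orK (nat_lit 190) (fin (add (start D8) D12174)))) (orK (nat_lit 248) (fin (add (add (start D8906) (orK (nat_lit 268) (fin (add (start D8913) (orK (nat_lit 229) D12183))))) D12192)))) D12208)))) D12085) (orK (nat_lit 270) (fin (add (start D4218) (orK (nat_lit 269) (fin (add (start D614) (orK (nat_lit 190) (fin (add (start D613) (orK (nat_lit 191) D9299))))))))))))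
noncomputable def D4434 : OP := orK (nat_lit 207) (fin (add (add (start D3927) D3929) D4432))
noncomputable def D4403 : OP := orK (nat_lit 250) (fin (add (start D4121) (orK (nat_lit 231) (fin (add (start D3565) (orK (nat_lit 228) (fin (add (add (start D4187) D4397) D4069))))))))
noncomputable def D4389 : OP := orK (nat_lit 250) (fin (add (add (start D4121) (orK (nat_lit 270) (fin (add (start D4122) (orK (nat_lit 269) (fin (add (start D614) (orK (nat_lit 231) (fin (add (start D3565) (orK (nat_lit 271) (fin (add (start D628) (orK (nat_lit 249) (fin (add (start D4123) D4340)))))))))))))))) (orK (nat_lit 231) (fin (add (start D3565) (orK (nat_lit 251) (fin (add (add (start D4351) (orK (nat_lit 252) (fin (add (start D4352) (orK (nat_lit 249) (fin (add (start (orK (nat_lit 188) (fin (add (start D4015) D4354)))) (orK (nat_lit 248) (fin (add (start D4359) D4363)))))))))) (orK (nat_lit 228) (fin (add (start D4311) (orK (nat_lit 189) (fin (add (start D4119) (orK (nat_lit 248) (fin (add (start D3847) (orK (nat_lit 271) (fin (add (start D4221) (orK (nat_lit 249) (fin (add (start D4370) D4373)))))))))))))))))))))))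
noncomputable def D4175 : OP := orK (nat_lit 269) (fin (add (start D4089) (orK (nat_lit 268) (fin (add (start D1899) (orK (nat_lit 248) (fin (add (start D4169) D4020))))))))
noncomputable def D4168 : OP := orK (nat_lit 231) (fin (add (start D3565) D4166))
noncomputable def D4179 : OP := orK (nat_lit 249) (fin (add (add (start D4138) D4168) (orK (nat_lit 231) (fin (add (start D3565) D4175)))))
noncomputable def D4317 : AP := fin (add (start D4070) D3847)
noncomputable def D4328 : OP := orK (nat_lit 270) (fin (add (start D4122) (orK (nat_lit 269) (fin (add (start D614) (orK (nat_lit 231) (fin (add (start D3565) (orK (nat_lit 228) (fin (add (add (start (orK (nat_lit 251) D4312)) (orK (nat_lit 268) (fin (add (start (orK (nat_lit 251) (fin (add (start D4059) D4314)))) (orK (nat_lit 248) D4317))))) D4069)))))))))))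
noncomputable def D4336 : OP := orK (nat_lit 250) (fin (add (add (start D4121) D4328) (orK (nat_lit 189) (fin (add (start D4119) (orK (nat_lit 231) (fin (add (start D3565) (orK (nat_lit 228) (fin (add (start D4187) D4026)))))))))))
noncomputable def D4052 : OP := orK (nat_lit 228) (fin (add (start D3065) D4050))
noncomputable def D4211 : OP := orK (nat_lit 189) (fin (add (add (start D4011) (orK (nat_lit 250) (fin (add (start D3724) (orK (nat_lit 248) (fin (add (add (start D4185) (orK (nat_lit 228) (fin (add (start D312) D4187)))) (orK (nat_lit 227) (fin (add (add (start (orK (nat_lit 228) D4186)) (orK (nat_lit 249) (fin (add (start (orK (nat_lit 188) (fin (add (start D1897) D4015)))) D4195)))) (orK (nat_lit 228) (fin (add (start D4140) (orK (nat_lit 247) (fin (add (start D4043) D4199)))))))))))))))) (orK (nat_lit 169) (fin (add (start D3722) D4052)))))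
noncomputable def D4224 : AP := fin (add (start D4222) D4223)
noncomputable def D4283 : OP := orK (nat_lit 271) (fin (add (add (add (add (start (orK (nat_lit 251) (fin (add (start D4221) (orK (nat_lit 252) D4224))))) (orK (nat_lit 291) (fin (add (start D4228) (orK (nat_lit 292) (fin (add (start D4229) (orK (nat_lit 293) (fin (add (start D4230) (win (nat_lit 2) (nat_lit 9) (nat_lit 13) (nat_lit 3)))))))))))) (orK (nat_lit 272) (fin (add (add (start D4247) (orK (nat_lit 268) D4262)) (orK (nat_lit 273) (fin (add (start D4245) D4251))))))) (orK (nat_lit 251) (fin (add (start D4221) (orK (nat_lit 252) (fin (add (start D4222) (orK (nat_lit 253) (fin (add (start D4268) D4269)))))))))) (orK (nat_lit 272) (fin (add (start (orK (nat_lit 252) (fin (add (start D4276) (orK (nat_lit 251) D4224))))) D4253)))))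
noncomputable def D12168 : OP := orK (nat_lit 208) (fin (add (add (add (start D3834) D4008) (orK (nat_lit 229) (fin (add (add (add (add (add (add (add (start (orK (nat_lit 231) (fin (add (start D3565) D12137)))) (orK (nat_lit 231) (fin (add (start D3565) (orK (nat_lit 189) (fin (add (add (start D4011) (orK (nat_lit 270) (fin (add (start D3744) (orK (nat_lit 269) (fin (add (add (start D4283) (orK (nat_lit 249) (fin (add (start D4103) D4123)))) D12144))))))) (orK (nat_lit 169) (fin (add (start D3722) (orK (nat_lit 168) (fin (add (start D3044) (orK (nat_lit 188) (fin (add (start D4012) (orK (nat_lit 187) (fin (add (start D1890) (orK (nat_lit 170) (fin (add (start D5744) D4290)))))))))))))))))))))) D4211) D4336) (orK (nat_lit 231) (fin (add (start D3565) D4118)))) D4179) D4389) D4403)))) D4434))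
noncomputable def D12124 : OP := orK (nat_lit 189) (fin (add (add (add (start (orK (nat_lit 208) (fin (add (add (start D3834) D9103) (orK (nat_lit 231) (fin (add (start D3832) (orK (nat_lit 250) (fin (add (start D3724) (orK (nat_lit 190) (fin (add (start D12091) D9314))))))))))))) D3728) D8780) (orK (nat_lit 208) (fin (add (add (start D3834) D9103) (orK (nat_lit 169) (fin (add (start D3722) (orK (nat_lit 228) (fin (add (add (start D9947) D9948) (orK (nat_lit 170) (fin (add (add (start (orK (nat_lit 231) (fin (add (start D3832) (orK (nat_lit 190) (fin (add (start D157) (orK (nat_lit 171) (fin (add (start D14) (orK (nat_lit 192) (fin (add (start (win (nat_lit 5) (nat_lit 8) (nat_lit 9) (nat_lit 1))) (orK (nat_lit 172) D12101)))))))))))))) (orK (nat_lit 229) (fin (add (start D5744) (orK (nat_lit 232) (fin (add (start D4136) D4050))))))) D9026))))))))))))))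
noncomputable def D9920 : OP := orK (nat_lit 249) (fin (add (start D8) (orK (nat_lit 170) (fin (add (start D7) D151)))))
noncomputable def D9922 : OP := orK (nat_lit 190) (fin (add (start D9916) D9920))
noncomputable def D12089 : OP := orK (nat_lit 250) (fin (add (add (add (start D9293) D12085) D9805) (orK (nat_lit 189) (fin (add (add (start D9291) D9922) D9803)))))
noncomputable def D13120 : AP := fin (add (add (add (add (add (add (add (add (add (add (add (add (add (start D12089) D12124) D12168) D12219) D12225) (orK (nat_lit 231) (fin (add (add (add (start D3909) D12243) (orK (nat_lit 250) (fin (add (add (start D9293) D9805) (orK (nat_lit 207) (fin (add (start D12244) (orK (nat_lit 251) (fin (add (start (orK (nat_lit 271) D12246)) (orK (nat_lit 252) (fin (add (add (start D12249) D12257) (orK (nat_lit 249) (fin (add (add (start (orK (nat_lit 229) (fin (add (start D4222) D9887)))) D12251) (orK (nat_lit 228) (fin (add (start (win (nat_lit 0) (nat_lit 8) (nat_lit 11) (nat_lit 1))) (orK (nat_lit 248) (fin (add (start D9443) D4359)))))))))))))))))))))) (orK (nat_lit 208) (fin (add (start D3035) (orK (nat_lit 233) (fin (add (start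 D9147) (orK (nat_lit 250) (fin (add (add (add (start D9805) (orK (nat_lit 271) (fin (add (add (add (start (orK (nat_lit 251) D12246)) (orK (nat_lit 291) (fin (add (start D12278) D4228)))) D12286) (orK (nat_lit 251) (fin (add (start D12245) (orK (nat_lit 252) (fin (add (start D12288) (orK (nat_lit 249) (fin (add (start D9885) (orK (nat_lit 269) (fin (add (start D9445) D12292)))))))))))))))) (orK (nat_lit 270) (fin (add (start D4218) (orK (nat_lit 289) (fin (add (start D7021) (orK (nat_lit 290) (fin (add (start D7022) (orK (nat_lit 310) (fin (add (start D12303) D7026))))))))))))) (orK (nat_lit 189) (fin (add (add (start D9803) (orK (nat_lit 190) (fin (add (start D12091) (orK (nat_lit 249) (fin (add (start D8) (orK (nat_lit 248) (fin (add (start D4359) (orK (nat_lit 268) (fin (add (start D4181) D9321))))))))))))) (orK (nat_lit 248) (fin (add (add (start (orK (nat_lit 228) D3311)) (orK (nat_lit 249) (fin (add (start D4359) (orK (nat_lit 251) (fin (add (start D12324) (orK (nat_lit 252) (fin (add (start D12288) D11244)))))))))) (orK (nat_lit 249) (fin (add (start D4359) (orK (nat_lit 228) (fin (add (start (orK (nat_lit 188) (fin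 (add (start D4630) D12332)))) (orK (nat_lit 251) (fin (add (start D9443) D12324)))))))))))))))))))))))))))) (orK (nat_lit 231) (fin (add (add (add (start D3909) D12243) (orK (nat_lit 207) (fin (add (start D12244) (orK (nat_lit 189) (fin (add (add (add (start (orK (nat_lit 250) (fin (add (start D3724) (orK (nat_lit 190) (fin (add (add (start D9314) (orK (nat_lit 249) (fin (add (start D8) (orK (nat_lit 229) (fin (add (start D8934) (orK (nat_lit 248) (fin (add (start D4016) D4359)))))))))) (orK (nat_lit 249) (fin (add (start D8) (orK (nat_lit 248) (fin (add (start D4359) (orK (nat_lit 229) (fin (add (start D4016) D8936)))))))))))))))) D3728) D8780) (orK (nat_lit 169) (fin (add (start D3722) (orK (nat_lit 229) (fin (add (start D12372) D8742))))))))))))) (orK (nat_lit 207) (fin (add (start D12244) (orK (nat_lit 250) (fin (add (add (start D9805) (orK (nat_lit 232) (fin (add (start D501) (orK (nat_lit 270) (fin (add (add (add (add (start D7030) D7058) (orK (nat_lit 290) (fin (add (add (start (orK (nat_lit 289) (fin (add (start D7021) D7022)))) (orK (nat_lit 310) (fin (add (start D12303) (orK (nat_lit 329) (fin (add (start D12383)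 (orK (nat_lit 330) (fin (add (start D12384) (orK (nat_lit 331) (fin (add (start D12385) D12386))))))))))))) (orK (nat_lit 310) (fin (add (start D12303) (orK (nat_lit 269) (fin (add (start D614) (orK (nat_lit 331) (fin (add (start D12385) (orK (nat_lit 330) (fin (add (start D12386) (win (nat_lit 7) (nat_lit 9) (nat_lit 12) (nat_lit 5)))))))))))))))))) (orK (nat_lit 291) (fin (add (start D7023) (orK (nat_lit 290) (fin (add (start D7024) (orK (nat_lit 309) (fin (add (start D12406) (orK (nat_lit 310) (fin (add (start D12407) D12303))))))))))))) (orK (nat_lit 249) (fin (add (add (start D8931) (orK (nat_lit 291) (fin (add (start D7023) (orK (nat_lit 290) (fin (add (start D7024) (orK (nat_lit 310) (fin (add (start D12303) (orK (nat_lit 329) (fin (add (start D12383) (orK (nat_lit 330) (fin (add (start D12384) (win (nat_lit 7) (nat_lit 9) (nat_lit 12) (nat_lit 4)))))))))))))))))) (orK (nat_lit 248) (fin (add (start D4359) (orK (nat_lit 271) (fin (add (start D628) D12430)))))))))))))))) (orK (nat_lit 251) (fin (add (add (start D9883) (orK (nat_lit 291) (fin (add (start (win (nat_lit 7) (nat_lit 10) (nat_lit 10) (nat_lit 1))) (orK (nat_lit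 252) (fin (add (add (start (orK (nat_lit 233) (fin (add (start D9147) D12288)))) D12257) (orK (nat_lit 232) (fin (add (start D501) (orK (nat_lit 249) (fin (add (start D8919) (orK (nat_lit 272) (fin (add (start D4361) (orK (nat_lit 292) (fin (add (start D3149) D12444))))))))))))))))))) D9903))))))))))))) D12558) D12603) D12631) D12988) D13007) D13115) D13119)
noncomputable def D13121 : OP := orK (nat_lit 230) D13120
noncomputable def D2987 : OP := orK (nat_lit 251) (fin (add (start D2979) (orK (nat_lit 172) (fin (add (start D2980) D2983)))))
noncomputable def D2989 : OP := orK (nat_lit 252) (fin (add (add (start (orK (nat_lit 191) (fin (add (start D2965) D2966)))) D2978) D2987))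
noncomputable def D2993 : OP := orK (nat_lit 232) (fin (add (start D411) (orK (nat_lit 192) (fin (add (start D845) D2989)))))
noncomputable def D4513 : OP := win (nat_lit 6) (nat_lit 11) (nat_lit 8) (nat_lit 1)
noncomputable def D12065 : OP := orK (nat_lit 231) (fin (add (add (start D2414) D404) (orK (nat_lit 169) (fin (add (add (add (start D6) D12053) (orK (nat_lit 230) (fin (add (start D223) (orK (nat_lit 232) (fin (add (start D501) (orK (nat_lit 252) (fin (add (start D3671) (orK (nat_lit 171) (fin (add (start D14) D4513))))))))))))) D11187)))))
noncomputable def D12073 : OP := orK (nat_lit 170) (fin (add (add (add (start D12047) (orK (nat_lit 229) (fin (add (add (start D2420) D464) (orK (nat_lit 211) (fin (add (add (start D3461) D12065) (orK (nat_lit 212) (fin (add (start D441) D2993)))))))))) D2473) D466))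
noncomputable def D10426 : OP := orK (nat_lit 150) (fin (add (start D172) D10424))
noncomputable def D10448 : OP := orK (nat_lit 270) (fin (add (start D616) D4122))
noncomputable def D11785 : OP := orK (nat_lit 170) (fin (add (add (add (start D11197) (orK (nat_lit 229) (fin (add (add (start D2420) D464) (orK (nat_lit 169) (fin (add (add (add (start D6) (orK (nat_lit 191) (fin (add (add (start (orK (nat_lit 192) (fin (add (start D64) (orK (nat_lit 230) (fin (add (start (orK (nat_lit 231) (fin (add (start D157) (orK (nat_lit 232) (fin (add (start D501) (orK (nat_lit 252) (fin (add (start D3671) (orK (nat_lit 212) (fin (add (start D3677) D2965))))))))))))) (orK (nat_lit 250) (fin (add (start D9712) D10448)))))))))) (orK (nat_lit 168) (fin (add (start D37) (orK (nat_lit 189) (fin (add (start D3044) D5764))))))) D96)))) (orK (nat_lit 230) (fin (add (start D223) (orK (nat_lit 251) (fin (add (start D148) (orK (nat_lit 250) (fin (add (start D149) (orK (nat_lit 191) (fin (add (start D615) D10448))))))))))))) D11187))))))) D2473) D466))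
noncomputable def D14050 : OP := orK (nat_lit 250) (fin (add (start D4095) (orK (nat_lit 230) (fin (add (start D4119) (orK (nat_lit 191) (fin (add (start D615) D9686))))))))
noncomputable def D11696 : OP := orK (nat_lit 250) (fin (add (start D4095) (orK (nat_lit 230) (fin (add (start D4119) (orK (nat_lit 248) (fin (add (start D4016) (orK (nat_lit 191) D11689)))))))))
noncomputable def D11700 : OP := orK (nat_lit 249) (fin (add (start D462) (orK (nat_lit 189) (fin (add (start D9205) D11696)))))
noncomputable def D10681 : AP := fin (add (start D4352) D149)
noncomputable def D10684 : OP := orK (nat_lit 252) (fin (add (start D10311) (orK (nat_lit 230) D10681)))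
noncomputable def D10719 : OP := orK (nat_lit 251) (fin (add (add (start D10684) (orK (nat_lit 271) (fin (add (start D10578) (orK (nat_lit 248) (fin (add (start D4370) (orK (nat_lit 268) (fin (add (start D4169) D9319)))))))))) D10689))
noncomputable def D14056 : OP := orK (nat_lit 249) (fin (add (start D462) (orK (nat_lit 189) (fin (add (add (add (add (start D9211) D14050) (orK (nat_lit 250) (fin (add (start D4095) D10719)))) D11696) D11990)))))
noncomputable def D15663 : OP := orK (nat_lit 169) (fin (add (start D3722) D4475))
noncomputable def D4839 : OP := orK (nat_lit 252) (fin (add (start D3672) (orK (nat_lit 232) (fin (add (start D3671) D501)))))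
noncomputable def D13787 : OP := orK (nat_lit 227) (fin (add (start D3456) (orK (nat_lit 247) (fin (add (start D4043) (orK (nat_lit 231) (fin (add (start D4065) D4839))))))))
noncomputable def D4848 : OP := orK (nat_lit 232) (fin (add (start D501) D4846))
noncomputable def D4850 : OP := orK (nat_lit 231) (fin (add (add (start D4839) (orK (nat_lit 251) (fin (add (start D4059) (orK (nat_lit 211) (fin (add (start D517) D4757))))))) D4848))
noncomputable def D16278 : OP := win (nat_lit 5) (nat_lit 9) (nat_lit 10) (nat_lit 2)
noncomputable def D16277 : OP := win (nat_lit 4) (nat_lit 9) (nat_lit 10) (nat_lit 2)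
noncomputable def D16280 : OP := orK (nat_lit 213) (fin (add (start D16277) D16278))
noncomputable def D14910 : OP := orK (nat_lit 233) (fin (add (start D2698) D4719))
noncomputable def D15593 : OP := orK (nat_lit 231) D15592
noncomputable def D4508 : AP := fin (add (start D3677) D4507)
noncomputable def D15100 : OP := orK (nat_lit 233) (fin (add (start D2016) D2699))
noncomputable def D3176 : OP := win (nat_lit 6) (nat_lit 12) (nat_lit 8) (nat_lit 4)
noncomputable def D3179 : OP := orK (nat_lit 253) (fin (add (start D3176) D3177))
noncomputable def D3880 : OP := win (nat_lit 3) (nat_lit 12) (nat_lit 8) (nat_lit 4)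
noncomputable def D4570 : OP := orK (nat_lit 173) (fin (add (start D1179) D3880))
noncomputable def D1180 : OP := win (nat_lit 3) (nat_lit 12) (nat_lit 8) (nat_lit 0)
noncomputable def D3160 : OP := win (nat_lit 6) (nat_lit 12) (nat_lit 11) (nat_lit 5)
noncomputable def D3159 : OP := win (nat_lit 6) (nat_lit 12) (nat_lit 10) (nat_lit 4)
noncomputable def D15629 : OP := orK (nat_lit 293) (fin (add (start D3159) D3160))
noncomputable def D10902 : AP := fin (add (start D4122) D618)
noncomputable def D10525 : OP := orK (nat_lit 251) (fin (add (start D149) D10523))
noncomputable def D19205 : AP := fin (add (add (add (add (add (add (start D11173) (orK (nat_lit 269) (fin (add (start D10516) (orK (nat_lit 230) (fin (add (add (add (add (start (orK (nat_lit 250) (fin (add (start D12472) D10525)))) (orK (nat_lit 270) (fin (add (add (add (start D19005) (orK (nat_lit 228) (fin (add (start D4473) D19071)))) (orK (nat_lit 250) D10902)) (orK (nat_lit 250) D619))))) (orK (nat_lit 228) (fin (add (add (start D4473) (orK (nat_lit 231) (fin (add (add (start D19081) D4839) D4848)))) D13787)))) (orK (nat_lit 250) (fin (add (start D12472) (orK (nat_lit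 191) (fin (add (start D615) (orK (nat_lit 192) (fin (add (start D678) (orK (nat_lit 231) (fin (add (add (add (start (orK (nat_lit 232) (fin (add (start D501) (orK (nat_lit 212) (fin (add (start D3677) (orK (nat_lit 251) (fin (add (start D3681) D149)))))))))) (orK (nat_lit 251) (fin (add (start D149) (orK (nat_lit 252) (fin (add (start D4352) (orK (nat_lit 211) (fin (add (start D4758) D4691)))))))))) (orK (nat_lit 232) (fin (add (start D501) (orK (nat_lit 212) (fin (add (start D3677) (orK (nat_lit 252) (fin (add (start D3671) (orK (nat_lit 272) (fin (add (start D19098) (orK (nat_lit 291) (fin (add (start D3148) (orK (nat_lit 292) (fin (add (start D3149) D15629))))))))))))))))))) (orK (nat_lit 232) (fin (add (start D501) (orK (nat_lit 252) (fin (add (start D3671) (orK (nat_lit 212) (fin (add (start D3677) (orK (nat_lit 172) (fin (add (start D3857) (orK (nat_lit 211) (fin (add (start D3858) D2966)))))))))))))))))))))))))))) (orK (nat_lit 212) (fin (add (add (start (orK (nat_lit 232) (fin (add (add (add (start D15593) (orK (nat_lit 231) D12465)) (orK (nat_lit 192) (fin (add (add (add (start (orK (nat_lit 193) (fin (add (start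 D15474) (orK (nat_lit 173) (fin (add (start D1180) (orK (nat_lit 153) (fin (add (start D1654) (win (nat_lit 1) (nat_lit 12) (nat_lit 7) (nat_lit 3)))))))))))) (orK (nat_lit 172) (fin (add (add (start (orK (nat_lit 152) (fin (add (start D15100) D19141)))) (orK (nat_lit 252) (fin (add (start D4570) D3179)))) D19146)))) (orK (nat_lit 172) (fin (add (start (orK (nat_lit 152) (fin (add (start D3875) D15100)))) (orK (nat_lit 171) (fin (add (start D1178) (orK (nat_lit 191) (fin (add (start D2673) D2697)))))))))) (orK (nat_lit 191) (fin (add (start D678) (orK (nat_lit 171) (fin (add (start D2673) D11662)))))))))) (orK (nat_lit 231) D4508))))) (orK (nat_lit 228) (fin (add (start D7838) (orK (nat_lit 227) (fin (add (start D3456) (orK (nat_lit 250) (fin (add (start D4140) D12472)))))))))) (orK (nat_lit 232) (fin (add (add (add (start (orK (nat_lit 211) (fin (add (start D411) D3729)))) D15593) D14910) D16280))))))))))))) (orK (nat_lit 189) (fin (add (add (add (start D19180) (orK (nat_lit 230) (fin (add (add (start D4011) (orK (nat_lit 270) (fin (add (start D3744) (orK (nat_lit 228) (fin (add (add (start D4473) D4850) D13787))))))) D15663))))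 D19190) D19198)))) D17869) D14056) D11700) (orK (nat_lit 249) (fin (add (start D462) (orK (nat_lit 189) (fin (add (start D9205) D14050)))))))
noncomputable def D19220 : OP := orK (nat_lit 190) (fin (add (add (add (add (add (add (add (add (add (start D19002) D11212) D11209) (orK (nat_lit 229) D19205)) D11785) (orK (nat_lit 170) (fin (add (add (add (start D10426) (orK (nat_lit 229) (fin (add (add (start D2420) D464) (orK (nat_lit 211) (fin (add (add (add (start D3455) D3461) D11869) (orK (nat_lit 212) (fin (add (add (start D441) D6833) (orK (nat_lit 189) (fin (add (start D439) (orK (nat_lit 192) (fin (add (start D845) D5392)))))))))))))))) D2473) D466)))) D11883) D11905) D17783) D12073))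
noncomputable def D14090 : OP := orK (nat_lit 191) (fin (add (add (add (start (orK (nat_lit 230) (fin (add (add (start (orK (nat_lit 250) (fin (add (add (start D10302) D717) D14067)))) (orK (nat_lit 192) (fin (add (start D678) (orK (nat_lit 189) (fin (add (start D10518) (orK (nat_lit 212) (fin (add (start D2688) (orK (nat_lit 172) (fin (add (start D66) (orK (nat_lit 151) (fin (add (add (start (orK (nat_lit 211) (fin (add (start D10964) D2906)))) (orK (nat_lit 152) (fin (add (start D1961) D14073)))) (orK (nat_lit 171) D11632))))))))))))))))) D10262)))) D2871) D10278) D2715))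
noncomputable def D14060 : OP := orK (nat_lit 229) (fin (add (add (add (start D14056) D10150) D10229) D14058))
noncomputable def D14004 : OP := orK (nat_lit 169) D12824
noncomputable def D14043 : OP := orK (nat_lit 208) (fin (add (add (start D13993) (orK (nat_lit 192) (fin (add (add (add (start D3328) D3329) (orK (nat_lit 211) (fin (add (add (start D13997) (orK (nat_lit 231) (fin (add (start D49) (orK (nat_lit 228) (fin (add (start D104) (orK (nat_lit 229) (fin (add (add (add (start (orK (nat_lit 249) (fin (add (start D462) D10199)))) (orK (nat_lit 251) (fin (add (start D402) (orK (nat_lit 230) D14000))))) (orK (nat_lit 189) (fin (add (add (start D14004) (orK (nat_lit 249) (fin (add (start D462) (orK (nat_lit 248) (fin (add (start D4016) (orK (nat_lit 247) (fin (add (start D14005) (orK (nat_lit 246) (fin (add (start D9412) (orK (nat_lit 266) (fin (add (start D14006) (orK (nat_lit 250) (fin (add (start D14007) D4095))))))))))))))))))) (orK (nat_lit 169) (fin (add (start D3307) D11542))))))) (orK (nat_lit 249) (fin (add (start D462) (orK (nat_lit 251) (fin (add (start D402) (orK (nat_lit 250) (fin (add (start D9682) (orK (nat_lit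 189) (fin (add (start D4095) D14004)))))))))))))))))))))) D2558)))) D3337)))) D3385))
noncomputable def D10175 : OP := orK (nat_lit 230) (fin (add (start D2675) D10173))
noncomputable def D10501 : OP := orK (nat_lit 208) (fin (add (start D50) (orK (nat_lit 170) (fin (add (add (add (start D2473) (orK (nat_lit 192) (fin (add (start D678) (orK (nat_lit 171) (fin (add (add (start D10464) D10468) (orK (nat_lit 151) (fin (add (start D118) (orK (nat_lit 169) (fin (add (start D357) (orK (nat_lit 172) (fin (add (start (orK (nat_lit 173) (fin (add (start D10469) D235)))) (orK (nat_lit 149) (fin (add (start D276) D34))))))))))))))))))) (orK (nat_lit 192) (fin (add (start D678) D10175)))) (orK (nat_lit 150) (fin (add (start D80) (orK (nat_lit 131) (fin (add (start D168) (orK (nat_lit 130) (fin (add (start D167) (orK (nat_lit 193) (fin (add (start D3390) D186)))))))))))))))))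
noncomputable def D10545 : OP := orK (nat_lit 149) (fin (add (start D10542) D10543))
noncomputable def D10533 : OP := orK (nat_lit 169) (fin (add (start D223) D5340))
noncomputable def D10555 : OP := orK (nat_lit 191) (fin (add (add (add (start D2715) (orK (nat_lit 230) (fin (add (add (start D10262) D10443) (orK (nat_lit 229) (fin (add (add (start D9696) (orK (nat_lit 208) (fin (add (start D50) (orK (nat_lit 249) (fin (add (start D462) D4168))))))) (orK (nat_lit 170) (fin (add (start D460) (orK (nat_lit 208) (fin (add (start D50) D9760))))))))))))) (orK (nat_lit 192) (fin (add (start D678) (orK (nat_lit 230) (fin (add (add (add (start D10262) D10443) (orK (nat_lit 229) (fin (add (add (start D9696) (orK (nat_lit 269) (fin (add (start D10516) (orK (nat_lit 189) (fin (add (start D10518) (orK (nat_lit 250) (fin (add (start D3724) D10525)))))))))) (orK (nat_lit 170) (fin (add (start D460) D10533))))))) (orK (nat_lit 169) (fin (add (add (add (start (orK (nat_lit 189) D10517)) (orK (nat_lit 168) (fin (add (start D39) (orK (nat_lit 170) D8505))))) D10545) (orK (nat_lit 170) (fin (add (start D223) D8506))))))))))))) D10501))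
noncomputable def D10436 : OP := orK (nat_lit 170) (fin (add (add (add (start D10426) D10434) D2473) D466))
noncomputable def D10336 : OP := orK (nat_lit 251) (fin (add (start D149) (orK (nat_lit 249) (fin (add (start D8) D10332)))))
noncomputable def D10340 : OP := orK (nat_lit 208) (fin (add (start D50) (orK (nat_lit 250) (fin (add (add (start D10302) D717) D10336)))))
noncomputable def D10310 : OP := orK (nat_lit 191) (fin (add (add (add (start D10242) D2871) (orK (nat_lit 208) (fin (add (start D50) D10306)))) D2715))
noncomputable def D9149 : OP := orK (nat_lit 190) (fin (add (start D8918) D402))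
noncomputable def D3753 : OP := orK (nat_lit 228) (fin (add (start D104) D3751))
noncomputable def D4460 : OP := orK (nat_lit 227) (fin (add (start D669) (orK (nat_lit 207) (fin (add (start D668) (orK (nat_lit 206) (fin (add (start D2454) D305))))))))
noncomputable def D3036 : AP := fin (add (start D3035) D49)
noncomputable def D3745 : OP := orK (nat_lit 231) D3036
noncomputable def D8958 : OP := orK (nat_lit 170) (fin (add (start D7) (orK (nat_lit 150) (fin (add (start D3215) D156)))))
noncomputable def D3789 : OP := orK (nat_lit 231) (fin (add (start D49) D3787))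
noncomputable def D3791 : OP := orK (nat_lit 211) (fin (add (start D3781) D3789))
noncomputable def D3733 : OP := orK (nat_lit 212) (fin (add (start D439) D3731))
noncomputable def D10027 : AP := fin (add (add (add (add (add (add (add (add (start (orK (nat_lit 250) (fin (add (add (add (start D9293) D9312) D9805) (orK (nat_lit 169) (fin (add (add (add (start D7075) D9806) (orK (nat_lit 190) (fin (add (start D9810) (orK (nat_lit 191) (fin (add (start D615) D2871))))))) D9815))))))) (orK (nat_lit 208) (fin (add (add (add (start D3931) (orK (nat_lit 231) (fin (add (add (start D3832) D3768) (orK (nat_lit 211) (fin (add (start D3787) (orK (nat_lit 228) (fin (add (start D104) (orK (nat_lit 229) (fin (add (start D517) (orK (nat_lit 251) (fin (add (start D4059) (orK (nat_lit 188) (fin (add (start D451) D9149))))))))))))))))))) D3834) D3770)))) (orK (nat_lit 250) (fin (add (add (add (start D9293) D9848) D9805) (orK (nat_lit 189) (fin (add (add (start D9291) (orK (nat_lit 249) (fin (add (add (add (start D8899) D8917) D8929) (orK (nat_lit 231) (fin (add (add (add (start D8933) (orK (nat_lit 248) (fin (add (start D4359) (orK (nat_lit 229)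 (fin (add (start D4016) (orK (nat_lit 190) (fin (add (start D8934) D8936)))))))))) (orK (nat_lit 232) (fin (add (start D501) (orK (nat_lit 190) (fin (add (add (start (orK (nat_lit 170) (fin (add (start D7) D157)))) (orK (nat_lit 191) (fin (add (start D615) (orK (nat_lit 192) (fin (add (start D678) (orK (nat_lit 212) (fin (add (start D2688) (orK (nat_lit 188) (fin (add (start D2689) (orK (nat_lit 172) (fin (add (start D3857) D66)))))))))))))))) D8958))))))) (orK (nat_lit 232) (fin (add (start D501) (orK (nat_lit 248) (fin (add (start D4359) D8963))))))))))))) D9803))))))) (orK (nat_lit 189) (fin (add (add (add (start D3728) (orK (nat_lit 211) (fin (add (add (add (start D3733) D3737) (orK (nat_lit 212) (fin (add (start D3731) D3741)))) (orK (nat_lit 270) (fin (add (start D3744) (orK (nat_lit 208) (fin (add (add (start D3745) D1068) (orK (nat_lit 231) (fin (add (start D49) (orK (nat_lit 188) (fin (add (start D451) (orK (nat_lit 191) (fin (add (start D342) D3753))))))))))))))))))) (orK (nat_lit 149) (fin (add (start D3766) (orK (nat_lit 208) (fin (add (add (add (start D3770) (orK (nat_lit 207) (fin (add (start D2449) D3777))))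 D3791) D3815))))))) (orK (nat_lit 208) (fin (add (add (start (orK (nat_lit 211) (fin (add (add (start D3781) D2560) (orK (nat_lit 188) (fin (add (start D451) D3826))))))) D3834) D3770))))))) (orK (nat_lit 189) (fin (add (add (add (start (orK (nat_lit 231) (fin (add (add (start (orK (nat_lit 250) (fin (add (start D3724) (orK (nat_lit 190) (fin (add (add (start D9314) (orK (nat_lit 249) (fin (add (start D8) D8958)))) (orK (nat_lit 251) (fin (add (start D149) (orK (nat_lit 249) (fin (add (start D8) (orK (nat_lit 248) (fin (add (start D4359) (orK (nat_lit 268) (fin (add (start D8907) D9319))))))))))))))))))) D3909) D3910)))) D3728) D8780) (orK (nat_lit 149) (fin (add (start D3766) (orK (nat_lit 211) (fin (add (add (start (orK (nat_lit 212) (fin (add (add (start D3731) D449) D4659)))) (orK (nat_lit 188) (fin (add (start D8709) (orK (nat_lit 208) (fin (add (add (start D3745) D4460) (orK (nat_lit 231) (fin (add (start D49) D3753)))))))))) D8711)))))))))) (orK (nat_lit 231) (fin (add (add (add (start (orK (nat_lit 250) (fin (add (add (start D9290) (orK (nat_lit 251) (fin (add (add (start D9883) (orK (nat_lit 271) (fin (add (start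 D4221) (orK (nat_lit 249) (fin (add (start D9885) (orK (nat_lit 229) (fin (add (start (orK (nat_lit 252) D9888)) (orK (nat_lit 228) (fin (add (start D4311) D4848))))))))))))) D9903)))) D9293)))) D3909) D3910) (orK (nat_lit 208) (fin (add (start D3035) D9333))))))) (orK (nat_lit 189) (fin (add (add (add (start (orK (nat_lit 250) (fin (add (start D3724) D9922)))) D3728) D8780) D9972)))) (orK (nat_lit 208) (fin (add (add (add (start D3770) D9982) D9144) (orK (nat_lit 189) (fin (add (start D8780) D3815))))))) (orK (nat_lit 208) (fin (add (add (add (start D9571) (orK (nat_lit 231) (fin (add (add (start D3832) D3768) (orK (nat_lit 228) (fin (add (add (add (start D2524) (orK (nat_lit 248) (fin (add (add (start (orK (nat_lit 268) (fin (add (start D3297) (orK (nat_lit 229) D4317))))) D3312) (orK (nat_lit 247) (fin (add (start D3747) (orK (nat_lit 267) (fin (add (start D9405) (orK (nat_lit 287) (fin (add (start (win (nat_lit 3) (nat_lit 7) (nat_lit 10) (nat_lit 3))) D9407))))))))))))) (orK (nat_lit 189) (fin (add (add (start (orK (nat_lit 248) (fin (add (start D312) (orK (nat_lit 229) (fin (add (start D3847) (orK (nat_lit 251) (fin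 (add (start D4059) (orK (nat_lit 211) (fin (add (start D517) D9149))))))))))))) D10010) (orK (nat_lit 169) (fin (add (start D3307) (orK (nat_lit 211) (fin (add (add (start D3781) (orK (nat_lit 192) (fin (add (start D846) (orK (nat_lit 212) (fin (add (start D3911) D845))))))) (orK (nat_lit 188) (fin (add (start D451) (orK (nat_lit 191) (fin (add (start D342) (orK (nat_lit 171) (fin (add (start D3782) (orK (nat_lit 172) (fin (add (start D5988) (win (nat_lit 4) (nat_lit 8) (nat_lit 8) (nat_lit 2)))))))))))))))))))))))) D9662))))))) D3834) D3770))))
noncomputable def D10028 : OP := orK (nat_lit 230) D10027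
noncomputable def D13240 : OP := orK (nat_lit 191) (fin (add (start D342) (orK (nat_lit 207) (fin (add (start D8836) (orK (nat_lit 206) (fin (add (start D2421) D11040))))))))
noncomputable def D10901 : OP := win (nat_lit 6) (nat_lit 8) (nat_lit 7) (nat_lit 1)
noncomputable def D13234 : OP := orK (nat_lit 249) (fin (add (start D4015) D13232))
noncomputable def D18237 : OP := orK (nat_lit 208) (fin (add (add (add (add (add (start D16123) D13655) D2562) (orK (nat_lit 188) (fin (add (add (add (start D9049) (orK (nat_lit 229) (fin (add (add (start D13234) D9703) (orK (nat_lit 148) (fin (add (start D10901) (orK (nat_lit 211) (fin (add (add (add (start D10143) (orK (nat_lit 192) (fin (add (start D846) (orK (nat_lit 212) (fin (add (start D845) D59))))))) D13240) D2515)))))))))) D3348) D13472)))) D9103) D13514))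
noncomputable def D9252 : AP := fin (add (add (start D6739) D2517) D9059)
noncomputable def D9253 : OP := orK (nat_lit 208) D9252
noncomputable def D8091 : OP := orK (nat_lit 208) (fin (add (add (start D6739) D2556) D6743))
noncomputable def D19390 : AP := fin (add (add (add (add (add (add (add (add (add (add (add (add (add (add (add (add (start D9146) (orK (nat_lit 211) (fin (add (add (add (start (orK (nat_lit 208) D2561)) (orK (nat_lit 212) (fin (add (add (start D13464) D4666) D2993)))) D8091) D9253)))) D9270) (orK (nat_lit 190) (fin (add (add (add (add (add (add (add (add (start (orK (nat_lit 229) (fin (add (add (add (start (orK (nat_lit 249) (fin (add (start D462) (orK (nat_lit 208) (fin (add (start (orK (nat_lit 188) (fin (add (add (start D3344) (orK (nat_lit 211) D10144)) D4354)))) D2453))))))) D10150) D10229) D14058)))) D11212) (orK (nat_lit 191) (fin (add (add (add (start D10242) D2871) D17936) D2715)))) (orK (nat_lit 208) (fin (add (add (add (start D2467) D682) D10169) (orK (nat_lit 191) (fin (add (add (start D680) D19251) D697))))))) (orK (nat_lit 170) (fin (add (add (start D713) D16781) D2473)))) D16805) D11905)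 D14090) D17938)))) D18237) D10028) D9570) D9776) (orK (nat_lit 190) (fin (add (add (add (add (add (add (add (start D10231) D11883) D10280) D10310) (orK (nat_lit 191) (fin (add (add (add (start D10242) D2871) (orK (nat_lit 230) (fin (add (add (start D10340) (orK (nat_lit 208) (fin (add (start D50) (orK (nat_lit 232) (fin (add (add (add (start D4617) D4618) D4619) (orK (nat_lit 211) (fin (add (add (start D10342) D10366) D3937)))))))))) D10262)))) D2715)))) D19277) D10436) D10555)))) (orK (nat_lit 190) (fin (add (add (add (add (add (add (start D19281) D13981) D14043) D11883) (orK (nat_lit 170) (fin (add (add (add (add (add (start D192) (orK (nat_lit 230) (fin (add (add (start D543) D547) D19309)))) D19322) D19323) D556) D596)))) D14060) D14090)))) D11093) D19220) D13121) D13193) D13538) (orK (nat_lit 190) (fin (add (add (add (add (add (add (add (add (add (add (add (start D17783) D2564) D19277) (orK (nat_lit 229) (fin (add (add (add (start D10229) D17869) (orK (nat_lit 211) (fin (add (add (start D3455) (orK (nat_lit 170) (fin (add (add (start (orK (nat_lit 150) (fin (add (start D80) D45)))) D19332) D472)))) (orK (nat_lit 208)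 (fin (add (add (add (add (add (start D1068) (orK (nat_lit 188) (fin (add (start D451) (orK (nat_lit 228) (fin (add (start D104) (orK (nat_lit 168) (fin (add (start D1912) (orK (nat_lit 169) (fin (add (start D2538) (orK (nat_lit 189) (fin (add (start D3065) D17040)))))))))))))))) (orK (nat_lit 207) (fin (add (add (start D671) D13615) (orK (nat_lit 189) (fin (add (start D413) (orK (nat_lit 228) (fin (add (start D104) D10010)))))))))) (orK (nat_lit 231) (fin (add (start D49) (orK (nat_lit 227) (fin (add (start D669) (orK (nat_lit 207) (fin (add (start D668) D659)))))))))) (orK (nat_lit 187) (fin (add (start D667) D13428)))) (orK (nat_lit 231) D19363)))))))) (orK (nat_lit 249) (fin (add (start D462) (orK (nat_lit 170) (fin (add (start D460) (orK (nat_lit 211) (fin (add (add (add (start D8137) D19332) (orK (nat_lit 228) (fin (add (start D1911) (orK (nat_lit 227) (fin (add (start D3456) (orK (nat_lit 251) (fin (add (start (orK (nat_lit 250) D16559)) D11703)))))))))) (orK (nat_lit 231) (fin (add (start D404) (orK (nat_lit 208) (fin (add (start D49) D3359))))))))))))))))))) D19281) D17793) D17865) D17253) D17920) D17938) D17946) D17958))))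 D18564)
noncomputable def D19391 : OP := orK (nat_lit 209) D19390
noncomputable def D10723 : OP := orK (nat_lit 249) (fin (add (start D462) (orK (nat_lit 250) (fin (add (add (add (start D10680) (orK (nat_lit 251) (fin (add (add (start D10684) D10689) D10698)))) D10711) D10719)))))
noncomputable def D17266 : OP := orK (nat_lit 190) (fin (add (add (add (add (add (add (add (add (add (add (start D11212) D14060) D16612) D16728) D16770) D16783) D16805) (orK (nat_lit 229) (fin (add (add (add (start D10723) D10150) D10229) D16815)))) D17019) D17253) D17264))
noncomputable def D3842 : OP := win (nat_lit 5) (nat_lit 11) (nat_lit 10) (nat_lit 0)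
noncomputable def D8693 : OP := orK (nat_lit 150) (fin (add (start D5708) D8691))
noncomputable def D18673 : OP := orK (nat_lit 229) (fin (add (start D11108) (orK (nat_lit 228) (fin (add (start D3065) (orK (nat_lit 149) (fin (add (start D5955) D8693))))))))
noncomputable def D18652 : OP := orK (nat_lit 149) (fin (add (start D5473) (orK (nat_lit 208) (fin (add (start D318) D3236)))))
noncomputable def D18754 : AP := fin (add (add (add (add (add (add (start (orK (nat_lit 169) (fin (add (add (add (start (orK (nat_lit 149) (fin (add (start D8877) (orK (nat_lit 228) (fin (add (start D5955) (orK (nat_lit 229) (fin (add (start D3065) D8693)))))))))) (orK (nat_lit 230) (fin (add (add (start D3726) D8738) (orK (nat_lit 229) (fin (add (start D4475) (orK (nat_lit 170) (fin (add (start D5744) (orK (nat_lit 190) (fin (add (start D20) (orK (nat_lit 171) (fin (add (start D14) D3569)))))))))))))))) D5767) D8748)))) D18121) (orK (nat_lit 169) (fin (add (add (add (start D11124) (orK (nat_lit 188) (fin (add (add (start (orK (nat_lit 187) (fin (add (start D1890) (orK (nat_lit 211) (fin (add (start D8606) D1889))))))) (orK (nat_lit 168) (fin (add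 (add (start D8612) (orK (nat_lit 229) (fin (add (start D4012) (orK (nat_lit 170) (fin (add (start D5744) (orK (nat_lit 171) (fin (add (start D2130) (orK (nat_lit 151) (fin (add (start D119) (orK (nat_lit 230) (fin (add (start D8782) D4009)))))))))))))))) (orK (nat_lit 212) (fin (add (start D8781) (orK (nat_lit 148) (fin (add (start D3429) (orK (nat_lit 170) (fin (add (add (start (orK (nat_lit 171) (fin (add (start D770) D2130)))) (orK (nat_lit 150) (fin (add (start D8980) (orK (nat_lit 167) (fin (add (start D882) D18580))))))) (orK (nat_lit 171) (fin (add (start D2130) (orK (nat_lit 151) (fin (add (start D119) (orK (nat_lit 190) (fin (add (start D216) (orK (nat_lit 166) (fin (add (start D18585) (orK (nat_lit 150) D16918)))))))))))))))))))))))))) D18628)))) D5767) D8748)))) (orK (nat_lit 211) (fin (add (add (start D8711) (orK (nat_lit 212) (fin (add (start D8718) D4659)))) (orK (nat_lit 208) (fin (add (add (start D6739) (orK (nat_lit 188) (fin (add (start D451) (orK (nat_lit 228) (fin (add (start D104) (orK (nat_lit 248) (fin (add (start D312) (orK (nat_lit 249) (fin (add (start D4630) (orK (nat_lit 168) (fin (add (start D4629)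 D18634)))))))))))))))) D6743))))))) (orK (nat_lit 188) (fin (add (add (add (start D4479) (orK (nat_lit 212) (fin (add (start D8781) (orK (nat_lit 169) (fin (add (add (add (start D18652) D5767) (orK (nat_lit 229) (fin (add (add (start D11108) D7560) (orK (nat_lit 168) (fin (add (start D3044) (orK (nat_lit 228) (fin (add (start D3065) (orK (nat_lit 170) (fin (add (start D5744) (orK (nat_lit 227) (fin (add (start D3456) (orK (nat_lit 247) (fin (add (start D18653) (orK (nat_lit 230) (fin (add (start D4043) D4009)))))))))))))))))))))) D18673))))))) (orK (nat_lit 169) (fin (add (add (add (start D18652) D5767) D18689) D18673)))) (orK (nat_lit 186) (fin (add (start D6869) (orK (nat_lit 169) (fin (add (add (add (start D5767) D18693) (orK (nat_lit 149) (fin (add (start D5473) (orK (nat_lit 130) (fin (add (start D5750) (orK (nat_lit 129) (fin (add (start D5749) (orK (nat_lit 109) (fin (add (start D6358) D5848))))))))))))) (orK (nat_lit 211) (fin (add (start D1891) (orK (nat_lit 148) (fin (add (add (add (start (orK (nat_lit 128) (fin (add (start D16973) D7130)))) (orK (nat_lit 168) (fin (add (start D7129) (orK (nat_lit 167) (fin (add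 (start D18607) (orK (nat_lit 170) (fin (add (start (orK (nat_lit 147) (fin (add (start D2106) D2629)))) (orK (nat_lit 150) (fin (add (start D882) D5770))))))))))))) (orK (nat_lit 168) D8611)) (orK (nat_lit 149) (fin (add (start D5243) (orK (nat_lit 150) (fin (add (start D5708) (orK (nat_lit 170) (fin (add (start D1922) D8311))))))))))))))))))))))))) (orK (nat_lit 211) (fin (add (add (add (start (orK (nat_lit 212) D10035)) (orK (nat_lit 212) (fin (add (add (start D8718) (orK (nat_lit 232) (fin (add (start D411) (orK (nat_lit 208) (fin (add (start D412) (orK (nat_lit 227) (fin (add (start D669) (orK (nat_lit 207) (fin (add (start D668) D10642))))))))))))) (orK (nat_lit 232) (fin (add (start D411) (orK (nat_lit 193) (fin (add (start D442) (orK (nat_lit 213) (fin (add (start D443) (orK (nat_lit 231) (fin (add (start D3038) (orK (nat_lit 214) (fin (add (start D5288) D3842))))))))))))))))))) D3737) (orK (nat_lit 188) (fin (add (add (start D8709) (orK (nat_lit 208) (fin (add (start (orK (nat_lit 228) (fin (add (start D104) (orK (nat_lit 248) D2525))))) (orK (nat_lit 231) (fin (add (start D49) (orK (nat_lit 207) (fin (add (start D2459)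 (orK (nat_lit 206) (fin (add (start D305) D8724))))))))))))) D3735))))))) (orK (nat_lit 190) D17864))
noncomputable def D503 : OP := orK (nat_lit 209) (fin (add (start D500) D501))
noncomputable def D525 : OP := orK (nat_lit 232) (fin (add (add (start D503) (orK (nat_lit 253) (fin (add (start D504) (orK (nat_lit 233) (fin (add (start D505) (orK (nat_lit 213) (fin (add (start D506) D507)))))))))) (orK (nat_lit 208) (fin (add (start D514) D521)))))
noncomputable def D529 : OP := orK (nat_lit 231) (fin (add (start D157) (orK (nat_lit 229) (fin (add (start D20) D525)))))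
noncomputable def D548 : AP := fin (add (add (start D543) D547) D529)
noncomputable def D549 : OP := orK (nat_lit 230) D548
noncomputable def D534 : AP := fin (add (add (start D29) D529) D533)
noncomputable def D535 : OP := orK (nat_lit 230) D534
noncomputable def D597 : AP := fin (add (add (add (add (start D535) D549) D192) D556) D596)
noncomputable def D14044 : OP := orK (nat_lit 170) D597
noncomputable def D10444 : OP := orK (nat_lit 170) D534
noncomputable def D10503 : OP := orK (nat_lit 191) (fin (add (add (add (start D2871) (orK (nat_lit 230) (fin (add (add (add (start D10250) (orK (nat_lit 250) (fin (add (add (start D10302) D717) D9920)))) D10443) D10444)))) (orK (nat_lit 192) (fin (add (start D678) (orK (nat_lit 170) (fin (add (add (add (start D10402) D2473) (orK (nat_lit 169) (fin (add (start D8506) (orK (nat_lit 230) (fin (add (start D223) (orK (nat_lit 229) (fin (add (start D20) (orK (nat_lit 251) (fin (add (start D148) (orK (nat_lit 250) (fin (add (start D149) D10448)))))))))))))))) D215))))))) D10501))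
noncomputable def D10390 : OP := orK (nat_lit 230) (fin (add (start D9766) D10388))
noncomputable def D14092 : OP := orK (nat_lit 190) (fin (add (add (add (add (add (add (start D13930) D13981) D11883) D14043) D14044) D14060) D14090))
noncomputable def D19226 : OP := orK (nat_lit 209) (fin (add (add (add (add (add (add (add (add (add (add (add (add (add (add (add (start D14092) D9146) D18177) D9270) D18223) D18237) (orK (nat_lit 190) (fin (add (add (add (add (add (add (add (add (start (orK (nat_lit 208) (fin (add (add (add (start D17474) D682) D10563) D3385)))) D10310) D13919) (orK (nat_lit 229) (fin (add (add (add (start D14056) D10150) D10229) (orK (nat_lit 170) (fin (add (start D460) D10390))))))) D10503) D14044) D10555) D10280) D10420)))) D9570) (orK (nat_lit 208) (fin (add (add (add (add (start D3941) D10933) D18221) (orK (nat_lit 211) D9252)) D2562)))) D18564) (orK (nat_lit 189) D18754)) D19220) D17266) D13193) (orK (nat_lit 208) (fin (add (add (add (add (add (start D10030) D19222) D13514) D13297) D13518) D13536)))) D13621))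
noncomputable def D8547 : OP := orK (nat_lit 208) (fin (add (start D50) (orK (nat_lit 211) (fin (add (start D8535) (orK (nat_lit 188) (fin (add (start D451) (orK (nat_lit 189) (fin (add (start D54) (orK (nat_lit 168) (fin (add (start D373) D8537))))))))))))))
noncomputable def D14953 : OP := orK (nat_lit 189) (fin (add (add (add (start D14935) D14908) (orK (nat_lit 151) (fin (add (start D118) (orK (nat_lit 169) (fin (add (start D14228) (orK (nat_lit 192) (fin (add (start D10232) (orK (nat_lit 212) (fin (add (start D2688) (orK (nat_lit 172) (fin (add (start D66) D1372)))))))))))))))) (orK (nat_lit 188) (fin (add (start D3428) (orK (nat_lit 167) (fin (add (start D11518) (orK (nat_lit 187) (fin (add (start D9066) D14334)))))))))))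
noncomputable def D13838 : OP := win (nat_lit 4) (nat_lit 8) (nat_lit 11) (nat_lit 4)
noncomputable def D15365 : OP := orK (nat_lit 232) (fin (add (start D13838) D10906))
noncomputable def D16413 : OP := orK (nat_lit 248) (fin (add (add (start D10326) D11252) (orK (nat_lit 252) (fin (add (start D11260) D15365)))))
noncomputable def D5445 : AP := fin (add (add (add (add (add (add (add (start D5338) D3272) D549) D5366) D5436) (orK (nat_lit 209) (fin (add (add (start D3387) D2473) D713)))) D5444) D753)
noncomputable def D607 : AP := fin (add (add (start D606) D529) D155)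
noncomputable def D608 : OP := orK (nat_lit 230) D607
noncomputable def D5460 : AP := fin (add (add (add (add (start D215) D5448) D5458) D608) D5459)
noncomputable def D2476 : OP := orK (nat_lit 209) (fin (add (add (add (start D2418) D2471) D2473) (orK (nat_lit 150) D198)))
noncomputable def D5327 : AP := fin (add (add (add (add (add (add (add (start D549) D5180) D2476) D3272) D753) D5221) D5320) D5326)
noncomputable def D3533 : OP := win (nat_lit 7) (nat_lit 11) (nat_lit 6) (nat_lit 3)
noncomputable def D1173 : OP := win (nat_lit 2) (nat_lit 11) (nat_lit 8) (nat_lit 0)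
noncomputable def D1174 : AP := fin (add (start (win (nat_lit 2) (nat_lit 10) (nat_lit 8) (nat_lit 3))) D1173)
noncomputable def D1175 : OP := orK (nat_lit 194) D1174
noncomputable def D1196 : AP := fin (add (start D1127) D1175)
noncomputable def D1197 : OP := orK (nat_lit 193) D1196
noncomputable def D3515 : OP := orK (nat_lit 231) (fin (add (start D157) D525))
noncomputable def D3625 : AP := fin (add (add (add (add (add (add (add (start D3389) D3475) D3513) (orK (nat_lit 171) (fin (add (add (start (orK (nat_lit 230) (fin (add (add (start D254) D153) (orK (nat_lit 229) (fin (add (start D20) D3515))))))) (orK (nat_lit 230) (fin (add (start D14) D539)))) (orK (nat_lit 172) (fin (add (add (add (start D2391) D3532) (orK (nat_lit 189) (fin (add (add (start D2389) (orK (nat_lit 192) (fin (add (add (start D1197) (orK (nat_lit 212) (fin (add (start D2481) (orK (nat_lit 151) (fin (add (start D1372) (orK (nat_lit 131) (fin (add (start D217) D3533)))))))))) (orK (nat_lit 169) (fin (add (start D240) (orK (nat_lit 152) (fin (add (start D281) (orK (nat_lit 168) (fin (add (start D280) (orK (nat_lit 167) (fin (add (start D3540) D3542))))))))))))))))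 D3554)))) D3558))))))) D535) D3564) D3624) D715)
noncomputable def D2864 : OP := orK (nat_lit 212) (fin (add (start (orK (nat_lit 213) D2856)) D2862))
noncomputable def D2711 : OP := orK (nat_lit 192) (fin (add (start D678) (orK (nat_lit 189) (fin (add (add (start D2687) (orK (nat_lit 212) (fin (add (start D2688) (orK (nat_lit 188) (fin (add (start D2689) (orK (nat_lit 187) (fin (add (start D1890) D2690)))))))))) (orK (nat_lit 172) (fin (add (start D66) (orK (nat_lit 212) (fin (add (start D2688) (orK (nat_lit 232) (fin (add (start D2697) (orK (nat_lit 233) (fin (add (start D2698) D2699)))))))))))))))))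
noncomputable def D2897 : AP := fin (add (add (add (add (add (add (add (start D209) D2671) (orK (nat_lit 209) (fin (add (add (start D701) D2473) (orK (nat_lit 191) (fin (add (add (start (orK (nat_lit 230) (fin (add (start D2675) (orK (nat_lit 208) (fin (add (start D50) (orK (nat_lit 231) (fin (add (start D157) (orK (nat_lit 211) D2676))))))))))) (orK (nat_lit 171) (fin (add (start D2684) D2711)))) D2715))))))) D2765) D2789) D2805) D2849) (orK (nat_lit 209) (fin (add (add (add (start D466) D701) (orK (nat_lit 150) D2850)) (orK (nat_lit 191) (fin (add (add (add (start (orK (nat_lit 150) (fin (add (add (start (orK (nat_lit 211) (fin (add (start D45) (orK (nat_lit 192) (fin (add (start D678) D2864))))))) D2755) D188)))) D2871) (orK (nat_lit 207) (fin (add (start D2872) (orK (nat_lit 150) (fin (add (add (start (orK (nat_lit 149) (fin (add (start D175) (orK (nat_lit 211) (fin (add (start D45) (orK (nat_lit 212) (fin (add (add (start D100) D2876) (orK (nat_lit 188) (fin (add (start D116) (orK (nat_lit 232) (fin (add (start D411) (orK (nat_lit 171) (fin (add (start D2858) D896))))))))))))))))))) D2755) D188))))))) D2715)))))))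
noncomputable def D2567 : AP := fin (add (add (add (add (add (add (start D165) (orK (nat_lit 171) (fin (add (add (start D2364) D2369) (orK (nat_lit 151) (fin (add (add (start D220) (orK (nat_lit 172) (fin (add (add (start (orK (nat_lit 169) (fin (add (add (start D1035) D2221) (orK (nat_lit 189) (fin (add (start D226) (orK (nat_lit 192) (fin (add (start D240) (orK (nat_lit 152) (fin (add (start D281) D2379))))))))))))) D2391) D2400)))) D2367))))))) D2476) D2497) D608) D535) (orK (nat_lit 209) (fin (add (add (add (start D466) D707) D2564) D713))))
noncomputable def D3124 : OP := orK (nat_lit 191) (fin (add (start D3115) D3122))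
noncomputable def D3037 : OP := orK (nat_lit 208) D3036
noncomputable def D3058 : OP := orK (nat_lit 231) (fin (add (start D157) (orK (nat_lit 212) (fin (add (start D57) (orK (nat_lit 169) (fin (add (start D223) (orK (nat_lit 229) (fin (add (start D3034) (orK (nat_lit 209) (fin (add (start D3037) (orK (nat_lit 192) (fin (add (start D845) (orK (nat_lit 168) (fin (add (start (win (nat_lit 2) (nat_lit 8) (nat_lit 8) (nat_lit 1))) D3044))))))))))))))))))))
noncomputable def D3000 : OP := orK (nat_lit 209) (fin (add (start D80) (orK (nat_lit 130) (fin (add (start D166) D193)))))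
noncomputable def D3136 : OP := orK (nat_lit 211) (fin (add (add (add (start (orK (nat_lit 150) (fin (add (add (start D3000) (orK (nat_lit 209) (fin (add (start D80) D3099)))) D470)))) (orK (nat_lit 189) (fin (add (add (add (start (orK (nat_lit 230) (fin (add (add (start D3026) D3111) D3058)))) D426) D428) (orK (nat_lit 230) (fin (add (add (start D3026) D3111) (orK (nat_lit 169) (fin (add (start D223) (orK (nat_lit 231) (fin (add (start D157) (orK (nat_lit 188) (fin (add (start D53) D3124)))))))))))))))) D2416) D406))
noncomputable def D3033 : OP := orK (nat_lit 251) (fin (add (start D148) D3031))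
noncomputable def D3085 : OP := orK (nat_lit 211) (fin (add (add (start (orK (nat_lit 150) (fin (add (add (start D205) (orK (nat_lit 209) (fin (add (start D80) D459)))) D190)))) (orK (nat_lit 189) (fin (add (add (add (start (orK (nat_lit 230) (fin (add (add (start D3026) D3033) D3058)))) D426) D428) (orK (nat_lit 187) (fin (add (start D3061) (orK (nat_lit 230) (fin (add (add (start D3026) D3033) (orK (nat_lit 169) (fin (add (start D223) (orK (nat_lit 231) (fin (add (start D157) (orK (nat_lit 209) (fin (add (start D3037) (orK (nat_lit 168) (fin (add (start (orK (nat_lit 191) D3063)) (orK (nat_lit 229) (fin (add (start D3044) D3067))))))))))))))))))))))))) D2416))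
noncomputable def D17644 : OP := orK (nat_lit 112) (fin (add (start (win (nat_lit 1) (nat_lit 11) (nat_lit 5) (nat_lit 4))) D17642))
noncomputable def D15108 : OP := orK (nat_lit 211) (fin (add (start D1160) (orK (nat_lit 213) (fin (add (start D101) D2375)))))
noncomputable def D8525 : OP := orK (nat_lit 211) (fin (add (add (start D2864) (orK (nat_lit 152) D2924)) D8523))
noncomputable def D11213 : AP := fin (add (start D101) D443)
noncomputable def D11214 : OP := orK (nat_lit 213) D11213
noncomputable def D11512 : OP := orK (nat_lit 212) (fin (add (start D11214) (orK (nat_lit 229) (fin (add (start D59) (orK (nat_lit 171) (fin (add (add (start D11338) (orK (nat_lit 249) (fin (add (start D462) (orK (nat_lit 231) (fin (add (add (start (orK (nat_lit 230) (fin (add (start D3783) (orK (nat_lit 232) (fin (add (start D3659) D4732))))))) (orK (nat_lit 251) (fin (add (start D402) D5991)))) D11444))))))) (orK (nat_lit 151) D11505)))))))))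
noncomputable def D11349 : OP := orK (nat_lit 214) (fin (add (start (win (nat_lit 6) (nat_lit 13) (nat_lit 6) (nat_lit 4))) (win (nat_lit 6) (nat_lit 13) (nat_lit 7) (nat_lit 5))))
noncomputable def D1663 : OP := win (nat_lit 3) (nat_lit 13) (nat_lit 5) (nat_lit 5)
noncomputable def D11345 : OP := orK (nat_lit 134) (fin (add (start D1663) (win (nat_lit 3) (nat_lit 13) (nat_lit 6) (nat_lit 4))))
noncomputable def D11351 : OP := orK (nat_lit 133) (fin (add (start D11345) D11349))
noncomputable def D1603 : OP := win (nat_lit 7) (nat_lit 12) (nat_lit 5) (nat_lit 5)
noncomputable def D11360 : OP := orK (nat_lit 132) (fin (add (start D1603) (win (nat_lit 7) (nat_lit 12) (nat_lit 6) (nat_lit 4))))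
noncomputable def D11362 : OP := orK (nat_lit 133) (fin (add (start D11349) D11360))
noncomputable def D6078 : OP := win (nat_lit 3) (nat_lit 13) (nat_lit 6) (nat_lit 5)
noncomputable def D6082 : OP := win (nat_lit 7) (nat_lit 12) (nat_lit 6) (nat_lit 5)
noncomputable def D11364 : OP := orK (nat_lit 133) (fin (add (start D11345) D11360))
noncomputable def D6085 : OP := orK (nat_lit 152) (fin (add (start D6082) (win (nat_lit 7) (nat_lit 12) (nat_lit 7) (nat_lit 4))))
noncomputable def D11355 : OP := orK (nat_lit 234) (fin (add (start (win (nat_lit 6) (nat_lit 13) (nat_lit 7) (nat_lit 4))) (win (nat_lit 6) (nat_lit 13) (nat_lit 8) (nat_lit 5))))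
noncomputable def D11370 : OP := orK (nat_lit 153) (fin (add (add (start D11351) (orK (nat_lit 233) (fin (add (start D11355) D6085)))) D11364))
noncomputable def D6081 : OP := orK (nat_lit 154) (fin (add (start D6078) (win (nat_lit 3) (nat_lit 13) (nat_lit 7) (nat_lit 4))))
noncomputable def D11366 : OP := orK (nat_lit 153) (fin (add (add (start (orK (nat_lit 233) (fin (add (start D6081) D11355)))) D11362) D11364))
noncomputable def D2194 : OP := win (nat_lit 7) (nat_lit 12) (nat_lit 6) (nat_lit 3)
noncomputable def D11382 : OP := orK (nat_lit 132) (fin (add (start D1145) D2194))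
noncomputable def D1640 : OP := win (nat_lit 7) (nat_lit 12) (nat_lit 7) (nat_lit 0)
noncomputable def D11380 : OP := orK (nat_lit 174) (fin (add (start (win (nat_lit 5) (nat_lit 10) (nat_lit 8) (nat_lit 2))) (orK (nat_lit 154) (fin (add (start (win (nat_lit 3) (nat_lit 13) (nat_lit 7) (nat_lit 0))) (orK (nat_lit 134) (fin (add (start (win (nat_lit 1) (nat_lit 13) (nat_lit 5) (nat_lit 0))) (win (nat_lit 1) (nat_lit 13) (nat_lit 6) (nat_lit 3))))))))))
noncomputable def D11494 : OP := orK (nat_lit 230) (fin (add (add (start D10612) (orK (nat_lit 250) (fin (add (start D3027) (orK (nat_lit 249) (fin (add (start D8) (orK (nat_lit 251) (fin (add (start D149) (orK (nat_lit 212) (fin (add (start (orK (nat_lit 252) (fin (add (start (orK (nat_lit 232) (fin (add (start D411) D2966)))) D10313)))) D11214))))))))))))) (orK (nat_lit 171) (fin (add (start D3782) (orK (nat_lit 213) (fin (add (add (start (orK (nat_lit 212) D10367)) (orK (nat_lit 173) (fin (add (add (add (add (start D11380) (orK (nat_lit 172) (fin (add (start D10469) (orK (nat_lit 152) (fin (add (start D1640) D11382))))))) D11366) D11370) (orK (nat_lit 172) (fin (add (start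 D10469) (orK (nat_lit 153) (fin (add (add (start (orK (nat_lit 152) (fin (add (start D6082) (orK (nat_lit 154) (fin (add (start D6078) D1140))))))) D11362) D11351)))))))))) (orK (nat_lit 212) D4446)))))))))
noncomputable def D11334 : OP := orK (nat_lit 212) D11213
noncomputable def D11393 : OP := orK (nat_lit 213) (fin (add (add (add (start D11334) (orK (nat_lit 212) D11335)) (orK (nat_lit 171) (fin (add (start D11338) (orK (nat_lit 173) (fin (add (add (add (start D11366) D11370) D11380) (orK (nat_lit 172) (fin (add (start D10469) (orK (nat_lit 152) (fin (add (start D1257) D11382))))))))))))) (orK (nat_lit 212) D4663)))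
noncomputable def D11454 : OP := orK (nat_lit 171) (fin (add (add (start D11338) (orK (nat_lit 231) (fin (add (add (start D11437) D11441) D11444)))) (orK (nat_lit 151) (fin (add (start D118) (orK (nat_lit 152) (fin (add (start D1795) (orK (nat_lit 231) (fin (add (start D6601) D11441)))))))))))
noncomputable def D3143 : OP := win (nat_lit 6) (nat_lit 11) (nat_lit 8) (nat_lit 3)
noncomputable def D8060 : AP := fin (add (start D2858) (orK (nat_lit 252) (fin (add (start D3143) D2966))))
noncomputable def D11219 : OP := orK (nat_lit 212) (fin (add (start D11214) (orK (nat_lit 232) (fin (add (start D411) (orK (nat_lit 171) D8060))))))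
noncomputable def D13878 : OP := orK (nat_lit 193) (fin (add (start D3390) (orK (nat_lit 211) (fin (add (add (add (add (add (start D11219) D11454) D11393) (orK (nat_lit 212) (fin (add (start D11214) (orK (nat_lit 232) (fin (add (start D411) (orK (nat_lit 252) (fin (add (start D2966) (orK (nat_lit 230) (fin (add (add (add (start (orK (nat_lit 229) (fin (add (start D59) (orK (nat_lit 231) (fin (add (start D3671) D12968))))))) (orK (nat_lit 250) (fin (add (start D3027) (orK (nat_lit 251) (fin (add (start D149) (orK (nat_lit 249) (fin (add (start D8) (orK (nat_lit 248) (fin (add (start D13838) D13842))))))))))))) (orK (nat_lit 250) (fin (add (start D3027) (orK (nat_lit 249) (fin (add (start D8) (orK (nat_lit 251) (fin (add (start D149) (orK (nat_lit 253) (fin (add (start (win (nat_lit 2) (nat_lit 9) (nat_lit 11) (nat_lit 5))) (orK (nat_lit 231) (fin (add (start D4268) D8919)))))))))))))))) (orK (nat_lit 250) (fin (add (start D3027) (orK (nat_lit 229) (fin (add (start D59) (orK (nat_lit 251) D10681)))))))))))))))))))) D11494) D11512)))))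
noncomputable def D740 : AP := fin (add (add (add (add (add (add (add (add (start D600) D608) D209) D644) D535) D646) D715) D733) D739)
noncomputable def D18096 : AP := fin (add (add (add (add (add (add (add (add (add (add (add (add (add (add (add (add (add (add (start D14044) (orK (nat_lit 170) D740)) (orK (nat_lit 230) (fin (add (add (add (add (add (start D14297) D14655) D17286) (orK (nat_lit 231) (fin (add (add (add (start (orK (nat_lit 170) (fin (add (add (start (orK (nat_lit 229) (fin (add (start D20) (orK (nat_lit 150) (fin (add (start D21) D156))))))) D547) D2956)))) (orK (nat_lit 251) (fin (add (add (start D12495) D14370) (orK (nat_lit 250) (fin (add (start D14063) (orK (nat_lit 189) (fin (add (start D3476) (orK (nat_lit 270) (fin (add (start D3105) (orK (nat_lit 211) (fin (add (start D14371) D9286)))))))))))))))) D13021) D14412)))) D14415) (orK (nat_lit 191) (fin (add (add (add (start D10250) (orK (nat_lit 189) (fin (add (add (start D14908) (orK (nat_lit 209) (fin (add (start D15404) (orK (nat_lit 250) (fin (add (start D3724) D13909))))))) D17308)))) D17318) (orK (nat_lit 171) (fin (add (add (start D10248) (orK (nat_lit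 192) (fin (add (add (start (orK (nat_lit 193) (fin (add (start D14616) D17328)))) (orK (nat_lit 189) (fin (add (start D2687) D17334)))) D17348)))) (orK (nat_lit 131) (fin (add (start D372) (orK (nat_lit 189) (fin (add (add (add (start D14935) D14908) (orK (nat_lit 192) (fin (add (add (start D14300) D14310) (orK (nat_lit 212) (fin (add (start D2688) (orK (nat_lit 172) (fin (add (start D66) (orK (nat_lit 209) (fin (add (start D3405) (orK (nat_lit 232) (fin (add (start D2697) (orK (nat_lit 231) D17351))))))))))))))))) (orK (nat_lit 188) (fin (add (start D3428) D17383))))))))))))))))))) D17396) (orK (nat_lit 209) (fin (add (add (add (add (add (add (add (add (add (start (orK (nat_lit 208) (fin (add (add (add (start D9271) D682) (orK (nat_lit 191) (fin (add (add (start D680) (orK (nat_lit 188) (fin (add (add (add (start D9049) (orK (nat_lit 229) (fin (add (add (start (orK (nat_lit 249) (fin (add (start D462) D3344)))) (orK (nat_lit 168) (fin (add (start D1912) (orK (nat_lit 189) (fin (add (start D373) D11534))))))) (orK (nat_lit 249) (fin (add (start D462) (orK (nat_lit 211) (fin (add (add (start (orK (nat_lit 212) (fin (add (start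 D116) D59)))) (orK (nat_lit 231) (fin (add (start D49) (orK (nat_lit 228) (fin (add (start D104) (orK (nat_lit 251) (fin (add (start D402) (orK (nat_lit 230) (fin (add (start D4059) D3785))))))))))))) (orK (nat_lit 212) (fin (add (start D116) D6052))))))))))))) (orK (nat_lit 211) (fin (add (start D451) (orK (nat_lit 231) (fin (add (start D49) (orK (nat_lit 228) (fin (add (start D104) (orK (nat_lit 229) (fin (add (start D1911) D11006))))))))))))) D17442)))) D697)))) D3385)))) D16728) D17472) (orK (nat_lit 208) (fin (add (add (add (add (start D2467) D16123) D17474) D16591) D3941)))) D17502) D17520) D2564) D13919) D14043) (orK (nat_lit 191) (fin (add (add (add (add (add (add (start D13878) D11599) D11607) D11619) D11631) D11643) (orK (nat_lit 192) (fin (add (start D678) (orK (nat_lit 172) (fin (add (add (add (start D2904) (orK (nat_lit 189) (fin (add (start D66) (orK (nat_lit 212) (fin (add (start D2688) (orK (nat_lit 188) (fin (add (start D2689) D13049)))))))))) D8525) (orK (nat_lit 152) (fin (add (add (add (start (orK (nat_lit 211) (fin (add (start D2726) (orK (nat_lit 231) (fin (add (start D2727) D2732))))))) (orK (nat_lit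 212) (fin (add (add (start D15108) (orK (nat_lit 153) (fin (add (start D3872) (orK (nat_lit 232) (fin (add (start D3873) D15100))))))) (orK (nat_lit 231) (fin (add (start D3871) (orK (nat_lit 232) (fin (add (start D3857) D3875)))))))))) (orK (nat_lit 132) (fin (add (add (start D17644) (orK (nat_lit 131) (fin (add (start D1161) (orK (nat_lit 151) (fin (add (start D16875) D1294))))))) (orK (nat_lit 112) (fin (add (start D17642) D1154))))))) (orK (nat_lit 132) (fin (add (start D1146) D17644))))))))))))))))))) D14607) (orK (nat_lit 170) (fin (add (add (add (add (add (start D600) D3018) D8594) D3085) D3136) D11207)))) (orK (nat_lit 170) D2567)) (orK (nat_lit 170) D2897)) (orK (nat_lit 170) D3625)) (orK (nat_lit 170) D5327)) (orK (nat_lit 170) D5460)) (orK (nat_lit 170) D5445)) (orK (nat_lit 230) (fin (add (add (add (add (start D14297) D14473) D14655) (orK (nat_lit 170) (fin (add (add (add (start D155) D612) (orK (nat_lit 150) (fin (add (add (add (start D25) (orK (nat_lit 129) (fin (add (start D184) (orK (nat_lit 130) (fin (add (start D183) (orK (nat_lit 171) (fin (add (start D14) (orK (nat_lit 191) (fin (add (start D960) D2852)))))))))))))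 D13956) D560)))) (orK (nat_lit 250) (fin (add (add (start D151) (orK (nat_lit 191) (fin (add (start D615) (orK (nat_lit 211) (fin (add (start D3027) D47))))))) D719))))))) (orK (nat_lit 191) (fin (add (add (add (start D10250) (orK (nat_lit 189) (fin (add (add (start D14908) (orK (nat_lit 250) (fin (add (add (start D14234) (orK (nat_lit 249) (fin (add (start D8) (orK (nat_lit 251) (fin (add (start D149) D16413))))))) D14974)))) D17308)))) D17318) (orK (nat_lit 171) (fin (add (add (start D10248) (orK (nat_lit 189) (fin (add (add (start D14904) D14908) D17735)))) D14953)))))))))) D17744) D17745) D17960) D17961) (orK (nat_lit 209) (fin (add (add (add (add (add (add (add (add (add (start D17983) D14601) D18007) D18019) D18020) (orK (nat_lit 170) (fin (add (add (add (start D12047) (orK (nat_lit 229) (fin (add (add (start D2420) D464) (orK (nat_lit 211) (fin (add (add (add (start D3455) D3461) D12065) D11871))))))) D2473) D466)))) D17264) (orK (nat_lit 170) (fin (add (add (add (start D12047) (orK (nat_lit 191) (fin (add (add (add (start D10242) D2871) D8547) D2715)))) D2473) D466)))) D18063) D18093))))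
noncomputable def D18097 : OP := orK (nat_lit 190) D18096
noncomputable def D10179 : OP := orK (nat_lit 191) (fin (add (add (start D680) (orK (nat_lit 170) (fin (add (add (start (orK (nat_lit 150) (fin (add (start D80) D2854)))) D10175) D215)))) D697))
noncomputable def D10567 : OP := orK (nat_lit 190) (fin (add (add (start D9748) D682) D10179))
noncomputable def D13475 : AP := fin (add (add (add (add (add (add (add (add (add (add (start D10822) D13297) D9581) (orK (nat_lit 190) (fin (add (add (add (start (orK (nat_lit 207) (fin (add (add (add (start (orK (nat_lit 206) (fin (add (start D655) (orK (nat_lit 185) (fin (add (start D3952) (orK (nat_lit 205) (fin (add (start D3953) (orK (nat_lit 229) D3367))))))))))) (orK (nat_lit 230) (fin (add (start D2449) (orK (nat_lit 229) (fin (add (start D2448) D9696))))))) D9601) (orK (nat_lit 231) (fin (add (start D2459) (orK (nat_lit 211) (fin (add (start D49) (orK (nat_lit 189) (fin (add (start D413) D9340))))))))))))) D682) D10169) D10179)))) D10567) (orK (nat_lit 188) (fin (add (add (add (start D9049) (orK (nat_lit 211) (fin (add (add (start D9053) (orK (nat_lit 231) (fin (add (start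 D49) (orK (nat_lit 230) (fin (add (start D3035) D3787))))))) D2515)))) D3348) (orK (nat_lit 229) (fin (add (add (add (start (orK (nat_lit 207) (fin (add (add (start D2451) D11044) (orK (nat_lit 186) (fin (add (start D653) (orK (nat_lit 230) (fin (add (start D2449) (orK (nat_lit 249) (fin (add (start D4015) (orK (nat_lit 189) (fin (add (add (start D4011) (orK (nat_lit 248) (fin (add (start D4016) (orK (nat_lit 247) (fin (add (start D4017) (orK (nat_lit 267) (fin (add (start D13138) (orK (nat_lit 250) (fin (add (start D11247) D4095))))))))))))) (orK (nat_lit 248) (fin (add (start D4016) (orK (nat_lit 169) (fin (add (start D7553) D3722)))))))))))))))))))))) D9703) D4306) (orK (nat_lit 207) (fin (add (add (start D2451) D11044) (orK (nat_lit 231) (fin (add (start D2459) (orK (nat_lit 187) (fin (add (start D666) (orK (nat_lit 168) (fin (add (start D1912) (orK (nat_lit 228) (fin (add (add (start (orK (nat_lit 167) (fin (add (start D3280) D4027)))) (orK (nat_lit 169) (fin (add (start D2538) (orK (nat_lit 248) (fin (add (start D9613) D5080))))))) (orK (nat_lit 169) (fin (add (start D2538) (orK (nat_lit 170) (fin (add (start D4290)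 (orK (nat_lit 150) (fin (add (start D11065) (orK (nat_lit 167) (fin (add (start D882) D3280)))))))))))))))))))))))))))))))))) D11081) (orK (nat_lit 188) (fin (add (add (add (start D9049) (orK (nat_lit 229) (fin (add (add (add (start D13382) D9703) D4306) (orK (nat_lit 148) (fin (add (start D10901) (orK (nat_lit 230) (fin (add (add (start D9679) (orK (nat_lit 211) (fin (add (add (start (orK (nat_lit 212) D3730)) (orK (nat_lit 189) (fin (add (add (start D4011) (orK (nat_lit 231) (fin (add (start D49) (orK (nat_lit 250) (fin (add (start D3724) (orK (nat_lit 251) (fin (add (start (orK (nat_lit 252) D12248)) D9883)))))))))) (orK (nat_lit 231) (fin (add (start D49) (orK (nat_lit 169) (fin (add (start D3722) (orK (nat_lit 228) (fin (add (start D3065) (orK (nat_lit 251) (fin (add (start D4059) (orK (nat_lit 170) (fin (add (start D5744) D5152))))))))))))))))))) (orK (nat_lit 212) (fin (add (start D450) D3729))))))) (orK (nat_lit 207) (fin (add (start D2448) (orK (nat_lit 190) (fin (add (start D414) (orK (nat_lit 170) (fin (add (start D460) D11022))))))))))))))))))) D3348) (orK (nat_lit 187) (fin (add (add (start D3323) (orK (nat_lit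 229) (fin (add (add (add (start (orK (nat_lit 230) (fin (add (add (start D9679) (orK (nat_lit 249) (fin (add (start D4015) (orK (nat_lit 190) (fin (add (start D8934) (orK (nat_lit 231) (fin (add (start D3565) (orK (nat_lit 189) (fin (add (start D4011) (orK (nat_lit 248) (fin (add (start D4016) (orK (nat_lit 167) (fin (add (start D9066) (win (nat_lit 7) (nat_lit 7) (nat_lit 8) (nat_lit 1))))))))))))))))))))) D9700)))) D9703) D4306) (orK (nat_lit 230) (fin (add (add (start D9679) (orK (nat_lit 232) (fin (add (start D4136) (orK (nat_lit 169) (fin (add (add (start (orK (nat_lit 189) D4010)) (orK (nat_lit 168) (fin (add (start D1912) D11069)))) (orK (nat_lit 168) (fin (add (start D1912) D13280)))))))))) (orK (nat_lit 207) (fin (add (start D2448) (orK (nat_lit 190) (fin (add (start D414) (orK (nat_lit 170) (fin (add (start D460) (orK (nat_lit 171) (fin (add (start D14) (win (nat_lit 4) (nat_lit 7) (nat_lit 8) (nat_lit 2))))))))))))))))))))) D3346))))))) D9774) D13452) D13474)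
noncomputable def D13476 : OP := orK (nat_lit 208) D13475
noncomputable def D10594 : OP := orK (nat_lit 170) (fin (add (start D460) D9768))
noncomputable def D13256 : OP := orK (nat_lit 208) (fin (add (add (add (add (add (add (start D10822) D13205) (orK (nat_lit 188) (fin (add (add (add (start D9049) D9515) D3348) (orK (nat_lit 168) (fin (add (add (add (start (orK (nat_lit 187) (fin (add (start D3323) D9545)))) (orK (nat_lit 229) (fin (add (add (start D7191) D4304) (orK (nat_lit 207) (fin (add (add (start D2451) D11044) (orK (nat_lit 187) (fin (add (start D666) (orK (nat_lit 230) (fin (add (start D2449) (orK (nat_lit 227) (fin (add (start D946) (orK (nat_lit 228) (fin (add (start (orK (nat_lit 248) (fin (add (start D3803) D5080)))) (orK (nat_lit 169) (fin (add (start D2538) (orK (nat_lit 250) (fin (add (start D4140) D9712))))))))))))))))))))))))) D10754) D7217))))))) (orK (nat_lit 188) (fin (add (add (add (start D9049) (orK (nat_lit 229) (fin (add (add (start D13234) D9703) (orK (nat_lit 211) (fin (add (add (start D2427) D13240) D2515))))))) D3348) D9549)))) D9144) (orK (nat_lit 190) (fin (add (add (add (start D3385) D9743)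 D9748) (orK (nat_lit 229) (fin (add (add (add (start (orK (nat_lit 249) (fin (add (start D462) (orK (nat_lit 188) (fin (add (add (start D3344) D13174) D4354))))))) D10150) D10229) D10594))))))) D9551))
noncomputable def D11877 : OP := orK (nat_lit 170) (fin (add (add (add (start D10426) D11875) D2473) D466))
noncomputable def D11846 : OP := orK (nat_lit 170) (fin (add (add (start D11207) (orK (nat_lit 249) (fin (add (add (add (start D11786) D11787) (orK (nat_lit 230) (fin (add (add (start D604) D537) (orK (nat_lit 231) (fin (add (start D157) (orK (nat_lit 171) (fin (add (start D14) (orK (nat_lit 191) (fin (add (add (add (start (orK (nat_lit 232) (fin (add (start D501) (orK (nat_lit 192) (fin (add (start D678) (orK (nat_lit 252) (fin (add (start (win (nat_lit 6) (nat_lit 11) (nat_lit 8) (nat_lit 2))) (win (nat_lit 7) (nat_lit 11) (nat_lit 8) (nat_lit 2)))))))))))) (orK (nat_lit 232) (fin (add (start D501) (orK (nat_lit 211) (fin (add (start D4732) (orK (nat_lit 172) (fin (add (start D5988) D11797)))))))))) (orK (nat_lit 189) (fin (add (add (start D11805) (orK (nat_lit 192) (fin (add (start D678) (orK (nat_lit 212) (fin (add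 (start D2688) (orK (nat_lit 172) (fin (add (start D66) D11811)))))))))) (orK (nat_lit 188) (fin (add (start D269) D11821))))))) (orK (nat_lit 192) (fin (add (start D678) (orK (nat_lit 232) (fin (add (start D501) (orK (nat_lit 212) (fin (add (start D2697) (orK (nat_lit 189) (fin (add (start D2688) D11805))))))))))))))))))))))))) D11842)))) D466))
noncomputable def D12045 : OP := orK (nat_lit 189) (fin (add (add (add (add (add (start (orK (nat_lit 229) (fin (add (add (start D11907) D11953) (orK (nat_lit 188) (fin (add (add (start (orK (nat_lit 211) D11954)) (orK (nat_lit 170) (fin (add (start D460) (orK (nat_lit 171) D294))))) D11968))))))) D11996) D12019) (orK (nat_lit 211) (fin (add (add (start D11997) (orK (nat_lit 212) (fin (add (start D57) D2993)))) (orK (nat_lit 170) (fin (add (start D12023) D12025))))))) D12037) D12043))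
noncomputable def D11745 : OP := orK (nat_lit 212) (fin (add (add (start D6821) D2993) D6833))
noncomputable def D11749 : OP := orK (nat_lit 229) (fin (add (add (add (start D11700) D10150) D10229) (orK (nat_lit 211) (fin (add (add (start D3455) (orK (nat_lit 170) (fin (add (start D460) (orK (nat_lit 251) (fin (add (add (add (start D11701) D11702) D11703) (orK (nat_lit 230) (fin (add (add (start (orK (nat_lit 171) (fin (add (start D14) (orK (nat_lit 250) (fin (add (start D15) D149))))))) (orK (nat_lit 250) (fin (add (start D149) D4121)))) (orK (nat_lit 171) (fin (add (start D14) (orK (nat_lit 189) (fin (add (add (add (start (orK (nat_lit 228) (fin (add (start D516) (orK (nat_lit 169) (fin (add (start D3065) (orK (nat_lit 172) (fin (add (start D227) (orK (nat_lit 192) (fin (add (start D240) (orK (nat_lit 168) (fin (add (start D241) D3044)))))))))))))))) D11723) (orK (nat_lit 187) (fin (add (start D3061) (orK (nat_lit 228) (fin (add (start D516) (orK (nat_lit 169) D11726)))))))) (orK (nat_lit 188) (fin (add (start D53) D393))))))))))))))))))) D11745)))))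
noncomputable def D11682 : OP := orK (nat_lit 232) (fin (add (add (start D11650) (orK (nat_lit 233) (fin (add (start D2698) (orK (nat_lit 172) (fin (add (start D2699) (orK (nat_lit 173) (fin (add (start D1179) D2899)))))))))) D11664))
noncomputable def D11666 : OP := orK (nat_lit 232) (fin (add (add (start D11650) (orK (nat_lit 233) (fin (add (start D2698) (orK (nat_lit 253) (fin (add (start (win (nat_lit 6) (nat_lit 12) (nat_lit 8) (nat_lit 0))) (orK (nat_lit 273) (fin (add (start (win (nat_lit 7) (nat_lit 12) (nat_lit 9) (nat_lit 3))) D11653)))))))))) D11664))
noncomputable def D13884 : OP := orK (nat_lit 192) (fin (add (start D678) (orK (nat_lit 212) (fin (add (add (add (start D11649) D11666) (orK (nat_lit 189) (fin (add (start D2688) D11670)))) D11682)))))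
noncomputable def D11316 : OP := orK (nat_lit 249) (fin (add (start D11227) D9445))
noncomputable def D1477 : OP := win (nat_lit 1) (nat_lit 12) (nat_lit 9) (nat_lit 5)
noncomputable def D10868 : OP := orK (nat_lit 211) (fin (add (start D1911) (orK (nat_lit 231) (fin (add (start D49) (orK (nat_lit 230) (fin (add (start D3035) (orK (nat_lit 251) (fin (add (start D4059) D9149)))))))))))
noncomputable def D10990 : OP := orK (nat_lit 208) (fin (add (add (add (add (add (add (add (add (add (start D10822) D10032) (orK (nat_lit 190) (fin (add (add (add (start D9743) (orK (nat_lit 207) D10823)) (orK (nat_lit 170) (fin (add (add (add (start D2473) (orK (nat_lit 151) (fin (add (add (add (start D5451) D10830) (orK (nat_lit 149) (fin (add (add (add (start (orK (nat_lit 230) (fin (add (start D23) D176)))) (orK (nat_lit 150) (fin (add (start D175) (orK (nat_lit 171) (fin (add (start D216) D1026))))))) (orK (nat_lit 129) (fin (add (start D32) (orK (nat_lit 169) (fin (add (start D1) D0))))))) (orK (nat_lit 129) (fin (add (start D32) (orK (nat_lit 169) (fin (add (start D1) (orK (nat_lit 168) (fin (add (start (orK (nat_lit 188) D10841)) D2600)))))))))))))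 D5454)))) (orK (nat_lit 230) (fin (add (add (start D10173) D155) D606)))) D10856)))) D9262)))) D9266) (orK (nat_lit 188) (fin (add (add (add (start D3348) (orK (nat_lit 228) (fin (add (add (add (start D2524) (orK (nat_lit 229) (fin (add (start D1915) D10868)))) D10872) D3296)))) (orK (nat_lit 211) (fin (add (start D451) (orK (nat_lit 232) (fin (add (start D412) (orK (nat_lit 212) (fin (add (start D411) (orK (nat_lit 193) (fin (add (start D442) D107))))))))))))) D10810)))) (orK (nat_lit 188) (fin (add (add (add (start D3348) (orK (nat_lit 229) (fin (add (add (start D9703) (orK (nat_lit 228) (fin (add (add (start D10193) D10868) (orK (nat_lit 207) (fin (add (add (start (orK (nat_lit 206) (fin (add (start D5013) D2421)))) (orK (nat_lit 230) (fin (add (start D2449) (orK (nat_lit 227) (fin (add (start D3456) D10888))))))) (orK (nat_lit 206) (fin (add (start D5013) (orK (nat_lit 226) (fin (add (start D10206) D660))))))))))))) (orK (nat_lit 249) (fin (add (start D4015) (orK (nat_lit 148) (fin (add (start D10901) (orK (nat_lit 230) (fin (add (add (start D9679) (orK (nat_lit 232) (fin (add (start D4136) (orK (nat_lit 190) (fin (add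 (start D8934) (orK (nat_lit 250) (fin (add (start (orK (nat_lit 270) D10902)) D10910)))))))))) (orK (nat_lit 207) (fin (add (start D2448) (orK (nat_lit 190) (fin (add (start D8934) D414))))))))))))))))))) (orK (nat_lit 211) (fin (add (start D451) D3939)))) D10810)))) D10933) D10949) D10988) D9649))
noncomputable def D10588 : OP := orK (nat_lit 189) (fin (add (add (start D10571) (orK (nat_lit 250) (fin (add (start D4095) (orK (nat_lit 251) (fin (add (start D9682) (orK (nat_lit 230) (fin (add (start D4119) D149)))))))))) (orK (nat_lit 248) (fin (add (start D4016) (orK (nat_lit 250) (fin (add (start D4095) (orK (nat_lit 251) (fin (add (start D9682) (orK (nat_lit 271) (fin (add (start D4370) D10578))))))))))))))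
noncomputable def D10743 : OP := orK (nat_lit 208) (fin (add (add (add (add (add (add (add (add (start D9266) D10567) (orK (nat_lit 190) (fin (add (add (add (start (orK (nat_lit 207) (fin (add (start D414) D9093)))) D684) D10561) (orK (nat_lit 229) (fin (add (add (add (start (orK (nat_lit 249) (fin (add (start D462) (orK (nat_lit 228) (fin (add (start D10193) D10588))))))) D10150) D10229) D10594))))))) (orK (nat_lit 190) (fin (add (add (add (start (orK (nat_lit 229) (fin (add (add (start (orK (nat_lit 207) (fin (add (start D2423) D4610)))) D10150) D10229)))) D682) (orK (nat_lit 229) (fin (add (add (add (start (orK (nat_lit 211) (fin (add (add (start D2427) D9610) (orK (nat_lit 228) (fin (add (start D104) (orK (nat_lit 191) (fin (add (start D342) (orK (nat_lit 249) (fin (add (start D462) D10588))))))))))))) D10150) D10229) (orK (nat_lit 211) (fin (add (add (start D2427) D9610) (orK (nat_lit 227) (fin (add (start D669) (orK (nat_lit 191) (fin (add (start D342) (orK (nat_lit 170) (fin (add (start D460) (orK (nat_lit 230) (fin (add (add (start D10612) (orK (nat_lit 250) (fin (add (start D3027) D9762)))) (orK (nat_lit 171) (fin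 (add (start D3782) D10621)))))))))))))))))))))) D3385)))) D10673) D9117) D10032) (orK (nat_lit 190) (fin (add (add (add (start D3385) D9743) D9748) (orK (nat_lit 229) (fin (add (add (add (start D10723) D10150) D10229) D10594))))))) D10741))
noncomputable def D10380 : OP := orK (nat_lit 191) (fin (add (add (add (start D10242) D2871) (orK (nat_lit 230) (fin (add (add (start D10340) D10376) D10262)))) D2715))
noncomputable def D7993 : OP := orK (nat_lit 208) D7992
noncomputable def D9255 : OP := orK (nat_lit 211) (fin (add (add (add (add (add (start D9186) D9243) (orK (nat_lit 208) D9244)) D7993) (orK (nat_lit 208) D9250)) D9253))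
noncomputable def D17268 : OP := orK (nat_lit 209) (fin (add (add (add (add (add (add (add (add (add (add (add (add (add (add (add (add (add (add (start D9146) D9255) D9270) D9570) D9678) D9776) D10028) (orK (nat_lit 190) (fin (add (add (add (add (add (add (add (start D10231) D11883) D10280) D13981) D10380) D10420) D10436) D10555)))) D10743) D10990) D11093) (orK (nat_lit 190) (fin (add (add (add (add (add (add (add (add (add (add (start D11209) D11212) (orK (nat_lit 191) (fin (add (add (add (add (add (add (start (orK (nat_lit 211) (fin (add (add (add (add (add (start (orK (nat_lit 212) (fin (add (add (start D2876) (orK (nat_lit 232) (fin (add (start D411) (orK (nat_lit 192) (fin (add (start D845) D2860))))))) (orK (nat_lit 213) (fin (add (start D101) D445))))))) D11454) (orK (nat_lit 192) (fin (add (start D678) D16466)))) (orK (nat_lit 193) (fin (add (start D3390) (orK (nat_lit 213) (fin (add (start D11334) (orK (nat_lit 250) (fin (add (add (start D11220) (orK (nat_lit 251) (fin (add (add (add (start D11222) D16480) D16501) (orK (nat_lit 252) (fin (add (add (add (start (orK (nat_lit 231) (fin (add (start D7263) D4691)))) (orK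 (nat_lit 253) (fin (add (start (orK (nat_lit 233) (fin (add (start D1477) D10317)))) (orK (nat_lit 269) (fin (add (start (win (nat_lit 5) (nat_lit 9) (nat_lit 12) (nat_lit 4))) D11316))))))) (orK (nat_lit 272) (fin (add (start D11321) (orK (nat_lit 249) (fin (add (start D4361) D11294))))))) (orK (nat_lit 270) (fin (add (start (win (nat_lit 1) (nat_lit 10) (nat_lit 9) (nat_lit 2))) (orK (nat_lit 269) (fin (add (start (win (nat_lit 5) (nat_lit 9) (nat_lit 12) (nat_lit 0))) D11316))))))))))))) (orK (nat_lit 171) (fin (add (start D13150) (orK (nat_lit 151) (fin (add (start D118) (orK (nat_lit 152) (fin (add (start D1795) (orK (nat_lit 172) (fin (add (start D1257) (orK (nat_lit 173) (fin (add (start D10469) D1640))))))))))))))))))))))))) (orK (nat_lit 193) (fin (add (start D3390) D11512)))) (orK (nat_lit 230) (fin (add (start D10612) (orK (nat_lit 192) (fin (add (start D678) (orK (nat_lit 231) (fin (add (start D8759) (orK (nat_lit 232) (fin (add (start D501) (orK (nat_lit 229) (fin (add (start D12968) D5183))))))))))))))))))) D11599) D11607) D13884) D11619) D11631) D11643)))) D11749) D11785) D12045) D11846) D11877) D11883) D11905)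 D12073)))) D17266) D13193) D13256) D13476) D13538) D13621) D13657))
noncomputable def D4952 : OP := orK (nat_lit 207) (fin (add (add (start D3929) (orK (nat_lit 187) (fin (add (start D666) (orK (nat_lit 211) (fin (add (start D667) (orK (nat_lit 192) (fin (add (start D846) (orK (nat_lit 212) (fin (add (start D845) (orK (nat_lit 233) (fin (add (start D103) (orK (nat_lit 213) (fin (add (start D102) D4445))))))))))))))))))) D4006))
noncomputable def D3968 : AP := fin (add (start D2130) D3722)
noncomputable def D8169 : OP := orK (nat_lit 229) (fin (add (start D3034) D3729))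
noncomputable def D15998 : OP := orK (nat_lit 212) (fin (add (start D3677) (orK (nat_lit 228) (fin (add (start D4844) D3850)))))
noncomputable def D1424 : OP := win (nat_lit 3) (nat_lit 12) (nat_lit 8) (nat_lit 3)
noncomputable def D1423 : OP := win (nat_lit 1) (nat_lit 12) (nat_lit 7) (nat_lit 0)
noncomputable def D1425 : OP := win (nat_lit 3) (nat_lit 12) (nat_lit 9) (nat_lit 0)
noncomputable def D4535 : OP := orK (nat_lit 193) (fin (add (start D1425) (orK (nat_lit 173) (fin (add (start D1423) D1424)))))
noncomputable def D3172 : OP := win (nat_lit 3) (nat_lit 12) (nat_lit 8) (nat_lit 5)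
noncomputable def D15948 : OP := orK (nat_lit 193) (fin (add (start D3172) D3863))
noncomputable def D3158 : OP := orK (nat_lit 271) (fin (add (start D2970) (orK (nat_lit 192) (fin (add (start D2969) D2974)))))
noncomputable def D4928 : OP := win (nat_lit 5) (nat_lit 10) (nat_lit 10) (nat_lit 0)
noncomputable def D4536 : OP := win (nat_lit 3) (nat_lit 12) (nat_lit 9) (nat_lit 5)
noncomputable def D4696 : OP := win (nat_lit 6) (nat_lit 11) (nat_lit 9) (nat_lit 3)
noncomputable def D4558 : OP := orK (nat_lit 254) (fin (add (start (win (nat_lit 2) (nat_lit 10) (nat_lit 11) (nat_lit 3))) D4556))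
noncomputable def D3864 : OP := win (nat_lit 0) (nat_lit 9) (nat_lit 11) (nat_lit 0)
noncomputable def D3963 : OP := orK (nat_lit 192) (fin (add (start D846) D3961))
noncomputable def D4986 : OP := orK (nat_lit 211) (fin (add (add (add (start D3733) D3737) (orK (nat_lit 212) (fin (add (add (start D3731) D449) D850)))) (orK (nat_lit 208) (fin (add (add (add (add (start D1068) (orK (nat_lit 228) (fin (add (start D104) (orK (nat_lit 188) (fin (add (start D451) (orK (nat_lit 248) (fin (add (start D312) (orK (nat_lit 249) (fin (add (start D4630) (orK (nat_lit 247) (fin (add (start D3746) (orK (nat_lit 229) (fin (add (start D4017) D3355))))))))))))))))))) D3963) (orK (nat_lit 227) (fin (add (start D669) (orK (nat_lit 207) (fin (add (start D668) D3959))))))) (orK (nat_lit 191) (fin (add (start D342) (orK (nat_lit 227) (fin (add (start D669) (orK (nat_lit 207) (fin (add (start D668) D3927))))))))))))))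
noncomputable def D4996 : OP := orK (nat_lit 188) (fin (add (add (start D4479) (orK (nat_lit 187) (fin (add (start D1890) (orK (nat_lit 169) (fin (add (start D3722) D3986))))))) (orK (nat_lit 169) (fin (add (start D3722) D4495)))))
noncomputable def D16181 : OP := orK (nat_lit 151) (fin (add (start (orK (nat_lit 171) (fin (add (start D119) (orK (nat_lit 192) (fin (add (start D241) (orK (nat_lit 172) (fin (add (start D240) (win (nat_lit 7) (nat_lit 11) (nat_lit 7) (nat_lit 1)))))))))))) D6412))
noncomputable def D4880 : AP := fin (add (start D4475) D4879)
noncomputable def D3943 : OP := orK (nat_lit 208) (fin (add (add (add (start D3931) D3941) D3834) D3770))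
noncomputable def D3890 : OP := orK (nat_lit 192) (fin (add (add (add (start (orK (nat_lit 172) (fin (add (start D3857) (orK (nat_lit 211) (fin (add (start D3858) D845))))))) (orK (nat_lit 193) (fin (add (start D3863) (orK (nat_lit 252) (fin (add (start D3172) (orK (nat_lit 253) (fin (add (start D3864) D3177)))))))))) (orK (nat_lit 172) D3878)) (orK (nat_lit 172) (fin (add (start D3857) (orK (nat_lit 173) (fin (add (start D1179) (orK (nat_lit 252) (fin (add (start D3880) (orK (nat_lit 229) (fin (add (start D3671) D2983))))))))))))))
noncomputable def D16377 : AP := fin (add (add (add (add (add (add (add (add (add (add (start (orK (nat_lit 231) (fin (add (add (add (start (orK (nat_lit 232) (fin (add (start D501) (orK (nat_lit 229) (fin (add (add (start D15998) D3854) (orK (nat_lit 212) (fin (add (start D3677) D3890)))))))))) D3909) D3910) (orK (nat_lit 208) D16016))))) D3943) (orK (nat_lit 169) (fin (add (add (add (add (start D16029) D16030) (orK (nat_lit 229) (fin (add (add (add (start (orK (nat_lit 189) D16026)) (orK (nat_lit 189) D16032)) (orK (nat_lit 189) D4880)) (orK (nat_lit 211) (fin (add (add (start D15796) D11745)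 (orK (nat_lit 231) (fin (add (add (add (start (orK (nat_lit 232) (fin (add (start D501) (orK (nat_lit 252) (fin (add (start D3671) (orK (nat_lit 228) (fin (add (start D3672) D516)))))))))) (orK (nat_lit 251) (fin (add (add (start (orK (nat_lit 228) (fin (add (start D4059) D516)))) (orK (nat_lit 271) (fin (add (start D4221) (orK (nat_lit 272) (fin (add (start D6855) (orK (nat_lit 191) (fin (add (start D9119) D16006)))))))))) (orK (nat_lit 271) (fin (add (start D4221) (orK (nat_lit 270) (fin (add (start D4755) (orK (nat_lit 228) (fin (add (start D516) (orK (nat_lit 248) (fin (add (start D3847) (orK (nat_lit 272) (fin (add (start D6855) (orK (nat_lit 269) (fin (add (start D7045) (orK (nat_lit 288) (fin (add (start D16047) D4259))))))))))))))))))))))))) (orK (nat_lit 232) (fin (add (start D501) (orK (nat_lit 252) (fin (add (start D3671) (orK (nat_lit 249) (fin (add (start D3659) (orK (nat_lit 191) (fin (add (start D16064) (orK (nat_lit 272) (fin (add (start D4696) D3692)))))))))))))))) (orK (nat_lit 232) (fin (add (start D501) (orK (nat_lit 228) (fin (add (start D516) D3850)))))))))))))))) (orK (nat_lit 171) (fin (add (add (add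 (add (add (start (orK (nat_lit 168) D16085)) (orK (nat_lit 191) (fin (add (start D2063) (orK (nat_lit 211) (fin (add (start D3782) (orK (nat_lit 231) (fin (add (start D5987) D6225)))))))))) D6273) D6624) D6626) D8479)))) D16102)))) (orK (nat_lit 208) (fin (add (add (add (start D16123) (orK (nat_lit 231) (fin (add (add (start D3832) D3768) (orK (nat_lit 211) (fin (add (start D16008) (orK (nat_lit 228) (fin (add (start D104) (orK (nat_lit 229) (fin (add (start D517) (orK (nat_lit 251) (fin (add (start D4059) (orK (nat_lit 188) D5108))))))))))))))))) D3834) D3770)))) (orK (nat_lit 169) (fin (add (add (add (add (add (start D16102) (orK (nat_lit 189) (fin (add (start D3722) (orK (nat_lit 229) (fin (add (start D5744) (orK (nat_lit 228) (fin (add (start D3065) (orK (nat_lit 227) (fin (add (start D3456) (orK (nat_lit 207) (fin (add (start D5156) (orK (nat_lit 231) (fin (add (start D12244) D4839))))))))))))))))))) (orK (nat_lit 149) (fin (add (start D10542) (orK (nat_lit 171) (fin (add (add (add (start D5702) (orK (nat_lit 172) (fin (add (add (start (orK (nat_lit 168) D12866)) (orK (nat_lit 173) (fin (add (start D2392) D2065)))) D5509))))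 D5718) (orK (nat_lit 168) (fin (add (add (start D6467) D2822) (orK (nat_lit 147) (fin (add (start D2105) (orK (nat_lit 167) (fin (add (start D2106) D6468)))))))))))))))) (orK (nat_lit 208) (fin (add (add (add (start D3834) D4008) (orK (nat_lit 229) (fin (add (add (add (add (start (orK (nat_lit 232) (fin (add (start D4136) (orK (nat_lit 189) (fin (add (start D5744) D13041))))))) (orK (nat_lit 232) (fin (add (start D4136) (orK (nat_lit 168) (fin (add (add (start (orK (nat_lit 189) (fin (add (start D5744) D3044)))) (orK (nat_lit 148) (fin (add (start D10615) D13073)))) D16181))))))) (orK (nat_lit 189) (fin (add (start D5744) D4052)))) (orK (nat_lit 231) (fin (add (start D3565) (orK (nat_lit 249) (fin (add (add (start D4138) (orK (nat_lit 189) (fin (add (start D4160) D12812)))) D4175))))))) (orK (nat_lit 232) (fin (add (start D4136) (orK (nat_lit 168) (fin (add (start (orK (nat_lit 188) D7192)) D16181)))))))))) D4434)))) (orK (nat_lit 208) (fin (add (add (start D3834) (orK (nat_lit 189) (fin (add (start D3722) (orK (nat_lit 228) (fin (add (add (start D9947) D9948) D13077))))))) D4008)))) (orK (nat_lit 208) (fin (add (add (start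 D3834) D16231) D4008))))))) (orK (nat_lit 208) (fin (add (add (start D3327) (orK (nat_lit 231) (fin (add (add (start D3832) D3768) (orK (nat_lit 211) (fin (add (start D16008) D2556))))))) D3834)))) (orK (nat_lit 189) (fin (add (add (add (start (orK (nat_lit 169) D16028)) D4996) D4986) (orK (nat_lit 169) D16244))))) (orK (nat_lit 231) (fin (add (add (add (start (orK (nat_lit 232) (fin (add (start D501) (orK (nat_lit 252) (fin (add (add (add (start (orK (nat_lit 253) (fin (add (start D3864) D4558)))) (orK (nat_lit 211) (fin (add (add (start (orK (nat_lit 191) (fin (add (start D16064) (orK (nat_lit 272) (fin (add (start D4696) (win (nat_lit 7) (nat_lit 11) (nat_lit 9) (nat_lit 3))))))))) (orK (nat_lit 171) (fin (add (start D4513) (orK (nat_lit 169) (fin (add (add (add (add (start (orK (nat_lit 149) (fin (add (start D10542) D5702)))) (orK (nat_lit 189) (fin (add (start D3722) D4805)))) D5832) (orK (nat_lit 189) (fin (add (start D3722) D13093)))) D5623))))))) (orK (nat_lit 272) (fin (add (start D3692) (orK (nat_lit 212) (fin (add (start (orK (nat_lit 213) (fin (add (start D4536) D4928)))) D3158)))))))))) (orK (nat_lit 229) (fin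 (add (start D3671) D15998)))) (orK (nat_lit 229) (fin (add (add (start D3852) (orK (nat_lit 212) (fin (add (add (add (start D16280) (orK (nat_lit 213) (fin (add (start D16277) D4535)))) (orK (nat_lit 192) (fin (add (start D15948) D2987)))) (orK (nat_lit 213) (fin (add (start D16278) D4535))))))) D15998)))))))))) D3909) D3910) (orK (nat_lit 208) (fin (add (start D3035) (orK (nat_lit 211) (fin (add (start D16008) (orK (nat_lit 188) (fin (add (start D451) (orK (nat_lit 212) (fin (add (start D450) D8169)))))))))))))))) (orK (nat_lit 208) (fin (add (add (add (start D4927) (orK (nat_lit 232) (fin (add (add (add (start D4617) D4618) D4619) (orK (nat_lit 211) (fin (add (add (start D3933) D3352) (orK (nat_lit 188) (fin (add (start D451) (orK (nat_lit 168) (fin (add (add (add (start D7217) (orK (nat_lit 191) (fin (add (start D342) (orK (nat_lit 148) (fin (add (start D5644) (orK (nat_lit 171) (fin (add (start D3782) (orK (nat_lit 169) (fin (add (start D770) (orK (nat_lit 149) (fin (add (start D771) D931)))))))))))))))) (orK (nat_lit 169) (fin (add (add (add (start D16316) (orK (nat_lit 191) (fin (add (start D342) (orK (nat_lit 171) (fin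 (add (start D3782) (orK (nat_lit 189) D3968)))))))) (orK (nat_lit 191) (fin (add (start D342) (orK (nat_lit 171) (fin (add (start D3782) (orK (nat_lit 189) (fin (add (start D2130) D8656)))))))))) (orK (nat_lit 191) (fin (add (start D342) (orK (nat_lit 151) (fin (add (start D10964) D16328)))))))))) D16360))))))))))))) D3770) D4952)))) (orK (nat_lit 208) (fin (add (add (add (start D3770) D4008) (orK (nat_lit 211) (fin (add (add (start (orK (nat_lit 231) (fin (add (start D49) D16008)))) D3935) D2517)))) D3327)))) D15730)
noncomputable def D5145 : OP := orK (nat_lit 208) (fin (add (add (add (start D5018) D5124) (orK (nat_lit 231) (fin (add (start D515) (orK (nat_lit 251) (fin (add (start D4059) D5129))))))) D5143))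
noncomputable def D5064 : OP := orK (nat_lit 206) (fin (add (start D5013) D5062))
noncomputable def D5177 : OP := orK (nat_lit 229) (fin (add (add (start (orK (nat_lit 190) (fin (add (start D20) D745)))) (orK (nat_lit 228) (fin (add (add (add (start (orK (nat_lit 208) (fin (add (add (start (orK (nat_lit 231) (fin (add (add (add (start (orK (nat_lit 252) (fin (add (start D3672) (orK (nat_lit 232) (fin (add (start D3671) D514))))))) (orK (nat_lit 232) (fin (add (start D514) D3850)))) (orK (nat_lit 252) (fin (add (start D3672) (orK (nat_lit 232) (fin (add (start D3671) D3850))))))) (orK (nat_lit 251) (fin (add (start D4059) (orK (nat_lit 271) (fin (add (start D4221) (orK (nat_lit 248) (fin (add (start D3847) (orK (nat_lit 188) (fin (add (add (start (orK (nat_lit 268) (fin (add (start (orK (nat_lit 189) (fin (add (start D311) D5037)))) D2532)))) D5034) D5051)))))))))))))))) (orK (nat_lit 207) (fin (add (start D5012) D5064)))) (orK (nat_lit 207) (fin (add (add (start D5016) (orK (nat_lit 187) (fin (add (add (start (orK (nat_lit 209) (fin (add (start D666) (orK (nat_lit 227) (fin (add (start D3456) D5075))))))) (orK (nat_lit 167)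 (fin (add (start D3280) (orK (nat_lit 248) (fin (add (start D3302) D5080))))))) D5088)))) D5064))))))) D5098) D5107) (orK (nat_lit 211) (fin (add (add (start D5096) D5145) D5147))))))) D5175))
noncomputable def D14961 : AP := fin (add (add (start D2958) D751) D529)
noncomputable def D14955 : OP := orK (nat_lit 171) (fin (add (add (start D10248) (orK (nat_lit 189) (fin (add (add (start D14904) D14908) (orK (nat_lit 209) (fin (add (add (start D9914) (orK (nat_lit 169) (fin (add (start D3722) (orK (nat_lit 192) (fin (add (start D10232) (orK (nat_lit 212) (fin (add (start D2688) (orK (nat_lit 232) (fin (add (start D2697) D14910))))))))))))) (orK (nat_lit 208) (fin (add (start D50) (orK (nat_lit 169) (fin (add (start D3722) (orK (nat_lit 228) (fin (add (start D9947) (orK (nat_lit 211) (fin (add (start D104) (orK (nat_lit 232) (fin (add (start D412) (orK (nat_lit 212) (fin (add (start D411) D57))))))))))))))))))))))))) D14953))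
noncomputable def D14957 : OP := orK (nat_lit 191) (fin (add (add (start (orK (nat_lit 209) (fin (add (add (add (start D11619) D2871) (orK (nat_lit 207) (fin (add (start D2872) (orK (nat_lit 169) (fin (add (add (start D10545) (orK (nat_lit 250) (fin (add (start D9) (orK (nat_lit 270) (fin (add (start D616) D9837))))))) (orK (nat_lit 170) (fin (add (start D223) D10402)))))))))) D2715)))) D10443) D14955))
noncomputable def D15940 : OP := orK (nat_lit 271) (fin (add (start D627) (orK (nat_lit 270) (fin (add (start D628) (orK (nat_lit 290) (fin (add (start D15909) D7061))))))))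
noncomputable def D15908 : OP := orK (nat_lit 170) (fin (add (add (start (orK (nat_lit 151) (fin (add (start D23) (orK (nat_lit 150) (fin (add (start D22) D156))))))) D2956) (orK (nat_lit 169) (fin (add (start D223) (orK (nat_lit 189) (fin (add (start D3024) D9933))))))))
noncomputable def D15469 : OP := orK (nat_lit 234) (fin (add (start D3636) (win (nat_lit 5) (nat_lit 10) (nat_lit 11) (nat_lit 5))))
noncomputable def D15502 : OP := orK (nat_lit 231) (fin (add (add (add (start (orK (nat_lit 170) (fin (add (add (add (start D2956) (orK (nat_lit 150) (fin (add (start D156) (orK (nat_lit 209) (fin (add (start D80) (orK (nat_lit 207) (fin (add (start D12244) D172)))))))))) (orK (nat_lit 169) (fin (add (start D223) (orK (nat_lit 189) (fin (add (start D3024) D15447))))))) D15454)))) (orK (nat_lit 251) (fin (add (add (start D12495) D14370) (orK (nat_lit 229) (fin (add (add (add (start (orK (nat_lit 252) (fin (add (start D4222) (orK (nat_lit 253) (fin (add (start D15461) (win (nat_lit 2) (nat_lit 9) (nat_lit 11) (nat_lit 3))))))))) (orK (nat_lit 232) (fin (add (add (start D503) (orK (nat_lit 253) (fin (add (start D504) (orK (nat_lit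 233) (fin (add (start D505) D15469))))))) (orK (nat_lit 209) (fin (add (start D500) D15480))))))) (orK (nat_lit 228) D15485)) (orK (nat_lit 232) (fin (add (add (start D503) (orK (nat_lit 213) (fin (add (start D506) (orK (nat_lit 233) (fin (add (start D507) D15469))))))) (orK (nat_lit 208) (fin (add (start D514) (orK (nat_lit 228) (fin (add (start D515) D15458)))))))))))))))) D13021) D14412))
noncomputable def D15146 : OP := orK (nat_lit 191) (fin (add (add (start D14966) D10443) (orK (nat_lit 171) (fin (add (add (start D10248) (orK (nat_lit 192) (fin (add (add (start D15093) (orK (nat_lit 209) (fin (add (add (start D15095) (orK (nat_lit 172) (fin (add (start D15096) (orK (nat_lit 152) (fin (add (add (start D1284) (orK (nat_lit 212) (fin (add (add (start (orK (nat_lit 232) (fin (add (start D2697) D15100)))) D15108) (orK (nat_lit 231) (fin (add (start D3871) (orK (nat_lit 232) (fin (add (start D3857) D2697)))))))))) (orK (nat_lit 132) (fin (add (start D1145) (orK (nat_lit 133) (fin (add (start D1974) (orK (nat_lit 212) (fin (add (start D5600) (orK (nat_lit 233) (fin (add (start D2016) (orK (nat_lit 232) (fin (add (start D2699)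 D2697)))))))))))))))))))))) D15130)))) D15140)))) D10441)))))
noncomputable def D15517 : OP := orK (nat_lit 189) (fin (add (add (add (start D14230) D15506) D14244) (orK (nat_lit 211) (fin (add (add (add (start D5405) D426) D428) (orK (nat_lit 170) (fin (add (add (start (orK (nat_lit 231) D8756)) (orK (nat_lit 149) (fin (add (start D176) (orK (nat_lit 150) (fin (add (start D175) D3230))))))) D5430))))))))
noncomputable def D14510 : OP := orK (nat_lit 250) (fin (add (add (start D14504) D14508) D10336))
noncomputable def D14759 : OP := orK (nat_lit 249) (fin (add (add (start D14731) D14733) (orK (nat_lit 231) (fin (add (add (start (orK (nat_lit 232) (fin (add (start D3659) D503)))) (orK (nat_lit 228) (fin (add (add (start D519) (orK (nat_lit 207) (fin (add (start D5155) (orK (nat_lit 227) (fin (add (start D5156) (orK (nat_lit 226) (fin (add (start (win (nat_lit 0) (nat_lit 6) (nat_lit 11) (nat_lit 5))) D5101)))))))))) (orK (nat_lit 208) (fin (add (start D515) (orK (nat_lit 211) (fin (add (start D517) (orK (nat_lit 188) (fin (add (start D3355) (orK (nat_lit 187) (fin (add (start D14743) D5115)))))))))))))))) (orK (nat_lit 248)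 (fin (add (start D5125) D13162))))))))
noncomputable def D14890 : OP := orK (nat_lit 229) (fin (add (add (add (start D14888) D14759) D14761) D14868))
noncomputable def D15523 : OP := orK (nat_lit 250) (fin (add (add (start D14234) D14974) (orK (nat_lit 249) (fin (add (start D8) (orK (nat_lit 229) (fin (add (start D8934) D9686))))))))
noncomputable def D14517 : OP := orK (nat_lit 170) (fin (add (add (start (orK (nat_lit 150) D11200)) (orK (nat_lit 250) (fin (add (start D151) D260)))) D14515))
noncomputable def D4869 : OP := orK (nat_lit 227) (fin (add (start D4859) (orK (nat_lit 249) (fin (add (add (start D4093) D4107) (orK (nat_lit 248) (fin (add (start D4016) (orK (nat_lit 247) (fin (add (start D4017) (orK (nat_lit 250) (fin (add (start D4193) D4095))))))))))))))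
noncomputable def D15826 : OP := orK (nat_lit 212) (fin (add (start D3729) (orK (nat_lit 192) (fin (add (start D845) (orK (nat_lit 191) (fin (add (start D79) (orK (nat_lit 232) (fin (add (start D411) (orK (nat_lit 171) (fin (add (start D3782) D2697))))))))))))))
noncomputable def D4832 : AP := fin (add (start D439) D3729)
noncomputable def D4833 : OP := orK (nat_lit 212) D4832
noncomputable def D4871 : OP := orK (nat_lit 211) (fin (add (start D4869) D4833))
noncomputable def D15665 : OP := orK (nat_lit 189) (fin (add (add (start D4011) D4871) D15663))
noncomputable def D4956 : OP := orK (nat_lit 211) (fin (add (add (start D3789) D3935) D2517))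
noncomputable def D4958 : OP := orK (nat_lit 208) (fin (add (add (add (start D3770) D4008) D4956) D3327))
noncomputable def D4930 : OP := orK (nat_lit 213) (fin (add (start D4445) D4928))
noncomputable def D4954 : OP := orK (nat_lit 208) (fin (add (add (add (start D4927) (orK (nat_lit 231) (fin (add (add (start D3832) D3768) (orK (nat_lit 211) (fin (add (start D3787) (orK (nat_lit 188) (fin (add (start D451) (orK (nat_lit 212) (fin (add (start D450) D4930))))))))))))) D3770) D4952))
noncomputable def D4600 : OP := orK (nat_lit 211) (fin (add (start D3787) (orK (nat_lit 228) (fin (add (start D104) (orK (nat_lit 229) (fin (add (start D517) D4594))))))))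
noncomputable def D4616 : OP := orK (nat_lit 208) (fin (add (add (add (start D4612) (orK (nat_lit 231) (fin (add (add (start D3832) D3768) D4600)))) D3834) D3770))
noncomputable def D4688 : OP := orK (nat_lit 252) (fin (add (start D3672) D3671))
noncomputable def D15623 : OP := win (nat_lit 3) (nat_lit 12) (nat_lit 10) (nat_lit 4)
noncomputable def D15610 : OP := orK (nat_lit 193) (fin (add (start D3172) (win (nat_lit 3) (nat_lit 12) (nat_lit 9) (nat_lit 4))))
noncomputable def D15635 : OP := orK (nat_lit 272) (fin (add (add (start (orK (nat_lit 192) (fin (add (start (orK (nat_lit 271) (fin (add (start D2969) D2970)))) D15610)))) (orK (nat_lit 292) (fin (add (start (orK (nat_lit 291) (fin (add (start D3148) D3149)))) D15629)))) (orK (nat_lit 292) (fin (add (start (orK (nat_lit 213) (fin (add (start D4536) D15623)))) D15629)))))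
noncomputable def D4577 : OP := orK (nat_lit 172) (fin (add (start D4570) D2983))
noncomputable def D15616 : OP := orK (nat_lit 192) (fin (add (add (start (orK (nat_lit 272) (fin (add (start D15610) D2974)))) (orK (nat_lit 172) (fin (add (start D3179) D2983)))) D4577))
noncomputable def D13827 : OP := win (nat_lit 2) (nat_lit 9) (nat_lit 11) (nat_lit 2)
noncomputable def D4822 : AP := fin (add (start D501) D4688)
noncomputable def D4825 : OP := orK (nat_lit 268) (fin (add (start D4180) D4070))
noncomputable def D15597 : OP := orK (nat_lit 252) (fin (add (start D3671) (orK (nat_lit 251) (fin (add (start D4222) D3683)))))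
noncomputable def D4566 : OP := orK (nat_lit 273) (fin (add (start (win (nat_lit 6) (nat_lit 12) (nat_lit 9) (nat_lit 0))) (orK (nat_lit 293) (fin (add (start (win (nat_lit 6) (nat_lit 12) (nat_lit 10) (nat_lit 3))) (win (nat_lit 7) (nat_lit 12) (nat_lit 11) (nat_lit 0)))))))
noncomputable def D15854 : AP := fin (add (add (add (add (add (add (add (add (start (orK (nat_lit 229) (fin (add (add (add (add (add (start D4118) (orK (nat_lit 228) (fin (add (add (start D4473) (orK (nat_lit 211) (fin (add (start D1911) (orK (nat_lit 250) (fin (add (start D11857) (orK (nat_lit 231) (fin (add (add (start D4839) (orK (nat_lit 251) (fin (add (start D4059) D15568)))) (orK (nat_lit 232) (fin (add (start D501) D3850))))))))))))) (orK (nat_lit 227) (fin (add (start D3456) (orK (nat_lit 251) (fin (add (start D4060) (orK (nat_lit 231) (fin (add (start D4059) (orK (nat_lit 232) (fin (add (start D501) D4067)))))))))))))))) (orK (nat_lit 228) (fin (add (add (start D4473) (orK (nat_lit 250) (fin (add (add (start D4121) (orK (nat_lit 211) (fin (add (start D1911) D11857)))) (orK (nat_lit 189) (fin (add (start D4119) (orK (nat_lit 212) (fin (add (add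 (start D15591) (orK (nat_lit 232) (fin (add (add (add (start D15593) (orK (nat_lit 231) (fin (add (start D501) D15597)))) (orK (nat_lit 252) (fin (add (add (add (start (orK (nat_lit 251) (fin (add (start D4352) (orK (nat_lit 249) (fin (add (start D10311) D10906))))))) (orK (nat_lit 253) (fin (add (start D13827) D4566)))) D15616) D15635)))) (orK (nat_lit 231) (fin (add (start D3677) D15597))))))) (orK (nat_lit 211) D4832))))))))))) D15559)))) (orK (nat_lit 228) (fin (add (add (start D4473) (orK (nat_lit 212) (fin (add (start D7838) (orK (nat_lit 231) (fin (add (start D15651) (orK (nat_lit 248) (fin (add (start D3847) (orK (nat_lit 189) (fin (add (start D4590) D4825))))))))))))) D13787)))) D15665) (orK (nat_lit 228) (fin (add (add (start D4473) (orK (nat_lit 212) (fin (add (start D7838) (orK (nat_lit 189) (fin (add (add (start D15551) (orK (nat_lit 232) (fin (add (add (add (start D15593) (orK (nat_lit 231) D4822)) (orK (nat_lit 252) (fin (add (add (add (add (start (orK (nat_lit 250) (fin (add (start D3724) (orK (nat_lit 253) (fin (add (start D13827) (orK (nat_lit 192) (fin (add (start D3177) (orK (nat_lit 173) (fin (add (start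 D3880) (orK (nat_lit 172) (fin (add (start D1179) D3176)))))))))))))))) (orK (nat_lit 250) (fin (add (start D3724) (orK (nat_lit 251) (fin (add (start D4352) (orK (nat_lit 271) (fin (add (start (win (nat_lit 1) (nat_lit 11) (nat_lit 9) (nat_lit 0))) (orK (nat_lit 291) (fin (add (start (win (nat_lit 1) (nat_lit 11) (nat_lit 10) (nat_lit 3))) (win (nat_lit 3) (nat_lit 11) (nat_lit 11) (nat_lit 0))))))))))))))) D15616) (orK (nat_lit 272) (fin (add (start (orK (nat_lit 270) (fin (add (start D3744) (orK (nat_lit 271) (fin (add (start D2970) (orK (nat_lit 269) (fin (add (start D4276) (orK (nat_lit 268) (fin (add (start D7046) (orK (nat_lit 248) (fin (add (start D7044) D4070)))))))))))))))) (orK (nat_lit 213) (fin (add (start D4536) (orK (nat_lit 292) (fin (add (start D15623) D15629)))))))))) D15635)))) (orK (nat_lit 231) (fin (add (start D3677) D4688))))))) D4011))))))) D15559))))))) D12168) D15730) (orK (nat_lit 208) (fin (add (add (add (start (orK (nat_lit 231) (fin (add (start D3035) (orK (nat_lit 232) D3669))))) D4956) (orK (nat_lit 188) (fin (add (add (start (orK (nat_lit 211) (fin (add (add (add (start D2515) (orK (nat_lit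 212) (fin (add (start D450) D3731)))) D3947) (orK (nat_lit 191) (fin (add (start D342) (orK (nat_lit 250) (fin (add (start D3027) (orK (nat_lit 229) (fin (add (add (add (start (orK (nat_lit 189) (fin (add (start D4119) (orK (nat_lit 249) (fin (add (start D4015) (orK (nat_lit 248) (fin (add (start D4016) (orK (nat_lit 247) (fin (add (start D4017) (orK (nat_lit 267) (fin (add (start D13138) D11247)))))))))))))))) D9703) (orK (nat_lit 168) (fin (add (start D1912) (orK (nat_lit 189) (fin (add (start D4119) D4012))))))) (orK (nat_lit 169) (fin (add (start D9712) (orK (nat_lit 168) (fin (add (start D1912) (orK (nat_lit 149) (fin (add (start D375) (orK (nat_lit 151) (fin (add (start D10964) (orK (nat_lit 150) (fin (add (start D755) (orK (nat_lit 167) (fin (add (start D881) (win (nat_lit 4) (nat_lit 7) (nat_lit 7) (nat_lit 3))))))))))))))))))))))))))))))))) D3348) (orK (nat_lit 187) (fin (add (add (start D3323) (orK (nat_lit 228) (fin (add (add (start D5139) D2545) (orK (nat_lit 169) (fin (add (add (add (start (orK (nat_lit 149) (fin (add (start D6744) D319)))) (orK (nat_lit 147) (fin (add (start (orK (nat_lit 167) D5136)) (orK (nat_lit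 229) (fin (add (add (start D1915) (orK (nat_lit 250) (fin (add (start D9712) (orK (nat_lit 269) (fin (add (start D4217) D12472))))))) (orK (nat_lit 168) (fin (add (start D1912) (orK (nat_lit 170) (fin (add (start D4290) (orK (nat_lit 189) (fin (add (start D5744) D4009)))))))))))))))) (orK (nat_lit 189) (fin (add (start D3307) D3726)))) D2541))))))) D3346))))))) D4927)))) D4655) D4616) D4954) D4958) (orK (nat_lit 229) (fin (add (add (add (add (add (start D15814) D15665) D13771) (orK (nat_lit 189) (fin (add (start D4011) (orK (nat_lit 211) (fin (add (add (start D4833) D15818) D15826))))))) (orK (nat_lit 189) (fin (add (add (start D4011) (orK (nat_lit 211) (fin (add (start D15826) D4869)))) D15663)))) D15851))))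
noncomputable def D14274 : OP := win (nat_lit 0) (nat_lit 8) (nat_lit 10) (nat_lit 1)
noncomputable def D14816 : OP := orK (nat_lit 269) (fin (add (start D613) (orK (nat_lit 270) (fin (add (start D614) (orK (nat_lit 290) (fin (add (start D9842) D14810))))))))
noncomputable def D14870 : OP := orK (nat_lit 229) (fin (add (add (add (start D14809) (orK (nat_lit 211) (fin (add (add (add (start (orK (nat_lit 250) (fin (add (add (start D3029) D14816) (orK (nat_lit 269) (fin (add (start D613) (orK (nat_lit 212) (fin (add (start D3729) (orK (nat_lit 191) (fin (add (start D615) (orK (nat_lit 209) (fin (add (add (start D14817) (orK (nat_lit 232) (fin (add (start D411) (orK (nat_lit 192) (fin (add (start D845) (orK (nat_lit 252) (fin (add (start D2966) (orK (nat_lit 253) (fin (add (start (win (nat_lit 0) (nat_lit 9) (nat_lit 11) (nat_lit 2))) D3177))))))))))))) (orK (nat_lit 232) (fin (add (start D411) (orK (nat_lit 208) (fin (add (start D412) D50)))))))))))))))))))))) D8225) (orK (nat_lit 250) (fin (add (add (start D3029) D14816) (orK (nat_lit 171) (fin (add (start D15) (orK (nat_lit 228) (fin (add (start D516) (orK (nat_lit 249) (fin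 (add (start D8) (orK (nat_lit 231) (fin (add (add (start (orK (nat_lit 248) (fin (add (start D4359) D5125)))) (orK (nat_lit 208) (fin (add (start D515) (orK (nat_lit 232) (fin (add (start D14274) D14842))))))) (orK (nat_lit 208) (fin (add (start D515) (orK (nat_lit 248) (fin (add (start D4359) (orK (nat_lit 188) (fin (add (start D3355) D14848))))))))))))))))))))))))) D8229)))) D14761) D14868))
noncomputable def D14488 : OP := orK (nat_lit 250) (fin (add (add (start D622) D10336) D719))
noncomputable def D15296 : OP := orK (nat_lit 229) (fin (add (add (add (start D14868) (orK (nat_lit 211) (fin (add (add (add (start (orK (nat_lit 212) (fin (add (start D3729) (orK (nat_lit 189) (fin (add (add (start D803) (orK (nat_lit 192) (fin (add (add (add (start D3208) (orK (nat_lit 209) (fin (add (start D845) (orK (nat_lit 232) (fin (add (start D411) (orK (nat_lit 231) (fin (add (start D3038) (orK (nat_lit 252) (fin (add (start D3671) D6765))))))))))))) (orK (nat_lit 191) (fin (add (start (orK (nat_lit 169) (fin (add (start D10232) (orK (nat_lit 209) (fin (add (start D79) D3722))))))) D11609)))) D5401)))) D840))))))) D8225) (orK (nat_lit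 228) (fin (add (start D516) (orK (nat_lit 231) (fin (add (start D15280) (orK (nat_lit 208) (fin (add (start D515) (orK (nat_lit 232) (fin (add (start D14274) D3850))))))))))))) D8229)))) (orK (nat_lit 170) D15291)) (orK (nat_lit 170) (fin (add (add (start D749) D3515) D2958)))))
noncomputable def D14801 : OP := orK (nat_lit 189) (fin (add (add (add (start D14230) D14789) D14244) (orK (nat_lit 211) (fin (add (add (add (start (orK (nat_lit 212) (fin (add (start D57) (orK (nat_lit 209) (fin (add (start D11999) (orK (nat_lit 232) (fin (add (start D411) (orK (nat_lit 208) (fin (add (start D412) D416))))))))))))) D426) D428) (orK (nat_lit 188) (fin (add (start D53) (orK (nat_lit 169) (fin (add (start D3124) D14242)))))))))))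
noncomputable def D13687 : OP := orK (nat_lit 207) (fin (add (start D2448) (orK (nat_lit 227) (fin (add (start D668) (orK (nat_lit 228) (fin (add (start D4140) D4606))))))))
noncomputable def D4088 : OP := orK (nat_lit 231) (fin (add (start D3565) (orK (nat_lit 228) (fin (add (add (start D4064) D4069) (orK (nat_lit 251) (fin (add (start D4059) (orK (nat_lit 248) (fin (add (start D3847) (orK (nat_lit 268) (fin (add (start D4070) (orK (nat_lit 267) (fin (add (start D2528) (orK (nat_lit 250) (fin (add (start D4071) (orK (nat_lit 269) (fin (add (start D4072) D2530)))))))))))))))))))))))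
noncomputable def D4152 : OP := orK (nat_lit 249) (fin (add (add (start D4138) (orK (nat_lit 248) (fin (add (start D4016) (orK (nat_lit 188) (fin (add (start D1897) (orK (nat_lit 187) (fin (add (start D1890) (orK (nat_lit 228) (fin (add (start D3316) D4142))))))))))))) D4093))
noncomputable def D4135 : OP := orK (nat_lit 270) (fin (add (start D4122) (orK (nat_lit 269) (fin (add (start D614) (orK (nat_lit 249) (fin (add (start D4123) D4129))))))))
noncomputable def D13661 : OP := orK (nat_lit 251) (fin (add (start D4060) D4059))
noncomputable def D13821 : OP := orK (nat_lit 229) (fin (add (add (add (add (add (add (add (start D12677) D12470) (orK (nat_lit 231) (fin (add (add (start D3567) D12679) (orK (nat_lit 207) (fin (add (start D12244) (orK (nat_lit 227) (fin (add (add (add (start D12687) (orK (nat_lit 228) (fin (add (start D3456) D13661)))) (orK (nat_lit 228) (fin (add (start D5156) D13661)))) (orK (nat_lit 189) (fin (add (start D4011) D12797))))))))))))) D4118) (orK (nat_lit 250) (fin (add (add (start D4121) (orK (nat_lit 208) (fin (add (start D9679) D4135)))) (orK (nat_lit 208) (fin (add (start D9679) (orK (nat_lit 189)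 (fin (add (start D4119) D4152)))))))))) (orK (nat_lit 208) (fin (add (add (start D9679) D4088) (orK (nat_lit 250) (fin (add (start D4121) D13687))))))) D13771) (orK (nat_lit 250) (fin (add (add (start D4121) (orK (nat_lit 208) (fin (add (add (start D9679) D4328) D13687)))) (orK (nat_lit 189) (fin (add (start D4119) (orK (nat_lit 228) (fin (add (add (add (add (start (orK (nat_lit 227) (fin (add (start D3456) (orK (nat_lit 207) (fin (add (start D5156) (orK (nat_lit 208) (fin (add (start D2449) (orK (nat_lit 187) (fin (add (start D666) D3805))))))))))))) D13787) (orK (nat_lit 248) (fin (add (start D13790) (orK (nat_lit 231) (fin (add (start D3847) D4839))))))) (orK (nat_lit 227) (fin (add (start D3456) (orK (nat_lit 207) (fin (add (start D5156) (orK (nat_lit 247) (fin (add (start D4043) (orK (nat_lit 187) (fin (add (start D13797) D13799))))))))))))) (orK (nat_lit 227) (fin (add (start D3456) (orK (nat_lit 207) (fin (add (start D5156) (orK (nat_lit 208) (fin (add (start D2449) D5075))))))))))))))))))))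
noncomputable def D15326 : OP := orK (nat_lit 270) (fin (add (start D9846) D7058))
noncomputable def D4024 : OP := orK (nat_lit 249) (fin (add (start D4015) (orK (nat_lit 248) (fin (add (start D4016) D4020)))))
noncomputable def D4014 : OP := orK (nat_lit 168) (fin (add (start D1912) D4012))
noncomputable def D15423 : AP := fin (add (add (add (add (add (add (add (add (add (start (orK (nat_lit 208) (fin (add (add (add (start D4927) D2562) (orK (nat_lit 207) D9578)) (orK (nat_lit 207) (fin (add (start D2449) (orK (nat_lit 187) (fin (add (start D666) (orK (nat_lit 211) (fin (add (start D667) D9489))))))))))))) (orK (nat_lit 250) (fin (add (add (start D15326) D9805) (orK (nat_lit 189) (fin (add (add (start D9291) (orK (nat_lit 208) (fin (add (add (start (orK (nat_lit 231) (fin (add (add (start D3832) D3768) (orK (nat_lit 188) (fin (add (add (start D3978) (orK (nat_lit 229) (fin (add (add (start D4014) D4024) (orK (nat_lit 168) (fin (add (start D1912) (orK (nat_lit 228) (fin (add (start D4026) D4473)))))))))) (orK (nat_lit 229) (fin (add (add (start D4014) D4024) (orK (nat_lit 168) (fin (add (start D1912) (orK (nat_lit 228) (fin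 (add (start (orK (nat_lit 167) (fin (add (start D2435) (orK (nat_lit 187) (fin (add (start D1890) D4027))))))) D4034)))))))))))))))) D9793) D3931)))) D9803))))))) (orK (nat_lit 250) (fin (add (add (start D15326) D9805) (orK (nat_lit 189) (fin (add (add (start D9291) (orK (nat_lit 211) (fin (add (add (add (start (orK (nat_lit 191) (fin (add (add (start D4454) (orK (nat_lit 249) (fin (add (add (start D8899) (orK (nat_lit 248) (fin (add (add (add (start D8906) (orK (nat_lit 247) (fin (add (add (start (orK (nat_lit 227) (fin (add (start D4193) (orK (nat_lit 228) (fin (add (start D6932) D3116))))))) D15353) D15357)))) (orK (nat_lit 251) (fin (add (add (start D13901) D15363) (orK (nat_lit 228) (fin (add (start D9443) (orK (nat_lit 252) (fin (add (start D9444) D15365)))))))))) (orK (nat_lit 231) (fin (add (start D4359) (orK (nat_lit 232) (fin (add (start D501) D8963)))))))))) (orK (nat_lit 190) (fin (add (start D8) (orK (nat_lit 187) (fin (add (start D3061) (orK (nat_lit 192) (fin (add (start D678) (orK (nat_lit 172) (fin (add (start D66) (orK (nat_lit 251) (fin (add (start D15161) D149))))))))))))))))))) D15391)))) (orK (nat_lit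 212) (fin (add (add (start (orK (nat_lit 213) (fin (add (start D8712) D4445)))) (orK (nat_lit 229) (fin (add (start D59) D2993)))) (orK (nat_lit 233) (fin (add (start D103) (orK (nat_lit 213) (fin (add (start D102) D8712)))))))))) D3733) D8711)))) D9803))))))) D4616) D4655) D13821) (orK (nat_lit 250) (fin (add (add (add (start D9293) D9848) D9805) (orK (nat_lit 189) (fin (add (add (start D9291) (orK (nat_lit 249) (fin (add (add (start D8917) (orK (nat_lit 190) (fin (add (start D8) (orK (nat_lit 191) (fin (add (start D615) D15404))))))) (orK (nat_lit 211) (fin (add (start (orK (nat_lit 231) (fin (add (start (orK (nat_lit 191) (fin (add (start D4671) D8822)))) D8933)))) D3733))))))) D9803))))))) D4954) D4958) (orK (nat_lit 189) (fin (add (start D4986) D8780))))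
noncomputable def D14764 : OP := orK (nat_lit 229) (fin (add (add (add (start (orK (nat_lit 170) (fin (add (add (add (start D27) (orK (nat_lit 150) (fin (add (start D21) (orK (nat_lit 211) (fin (add (start D45) (orK (nat_lit 213) (fin (add (start D14684) D205)))))))))) (orK (nat_lit 171) (fin (add (start D14) (orK (nat_lit 191) (fin (add (start D2673) (orK (nat_lit 189) (fin (add (add (start D11805) (orK (nat_lit 209) (fin (add (add (start D9914) (orK (nat_lit 173) (fin (add (start (win (nat_lit 5) (nat_lit 9) (nat_lit 8) (nat_lit 1))) (orK (nat_lit 192) (fin (add (start D678) (orK (nat_lit 212) (fin (add (start D2688) (orK (nat_lit 211) (fin (add (start D59) D6242))))))))))))) (orK (nat_lit 208) (fin (add (start D50) (orK (nat_lit 231) (fin (add (start D3565) (orK (nat_lit 172) (fin (add (start D227) (orK (nat_lit 211) (fin (add (start D5988) (orK (nat_lit 212) (fin (add (start D57) D3034))))))))))))))))))) (orK (nat_lit 188) (fin (add (start D269) (orK (nat_lit 211) (fin (add (start D54) (orK (nat_lit 208) (fin (add (start D371) (orK (nat_lit 168) (fin (add (start D373) (orK (nat_lit 209) (fin (add (start D342) D1912)))))))))))))))))))))))))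 D642)))) D14759) D14761) (orK (nat_lit 170) D28)))
noncomputable def D6859 : OP := orK (nat_lit 271) (fin (add (start D4221) (orK (nat_lit 272) (fin (add (start (win (nat_lit 0) (nat_lit 8) (nat_lit 12) (nat_lit 2))) D6855)))))
noncomputable def D6913 : OP := orK (nat_lit 248) (fin (add (start D3847) D5125))
noncomputable def D15089 : OP := orK (nat_lit 229) (fin (add (add (add (start (orK (nat_lit 231) (fin (add (start D13021) D525)))) (orK (nat_lit 249) (fin (add (start (orK (nat_lit 228) (fin (add (add (add (start D15048) D5098) (orK (nat_lit 250) (fin (add (add (start D4142) (orK (nat_lit 248) (fin (add (add (start D6936) (orK (nat_lit 251) (fin (add (start D9682) D13901)))) (orK (nat_lit 251) (fin (add (start D9682) (orK (nat_lit 271) (fin (add (start D4370) (orK (nat_lit 247) (fin (add (start D11234) D4017))))))))))))) (orK (nat_lit 227) (fin (add (start D4139) (orK (nat_lit 207) (fin (add (start D5156) (orK (nat_lit 231) (fin (add (start D5155) (orK (nat_lit 247) (fin (add (start (win (nat_lit 4) (nat_lit 7) (nat_lit 11) (nat_lit 1))) D4043)))))))))))))))) (orK (nat_lit 231) (fin (add (add (start D6913) (orK (nat_lit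 252) (fin (add (start D3672) (orK (nat_lit 232) (fin (add (start D3671) D4846))))))) (orK (nat_lit 248) (fin (add (start D3847) (orK (nat_lit 251) (fin (add (start D4059) (orK (nat_lit 208) (fin (add (start D515) (orK (nat_lit 211) (fin (add (start D517) D6859))))))))))))))))))) D14733)))) D14761) D14868))
noncomputable def D16426 : AP := fin (add (add (add (add (add (add (add (add (add (add (add (add (add (add (add (add (add (add (start (orK (nat_lit 250) (fin (add (add (add (add (start D7073) D14443) D9312) (orK (nat_lit 189) (fin (add (add (start (orK (nat_lit 270) (fin (add (start D3105) D7030)))) (orK (nat_lit 190) D14324)) (orK (nat_lit 190) D14453))))) D14459)))) (orK (nat_lit 190) (fin (add (add (add (add (start D14473) D14475) D14486) D14488) D14498)))) (orK (nat_lit 190) (fin (add (add (add (start D14510) D14498) D14517) D10444)))) (orK (nat_lit 190) (fin (add (add (add (start D14297) D14357) D14520) D14475)))) (orK (nat_lit 190) (fin (add (add (add (add (add (add (add (add (start D14498) D14655) (orK (nat_lit 191) (fin (add (add (start D14659) D10443) (orK (nat_lit 209) (fin (add (add (add (start (orK (nat_lit 170)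 (fin (add (start D10281) (orK (nat_lit 171) (fin (add (start D14) D2711))))))) D2871) D14673) D2715))))))) D14764) D14357) D14801) D14870) D14890) D14957)))) (orK (nat_lit 190) (fin (add (add (add (add (add (start D14297) D14960) (orK (nat_lit 170) D14961)) (orK (nat_lit 191) (fin (add (add (add (start D10250) D14966) (orK (nat_lit 250) (fin (add (start D615) D14504)))) D14955)))) (orK (nat_lit 189) (fin (add (add (add (start D14230) (orK (nat_lit 211) (fin (add (add (add (start (orK (nat_lit 250) (fin (add (add (start D3029) D14974) (orK (nat_lit 212) (fin (add (start D57) (orK (nat_lit 171) (fin (add (start D15) (orK (nat_lit 170) (fin (add (start D14) (orK (nat_lit 229) (fin (add (start D20) (orK (nat_lit 209) (fin (add (start D460) D59))))))))))))))))))) D426) D428) (orK (nat_lit 250) (fin (add (add (start D3029) D14974) (orK (nat_lit 191) (fin (add (start D615) (orK (nat_lit 188) (fin (add (start D53) (orK (nat_lit 208) (fin (add (start D371) (orK (nat_lit 209) (fin (add (start D342) D9034))))))))))))))))))) D14244) D15018)))) (orK (nat_lit 191) (fin (add (add (start D10250) (orK (nat_lit 209) (fin (add (add (start (orK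 (nat_lit 170) (fin (add (start D10281) (orK (nat_lit 192) (fin (add (start D678) D10533))))))) D2871) (orK (nat_lit 229) (fin (add (start D9696) (orK (nat_lit 208) (fin (add (start D50) D2445)))))))))) D10443))))))) (orK (nat_lit 190) (fin (add (add (add (add (add (start D14488) (orK (nat_lit 189) (fin (add (add (add (start (orK (nat_lit 250) (fin (add (start D3476) D14234)))) D14355) D14240) (orK (nat_lit 250) (fin (add (start D3476) D9318))))))) D15089) D15146) D15157) D10444)))) (orK (nat_lit 190) (fin (add (add (add (add (add (add (start D14473) D15224) D15089) D14653) D15258) D14520) D15296)))) (orK (nat_lit 190) (fin (add (add (add (add (add (add (add (start D14488) D10444) D15089) (orK (nat_lit 170) D645)) D15300) (orK (nat_lit 170) D732)) D15307) D14764)))) (orK (nat_lit 209) D15423)) (orK (nat_lit 190) (fin (add (add (add (add (add (add (add (start D15426) D14510) D15502) D14801) D14473) D15517) (orK (nat_lit 189) (fin (add (add (add (start D14230) (orK (nat_lit 211) (fin (add (add (start (orK (nat_lit 212) (fin (add (start D57) D15523)))) D428) (orK (nat_lit 188) (fin (add (start D53) D15523))))))) D14244) D15531))))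 D15296)))) (orK (nat_lit 190) (fin (add (add (add (add (add (add (start D14488) D10444) D15541) D15157) D15542) (orK (nat_lit 249) (fin (add (add (start D15543) D721) (orK (nat_lit 170) (fin (add (start D7) D13109))))))) D14870)))) (orK (nat_lit 209) D15854)) (orK (nat_lit 190) (fin (add (add (add (add (start D14517) D14510) D10444) (orK (nat_lit 189) (fin (add (add (add (start D14230) D15523) D14244) (orK (nat_lit 169) (fin (add (add (start D14228) (orK (nat_lit 170) (fin (add (start D9933) (orK (nat_lit 229) (fin (add (start D20) (orK (nat_lit 209) (fin (add (start D460) D4475)))))))))) D14242))))))) D14890)))) (orK (nat_lit 190) (fin (add (add (add (add (start D14510) D15872) D15157) D14486) D14655)))) (orK (nat_lit 190) (fin (add (add (add (add (add (add (start D14357) (orK (nat_lit 231) (fin (add (add (add (start (orK (nat_lit 191) (fin (add (add (start D14659) D10443) (orK (nat_lit 171) (fin (add (add (start D10248) (orK (nat_lit 211) (fin (add (start D6011) (orK (nat_lit 172) (fin (add (start D5988) (orK (nat_lit 189) (fin (add (start D2685) (orK (nat_lit 173) (fin (add (start D14931) (win (nat_lit 5) (nat_lit 9) (nat_lit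 8) (nat_lit 3))))))))))))))) D10441))))))) (orK (nat_lit 251) (fin (add (add (start D12495) D14370) (orK (nat_lit 250) (fin (add (start D14063) (orK (nat_lit 191) (fin (add (start D615) (orK (nat_lit 270) (fin (add (start D15888) D10256))))))))))))) D13021) D14412)))) D15300) D15517) D15872) (orK (nat_lit 231) (fin (add (add (add (start D15908) (orK (nat_lit 251) (fin (add (add (start D12495) D14370) (orK (nat_lit 250) (fin (add (start D14063) (orK (nat_lit 189) (fin (add (start D3476) (orK (nat_lit 270) (fin (add (start D3105) D15912))))))))))))) D13021) D14412)))) D14475)))) (orK (nat_lit 190) (fin (add (add (add (add (add (add (add (add (add (start D14960) D15224) D14475) D15146) D15307) (orK (nat_lit 191) (fin (add (add (add (start D10250) D14966) D15932) D14955)))) D15502) D15541) (orK (nat_lit 231) (fin (add (add (add (start D15908) (orK (nat_lit 209) (fin (add (add (add (start (orK (nat_lit 250) (fin (add (add (start D9275) D15940) (orK (nat_lit 251) (fin (add (start D149) (orK (nat_lit 189) (fin (add (start D3476) (orK (nat_lit 232) (fin (add (start D501) (orK (nat_lit 229) (fin (add (add (start (orK (nat_lit 252)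 (fin (add (start D4222) D3671)))) (orK (nat_lit 212) (fin (add (start D3677) (orK (nat_lit 192) (fin (add (start D3681) (orK (nat_lit 211) (fin (add (start D3034) D845)))))))))) (orK (nat_lit 252) (fin (add (start D3671) (orK (nat_lit 212) (fin (add (start D3677) (orK (nat_lit 192) (fin (add (start D3681) D15948))))))))))))))))))))))))) D3909) D3910) (orK (nat_lit 250) (fin (add (add (start D9275) D15940) (orK (nat_lit 271) (fin (add (start D627) (orK (nat_lit 189) (fin (add (start D3476) (orK (nat_lit 208) (fin (add (start D3035) (orK (nat_lit 211) (fin (add (add (start D11997) (orK (nat_lit 212) (fin (add (start D57) D3913)))) (orK (nat_lit 188) (fin (add (start D53) D3753)))))))))))))))))))))) D13021) D14412)))) D14957)))) (orK (nat_lit 170) (fin (add (add (add (add (add (start (orK (nat_lit 190) D534)) D15986) (orK (nat_lit 190) D14961)) D15988) D5177) (orK (nat_lit 209) D16377))))) (orK (nat_lit 190) (fin (add (add (add (add (start D14297) D14473) D14655) D14475) (orK (nat_lit 189) (fin (add (add (add (start D14230) (orK (nat_lit 188) (fin (add (add (add (start (orK (nat_lit 187) (fin (add (add (add (start D14332) D14334)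 (orK (nat_lit 207) (fin (add (start D8665) (orK (nat_lit 208) (fin (add (start D304) (orK (nat_lit 209) (fin (add (start D2449) D9071)))))))))) D16389)))) (orK (nat_lit 212) (fin (add (add (add (start (orK (nat_lit 211) D298)) (orK (nat_lit 211) D300)) (orK (nat_lit 211) D302)) (orK (nat_lit 191) (fin (add (start (orK (nat_lit 171) (fin (add (start D2673) D3428)))) (orK (nat_lit 192) (fin (add (start D2688) D14313)))))))))) D14352) D14353)))) (orK (nat_lit 250) (fin (add (start D3476) (orK (nat_lit 191) (fin (add (start D615) (orK (nat_lit 251) (fin (add (start D149) (orK (nat_lit 249) (fin (add (start D8) D16413))))))))))))) D14355)))))))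
noncomputable def D16427 : OP := orK (nat_lit 230) D16426
noncomputable def D14108 : OP := orK (nat_lit 191) (fin (add (start D697) D10443))
noncomputable def D13886 : OP := orK (nat_lit 191) (fin (add (add (add (add (add (add (start D13878) D11599) D11607) D13884) D11619) D11631) D11643))
noncomputable def D10394 : OP := orK (nat_lit 170) (fin (add (add (add (start D10185) (orK (nat_lit 229) (fin (add (add (start D2420) D464) D10390)))) D2473) D466))
noncomputable def D14224 : AP := fin (add (add (add (add (add (add (add (add (add (add (add (add (add (add (add (add (add (add (start D9146) D9255) D9270) D9570) D9678) D9776) D10028) (orK (nat_lit 190) (fin (add (add (add (add (add (add (add (add (start D10231) D10280) D10310) D13919) D10394) D10420) D10436) D10503) D10555)))) D14092) D10990) D11093) (orK (nat_lit 190) (fin (add (add (add (add (add (add (add (add (add (add (start D11212) D11209) D13886) D11749) D11785) D11846) D11877) D11883) D11905) D12045) D12073)))) (orK (nat_lit 230) (fin (add (add (add (add (add (add (add (add (add (add (add (start D12089) D12124) D13821) (orK (nat_lit 250) (fin (add (add (start D9293)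 D12593) (orK (nat_lit 189) (fin (add (add (start D9291) (orK (nat_lit 249) (fin (add (add (start D8899) D13907) D8929)))) D9803))))))) (orK (nat_lit 231) (fin (add (add (add (start D3909) (orK (nat_lit 232) (fin (add (start D501) (orK (nat_lit 229) (fin (add (start D12529) D12239))))))) (orK (nat_lit 190) (fin (add (add (start (orK (nat_lit 170) (fin (add (start D157) D10281)))) (orK (nat_lit 208) (fin (add (start D3035) D14108)))) (orK (nat_lit 250) (fin (add (add (add (add (start D634) (orK (nat_lit 249) (fin (add (start D8) (orK (nat_lit 251) (fin (add (start D149) (orK (nat_lit 248) (fin (add (start D4359) (orK (nat_lit 228) (fin (add (start D9443) (orK (nat_lit 229) (fin (add (start D4059) D14112)))))))))))))))) D14145) (orK (nat_lit 269) (fin (add (start D613) (orK (nat_lit 270) (fin (add (start D614) (orK (nat_lit 191) (fin (add (start D615) D12079)))))))))) (orK (nat_lit 269) (fin (add (start D613) (orK (nat_lit 270) (fin (add (start D614) (orK (nat_lit 290) (fin (add (start D7061) D14152)))))))))))))))) (orK (nat_lit 232) (fin (add (start D501) (orK (nat_lit 208) (fin (add (start D3035) (orK (nat_lit 190) (fin (add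 (add (add (start D13021) D14108) (orK (nat_lit 250) (fin (add (start D634) (orK (nat_lit 191) (fin (add (start D615) D697))))))) (orK (nat_lit 251) (fin (add (start D8918) (orK (nat_lit 271) (fin (add (start D4221) (orK (nat_lit 192) (fin (add (start (orK (nat_lit 212) (fin (add (start D3681) (win (nat_lit 1) (nat_lit 11) (nat_lit 9) (nat_lit 3)))))) D3337)))))))))))))))))))))) D12558) D12603) (orK (nat_lit 250) (fin (add (add (start D14184) D9805) (orK (nat_lit 169) (fin (add (add (add (start D7075) D9806) (orK (nat_lit 190) (fin (add (add (add (start D9810) D12607) D9318) (orK (nat_lit 251) (fin (add (start D149) (orK (nat_lit 249) (fin (add (start D8) (orK (nat_lit 252) (fin (add (add (start D10313) (orK (nat_lit 191) (fin (add (start D615) (orK (nat_lit 193) (fin (add (start D3390) (orK (nat_lit 233) (fin (add (start D10316) (orK (nat_lit 272) (fin (add (start D4361) (orK (nat_lit 253) (fin (add (start (win (nat_lit 1) (nat_lit 12) (nat_lit 9) (nat_lit 1))) D10317)))))))))))))))) (orK (nat_lit 228) (fin (add (start D9444) (orK (nat_lit 248) (fin (add (start D9443) (orK (nat_lit 191) (fin (add (start D615) (orK (nat_lit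 267) (fin (add (start D11248) (orK (nat_lit 208) (fin (add (start D50) (orK (nat_lit 188) (fin (add (start D2527) D14197))))))))))))))))))))))))))))))) D9815))))))) D12988) D13007) D13115) D13119)))) D13193) D13256) D13476) D13538) D13621) D13657)
noncomputable def D14225 : OP := orK (nat_lit 209) D14224
noncomputable def D10557 : OP := orK (nat_lit 190) (fin (add (add (add (add (add (add (add (add (start D10231) D10280) D10310) D10380) D10394) D10420) D10436) D10503) D10555))
noncomputable def D13890 : OP := orK (nat_lit 209) (fin (add (add (add (add (add (add (add (add (add (add (add (add (add (add (add (add (add (add (start D9146) D9255) D9270) D9570) D9678) D9776) D10028) D10557) D10743) D10990) D11093) (orK (nat_lit 190) (fin (add (add (add (add (add (add (add (add (add (add (start D11883) D11212) D11749) D11209) D13886) D11785) D11846) D11877) D11905) D12045) D12073)))) D13121) D13193) D13256) D13476) D13538) D13621) D13657))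
noncomputable def D12075 : OP := orK (nat_lit 190) (fin (add (add (add (add (add (add (add (add (add (add (start D11209) D11212) (orK (nat_lit 191) (fin (add (add (add (add (add (add (start (orK (nat_lit 193) (fin (add (start D3390) (orK (nat_lit 211) (fin (add (add (add (add (add (start D11219) D11393) (orK (nat_lit 212) (fin (add (start D11214) (orK (nat_lit 229) (fin (add (start D59) (orK (nat_lit 249) (fin (add (start D462) (orK (nat_lit 231) (fin (add (add (add (start (orK (nat_lit 232) (fin (add (start D411) (orK (nat_lit 230) (fin (add (start D3659) (orK (nat_lit 252) (fin (add (start D3671) D2966)))))))))) (orK (nat_lit 232) (fin (add (start D411) (orK (nat_lit 251) (fin (add (start D402) (orK (nat_lit 250) (fin (add (start D7263) D8919)))))))))) (orK (nat_lit 251) (fin (add (start D402) (orK (nat_lit 250) (fin (add (start D7263) (orK (nat_lit 252) (fin (add (start D4691) (orK (nat_lit 253) (fin (add (start (win (nat_lit 2) (nat_lit 9) (nat_lit 11) (nat_lit 4))) (orK (nat_lit 274) (fin (add (start D11306) (orK (nat_lit 254) (fin (add (start D11307) D11313))))))))))))))))))) (orK (nat_lit 251) (fin (add (start D402)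 (orK (nat_lit 250) (fin (add (start D7263) (orK (nat_lit 248) (fin (add (start D10324) (orK (nat_lit 247) (fin (add (start D11419) D11250))))))))))))))))))))))))) D11454) D11494) D11512))))))) D11599) D11607) D11619) D11631) D11643) (orK (nat_lit 192) (fin (add (start D678) (orK (nat_lit 212) (fin (add (add (add (start D11649) D11666) D11674) D11682)))))))))) D11749) D11785) D11846) D11877) D11883) D11905) D12045) D12073))
noncomputable def D13659 : OP := orK (nat_lit 209) (fin (add (add (add (add (add (add (add (add (add (add (add (add (add (add (add (add (add (add (start D9146) D9255) D9270) D9570) D9678) D9776) D10028) D10557) D10743) D10990) D11093) D12075) D13121) D13193) D13256) D13476) D13538) D13621) D13657))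
noncomputable def D13825 : OP := orK (nat_lit 209) (fin (add (add (add (add (add (add (add (add (add (add (add (add (add (add (add (add (add (add (start D9146) D9255) D9270) D9570) D9678) D9776) D10028) D10557) D10743) D10990) D11093) D12075) (orK (nat_lit 230) (fin (add (add (add (add (add (add (add (add (add (add (add (start D12089) D12124) D13821) D12225) D12219) D12558) D12603) D12631) D12988) D13007) D13115) D13119)))) D13193) D13256) D13476) D13538) D13621) D13657))
noncomputable def D6201 : OP := orK (nat_lit 189) (fin (add (start D439) (orK (nat_lit 229) (fin (add (start D5744) D59)))))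
noncomputable def D6207 : OP := orK (nat_lit 209) (fin (add (start D79) (orK (nat_lit 151) (fin (add (start D1801) (orK (nat_lit 169) (fin (add (start D357) D6201))))))))
noncomputable def D1363 : OP := win (nat_lit 2) (nat_lit 11) (nat_lit 10) (nat_lit 0)
noncomputable def D6096 : OP := win (nat_lit 0) (nat_lit 10) (nat_lit 10) (nat_lit 3)
noncomputable def D6193 : OP := orK (nat_lit 233) (fin (add (start D1361) (orK (nat_lit 234) (fin (add (start D6096) D1363)))))
noncomputable def D6197 : OP := orK (nat_lit 232) (fin (add (start D6187) D6193))
noncomputable def D6195 : OP := orK (nat_lit 232) (fin (add (start D2858) D6193))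
noncomputable def D8085 : OP := orK (nat_lit 151) D6638
noncomputable def D1942 : OP := orK (nat_lit 208) (fin (add (start D342) D1068))
noncomputable def D1353 : OP := orK (nat_lit 233) (fin (add (start D103) D102))
noncomputable def D6056 : OP := orK (nat_lit 213) (fin (add (start D1353) D4662))
noncomputable def D7981 : OP := orK (nat_lit 212) (fin (add (add (start (orK (nat_lit 192) (fin (add (start D845) D6242)))) D6056) (orK (nat_lit 213) (fin (add (start D445) D4662)))))
noncomputable def D8163 : OP := orK (nat_lit 151) (fin (add (start D5556) (orK (nat_lit 152) (fin (add (start D1795) (orK (nat_lit 169) D6292))))))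
noncomputable def D1351 : OP := orK (nat_lit 208) (fin (add (start D1349) D107))
noncomputable def D1357 : OP := orK (nat_lit 209) (fin (add (start D1351) (orK (nat_lit 213) (fin (add (start D1353) D445)))))
noncomputable def D1413 : OP := orK (nat_lit 188) (fin (add (start D450) (orK (nat_lit 208) (fin (add (start D451) D107)))))
noncomputable def D1896 : OP := win (nat_lit 3) (nat_lit 9) (nat_lit 7) (nat_lit 3)
noncomputable def D8181 : OP := orK (nat_lit 209) (fin (add (add (start (orK (nat_lit 208) (fin (add (start D3035) D342)))) (orK (nat_lit 212) (fin (add (start D8169) (orK (nat_lit 189) (fin (add (start D439) (orK (nat_lit 192) (fin (add (start D845) (orK (nat_lit 169) (fin (add (start D357) D3722))))))))))))) (orK (nat_lit 208) (fin (add (start D3035) (orK (nat_lit 188) (fin (add (start D451) (orK (nat_lit 212) (fin (add (start D450) D3913)))))))))))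
noncomputable def D6976 : OP := orK (nat_lit 191) D5985
noncomputable def D7913 : OP := orK (nat_lit 208) (fin (add (start D451) D6743))
noncomputable def D1895 : OP := orK (nat_lit 187) (fin (add (start D1889) (orK (nat_lit 189) (fin (add (start D1890) D1891)))))
noncomputable def D6961 : OP := orK (nat_lit 212) (fin (add (start D59) (orK (nat_lit 233) (fin (add (start D103) (orK (nat_lit 213) (fin (add (start D102) (orK (nat_lit 189) (fin (add (start D439) D445)))))))))))
noncomputable def D4823 : OP := orK (nat_lit 232) D4822
noncomputable def D6949 : OP := orK (nat_lit 249) (fin (add (add (add (add (add (start D6843) (orK (nat_lit 248) (fin (add (start D4016) (orK (nat_lit 230) (fin (add (add (add (start (orK (nat_lit 247) (fin (add (start D4017) (orK (nat_lit 228) (fin (add (start D516) D5116))))))) (orK (nat_lit 247) (fin (add (start D4017) (orK (nat_lit 231) (fin (add (start D6848) D5125))))))) (orK (nat_lit 228) (fin (add (start D516) (orK (nat_lit 289) (fin (add (start (win (nat_lit 3) (nat_lit 9) (nat_lit 10) (nat_lit 1))) (orK (nat_lit 231) (fin (add (start D5125) (orK (nat_lit 251) (fin (add (start D4059) D6859)))))))))))))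 (orK (nat_lit 227) (fin (add (start D4859) (orK (nat_lit 247) (fin (add (start D4017) (orK (nat_lit 226) (fin (add (start (win (nat_lit 2) (nat_lit 6) (nat_lit 11) (nat_lit 0))) (orK (nat_lit 188) (fin (add (start D1897) (orK (nat_lit 186) (fin (add (start D6869) (orK (nat_lit 206) (fin (add (start (win (nat_lit 6) (nat_lit 6) (nat_lit 8) (nat_lit 0))) (orK (nat_lit 267) (fin (add (start (win (nat_lit 7) (nat_lit 6) (nat_lit 9) (nat_lit 3))) (win (nat_lit 7) (nat_lit 6) (nat_lit 10) (nat_lit 0)))))))))))))))))))))))))))))) (orK (nat_lit 270) (fin (add (start D4102) (orK (nat_lit 269) D6898))))) D6911) (orK (nat_lit 270) (fin (add (start D4102) (orK (nat_lit 269) (fin (add (start D4103) (orK (nat_lit 230) (fin (add (start D4089) (orK (nat_lit 228) (fin (add (start D516) (orK (nat_lit 231) (fin (add (add (start D6913) (orK (nat_lit 271) (fin (add (start (orK (nat_lit 251) D6914)) (orK (nat_lit 248) (fin (add (start D4338) D3847))))))) D4823)))))))))))))))) (orK (nat_lit 250) (fin (add (start D4095) (orK (nat_lit 248) (fin (add (start D4016) (orK (nat_lit 227) (fin (add (add (start (orK (nat_lit 228) D6933)) (orK (nat_lit 230)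 (fin (add (start D4859) D6936)))) (orK (nat_lit 247) (fin (add (start D4193) (orK (nat_lit 230) D6935)))))))))))))))
noncomputable def D5747 : OP := orK (nat_lit 229) D5746
noncomputable def D6061 : OP := orK (nat_lit 230) (fin (add (start D4445) D6059))
noncomputable def D6065 : OP := orK (nat_lit 234) (fin (add (start D806) (orK (nat_lit 214) (fin (add (start D807) D6061)))))
noncomputable def D6125 : OP := orK (nat_lit 213) (fin (add (start D443) D6065))
noncomputable def D8338 : AP := fin (add (add (add (add (add (add (start (orK (nat_lit 209) (fin (add (add (add (add (add (add (start D4668) D8091) (orK (nat_lit 188) (fin (add (add (start D2507) (orK (nat_lit 208) (fin (add (start D451) (orK (nat_lit 212) (fin (add (add (add (start D6052) D449) (orK (nat_lit 193) (fin (add (start D442) D6125)))) (orK (nat_lit 231) (fin (add (start D49) (orK (nat_lit 230) (fin (add (start D3035) D4930))))))))))))) (orK (nat_lit 187) (fin (add (start D1889) (orK (nat_lit 189) (fin (add (start D1890) (orK (nat_lit 169) (fin (add (start D1923) D5747))))))))))))) (orK (nat_lit 229) (fin (add (add (add (start D3461) (orK (nat_lit 189) (fin (add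 (start D3737) D6839)))) (orK (nat_lit 228) (fin (add (add (start D3459) (orK (nat_lit 189) (fin (add (add (start (orK (nat_lit 169) D5956)) (orK (nat_lit 188) (fin (add (start D3735) (orK (nat_lit 249) (fin (add (start D1897) (orK (nat_lit 248) (fin (add (start D4016) (orK (nat_lit 270) (fin (add (start D4102) (orK (nat_lit 269) (fin (add (start D4103) D8115)))))))))))))))) (orK (nat_lit 169) (fin (add (start D5744) D8127))))))) D8133)))) D8137)))) (orK (nat_lit 229) (fin (add (add (add (start D3461) (orK (nat_lit 212) (fin (add (start (orK (nat_lit 189) (fin (add (start D439) D6839)))) D449)))) (orK (nat_lit 189) (fin (add (add (start D6839) D6949) (orK (nat_lit 169) (fin (add (start D5744) (orK (nat_lit 168) (fin (add (start D3044) (orK (nat_lit 188) (fin (add (start D117) D4012))))))))))))) D6961)))) (orK (nat_lit 188) (fin (add (add (start D1895) D7913) D2507)))) (orK (nat_lit 208) D3940))))) (orK (nat_lit 191) (fin (add (add (add (start D5986) D7366) D6001) D8163)))) (orK (nat_lit 191) (fin (add (add (add (start D5986) (orK (nat_lit 231) (fin (add (start D5987) (orK (nat_lit 230) (fin (add (start D3783) D8181))))))) D6001)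 D8163)))) (orK (nat_lit 191) (fin (add (add (start D8085) (orK (nat_lit 231) (fin (add (start D5987) (orK (nat_lit 232) (fin (add (start D4732) (orK (nat_lit 209) D5286)))))))) D6001)))) (orK (nat_lit 230) (fin (add (add (add (start D6976) (orK (nat_lit 229) (fin (add (add (add (start (orK (nat_lit 212) (fin (add (start D3729) (orK (nat_lit 209) (fin (add (add (start D8197) (orK (nat_lit 232) (fin (add (start D411) (orK (nat_lit 231) (fin (add (start D3038) (orK (nat_lit 252) (fin (add (start D3671) (orK (nat_lit 192) (fin (add (start D845) (orK (nat_lit 251) (fin (add (start D2979) (orK (nat_lit 249) (fin (add (start D3659) (orK (nat_lit 269) (fin (add (start D4089) (orK (nat_lit 268) (fin (add (start D1899) (win (nat_lit 5) (nat_lit 8) (nat_lit 12) (nat_lit 2))))))))))))))))))))))))))) (orK (nat_lit 232) (fin (add (start D411) (orK (nat_lit 208) (fin (add (start D412) D8216))))))))))))) D8225) (orK (nat_lit 228) (fin (add (start D516) D5145)))) D8229)))) (orK (nat_lit 191) (fin (add (start D3782) (orK (nat_lit 270) (fin (add (start (win (nat_lit 3) (nat_lit 10) (nat_lit 9) (nat_lit 1))) (orK (nat_lit 212) (fin (add (add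 (add (start D7017) (orK (nat_lit 213) (fin (add (start D4445) (orK (nat_lit 234) (fin (add (start D806) (orK (nat_lit 214) (fin (add (start D807) (orK (nat_lit 215) (fin (add (start (win (nat_lit 2) (nat_lit 11) (nat_lit 9) (nat_lit 4))) D816))))))))))))) (orK (nat_lit 209) (fin (add (start D1413) (orK (nat_lit 232) (fin (add (start D411) (orK (nat_lit 192) (fin (add (start D845) D2697)))))))))) D6197)))))))))) (orK (nat_lit 191) (fin (add (start D3782) (orK (nat_lit 231) (fin (add (add (start D6011) (orK (nat_lit 252) (fin (add (start D5989) (orK (nat_lit 251) (fin (add (start D4691) (orK (nat_lit 229) (fin (add (start D4222) (orK (nat_lit 212) (fin (add (start D3729) (orK (nat_lit 271) (fin (add (start D8256) D4221)))))))))))))))) D8181)))))))))) (orK (nat_lit 212) (fin (add (add (add (start D8286) (orK (nat_lit 209) (fin (add (add (add (start D8290) (orK (nat_lit 189) (fin (add (start D439) (orK (nat_lit 229) (fin (add (start D59) (orK (nat_lit 150) (fin (add (start D1896) (orK (nat_lit 191) D6000))))))))))) D850) D1413)))) (orK (nat_lit 232) (fin (add (start (orK (nat_lit 191) (fin (add (start D2858) (orK (nat_lit 231)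 (fin (add (start D4732) D5987))))))) D6193)))) D1357)))) (orK (nat_lit 191) (fin (add (add (add (start D8163) (orK (nat_lit 209) (fin (add (add (add (start D1888) (orK (nat_lit 189) (fin (add (start D3737) (orK (nat_lit 169) D8318))))) D7981) D1942)))) D8085) (orK (nat_lit 212) (fin (add (add (add (start D6189) D6195) D6197) (orK (nat_lit 192) (fin (add (add (start D1803) D6207) (orK (nat_lit 194) (fin (add (start D6645) (orK (nat_lit 151) (fin (add (start D1801) (orK (nat_lit 169) (fin (add (start D357) (orK (nat_lit 152) (fin (add (start D1795) D3614))))))))))))))))))))))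
noncomputable def D1468 : AP := fin (add (start D1423) (win (nat_lit 1) (nat_lit 12) (nat_lit 8) (nat_lit 5)))
noncomputable def D6115 : OP := orK (nat_lit 232) (fin (add (start D1361) (orK (nat_lit 173) D1468)))
noncomputable def D8043 : OP := orK (nat_lit 193) (fin (add (add (start (orK (nat_lit 209) (fin (add (start D442) (orK (nat_lit 233) (fin (add (start D103) D1413))))))) (orK (nat_lit 213) (fin (add (start D443) (orK (nat_lit 233) (fin (add (start D102) D6115))))))) (orK (nat_lit 194) (fin (add (start D1373) (orK (nat_lit 192) D3205))))))
noncomputable def D8078 : OP := orK (nat_lit 212) (fin (add (add (add (start D6189) D6195) D8043) (orK (nat_lit 192) (fin (add (start D1803) (orK (nat_lit 151) (fin (add (start D1801) (orK (nat_lit 152) (fin (add (start D1795) (orK (nat_lit 153) (fin (add (start D1237) (orK (nat_lit 133) (fin (add (start (win (nat_lit 3) (nat_lit 12) (nat_lit 6) (nat_lit 2))) (orK (nat_lit 150) (fin (add (start D1238) D2025))))))))))))))))))))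
noncomputable def D1845 : OP := orK (nat_lit 148) (fin (add (start D561) D1843))
noncomputable def D7983 : OP := orK (nat_lit 209) (fin (add (add (add (start D1888) D1942) (orK (nat_lit 188) (fin (add (add (add (start D1895) D7953) D1921) (orK (nat_lit 208) (fin (add (start D451) (orK (nat_lit 228) (fin (add (start D104) (orK (nat_lit 168) (fin (add (start (orK (nat_lit 147) (fin (add (start D4622) (orK (nat_lit 148) (fin (add (start D4621) (orK (nat_lit 149) (fin (add (start D5664) D931)))))))))) (orK (nat_lit 249) (fin (add (start D4629) (orK (nat_lit 248) (fin (add (start D4630) (orK (nat_lit 267) (fin (add (start D2527) (orK (nat_lit 268) (fin (add (start D2528) D3297))))))))))))))))))))))))) D7981))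
noncomputable def D8051 : OP := orK (nat_lit 151) (fin (add (start D1801) (orK (nat_lit 152) (fin (add (start D1795) (orK (nat_lit 172) (fin (add (start D1160) (orK (nat_lit 153) (fin (add (start D3872) D1237)))))))))))
noncomputable def D6186 : OP := orK (nat_lit 231) (fin (add (start D5987) (orK (nat_lit 172) (fin (add (start D5988) (orK (nat_lit 251) (fin (add (start D4767) (orK (nat_lit 270) (fin (add (start D6178) D5991)))))))))))
noncomputable def D1964 : AP := fin (add (start D1160) (orK (nat_lit 151) (fin (add (start D1961) D1372))))
noncomputable def D1128 : OP := win (nat_lit 0) (nat_lit 10) (nat_lit 8) (nat_lit 3)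
noncomputable def D6135 : OP := orK (nat_lit 209) (fin (add (start D442) (orK (nat_lit 188) (fin (add (start D450) (orK (nat_lit 208) (fin (add (start D451) (orK (nat_lit 231) D6128)))))))))
noncomputable def D1501 : OP := orK (nat_lit 192) D1500
noncomputable def D1505 : OP := orK (nat_lit 209) (fin (add (start D442) D1413))
noncomputable def D1476 : OP := win (nat_lit 1) (nat_lit 12) (nat_lit 8) (nat_lit 4)
noncomputable def D6089 : OP := orK (nat_lit 173) (fin (add (add (start (orK (nat_lit 232) D1468)) (orK (nat_lit 253) (fin (add (start (orK (nat_lit 252) (fin (add (start D1476) D1477)))) (orK (nat_lit 172) (fin (add (start (win (nat_lit 7) (nat_lit 12) (nat_lit 7) (nat_lit 5))) (win (nat_lit 7) (nat_lit 12) (nat_lit 8) (nat_lit 4))))))))) (orK (nat_lit 153) (fin (add (start D6081) D6085)))))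
noncomputable def D1364 : AP := fin (add (start (win (nat_lit 2) (nat_lit 10) (nat_lit 10) (nat_lit 3))) D1363)
noncomputable def D1366 : AP := fin (add (start D1361) (orK (nat_lit 234) D1364))
noncomputable def D826 : OP := win (nat_lit 7) (nat_lit 12) (nat_lit 8) (nat_lit 0)
noncomputable def D828 : OP := orK (nat_lit 172) (fin (add (start D825) D826))
noncomputable def D6123 : OP := orK (nat_lit 233) (fin (add (add (add (start (orK (nat_lit 213) (fin (add (start D102) (orK (nat_lit 193) (fin (add (start D443) (orK (nat_lit 192) (fin (add (start D823) D828)))))))))) (orK (nat_lit 234) (fin (add (start D6096) (orK (nat_lit 232) D1364))))) (orK (nat_lit 232) D1366)) (orK (nat_lit 193) (fin (add (add (add (start (orK (nat_lit 209) (fin (add (start D103) D442)))) (orK (nat_lit 213) (fin (add (start D443) D6115)))) (orK (nat_lit 213) (fin (add (start D443) D6089)))) D1501)))))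
noncomputable def D6095 : OP := orK (nat_lit 213) (fin (add (add (start D6065) (orK (nat_lit 194) (fin (add (start D813) (orK (nat_lit 214) (fin (add (start D814) D6061))))))) (orK (nat_lit 193) (fin (add (start D443) (orK (nat_lit 233) (fin (add (start D102) D6089))))))))
noncomputable def D6058 : OP := orK (nat_lit 209) (fin (add (add (start (orK (nat_lit 208) (fin (add (start D6052) D1349)))) D6056) D1351))
noncomputable def D6050 : OP := orK (nat_lit 209) (fin (add (start (orK (nat_lit 192) (fin (add (start D845) (orK (nat_lit 232) (fin (add (start D411) (orK (nat_lit 172) (fin (add (start D1178) D6042)))))))))) D1413))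
noncomputable def D6040 : OP := orK (nat_lit 213) (fin (add (add (start (orK (nat_lit 233) (fin (add (start D102) (orK (nat_lit 209) (fin (add (start D103) D4662))))))) (orK (nat_lit 193) (fin (add (start D443) (orK (nat_lit 209) (fin (add (start D442) D4662))))))) D822))
noncomputable def D6030 : OP := orK (nat_lit 191) D6029
noncomputable def D5531 : OP := orK (nat_lit 189) (fin (add (start D226) D5475))
noncomputable def D1327 : OP := orK (nat_lit 91) (fin (add (start D1318) (orK (nat_lit 90) (fin (add (start D1319) D1323)))))
noncomputable def D1756 : OP := win (nat_lit 2) (nat_lit 9) (nat_lit 5) (nat_lit 0)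
noncomputable def D1747 : OP := orK (nat_lit 91) (fin (add (start D1318) (orK (nat_lit 90) (fin (add (start D1319) D1743)))))
noncomputable def D1791 : OP := orK (nat_lit 110) (fin (add (add (add (start D1747) D1749) (orK (nat_lit 111) (fin (add (start D1750) (orK (nat_lit 109) (fin (add (start D1751) (orK (nat_lit 131) (fin (add (add (start (orK (nat_lit 108) D1754)) (orK (nat_lit 132) (fin (add (start D1756) (orK (nat_lit 112) (fin (add (start (orK (nat_lit 129) (fin (add (start (win (nat_lit 4) (nat_lit 8) (nat_lit 5) (nat_lit 0))) D1758)))) (orK (nat_lit 92) (fin (add (start (win (nat_lit 3) (nat_lit 11) (nat_lit 4) (nat_lit 1))) D1762)))))))))) (orK (nat_lit 108) (fin (add (start D1752) (orK (nat_lit 128) (fin (add (start D1769) (orK (nat_lit 129) (fin (add (start D1770) (orK (nat_lit 88) (fin (add (start D1771) (orK (nat_lit 68) (fin (add (start D1772) (win (nat_lit 6) (nat_lit 8) (nat_lit 3) (nat_lit 5))))))))))))))))))))))))))) D1327))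
noncomputable def D1618 : OP := win (nat_lit 5) (nat_lit 9) (nat_lit 6) (nat_lit 0)
noncomputable def D1264 : AP := fin (add (start D1145) (orK (nat_lit 211) (fin (add (start D1229) D1257))))
noncomputable def D7783 : OP := orK (nat_lit 132) (fin (add (add (start (orK (nat_lit 133) (fin (add (start D7771) (win (nat_lit 5) (nat_lit 9) (nat_lit 6) (nat_lit 2)))))) (orK (nat_lit 191) D1264)) (orK (nat_lit 112) (fin (add (start D1273) (orK (nat_lit 113) (fin (add (start D1150) (orK (nat_lit 131) (fin (add (start (win (nat_lit 4) (nat_lit 9) (nat_lit 5) (nat_lit 0))) D1618)))))))))))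
noncomputable def D2290 : OP := win (nat_lit 1) (nat_lit 9) (nat_lit 4) (nat_lit 0)
noncomputable def D7770 : OP := orK (nat_lit 110) (fin (add (start D2290) D1317))
noncomputable def D1097 : OP := orK (nat_lit 148) (fin (add (start D561) D868))
noncomputable def D1119 : OP := orK (nat_lit 149) D1071
noncomputable def D1517 : OP := win (nat_lit 7) (nat_lit 12) (nat_lit 6) (nat_lit 0)
noncomputable def D1516 : OP := win (nat_lit 6) (nat_lit 12) (nat_lit 5) (nat_lit 0)
noncomputable def D1519 : OP := orK (nat_lit 132) (fin (add (start D1516) D1517))
noncomputable def D1521 : OP := orK (nat_lit 193) (fin (add (start D231) D1519))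
noncomputable def D1106 : OP := orK (nat_lit 194) (fin (add (start D1100) (orK (nat_lit 174) (fin (add (start D1101) D1102)))))
noncomputable def D2267 : OP := orK (nat_lit 173) (fin (add (add (start D1106) (orK (nat_lit 153) (fin (add (start D233) (orK (nat_lit 152) (fin (add (start D1138) D1521))))))) D1116))
noncomputable def D1099 : OP := orK (nat_lit 149) (fin (add (start D874) D1097))
noncomputable def D1185 : OP := win (nat_lit 6) (nat_lit 12) (nat_lit 6) (nat_lit 5)
noncomputable def D1694 : OP := orK (nat_lit 193) (fin (add (start D1597) D1185))
noncomputable def D1956 : OP := orK (nat_lit 191) (fin (add (start D1257) (orK (nat_lit 132) (fin (add (start D1145) D1228)))))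
noncomputable def D1674 : OP := orK (nat_lit 152) (fin (add (add (start D1519) (orK (nat_lit 213) (fin (add (start D1640) (orK (nat_lit 212) (fin (add (start D1403) (orK (nat_lit 133) (fin (add (start (win (nat_lit 1) (nat_lit 12) (nat_lit 6) (nat_lit 4))) (orK (nat_lit 113) (fin (add (start D1239) (orK (nat_lit 114) (fin (add (start (win (nat_lit 3) (nat_lit 13) (nat_lit 4) (nat_lit 5))) (win (nat_lit 3) (nat_lit 13) (nat_lit 5) (nat_lit 4)))))))))))))))))) (orK (nat_lit 132) (fin (add (start D1516) (orK (nat_lit 192) (fin (add (start (orK (nat_lit 211) (fin (add (start D1159) (orK (nat_lit 212) (fin (add (start D1160) D1655))))))) (orK (nat_lit 133) (fin (add (start D1662) (orK (nat_lit 134) (fin (add (start D1663) (win (nat_lit 4) (nat_lit 10) (nat_lit 6) (nat_lit 1))))))))))))))))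
noncomputable def D2212 : OP := orK (nat_lit 194) (fin (add (start D1100) (orK (nat_lit 174) (fin (add (start D1101) D1114)))))
noncomputable def D876 : OP := win (nat_lit 3) (nat_lit 9) (nat_lit 6) (nat_lit 0)
noncomputable def D878 : OP := orK (nat_lit 130) (fin (add (start D875) D876))
noncomputable def D2183 : OP := orK (nat_lit 192) D1196
noncomputable def D1177 : OP := orK (nat_lit 194) (fin (add (start D1128) D1173))
noncomputable def D1198 : AP := fin (add (start D1127) D1177)
noncomputable def D1199 : OP := orK (nat_lit 193) D1198
noncomputable def D5494 : OP := orK (nat_lit 131) (fin (add (start D1293) D3533))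
noncomputable def D5496 : OP := orK (nat_lit 151) (fin (add (start D1372) D5494))
noncomputable def D1191 : OP := orK (nat_lit 211) (fin (add (start D823) (orK (nat_lit 152) (fin (add (start D1160) (orK (nat_lit 132) (fin (add (start D1159) D1185))))))))
noncomputable def D7733 : OP := orK (nat_lit 152) D1210
noncomputable def D2003 : OP := win (nat_lit 6) (nat_lit 10) (nat_lit 4) (nat_lit 0)
noncomputable def D1345 : OP := win (nat_lit 2) (nat_lit 9) (nat_lit 6) (nat_lit 5)
noncomputable def D1139 : OP := win (nat_lit 4) (nat_lit 10) (nat_lit 7) (nat_lit 3)
noncomputable def D1143 : AP := fin (add (start D1138) (orK (nat_lit 154) (fin (add (start D1139) D1140))))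
noncomputable def D1822 : OP := orK (nat_lit 111) (fin (add (start D1531) D1820))
noncomputable def D1681 : AP := fin (add (start D1293) D1559)
noncomputable def D2182 : OP := orK (nat_lit 194) (fin (add (start D1128) (orK (nat_lit 192) D1174)))
noncomputable def D2175 : OP := orK (nat_lit 152) (fin (add (start D1138) D1519))
noncomputable def D7692 : OP := orK (nat_lit 133) (fin (add (start D1662) (win (nat_lit 1) (nat_lit 12) (nat_lit 6) (nat_lit 5))))
noncomputable def D7904 : AP := fin (add (add (add (add (add (add (add (start (orK (nat_lit 153) (fin (add (add (add (start (orK (nat_lit 173) (fin (add (start D233) (orK (nat_lit 193) (fin (add (start D231) (orK (nat_lit 192) (fin (add (start D1127) D7692)))))))))) (orK (nat_lit 193) (fin (add (add (add (start (orK (nat_lit 169) (fin (add (start D230) D232)))) (orK (nat_lit 192) D1198)) (orK (nat_lit 173) (fin (add (start D231) (orK (nat_lit 192) (fin (add (add (start D7692) (orK (nat_lit 212) (fin (add (start D1655) (orK (nat_lit 211) (fin (add (start D823) (orK (nat_lit 152) (fin (add (start D1160) (orK (nat_lit 132) (fin (add (start D1516) D1185))))))))))))) (orK (nat_lit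 133) (fin (add (start D1662) (orK (nat_lit 132) (fin (add (start D1603) (orK (nat_lit 152) (fin (add (start D1185) (orK (nat_lit 134) (fin (add (start D1663) (orK (nat_lit 135) (fin (add (start (win (nat_lit 5) (nat_lit 11) (nat_lit 6) (nat_lit 5))) (win (nat_lit 5) (nat_lit 12) (nat_lit 6) (nat_lit 0)))))))))))))))))))))))) (orK (nat_lit 173) (fin (add (start D231) D2175))))))) (orK (nat_lit 154) (fin (add (start D1139) (orK (nat_lit 152) D1208))))) D7733)))) (orK (nat_lit 193) (fin (add (add (add (start (orK (nat_lit 173) (fin (add (start D231) (orK (nat_lit 149) (fin (add (start D2392) (orK (nat_lit 169) (fin (add (start D276) D235)))))))))) D2182) D2183) (orK (nat_lit 169) (fin (add (start D230) D5511))))))) (orK (nat_lit 150) (fin (add (add (add (start D1099) (orK (nat_lit 153) (fin (add (add (add (start (orK (nat_lit 173) (fin (add (start D233) (orK (nat_lit 151) (fin (add (start D1388) (orK (nat_lit 191) (fin (add (start (orK (nat_lit 211) D7736)) (orK (nat_lit 131) (fin (add (add (start (orK (nat_lit 192) D1681)) (orK (nat_lit 133) (fin (add (start (orK (nat_lit 192) (fin (add (start D1662) D1559)))) (orK (nat_lit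 132) (fin (add (start D1566) D1700))))))) D1822))))))))))))) (orK (nat_lit 152) D1143)) (orK (nat_lit 152) (fin (add (start D1138) (orK (nat_lit 151) (fin (add (start (orK (nat_lit 130) (fin (add (start D1345) (orK (nat_lit 110) (fin (add (start D2003) D1317))))))) (orK (nat_lit 173) (fin (add (start D1591) (orK (nat_lit 133) (fin (add (start D1238) (orK (nat_lit 113) (fin (add (start D1239) (win (nat_lit 1) (nat_lit 12) (nat_lit 5) (nat_lit 5)))))))))))))))))) D7733)))) D1119) (orK (nat_lit 149) (fin (add (add (start D1097) (orK (nat_lit 169) (fin (add (start (orK (nat_lit 130) (fin (add (add (start D7770) (orK (nat_lit 152) (fin (add (start D281) D7783)))) D1791)))) D5531)))) D1070))))))) (orK (nat_lit 192) (fin (add (add (add (start (orK (nat_lit 212) (fin (add (add (add (start D5490) (orK (nat_lit 211) (fin (add (start (orK (nat_lit 209) (fin (add (add (start (orK (nat_lit 188) (fin (add (start D450) (orK (nat_lit 208) (fin (add (start D451) D846))))))) D848) (orK (nat_lit 229) (fin (add (start D59) (orK (nat_lit 189) (fin (add (start D439) (orK (nat_lit 169) (fin (add (start D5744) (orK (nat_lit 230) (fin (add (start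 D3729) D3722)))))))))))))))) D5390)))) D5496) (orK (nat_lit 151) (fin (add (add (start D5488) (orK (nat_lit 149) (fin (add (add (start (orK (nat_lit 150) (fin (add (start D874) (orK (nat_lit 211) (fin (add (add (start (orK (nat_lit 191) D7736)) (orK (nat_lit 152) (fin (add (start D1160) (orK (nat_lit 129) (fin (add (start D1247) (orK (nat_lit 213) (fin (add (start D2375) (orK (nat_lit 229) (fin (add (start D4660) (orK (nat_lit 209) (fin (add (start D59) (orK (nat_lit 189) (fin (add (start D439) D1896))))))))))))))))))) (orK (nat_lit 231) (fin (add (start D3858) D7831)))))))))) (orK (nat_lit 169) (fin (add (start D276) (orK (nat_lit 189) (fin (add (start D226) (orK (nat_lit 209) (fin (add (start D5473) (orK (nat_lit 228) (fin (add (start D5955) (orK (nat_lit 229) (fin (add (start D3065) D7838)))))))))))))))) (orK (nat_lit 150) D1358))))) D5494))))))) (orK (nat_lit 212) (fin (add (add (start D5490) (orK (nat_lit 193) (fin (add (start D1191) D1177)))) D5496)))) D1197) D1199)))) (orK (nat_lit 193) (fin (add (add (start D5813) D2183) (orK (nat_lit 169) (fin (add (start D230) (orK (nat_lit 149) (fin (add (start D276) (orK (nat_lit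 189) (fin (add (start D226) (orK (nat_lit 150) (fin (add (start D874) D878)))))))))))))))) (orK (nat_lit 173) (fin (add (add (add (start (orK (nat_lit 194) (fin (add (start D1100) (orK (nat_lit 174) (fin (add (start D1101) (orK (nat_lit 150) (fin (add (start D1202) D1102)))))))))) D2212) D5544) (orK (nat_lit 193) (fin (add (start D231) (orK (nat_lit 153) (fin (add (start D233) (orK (nat_lit 150) (fin (add (start D1202) D1674))))))))))))) (orK (nat_lit 152) (fin (add (add (add (start D1211) (orK (nat_lit 169) (fin (add (start D281) (orK (nat_lit 189) (fin (add (start D226) (orK (nat_lit 149) (fin (add (start D276) (orK (nat_lit 209) (fin (add (start D5473) (orK (nat_lit 228) (fin (add (start D5955) (orK (nat_lit 229) (fin (add (start D3065) (orK (nat_lit 211) (fin (add (start D1911) D1956)))))))))))))))))))))) (orK (nat_lit 192) (fin (add (add (start D1197) D1170) (orK (nat_lit 193) (fin (add (start D1127) (orK (nat_lit 213) (fin (add (start (win (nat_lit 6) (nat_lit 12) (nat_lit 6) (nat_lit 0))) (orK (nat_lit 233) (fin (add (start (win (nat_lit 6) (nat_lit 12) (nat_lit 7) (nat_lit 3))) D826))))))))))))) (orK (nat_lit 191)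 (fin (add (add (add (start (orK (nat_lit 211) (fin (add (start D1257) (orK (nat_lit 151) (fin (add (start D5556) (orK (nat_lit 153) (fin (add (start D1237) (orK (nat_lit 212) (fin (add (start D1800) (orK (nat_lit 192) (fin (add (start D3872) D1801)))))))))))))))) (orK (nat_lit 132) D1260)) (orK (nat_lit 132) D1264)) (orK (nat_lit 132) (fin (add (start D1145) (orK (nat_lit 192) (fin (add (start D1694) (orK (nat_lit 133) (fin (add (start D1974) (orK (nat_lit 212) (fin (add (start D5600) (orK (nat_lit 131) (fin (add (start (win (nat_lit 6) (nat_lit 11) (nat_lit 6) (nat_lit 1))) D1161)))))))))))))))))))))) (orK (nat_lit 150) (fin (add (add (add (start D1099) D2267) D1119) (orK (nat_lit 149) (fin (add (add (start D1097) (orK (nat_lit 169) (fin (add (start (orK (nat_lit 152) (fin (add (start D281) (orK (nat_lit 130) (fin (add (add (start D7770) D7783) D1791))))))) D5531)))) D1070)))))))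
noncomputable def D1682 : OP := orK (nat_lit 131) D1681
noncomputable def D2068 : OP := win (nat_lit 5) (nat_lit 11) (nat_lit 8) (nat_lit 4)
noncomputable def D7209 : OP := orK (nat_lit 211) (fin (add (start D49) D5987))
noncomputable def D7225 : OP := orK (nat_lit 207) (fin (add (start D2831) (orK (nat_lit 231) (fin (add (start D2459) D7209)))))
noncomputable def D7216 : OP := orK (nat_lit 231) (fin (add (add (start D7209) D7210) (orK (nat_lit 230) (fin (add (start D3035) (orK (nat_lit 211) (fin (add (start D3783) D5987))))))))
noncomputable def D7352 : AP := fin (add (add (add (add (start D2114) (orK (nat_lit 191) (fin (add (start D374) (orK (nat_lit 188) (fin (add (start D117) (orK (nat_lit 208) (fin (add (add (add (start D7178) (orK (nat_lit 229) (fin (add (add (add (start (orK (nat_lit 209) D7181)) (orK (nat_lit 228) (fin (add (start D1913) (orK (nat_lit 247) (fin (add (start D7183) (orK (nat_lit 248) (fin (add (start D3746) D2537)))))))))) (orK (nat_lit 209) D7192)) (orK (nat_lit 209) (fin (add (start D1912) (orK (nat_lit 189) (fin (add (start D5744) (orK (nat_lit 228) (fin (add (start D3065) D4034))))))))))))) D7206)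 (orK (nat_lit 209) (fin (add (add (start D7216) D7217) (orK (nat_lit 148) (fin (add (start D7225) D7229)))))))))))))))) (orK (nat_lit 191) (fin (add (start D374) (orK (nat_lit 167) (fin (add (add (add (start D2110) (orK (nat_lit 146) (fin (add (start D2578) (orK (nat_lit 166) (fin (add (start D2577) (orK (nat_lit 150) (fin (add (start D7240) (orK (nat_lit 188) (fin (add (start D117) (orK (nat_lit 189) (fin (add (start D7241) (orK (nat_lit 110) (fin (add (start D5472) (orK (nat_lit 209) (fin (add (start D1922) D7243)))))))))))))))))))))) (orK (nat_lit 146) (fin (add (start D2578) (orK (nat_lit 211) (fin (add (add (add (start (orK (nat_lit 166) (fin (add (start D2577) (orK (nat_lit 150) (fin (add (start D7240) D1312))))))) D6015) (orK (nat_lit 231) (fin (add (add (start D7267) (orK (nat_lit 232) (fin (add (start D4732) (orK (nat_lit 209) D7271))))) (orK (nat_lit 230) (fin (add (start D3783) (orK (nat_lit 166) (fin (add (start D2577) (orK (nat_lit 185) (fin (add (start D2606) (orK (nat_lit 165) (fin (add (start D2605) (orK (nat_lit 189) (fin (add (start D7275) (orK (nat_lit 209) (fin (add (start D3722) (orK (nat_lit 208) (fin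 (add (start D3035) (orK (nat_lit 228) (fin (add (start D104) (orK (nat_lit 229) (fin (add (start D3065) D517))))))))))))))))))))))))))))))) (orK (nat_lit 166) (fin (add (start D2577) (orK (nat_lit 149) (fin (add (start D2813) (orK (nat_lit 185) (fin (add (start D2606) (orK (nat_lit 165) (fin (add (start D2605) (orK (nat_lit 189) (fin (add (start D7275) (orK (nat_lit 209) (fin (add (start D5473) D7299))))))))))))))))))))))))) D6410))))))) (orK (nat_lit 191) (fin (add (start D374) (orK (nat_lit 148) (fin (add (start D770) (orK (nat_lit 209) (fin (add (add (add (start D7324) (orK (nat_lit 208) (fin (add (add (start D7328) D7216) (orK (nat_lit 188) (fin (add (start D7326) D7225))))))) D7134) (orK (nat_lit 189) (fin (add (add (start D7322) (orK (nat_lit 149) (fin (add (start D5473) (orK (nat_lit 208) (fin (add (start D3236) (orK (nat_lit 129) (fin (add (start D5748) (orK (nat_lit 89) (fin (add (start (win (nat_lit 1) (nat_lit 8) (nat_lit 4) (nat_lit 1))) D5752))))))))))))) D7132))))))))))))) (orK (nat_lit 191) (fin (add (start D374) D6436))))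
noncomputable def D6006 : OP := orK (nat_lit 151) (fin (add (start D5556) (orK (nat_lit 152) (fin (add (start D1795) (orK (nat_lit 169) D3617))))))
noncomputable def D7093 : OP := orK (nat_lit 231) (fin (add (start D5987) D5995))
noncomputable def D2123 : OP := orK (nat_lit 169) D2062
noncomputable def D6211 : OP := orK (nat_lit 212) (fin (add (add (add (start D6189) D6195) D6197) (orK (nat_lit 192) (fin (add (add (start D1803) D6207) D2123)))))
noncomputable def D6175 : OP := orK (nat_lit 193) (fin (add (start D1597) D2125))
noncomputable def D6177 : OP := orK (nat_lit 192) (fin (add (add (start D2123) (orK (nat_lit 209) (fin (add (start D79) (orK (nat_lit 232) (fin (add (start (orK (nat_lit 212) (fin (add (start D411) D2858)))) (orK (nat_lit 231) (fin (add (start D4732) D6167)))))))))) D6175))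
noncomputable def D6213 : OP := orK (nat_lit 191) (fin (add (add (add (start D6001) D6177) D6186) D6211))
noncomputable def D6254 : OP := orK (nat_lit 191) (fin (add (add (add (start D5986) D6015) D6001) D6006))
noncomputable def D6233 : OP := orK (nat_lit 192) (fin (add (add (start D2123) (orK (nat_lit 231) (fin (add (start D6167) D6229)))) D6175))
noncomputable def D6973 : OP := orK (nat_lit 192) (fin (add (add (start D2123) D6175) (orK (nat_lit 209) (fin (add (start D79) (orK (nat_lit 169) (fin (add (start D357) (orK (nat_lit 189) (fin (add (start D2132) D5747)))))))))))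
noncomputable def D7081 : OP := orK (nat_lit 192) (fin (add (add (start D2123) D6175) (orK (nat_lit 169) (fin (add (start D357) (orK (nat_lit 209) (fin (add (start D79) D7075))))))))
noncomputable def D3140 : OP := orK (nat_lit 233) (fin (add (start D102) (orK (nat_lit 209) (fin (add (start D103) D445)))))
noncomputable def D6221 : OP := orK (nat_lit 231) (fin (add (start D5987) (orK (nat_lit 230) (fin (add (start D3783) (orK (nat_lit 172) (fin (add (start D5988) (orK (nat_lit 192) (fin (add (start D2921) (orK (nat_lit 169) (fin (add (start D357) D240))))))))))))))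
noncomputable def D6223 : OP := orK (nat_lit 191) (fin (add (add (add (start D5986) D6221) D6001) D6006))
noncomputable def D6238 : OP := orK (nat_lit 151) (fin (add (start D5556) (orK (nat_lit 152) (fin (add (start D1795) (orK (nat_lit 169) D4901))))))
noncomputable def D6789 : AP := fin (add (start D1890) (orK (nat_lit 169) D3985))
noncomputable def D6795 : OP := orK (nat_lit 187) (fin (add (start D1889) (orK (nat_lit 189) D6789)))
noncomputable def D7109 : AP := fin (add (add (add (add (add (add (add (add (start D6030) (orK (nat_lit 209) (fin (add (add (add (add (start D4668) (orK (nat_lit 208) (fin (add (add (add (start D6739) D6743) D1068) (orK (nat_lit 228) (fin (add (start D104) (orK (nat_lit 232) (fin (add (start D412) (orK (nat_lit 188) (fin (add (start D451) (orK (nat_lit 169) (fin (add (start (orK (nat_lit 189) (fin (add (start D317) D2130)))) (orK (nat_lit 168) (fin (add (start D2538) (orK (nat_lit 151) (fin (add (start D119) D6750)))))))))))))))))))))) (orK (nat_lit 188) (fin (add (add (add (add (start D1895) (orK (nat_lit 212) (fin (add (start D450) (orK (nat_lit 232) (fin (add (start D411) (orK (nat_lit 192)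 (fin (add (start D845) D6767)))))))))) (orK (nat_lit 208) (fin (add (start D451) (orK (nat_lit 232) (fin (add (start D412) (orK (nat_lit 212) (fin (add (start D411) (orK (nat_lit 192) (fin (add (start D845) (orK (nat_lit 172) (fin (add (start D1178) (orK (nat_lit 153) (fin (add (start D3873) (orK (nat_lit 152) (fin (add (start D3872) D1138)))))))))))))))))))))) (orK (nat_lit 189) (fin (add (start D1891) (orK (nat_lit 187) D6789))))) D6795)))) (orK (nat_lit 188) (fin (add (add (start D6805) (orK (nat_lit 208) (fin (add (start D451) (orK (nat_lit 228) (fin (add (start D104) (orK (nat_lit 229) (fin (add (start D1911) (orK (nat_lit 249) (fin (add (start D3355) D4015))))))))))))) D6795)))) (orK (nat_lit 229) (fin (add (add (add (start D3461) (orK (nat_lit 169) (fin (add (add (start (orK (nat_lit 189) (fin (add (start D5744) D2132)))) (orK (nat_lit 212) (fin (add (add (start D6821) (orK (nat_lit 192) (fin (add (start D845) (orK (nat_lit 232) (fin (add (start D411) (orK (nat_lit 172) (fin (add (start D1178) (orK (nat_lit 152) D6822))))))))))) D6833)))) (orK (nat_lit 189) D5746))))) (orK (nat_lit 189) (fin (add (add (start D6839)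 D6949) (orK (nat_lit 169) (fin (add (start D5744) D4805))))))) D6961))))))) (orK (nat_lit 191) (fin (add (add (add (start D6260) D6238) D6973) D6211)))) D6223) (orK (nat_lit 230) (fin (add (add (add (start D6976) (orK (nat_lit 212) (fin (add (add (add (start (orK (nat_lit 229) (fin (add (start D3729) D6978)))) (orK (nat_lit 213) (fin (add (add (start D6984) D3140) (orK (nat_lit 194) (fin (add (start D813) (orK (nat_lit 214) (fin (add (start D814) D6059)))))))))) (orK (nat_lit 228) (fin (add (add (add (start (orK (nat_lit 229) D6977)) (orK (nat_lit 229) D5008)) (orK (nat_lit 209) (fin (add (start (orK (nat_lit 188) (fin (add (start D450) (orK (nat_lit 208) (fin (add (start D451) D104))))))) (orK (nat_lit 232) (fin (add (start D411) (orK (nat_lit 192) (fin (add (start D845) (orK (nat_lit 172) (fin (add (start D1178) (orK (nat_lit 152) (fin (add (start D1160) D3875)))))))))))))))) (orK (nat_lit 229) D7011))))) D7017)))) (orK (nat_lit 250) (fin (add (add (start (orK (nat_lit 191) D5983)) D7073) (orK (nat_lit 191) (fin (add (start D4452) D7081))))))) (orK (nat_lit 191) (fin (add (start D3782) (orK (nat_lit 250) (fin (add (start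 D3027) D7081)))))))))) (orK (nat_lit 191) (fin (add (add (add (start D6015) D6973) D7093) D6233)))) D6254) D6213) (orK (nat_lit 191) (fin (add (add (add (start D5982) D7093) (orK (nat_lit 151) (fin (add (start D5556) (orK (nat_lit 152) (fin (add (start D1795) (orK (nat_lit 231) (fin (add (start D6601) (orK (nat_lit 168) (fin (add (start D1846) (orK (nat_lit 232) (fin (add (start D7096) D4732)))))))))))))))) D6006))))
noncomputable def D2056 : OP := orK (nat_lit 151) D1027
noncomputable def D985 : OP := win (nat_lit 6) (nat_lit 10) (nat_lit 5) (nat_lit 1)
noncomputable def D1794 : OP := orK (nat_lit 130) D1315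
noncomputable def D6250 : OP := orK (nat_lit 192) (fin (add (add (start D2123) D6175) (orK (nat_lit 209) (fin (add (start D79) (orK (nat_lit 169) (fin (add (start D357) (orK (nat_lit 212) (fin (add (start D6242) D6201)))))))))))
noncomputable def D8486 : AP := fin (add (add (add (add (add (add (add (add (add (add (add (add (add (add (add (add (add (start (orK (nat_lit 169) (fin (add (add (add (add (start D5623) D5658) D5662) D5681) (orK (nat_lit 172) (fin (add (add (start D239) D5511) D5697))))))) (orK (nat_lit 169) D5977)) (orK (nat_lit 211) (fin (add (add (add (add (add (add (add (start D6030) (orK (nat_lit 212) (fin (add (add (add (add (add (add (start D6040) D6050) D6058) D6095) D6123) (orK (nat_lit 193) (fin (add (add (start D1501) D6125) D1505)))) (orK (nat_lit 193) (fin (add (add (start D6135) (orK (nat_lit 213) (fin (add (start D443) (orK (nat_lit 229) (fin (add (start D4660) (orK (nat_lit 209) (fin (add (start D59) (orK (nat_lit 189) (fin (add (start D439) (orK (nat_lit 169) (fin (add (start D5744) (orK (nat_lit 168) (fin (add (start D3044) (orK (nat_lit 152) (fin (add (start D280) (orK (nat_lit 153) (fin (add (start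 D3594) (orK (nat_lit 173) (fin (add (start D1403) D6082)))))))))))))))))))))))))))) (orK (nat_lit 194) (fin (add (start D1373) (orK (nat_lit 172) (fin (add (start D1128) (orK (nat_lit 192) (fin (add (start D1127) D1173)))))))))))))))) D6213) D6223) (orK (nat_lit 191) (fin (add (add (add (start D5986) D6177) D6233) D6238)))) (orK (nat_lit 191) (fin (add (add (add (start D6015) D6250) D6221) D6233)))) D6254) (orK (nat_lit 191) (fin (add (add (start D6260) D6250) D6238))))))) (orK (nat_lit 169) D6459)) (orK (nat_lit 169) (fin (add (add (add (add (add (start D5681) (orK (nat_lit 191) (fin (add (add (start D2063) D6477) (orK (nat_lit 150) (fin (add (add (add (start D1794) (orK (nat_lit 211) (fin (add (start D1312) (orK (nat_lit 151) D6480))))) (orK (nat_lit 110) (fin (add (start D985) (orK (nat_lit 168) (fin (add (start D2056) (orK (nat_lit 188) (fin (add (start D117) (orK (nat_lit 189) (fin (add (start D2130) (orK (nat_lit 209) (fin (add (start D1922) (orK (nat_lit 149) (fin (add (start D5473) (orK (nat_lit 129) (fin (add (start D6461) D5721)))))))))))))))))))))) (orK (nat_lit 231) (fin (add (start (win (nat_lit 7) (nat_lit 10)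 (nat_lit 7) (nat_lit 1))) (orK (nat_lit 130) (fin (add (start D960) (orK (nat_lit 189) (fin (add (start (orK (nat_lit 209) (fin (add (start D5768) D1922)))) D5707)))))))))))))))) (orK (nat_lit 191) (fin (add (add (start D2063) D6477) D6550)))) D6554) (orK (nat_lit 149) (fin (add (add (add (start D5702) D6564) (orK (nat_lit 172) (fin (add (start D276) (orK (nat_lit 189) (fin (add (start D226) (orK (nat_lit 209) (fin (add (start D5473) (orK (nat_lit 192) (fin (add (start D240) D5689))))))))))))) D5974)))) D5658)))) (orK (nat_lit 169) D6736)) (orK (nat_lit 211) D7109)) (orK (nat_lit 169) D7154)) (orK (nat_lit 169) (fin (add (add (add (add (add (add (start D6624) D7173) (orK (nat_lit 168) D7352)) (orK (nat_lit 192) (fin (add (add (start D6614) (orK (nat_lit 193) (fin (add (start D2059) (orK (nat_lit 191) (fin (add (start D1597) (orK (nat_lit 211) (fin (add (add (start D2125) D7364) (orK (nat_lit 208) (fin (add (start D360) D7366))))))))))))) (orK (nat_lit 188) (fin (add (add (start D7376) D7391) (orK (nat_lit 168) (fin (add (start D117) (orK (nat_lit 208) (fin (add (add (start D7396) (orK (nat_lit 228) (fin (add (add (start D7408)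 (orK (nat_lit 229) (fin (add (start D1913) (orK (nat_lit 172) (fin (add (start D240) (orK (nat_lit 153) (fin (add (start D232) (orK (nat_lit 173) (fin (add (start D233) (orK (nat_lit 212) (fin (add (start D1655) (orK (nat_lit 211) (fin (add (start D5007) (orK (nat_lit 230) D5095)))))))))))))))))))) (orK (nat_lit 227) (fin (add (start D4032) (orK (nat_lit 209) D3295)))))))) D7440))))))))))))) D5838) D7521) D5743)))) (orK (nat_lit 169) (fin (add (add (add (add (add (add (add (start D5681) (orK (nat_lit 172) (fin (add (add (add (start D2398) D5697) (orK (nat_lit 189) (fin (add (start D226) (orK (nat_lit 173) (fin (add (add (add (start D2065) D2212) (orK (nat_lit 154) (fin (add (start D1111) (orK (nat_lit 209) (fin (add (add (add (start (orK (nat_lit 150) (fin (add (start D1922) (orK (nat_lit 174) (fin (add (start D1102) D1112))))))) D5766) (orK (nat_lit 229) (fin (add (add (start (orK (nat_lit 230) (fin (add (start D4009) (orK (nat_lit 174) (fin (add (start D1112) (orK (nat_lit 195) (fin (add (start D2066) (orK (nat_lit 175) (fin (add (start D2067) (orK (nat_lit 191) (fin (add (start D2068) (orK (nat_lit 211) (fin (add (start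 D3782) (orK (nat_lit 212) (fin (add (start D3729) (orK (nat_lit 232) (fin (add (start D411) D7529))))))))))))))))))))))))) D7552) D7560)))) (orK (nat_lit 174) (fin (add (start D1112) (orK (nat_lit 151) (fin (add (start D1579) (orK (nat_lit 195) (fin (add (start D2066) (orK (nat_lit 175) (fin (add (start D2067) (orK (nat_lit 191) (fin (add (start D2068) D7566)))))))))))))))))))))) (orK (nat_lit 154) (fin (add (start D1111) (orK (nat_lit 174) (fin (add (start D1112) (orK (nat_lit 192) (fin (add (start D240) (orK (nat_lit 151) (fin (add (start D1579) (orK (nat_lit 191) (fin (add (start D1580) (orK (nat_lit 211) (fin (add (start D5556) (orK (nat_lit 231) (fin (add (start D2921) D1682)))))))))))))))))))))))))))) (orK (nat_lit 149) (fin (add (start D276) (orK (nat_lit 189) (fin (add (start D226) (orK (nat_lit 150) (fin (add (start D874) (orK (nat_lit 110) (fin (add (start D5472) D5475)))))))))))))))) D5743) D7606) (orK (nat_lit 188) (fin (add (add (start D5790) D7608) (orK (nat_lit 168) (fin (add (start D117) D7602))))))) D7630) D6554) D7684)))) (orK (nat_lit 172) D7904)) (orK (nat_lit 211) (fin (add (add (add (add (add (add (start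 D6030) (orK (nat_lit 212) (fin (add (add (add (add (add (add (start D6040) D6050) D6058) D6095) D6123) (orK (nat_lit 193) (fin (add (add (start D1501) D1505) D6125)))) (orK (nat_lit 193) (fin (add (add (add (start D1501) D6135) (orK (nat_lit 213) (fin (add (start D443) (orK (nat_lit 209) (fin (add (add (add (start D4662) (orK (nat_lit 230) (fin (add (start D4445) (orK (nat_lit 231) (fin (add (start D4928) D3037))))))) (orK (nat_lit 188) (fin (add (start D450) D7913)))) D1413))))))) (orK (nat_lit 194) (fin (add (start D1373) (orK (nat_lit 172) (fin (add (start D1128) (orK (nat_lit 192) (fin (add (start D1173) (orK (nat_lit 152) D1964))))))))))))))))) (orK (nat_lit 191) (fin (add (add (add (add (start D7983) D7991) (orK (nat_lit 209) (fin (add (add (add (start D1888) D7993) (orK (nat_lit 208) (fin (add (start D342) (orK (nat_lit 231) (fin (add (start D49) (orK (nat_lit 230) (fin (add (start D3035) D3783)))))))))) D7981)))) D6015) D6186)))) D8014) (orK (nat_lit 191) (fin (add (add (add (start D5986) D6015) D6001) (orK (nat_lit 151) (fin (add (start D5556) (orK (nat_lit 132) (fin (add (start D8004) (orK (nat_lit 131) (fin (add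 (start D1566) D6020))))))))))))) (orK (nat_lit 191) (fin (add (add (add (start D6001) D6186) (orK (nat_lit 212) (fin (add (add (start D8043) (orK (nat_lit 192) (fin (add (add (start D1803) (orK (nat_lit 209) (fin (add (start D79) D8051)))) (orK (nat_lit 194) (fin (add (start D6645) D8051))))))) (orK (nat_lit 232) D8060))))) D8078)))) (orK (nat_lit 191) (fin (add (add (add (start D7983) (orK (nat_lit 151) (fin (add (start D5556) (orK (nat_lit 152) (fin (add (start D1795) (orK (nat_lit 150) (fin (add (start D2025) (orK (nat_lit 153) (fin (add (start D1237) (orK (nat_lit 173) (fin (add (start D1591) (orK (nat_lit 149) (fin (add (start D7931) D1845))))))))))))))))))) D8085) D8078))))))) (orK (nat_lit 211) D8338)) (orK (nat_lit 169) D8446)) (orK (nat_lit 169) D8466)) (orK (nat_lit 169) D8480)) (orK (nat_lit 169) D8482)) (orK (nat_lit 169) D8484))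
noncomputable def D4487 : OP := orK (nat_lit 169) (fin (add (start D3722) (orK (nat_lit 229) D4484)))
noncomputable def D1428 : AP := fin (add (start D1423) (orK (nat_lit 252) (fin (add (start D1424) D1425))))
noncomputable def D3844 : OP := orK (nat_lit 214) (fin (add (start (win (nat_lit 5) (nat_lit 10) (nat_lit 10) (nat_lit 3))) D3842))
noncomputable def D3975 : OP := orK (nat_lit 188) (fin (add (start D451) (orK (nat_lit 191) (fin (add (start D342) (orK (nat_lit 171) (fin (add (start D3782) (orK (nat_lit 169) D3968)))))))))
noncomputable def D5001 : AP := fin (add (add (add (add (add (add (add (add (add (add (start D3943) (orK (nat_lit 208) (fin (add (add (add (start (orK (nat_lit 189) (fin (add (add (add (start D3728) (orK (nat_lit 211) (fin (add (add (start D3781) D3947) (orK (nat_lit 250) (fin (add (start D3724) D3963))))))) (orK (nat_lit 211) (fin (add (add (start D3781) D3947) D3975)))) (orK (nat_lit 250) (fin (add (start D3724) (orK (nat_lit 169) (fin (add (start D3722) (orK (nat_lit 188) (fin (add (add (start D3978) (orK (nat_lit 211) (fin (add (start D1891) D3982)))) D3988))))))))))))) (orK (nat_lit 189) (fin (add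 (add (start D3728) D3791) (orK (nat_lit 211) (fin (add (add (start D3781) D3354) D3975))))))) D3834) D3770)))) (orK (nat_lit 208) (fin (add (add (add (start D3834) D4008) (orK (nat_lit 229) (fin (add (add (add (add (add (add (add (add (start D4088) D4118) (orK (nat_lit 250) (fin (add (add (start D4121) D4135) (orK (nat_lit 189) (fin (add (start D4119) (orK (nat_lit 232) (fin (add (start D4136) D4152)))))))))) D4179) D4211) (orK (nat_lit 231) (fin (add (start D3565) (orK (nat_lit 188) (fin (add (add (start (orK (nat_lit 269) (fin (add (start D4217) (orK (nat_lit 270) (fin (add (add (start (orK (nat_lit 250) (fin (add (start D614) D4218)))) D4283) D4285))))))) (orK (nat_lit 168) (fin (add (start D1912) (orK (nat_lit 169) (fin (add (start D4294) D4298))))))) D4306))))))) D4336) D4389) D4403)))) D4434)))) (orK (nat_lit 189) (fin (add (add (add (start D3728) (orK (nat_lit 211) (fin (add (add (add (start D3733) D3737) (orK (nat_lit 212) (fin (add (add (start D3731) (orK (nat_lit 192) (fin (add (start D845) (orK (nat_lit 208) (fin (add (start D846) (orK (nat_lit 207) (fin (add (start D2449) D4438)))))))))) D4449)))) (orK (nat_lit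 250) (fin (add (start D3724) (orK (nat_lit 191) (fin (add (start D4454) (orK (nat_lit 208) (fin (add (start D342) (orK (nat_lit 188) (fin (add (start D451) D4460)))))))))))))))) D4487) (orK (nat_lit 270) (fin (add (start D3744) (orK (nat_lit 169) D4498)))))))) (orK (nat_lit 231) (fin (add (add (add (start (orK (nat_lit 232) (fin (add (start D501) (orK (nat_lit 212) (fin (add (add (add (start (orK (nat_lit 213) (fin (add (start D3840) D3844)))) (orK (nat_lit 229) D4508)) D3890) (orK (nat_lit 213) (fin (add (add (start D3844) (orK (nat_lit 193) (fin (add (add (start (orK (nat_lit 211) D444)) (orK (nat_lit 173) D1428)) (orK (nat_lit 252) (fin (add (start D1425) (orK (nat_lit 153) (fin (add (start (win (nat_lit 1) (nat_lit 12) (nat_lit 7) (nat_lit 1))) (orK (nat_lit 211) (fin (add (start D443) (orK (nat_lit 189) (fin (add (start D439) (orK (nat_lit 171) (fin (add (start D4513) (orK (nat_lit 169) (fin (add (start D3722) (orK (nat_lit 152) (fin (add (start D3594) (orK (nat_lit 151) (fin (add (start D1033) D1237)))))))))))))))))))))))))))) (orK (nat_lit 214) (fin (add (start D3842) (orK (nat_lit 252) (fin (add (add (add (start D4535)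 (orK (nat_lit 272) (fin (add (start D4536) (orK (nat_lit 293) (fin (add (start D3159) (orK (nat_lit 292) (fin (add (start D3160) (orK (nat_lit 311) (fin (add (start (win (nat_lit 1) (nat_lit 11) (nat_lit 11) (nat_lit 4))) (orK (nat_lit 312) (fin (add (start D4538) (win (nat_lit 7) (nat_lit 11) (nat_lit 11) (nat_lit 4)))))))))))))))))) (orK (nat_lit 253) (fin (add (start D4558) D4566)))) (orK (nat_lit 192) (fin (add (start (orK (nat_lit 253) (fin (add (start D3177) D4558)))) D4577))))))))))))))))))) D3909) D3910) (orK (nat_lit 208) (fin (add (start D3035) D4600))))))) D4616) D4655) (orK (nat_lit 189) (fin (add (add (add (start D3728) (orK (nat_lit 229) (fin (add (add (add (start (orK (nat_lit 211) (fin (add (start (orK (nat_lit 228) (fin (add (start D516) (orK (nat_lit 231) (fin (add (start D4823) (orK (nat_lit 248) (fin (add (start D3847) D4825)))))))))) D4833)))) D4109) (orK (nat_lit 228) (fin (add (add (start D4473) (orK (nat_lit 270) (fin (add (start D3744) D4850)))) (orK (nat_lit 227) (fin (add (start D3456) (orK (nat_lit 250) (fin (add (start D4140) D3724)))))))))) D4871)))) (orK (nat_lit 169) (fin (add (start D3722)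 (orK (nat_lit 229) D4880))))) (orK (nat_lit 270) (fin (add (start D3744) (orK (nat_lit 169) D4920)))))))) D4954) D4958) (orK (nat_lit 189) (fin (add (add (add (start D3728) (orK (nat_lit 250) (fin (add (start D3724) D4986)))) D4487) (orK (nat_lit 250) (fin (add (start D3724) D4996)))))))
noncomputable def D3169 : OP := orK (nat_lit 171) (fin (add (start D2858) D3167))
noncomputable def D3145 : OP := orK (nat_lit 171) (fin (add (start D2858) D3143))
noncomputable def D1367 : OP := orK (nat_lit 233) D1366
noncomputable def D818 : OP := orK (nat_lit 214) (fin (add (start D808) D816))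
noncomputable def D812 : OP := orK (nat_lit 234) (fin (add (start D806) (orK (nat_lit 214) (fin (add (start D807) D808)))))
noncomputable def D1277 : OP := orK (nat_lit 132) (fin (add (start D1000) (orK (nat_lit 112) (fin (add (start D1272) D1273)))))
noncomputable def D1118 : OP := orK (nat_lit 173) (fin (add (add (start D1106) D1110) D1116))
noncomputable def D961 : OP := win (nat_lit 7) (nat_lit 10) (nat_lit 6) (nat_lit 0)
noncomputable def D1283 : OP := orK (nat_lit 152) (fin (add (start D281) (orK (nat_lit 151) (fin (add (start D1033) (orK (nat_lit 129) (fin (add (start D1247) D1277))))))))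
noncomputable def D880 : OP := orK (nat_lit 189) (fin (add (start D226) D878))
noncomputable def D2292 : OP := orK (nat_lit 169) (fin (add (start D2290) D2145))
noncomputable def D1304 : OP := orK (nat_lit 152) (fin (add (start D281) (orK (nat_lit 151) (fin (add (start D1033) (orK (nat_lit 192) (fin (add (start D240) (orK (nat_lit 129) (fin (add (start D1247) D1296)))))))))))
noncomputable def D1627 : OP := orK (nat_lit 112) (fin (add (start D1557) (win (nat_lit 4) (nat_lit 8) (nat_lit 5) (nat_lit 1))))
noncomputable def D888 : OP := orK (nat_lit 192) (fin (add (start D240) (orK (nat_lit 168) (fin (add (start D241) D884)))))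
noncomputable def D1144 : OP := orK (nat_lit 153) D1143
noncomputable def D2188 : OP := orK (nat_lit 112) (fin (add (start D1273) (win (nat_lit 6) (nat_lit 12) (nat_lit 5) (nat_lit 4))))
noncomputable def D2074 : OP := orK (nat_lit 174) (fin (add (start D1102) (orK (nat_lit 195) (fin (add (start D2066) (orK (nat_lit 175) (fin (add (start D2067) D2068))))))))
noncomputable def D1329 : OP := orK (nat_lit 110) (fin (add (start D1317) D1327))
noncomputable def D1201 : OP := orK (nat_lit 192) (fin (add (add (add (start (orK (nat_lit 152) (fin (add (start D1144) D1170)))) (orK (nat_lit 193) (fin (add (add (start D1175) D1177) (orK (nat_lit 212) (fin (add (start (orK (nat_lit 232) (fin (add (start D1178) (orK (nat_lit 173) (fin (add (start D1179) D1180))))))) D1191))))))) D1197) D1199))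
noncomputable def D1344 : OP := win (nat_lit 7) (nat_lit 10) (nat_lit 6) (nat_lit 1)
noncomputable def D1547 : OP := orK (nat_lit 153) (fin (add (start D1238) D1237))
noncomputable def D1727 : OP := win (nat_lit 4) (nat_lit 9) (nat_lit 6) (nat_lit 0)
noncomputable def D1975 : AP := fin (add (start D1727) D1547)
noncomputable def D1973 : OP := orK (nat_lit 113) (fin (add (start D1149) (orK (nat_lit 112) (fin (add (start D1150) D1151)))))
noncomputable def D1926 : AP := fin (add (start D1890) (orK (nat_lit 169) (fin (add (start D1922) D1923))))
noncomputable def D1835 : OP := orK (nat_lit 111) (fin (add (start D1531) (orK (nat_lit 110) (fin (add (start D985) D1831)))))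
noncomputable def D1864 : OP := orK (nat_lit 168) (fin (add (start D374) D754))
noncomputable def D1337 : OP := orK (nat_lit 132) (fin (add (start D1000) (orK (nat_lit 112) (fin (add (start D1272) (win (nat_lit 3) (nat_lit 11) (nat_lit 5) (nat_lit 3)))))))
noncomputable def D1724 : OP := orK (nat_lit 149) (fin (add (start (orK (nat_lit 128) (fin (add (start D998) (orK (nat_lit 148) (fin (add (start D561) D905))))))) D1337))
noncomputable def D1346 : AP := fin (add (start D1345) D1237)
noncomputable def D1528 : OP := orK (nat_lit 153) D1346
noncomputable def D1359 : OP := orK (nat_lit 149) D1358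
noncomputable def D1534 : OP := orK (nat_lit 111) (fin (add (start D1531) D1532))
noncomputable def D1347 : OP := orK (nat_lit 152) D1346
noncomputable def D1416 : OP := win (nat_lit 6) (nat_lit 13) (nat_lit 7) (nat_lit 0)
noncomputable def D1475 : OP := orK (nat_lit 234) (fin (add (start D806) (orK (nat_lit 214) (fin (add (start D807) D1416)))))
noncomputable def D1390 : OP := orK (nat_lit 172) D1389
noncomputable def D1429 : OP := orK (nat_lit 232) D1428
noncomputable def D1444 : OP := win (nat_lit 5) (nat_lit 11) (nat_lit 10) (nat_lit 5)
noncomputable def D1435 : OP := win (nat_lit 4) (nat_lit 12) (nat_lit 9) (nat_lit 5)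
noncomputable def D1434 : OP := win (nat_lit 4) (nat_lit 11) (nat_lit 9) (nat_lit 4)
noncomputable def D1400 : OP := orK (nat_lit 234) (fin (add (start D806) D807))
noncomputable def D1741 : AP := fin (add (add (add (add (add (add (start (orK (nat_lit 191) (fin (add (start D961) (orK (nat_lit 149) (fin (add (start D1026) (orK (nat_lit 152) (fin (add (start (orK (nat_lit 129) (fin (add (start D1247) (win (nat_lit 2) (nat_lit 9) (nat_lit 6) (nat_lit 0)))))) D1337)))))))))) (orK (nat_lit 211) (fin (add (start D1344) (orK (nat_lit 153) (fin (add (start D1347) (orK (nat_lit 212) (fin (add (add (add (add (add (start D1357) (orK (nat_lit 172) (fin (add (start D1359) (orK (nat_lit 232) (fin (add (start (win (nat_lit 7) (nat_lit 11) (nat_lit 7) (nat_lit 2))) D1367))))))) (orK (nat_lit 172) (fin (add (start D1359) (orK (nat_lit 192) (fin (add (start D1372) (orK (nat_lit 193) (fin (add (start D823) (orK (nat_lit 194) (fin (add (start D1173) D1373))))))))))))) (orK (nat_lit 209) (fin (add (start (orK (nat_lit 213) (fin (add (add (start (orK (nat_lit 172) (fin (add (start D1359) D1353)))) (orK (nat_lit 214) (fin (add (start D1400) D816))))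 (orK (nat_lit 173) (fin (add (start (orK (nat_lit 193) (fin (add (start D1403) D443)))) D1390))))))) D1413)))) (orK (nat_lit 173) (fin (add (start D1390) (orK (nat_lit 213) (fin (add (add (add (start (orK (nat_lit 234) (fin (add (start D806) (orK (nat_lit 214) (fin (add (start D807) (orK (nat_lit 193) (fin (add (start D443) D1416)))))))))) (orK (nat_lit 193) (fin (add (start D443) D1429)))) (orK (nat_lit 214) (fin (add (add (add (start D1400) (orK (nat_lit 235) (fin (add (start D1432) (orK (nat_lit 215) (fin (add (start D1433) (orK (nat_lit 195) (fin (add (start D1434) D1435)))))))))) (orK (nat_lit 195) (fin (add (start D1434) (orK (nat_lit 215) (fin (add (start D1435) (orK (nat_lit 236) (fin (add (start (win (nat_lit 0) (nat_lit 12) (nat_lit 10) (nat_lit 4))) (orK (nat_lit 216) (fin (add (start (win (nat_lit 0) (nat_lit 13) (nat_lit 10) (nat_lit 5))) (orK (nat_lit 232) (fin (add (start D1444) (win (nat_lit 5) (nat_lit 12) (nat_lit 10) (nat_lit 4)))))))))))))))))) (orK (nat_lit 195) (fin (add (start D1434) (orK (nat_lit 215) (fin (add (start D1435) (orK (nat_lit 233) (fin (add (start D102) (orK (nat_lit 232) (fin (add (start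 D1444) (win (nat_lit 5) (nat_lit 12) (nat_lit 10) (nat_lit 0)))))))))))))))))) (orK (nat_lit 193) (fin (add (add (start D1429) D1475) (orK (nat_lit 233) (fin (add (start D102) (orK (nat_lit 252) (fin (add (start D1476) (orK (nat_lit 253) (fin (add (start D1477) (orK (nat_lit 274) (fin (add (start (win (nat_lit 6) (nat_lit 13) (nat_lit 9) (nat_lit 4))) (orK (nat_lit 273) (fin (add (start (win (nat_lit 6) (nat_lit 13) (nat_lit 10) (nat_lit 5))) D1480))))))))))))))))))))))))) (orK (nat_lit 173) (fin (add (start D1390) (orK (nat_lit 193) (fin (add (start (orK (nat_lit 213) (fin (add (start D443) D1475)))) D1505)))))))))))))))) (orK (nat_lit 172) (fin (add (add (start D1359) (orK (nat_lit 173) (fin (add (start D1388) (orK (nat_lit 153) (fin (add (start D233) (orK (nat_lit 152) (fin (add (start D1345) D1521)))))))))) (orK (nat_lit 152) (fin (add (add (start D1528) (orK (nat_lit 149) (fin (add (start D1234) (orK (nat_lit 129) (fin (add (start D1247) (orK (nat_lit 132) (fin (add (start D1000) (orK (nat_lit 109) (fin (add (start D1529) (orK (nat_lit 131) (fin (add (start (win (nat_lit 2) (nat_lit 8) (nat_lit 5) (nat_lit 5))) D1534))))))))))))))))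 (orK (nat_lit 149) (fin (add (start D1234) (orK (nat_lit 133) (fin (add (start D1545) D1547))))))))))))) (orK (nat_lit 191) (fin (add (start D961) (orK (nat_lit 153) (fin (add (add (start D1347) (orK (nat_lit 131) (fin (add (add (start (orK (nat_lit 112) (fin (add (start D1556) (orK (nat_lit 111) (fin (add (start D1557) (orK (nat_lit 192) (fin (add (start (win (nat_lit 6) (nat_lit 11) (nat_lit 5) (nat_lit 4))) D1559)))))))))) (orK (nat_lit 132) (fin (add (start D1566) (orK (nat_lit 133) (fin (add (start D1567) (orK (nat_lit 114) (fin (add (start D1568) (orK (nat_lit 134) (fin (add (start D1569) D1570))))))))))))) (orK (nat_lit 192) (fin (add (start D1559) (orK (nat_lit 172) (fin (add (start D1293) (orK (nat_lit 173) (fin (add (start D233) (orK (nat_lit 174) (fin (add (start D1579) D1580)))))))))))))))) (orK (nat_lit 152) (fin (add (start D1345) (orK (nat_lit 173) (fin (add (start D1591) (orK (nat_lit 133) (fin (add (start D1238) (orK (nat_lit 193) (fin (add (start (orK (nat_lit 194) (fin (add (start (win (nat_lit 0) (nat_lit 10) (nat_lit 8) (nat_lit 2))) (win (nat_lit 2) (nat_lit 10) (nat_lit 8) (nat_lit 2)))))) (orK (nat_lit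 132) (fin (add (start D1603) D1517)))))))))))))))))))))) (orK (nat_lit 191) (fin (add (start D961) (orK (nat_lit 149) (fin (add (add (start D1026) (orK (nat_lit 172) (fin (add (start D874) (orK (nat_lit 131) (fin (add (start D1534) (orK (nat_lit 132) (fin (add (start D1566) D1618)))))))))) (orK (nat_lit 148) (fin (add (start D561) (orK (nat_lit 128) (fin (add (start D905) (orK (nat_lit 131) (fin (add (start D902) (orK (nat_lit 111) (fin (add (start D1531) D1627))))))))))))))))))) (orK (nat_lit 172) (fin (add (add (start D1359) (orK (nat_lit 173) (fin (add (start D1388) (orK (nat_lit 153) (fin (add (start D233) (orK (nat_lit 193) (fin (add (start D231) D1674)))))))))) (orK (nat_lit 191) (fin (add (start D961) (orK (nat_lit 149) (fin (add (start D1234) (orK (nat_lit 192) (fin (add (add (start D1682) (orK (nat_lit 152) (fin (add (start (orK (nat_lit 153) (fin (add (start D1237) (orK (nat_lit 133) (fin (add (start D1685) D1238))))))) (orK (nat_lit 132) (fin (add (start D1145) D1694))))))) (orK (nat_lit 131) (fin (add (start D1293) (orK (nat_lit 132) (fin (add (start D1566) (orK (nat_lit 133) (fin (add (start D1699) D1700))))))))))))))))))))))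 (orK (nat_lit 152) (fin (add (add (start D1528) (orK (nat_lit 191) (fin (add (start D961) D1724)))) (orK (nat_lit 153) (fin (add (start D1237) (orK (nat_lit 133) (fin (add (start D1238) (orK (nat_lit 132) (fin (add (start D1727) (orK (nat_lit 173) (fin (add (start D1591) (orK (nat_lit 112) (fin (add (start D1272) (win (nat_lit 7) (nat_lit 12) (nat_lit 5) (nat_lit 0)))))))))))))))))))))
noncomputable def D2357 : AP := fin (add (add (add (add (add (add (add (add (add (add (start (orK (nat_lit 172) (fin (add (add (add (start D1099) D1201) D1119) (orK (nat_lit 149) (fin (add (add (start D1097) (orK (nat_lit 169) (fin (add (add (add (add (start D888) D1283) (orK (nat_lit 192) (fin (add (start D240) (orK (nat_lit 191) (fin (add (start D357) D1286))))))) D1292) D1304)))) D1070))))))) (orK (nat_lit 130) (fin (add (add (add (start D1316) D1329) (orK (nat_lit 151) D1741)) D1791)))) (orK (nat_lit 191) (fin (add (add (add (start D1794) (orK (nat_lit 211) (fin (add (start D1312) (orK (nat_lit 151) (fin (add (start D1799) D1807))))))) (orK (nat_lit 151) (fin (add (add (add (start (orK (nat_lit 131) (fin (add (add (start D1822) (orK (nat_lit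 132) (fin (add (start D1566) D1828)))) D1835)))) (orK (nat_lit 152) (fin (add (add (start D1797) (orK (nat_lit 153) (fin (add (start D1237) (orK (nat_lit 130) (fin (add (start D1345) D960))))))) (orK (nat_lit 110) (fin (add (start D985) (orK (nat_lit 149) (fin (add (add (start D1845) (orK (nat_lit 148) (fin (add (start D561) (orK (nat_lit 168) (fin (add (start D1846) D577))))))) (orK (nat_lit 129) (fin (add (start D1247) (orK (nat_lit 169) (fin (add (start D1033) D1852)))))))))))))))) (orK (nat_lit 169) (fin (add (start D1864) (orK (nat_lit 152) (fin (add (start D758) D1724))))))) (orK (nat_lit 169) (fin (add (start D1864) (orK (nat_lit 153) (fin (add (start D1869) (orK (nat_lit 131) (fin (add (add (start D1822) (orK (nat_lit 132) (fin (add (start D1566) (orK (nat_lit 133) (fin (add (start D1700) (orK (nat_lit 130) (fin (add (start D1567) D960)))))))))) D1835))))))))))))) (orK (nat_lit 110) (fin (add (start D985) (orK (nat_lit 211) (fin (add (start D1312) (orK (nat_lit 209) (fin (add (add (add (start D1888) (orK (nat_lit 188) (fin (add (add (add (add (start D1895) (orK (nat_lit 189) (fin (add (start D1891) (orK (nat_lit 229)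 (fin (add (start D1896) (orK (nat_lit 249) (fin (add (start D1897) (orK (nat_lit 268) (fin (add (start D1898) (orK (nat_lit 269) (fin (add (start D1899) D1900)))))))))))))))) D1921) (orK (nat_lit 189) (fin (add (start D1891) (orK (nat_lit 187) D1926))))) (orK (nat_lit 187) (fin (add (start D1889) (orK (nat_lit 189) D1926)))))))) (orK (nat_lit 212) (fin (add (start (orK (nat_lit 189) (fin (add (start D439) (orK (nat_lit 229) (fin (add (start D1896) D59))))))) D449)))) D1942))))))))))))) (orK (nat_lit 172) (fin (add (add (add (add (start (orK (nat_lit 173) (fin (add (start D1202) D1106)))) (orK (nat_lit 152) (fin (add (add (add (start D1211) (orK (nat_lit 169) (fin (add (start D281) D248)))) (orK (nat_lit 169) (fin (add (add (start D1223) D248) D1225)))) (orK (nat_lit 211) (fin (add (add (add (start D1956) (orK (nat_lit 191) (fin (add (start D1257) D1958)))) (orK (nat_lit 192) (fin (add (add (start (orK (nat_lit 212) D1964)) (orK (nat_lit 111) (fin (add (add (add (start (orK (nat_lit 131) (fin (add (start (win (nat_lit 6) (nat_lit 11) (nat_lit 5) (nat_lit 2))) (win (nat_lit 7) (nat_lit 11) (nat_lit 5) (nat_lit 3)))))) (orK (nat_lit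 132) (fin (add (add (add (start D1973) (orK (nat_lit 133) (fin (add (start D1974) (orK (nat_lit 151) D1975))))) (orK (nat_lit 193) (fin (add (start D1185) (orK (nat_lit 112) (fin (add (start D1151) (orK (nat_lit 151) (fin (add (start D1272) (orK (nat_lit 133) (fin (add (start D1727) (orK (nat_lit 134) (fin (add (start (win (nat_lit 2) (nat_lit 11) (nat_lit 5) (nat_lit 0))) (win (nat_lit 4) (nat_lit 10) (nat_lit 6) (nat_lit 3)))))))))))))))))) (orK (nat_lit 112) (fin (add (start D1151) (orK (nat_lit 92) (fin (add (start D1991) (orK (nat_lit 93) (fin (add (start (win (nat_lit 3) (nat_lit 12) (nat_lit 3) (nat_lit 5))) (win (nat_lit 3) (nat_lit 12) (nat_lit 4) (nat_lit 4))))))))))))))) (orK (nat_lit 151) (fin (add (start (win (nat_lit 6) (nat_lit 11) (nat_lit 5) (nat_lit 1))) (orK (nat_lit 153) (fin (add (start D1237) (orK (nat_lit 130) (fin (add (start D1345) (orK (nat_lit 110) (fin (add (start D1750) D2003))))))))))))) (orK (nat_lit 132) (fin (add (start D1152) D1973))))))) (orK (nat_lit 212) (fin (add (start D1160) (orK (nat_lit 209) (fin (add (start D845) (orK (nat_lit 233) (fin (add (start D103) D2016))))))))))))) (orK (nat_lit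 151) (fin (add (add (add (start (orK (nat_lit 191) (fin (add (start D1795) D2025)))) (orK (nat_lit 132) (fin (add (start D1036) (orK (nat_lit 133) D1975))))) (orK (nat_lit 153) (fin (add (start D1237) (orK (nat_lit 130) (fin (add (start D1345) D1344))))))) (orK (nat_lit 153) (fin (add (start D1237) (orK (nat_lit 130) (fin (add (start D1345) (orK (nat_lit 133) (fin (add (start D1238) (orK (nat_lit 113) (fin (add (start D1239) (orK (nat_lit 192) (fin (add (start (win (nat_lit 3) (nat_lit 12) (nat_lit 5) (nat_lit 3))) D1685))))))))))))))))))))))))) D1201) (orK (nat_lit 173) (fin (add (start D1202) D1110)))) (orK (nat_lit 173) D2052))))) (orK (nat_lit 130) (fin (add (add (add (start D1316) D1329) (orK (nat_lit 191) (fin (add (add (start D1314) (orK (nat_lit 169) (fin (add (add (add (start (orK (nat_lit 168) (fin (add (start D374) D2056)))) D2063) (orK (nat_lit 172) (fin (add (add (add (add (start D239) (orK (nat_lit 188) (fin (add (start D242) (orK (nat_lit 173) (fin (add (add (add (start D2065) D1106) D2074) (orK (nat_lit 192) (fin (add (start D240) (orK (nat_lit 174) (fin (add (start D1102) D1580))))))))))))) (orK (nat_lit 152)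 (fin (add (start D281) (orK (nat_lit 192) (fin (add (start D240) (orK (nat_lit 132) (fin (add (start D1145) (orK (nat_lit 131) (fin (add (start D1161) (orK (nat_lit 133) (fin (add (start D1974) (orK (nat_lit 151) (fin (add (start D1700) D1559))))))))))))))))))) (orK (nat_lit 153) (fin (add (start D232) (orK (nat_lit 173) (fin (add (start D233) D1106))))))) (orK (nat_lit 153) (fin (add (start D232) (orK (nat_lit 173) (fin (add (start D233) D2074)))))))))) (orK (nat_lit 168) (fin (add (add (start D2056) D2114) D2118))))))) (orK (nat_lit 192) (fin (add (add (start D2123) (orK (nat_lit 193) (fin (add (start D1597) (orK (nat_lit 211) (fin (add (start D1312) D2125))))))) (orK (nat_lit 211) (fin (add (start D1312) (orK (nat_lit 169) (fin (add (start D357) (orK (nat_lit 209) (fin (add (start D79) (orK (nat_lit 189) (fin (add (start D1922) D2132))))))))))))))))))) (orK (nat_lit 110) (fin (add (add (add (start D1747) D1749) (orK (nat_lit 91) (fin (add (start D1318) (orK (nat_lit 169) (fin (add (start D2145) (orK (nat_lit 109) (fin (add (start D1751) (orK (nat_lit 168) (fin (add (start D2114) (orK (nat_lit 152) (fin (add (start D280)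 (orK (nat_lit 172) (fin (add (start D281) (orK (nat_lit 193) (fin (add (start D230) (orK (nat_lit 173) (fin (add (start D231) (orK (nat_lit 132) (fin (add (start D1516) (orK (nat_lit 131) (fin (add (start D1756) (orK (nat_lit 108) (fin (add (start D1752) (win (nat_lit 2) (nat_lit 8) (nat_lit 5) (nat_lit 3)))))))))))))))))))))))))))))))))))) D1327))))))) (orK (nat_lit 172) (fin (add (add (add (start D1119) (orK (nat_lit 193) (fin (add (add (add (start (orK (nat_lit 173) (fin (add (start D231) (orK (nat_lit 153) (fin (add (start D233) D2175))))))) D2182) D2183) (orK (nat_lit 152) (fin (add (add (add (start (orK (nat_lit 169) (fin (add (start D230) D281)))) (orK (nat_lit 192) (fin (add (start D1127) (orK (nat_lit 132) (fin (add (start D1185) D2188))))))) (orK (nat_lit 132) (fin (add (add (start D2188) (orK (nat_lit 213) (fin (add (start (win (nat_lit 6) (nat_lit 12) (nat_lit 6) (nat_lit 3))) (orK (nat_lit 173) (fin (add (start D2194) D1640))))))) (orK (nat_lit 191) (fin (add (start D1145) (orK (nat_lit 192) (fin (add (start D1146) D1185)))))))))) D1144))))))) (orK (nat_lit 173) (fin (add (start D1202) D2212)))) (orK (nat_lit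 169) (fin (add (add (start D2221) (orK (nat_lit 149) (fin (add (start D276) D880)))) D248))))))) (orK (nat_lit 149) (fin (add (add (add (start (orK (nat_lit 172) (fin (add (start D874) (orK (nat_lit 169) (fin (add (start D880) D888))))))) D896) D900) (orK (nat_lit 148) (fin (add (start D561) (orK (nat_lit 168) (fin (add (add (add (start D930) D954) D2237) (orK (nat_lit 151) (fin (add (start D577) (orK (nat_lit 131) (fin (add (start D902) (orK (nat_lit 111) (fin (add (start D1531) (orK (nat_lit 110) (fin (add (start D1831) (orK (nat_lit 130) (fin (add (start D1317) (orK (nat_lit 128) (fin (add (start D905) D1627)))))))))))))))))))))))))))) (orK (nat_lit 172) (fin (add (add (add (start D1099) D1118) D1119) (orK (nat_lit 149) (fin (add (add (start D1097) (orK (nat_lit 169) (fin (add (start D880) D1304)))) D1070))))))) (orK (nat_lit 172) (fin (add (add (add (start D1099) D2267) D1119) (orK (nat_lit 149) (fin (add (add (start D1097) (orK (nat_lit 130) (fin (add (add (add (start (orK (nat_lit 169) (fin (add (add (start (orK (nat_lit 189) (fin (add (start D876) D226)))) (orK (nat_lit 152) (fin (add (start D281) (orK (nat_lit 168)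 (fin (add (start D280) D2276))))))) (orK (nat_lit 209) (fin (add (start D2281) (orK (nat_lit 152) (fin (add (start D281) (orK (nat_lit 151) (fin (add (start D1033) D1277))))))))))))) (orK (nat_lit 110) (fin (add (start D1317) D2292)))) D1316) (orK (nat_lit 110) (fin (add (add (start (orK (nat_lit 169) (fin (add (start D2145) (orK (nat_lit 109) (fin (add (start D1751) (orK (nat_lit 111) (fin (add (start D1750) (orK (nat_lit 168) (fin (add (start (orK (nat_lit 188) (fin (add (start D2295) D117)))) D884))))))))))))) D2292) D1747))))))) D1070))))))) (orK (nat_lit 149) (fin (add (add (add (start (orK (nat_lit 172) (fin (add (start D874) (orK (nat_lit 169) (fin (add (start D880) D1283))))))) D896) D900) (orK (nat_lit 148) (fin (add (start D561) (orK (nat_lit 168) (fin (add (add (add (start D930) D954) (orK (nat_lit 129) (fin (add (add (start (orK (nat_lit 188) (fin (add (start D936) (orK (nat_lit 169) (fin (add (start D117) (orK (nat_lit 191) (fin (add (start D374) (orK (nat_lit 151) (fin (add (start D119) (orK (nat_lit 130) (fin (add (start D960) D961)))))))))))))))) (orK (nat_lit 109) (fin (add (start D937) (orK (nat_lit 188)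 (fin (add (start D938) D936))))))) (orK (nat_lit 128) (fin (add (start (orK (nat_lit 127) (fin (add (start D976) D977)))) (orK (nat_lit 109) (fin (add (start D937) (orK (nat_lit 169) (fin (add (start (orK (nat_lit 189) (fin (add (start D980) D981)))) (orK (nat_lit 110) (fin (add (start D984) (orK (nat_lit 191) (fin (add (start D374) D985))))))))))))))))))) (orK (nat_lit 151) (fin (add (start D577) D1006))))))))))))) (orK (nat_lit 172) (fin (add (add (add (start D1099) D1118) D1119) (orK (nat_lit 149) (fin (add (add (start D1097) (orK (nat_lit 152) (fin (add (add (add (start D1211) (orK (nat_lit 169) (fin (add (start D281) D2323)))) (orK (nat_lit 151) (fin (add (start (orK (nat_lit 191) (fin (add (start (orK (nat_lit 211) (fin (add (start D1257) D2025)))) D1684)))) (orK (nat_lit 192) (fin (add (start (orK (nat_lit 169) (fin (add (start D240) D1033)))) D1296))))))) (orK (nat_lit 151) (fin (add (start D1277) (orK (nat_lit 153) (fin (add (start D1237) D2346)))))))))) D1070)))))))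
noncomputable def D8599 : AP := fin (add (add (add (add (add (add (add (add (add (add (add (add (add (add (add (add (add (add (start (orK (nat_lit 190) D597)) (orK (nat_lit 190) D740)) D799) (orK (nat_lit 150) (fin (add (add (add (add (add (add (add (start (orK (nat_lit 190) (fin (add (add (start D174) D1020) D705)))) (orK (nat_lit 190) D595)) (orK (nat_lit 190) D1024)) (orK (nat_lit 190) D1059)) (orK (nat_lit 190) D796)) (orK (nat_lit 190) (fin (add (add (add (start D594) D1020) D1058) D795)))) (orK (nat_lit 190) D1093)) (orK (nat_lit 171) D2357))))) (orK (nat_lit 190) D2567)) (orK (nat_lit 190) D2897)) (orK (nat_lit 190) (fin (add (add (add (add (add (start D165) D192) D209) (orK (nat_lit 169) (fin (add (add (add (start D6) D2812) D2574) (orK (nat_lit 191) (fin (add (add (add (start (orK (nat_lit 192) (fin (add (start D64) (orK (nat_lit 172) (fin (add (add (add (start D2904) (orK (nat_lit 189) (fin (add (start D66) (orK (nat_lit 212) (fin (add (start D2688) (orK (nat_lit 211) (fin (add (start D98) D2906)))))))))) D2916) D2935))))))) D92) D96) (orK (nat_lit 168) (fin (add (start D37) D2948)))))))))) D2964) (orK (nat_lit 211)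 (fin (add (add (add (start D406) D408) (orK (nat_lit 212) (fin (add (add (add (start D805) (orK (nat_lit 213) (fin (add (add (add (start D812) D818) D822) (orK (nat_lit 193) (fin (add (start D443) (orK (nat_lit 192) (fin (add (start D823) (orK (nat_lit 233) (fin (add (start D102) (orK (nat_lit 191) (fin (add (start D824) D828)))))))))))))))) D842) (orK (nat_lit 189) (fin (add (add (start D803) (orK (nat_lit 209) (fin (add (start D61) D2993)))) D840))))))) (orK (nat_lit 150) (fin (add (add (add (start D3000) D470) (orK (nat_lit 209) (fin (add (start D80) (orK (nat_lit 151) (fin (add (start D22) D1054))))))) D174)))))))))) (orK (nat_lit 190) (fin (add (add (add (add (add (add (add (start D600) D3018) D3085) D3093) D3136) D215) D556) (orK (nat_lit 211) (fin (add (add (add (start D406) D408) (orK (nat_lit 212) (fin (add (add (add (start D805) (orK (nat_lit 213) (fin (add (add (start D812) D3140) D818)))) D842) (orK (nat_lit 232) (fin (add (add (add (start D1367) (orK (nat_lit 252) (fin (add (add (add (start (orK (nat_lit 191) (fin (add (start D2966) D3145)))) (orK (nat_lit 272) (fin (add (add (start D3154) D3158) (orK (nat_lit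 293) (fin (add (start D3159) (orK (nat_lit 292) (fin (add (start D3160) D3150)))))))))) (orK (nat_lit 191) (fin (add (start D2966) D3169)))) (orK (nat_lit 191) (fin (add (add (start D3145) (orK (nat_lit 192) (fin (add (start (orK (nat_lit 193) (fin (add (start D3172) D3173)))) (orK (nat_lit 251) (fin (add (start D2979) (orK (nat_lit 172) (fin (add (start D2980) D3179)))))))))) D3169))))))) (orK (nat_lit 209) (fin (add (start D411) (orK (nat_lit 188) (fin (add (start D450) (orK (nat_lit 208) (fin (add (start D451) D3191)))))))))) (orK (nat_lit 192) (fin (add (add (start D2989) (orK (nat_lit 209) (fin (add (start D845) (orK (nat_lit 208) (fin (add (start D412) D1349))))))) D3208)))))))))) D3256))))))) (orK (nat_lit 190) (fin (add (add (add (add (add (start (orK (nat_lit 169) (fin (add (add (add (start D6) (orK (nat_lit 230) (fin (add (add (start D13) D19) D29)))) D36) D3091)))) D165) D2964) (orK (nat_lit 171) (fin (add (add (add (start D222) (orK (nat_lit 169) (fin (add (add (start D250) D256) D6)))) D268) (orK (nat_lit 189) (fin (add (add (add (start (orK (nat_lit 172) (fin (add (start D227) D289)))) D295) (orK (nat_lit 188)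 (fin (add (start D269) (orK (nat_lit 211) (fin (add (add (start D301) D303) (orK (nat_lit 208) (fin (add (add (add (start D310) D335) (orK (nat_lit 169) (fin (add (add (start (orK (nat_lit 228) (fin (add (start D317) (orK (nat_lit 209) (fin (add (start D104) (orK (nat_lit 231) (fin (add (start D49) (orK (nat_lit 249) (fin (add (start D341) D344))))))))))))) (orK (nat_lit 149) (fin (add (start D318) D354)))) (orK (nat_lit 149) (fin (add (start D318) (orK (nat_lit 191) (fin (add (start (orK (nat_lit 192) (fin (add (start D64) D360)))) D364)))))))))) (orK (nat_lit 191) (fin (add (start D371) (orK (nat_lit 131) (fin (add (start D372) (orK (nat_lit 168) (fin (add (start D373) (orK (nat_lit 169) (fin (add (start D374) D377)))))))))))))))))))))) D395))))))) D499) D3382)))) (orK (nat_lit 190) D3625)) (orK (nat_lit 230) (fin (add (add (add (add (add (start (orK (nat_lit 190) D3717)) (orK (nat_lit 190) D607)) (orK (nat_lit 190) D548)) (orK (nat_lit 190) D746)) (orK (nat_lit 209) D5001)) D5177)))) (orK (nat_lit 190) D5327)) (orK (nat_lit 190) D5445)) (orK (nat_lit 190) D5460)) (orK (nat_lit 171) D8486)) D8492) (orK (nat_lit 190) (fin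 (add (add (add (add (add (start D600) (orK (nat_lit 169) (fin (add (add (add (start D6) D2812) D2574) (orK (nat_lit 168) (fin (add (add (add (start D2594) (orK (nat_lit 191) (fin (add (add (start D90) D94) (orK (nat_lit 149) (fin (add (add (start D4) D2948) (orK (nat_lit 129) (fin (add (start D1) (orK (nat_lit 171) (fin (add (start D121) D773))))))))))))) D2599) D2600))))))) D209) D215) D192) (orK (nat_lit 209) (fin (add (add (add (start D466) D5336) (orK (nat_lit 191) (fin (add (add (add (start (orK (nat_lit 192) (fin (add (start D678) (orK (nat_lit 169) (fin (add (add (start D8506) (orK (nat_lit 172) (fin (add (add (add (start D2904) D8514) D8525) (orK (nat_lit 152) (fin (add (add (start D2920) D2933) D2925))))))) D5340))))))) D2871) D8547) D2715)))) D713))))))) (orK (nat_lit 190) D8568)) (orK (nat_lit 190) D8597))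
noncomputable def D8600 : OP := orK (nat_lit 170) D8599

end Vale.Agent.Lib.P062.CR
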